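import Vale.Agent.P330.ChMP

/-! Block B5: the linearity test. -/

namespace Vale.Agent.P330

open Vale.Agent.Lib.PolyTime Finset
open scoped Classical BigOperators

variable {L H : Type} [AddCommGroup L] [Fintype L] [AddCommGroup H]

theorem add_half {f : L → H} (hf : ∀ a b, f (a + b) = f a + f b) (h0 : ∃ a, f a ≠ 0) :
    1 / 2 ≤ fr L fun a => f a ≠ 0 := by
  obtain ⟨a0, h0⟩ := h0
  have h1 := (MP.addRight a0).fr fun a => f a ≠ 0
  have h2 := fr_or_le (fun a => f a ≠ 0) fun a => f (a + a0) ≠ 0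
  have h3 : fr L (fun _ => True) ≤ fr L fun a => f a ≠ 0 ∨ f (a + a0) ≠ 0 := fr_mono fun a _ => by
    by_cases h : f a = 0
    · exact Or.inr (by rwa [hf, h, zero_add])
    · exact Or.inl h
  rw [fr_true] at h3
  linarith

theorem biadd_quarter {f : L → L → H} (h1 : ∀ a a' b, f (a + a') b = f a b + f a' b)
    (h2 : ∀ a b b', f a (b + b') = f a b + f a b') (h0 : ∃ a b, f a b ≠ 0) :
    1 / 4 ≤ fr (L × L) fun z => f z.1 z.2 ≠ 0 := by
  obtain ⟨a0, b0, h0⟩ := h0
  have h3 := add_half (f := fun a => f a b0) (fun a a' => h1 a a' b0) ⟨a0, h0⟩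
  have h4 := fr_half (E := fun a => f a b0 ≠ 0) (R := fun a b => f a b ≠ 0)
    fun a ha => add_half (h2 a) ⟨b0, ha⟩
  linarith

theorem cbl_vote (f : L → H) (a : L) : ∃ v, fr L (fun b => f (a + b) - f b ≠ v) ≤
    2 * fr (L × L) fun z => f (z.1 + z.2) ≠ f z.1 + f z.2 := by
  have h1 := (MP.prod (MP.addLeft a) (MP.refl (X := L))).fr
    fun z => f (z.1 + z.2) ≠ f z.1 + f z.2
  have h2 := ((MP.prod (MP.addLeft a) (MP.refl (X := L))).comp MP.swap).fr
    fun z => f (z.1 + z.2) ≠ f z.1 + f z.2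
  have h3 := fr_or_le (fun z : L × L => f (a + z.1 + z.2) ≠ f (a + z.1) + f z.2)
    fun z => f (a + z.2 + z.1) ≠ f (a + z.2) + f z.1
  have h4 : fr (L × L) (fun z => f (a + z.1) - f z.1 ≠ f (a + z.2) - f z.2) ≤
      fr (L × L) fun z => f (a + z.1 + z.2) ≠ f (a + z.1) + f z.2 ∨
        f (a + z.2 + z.1) ≠ f (a + z.2) + f z.1 := fr_mono fun z hz => by
    by_contra h
    rw [not_or, not_not, not_not, add_right_comm a z.2, h.1] at h
    exact hz (sub_eq_sub_iff_add_eq_add.2 h.2)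
  rw [fr_prod'] at h4
  obtain ⟨c, hc⟩ := exists_le_expect fun c => fr L fun b => f (a + b) - f b ≠ f (a + c) - f c
  exact ⟨_, by linarith⟩

theorem blr_add (f : L → H) : ∃ φ : L →+ H, fr L (fun a => f a ≠ φ a) ≤
    6 * fr (L × L) fun z => f (z.1 + z.2) ≠ f z.1 + f z.2 := by
  have h0 := fr_nonneg fun z : L × L => f (z.1 + z.2) ≠ f z.1 + f z.2
  rcases le_or_gt 1 (6 * fr (L × L) fun z => f (z.1 + z.2) ≠ f z.1 + f z.2) with h | h
  · exact ⟨0, (fr_le_one _).trans h⟩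
  choose g hg using cbl_vote f
  have hadd : ∀ a a', g (a + a') = g a + g a' := by
    intro a a'
    have h1 := (MP.addLeft a).fr fun b => f (a' + b) - f b ≠ g a'
    have h2 := fr_or_le (fun b => f (a + b) - f b ≠ g a) fun b =>
      f (a' + (a + b)) - f (a + b) ≠ g a' ∨ f (a + a' + b) - f b ≠ g (a + a')
    have h3 := fr_or_le (fun b => f (a' + (a + b)) - f (a + b) ≠ g a')
      fun b => f (a + a' + b) - f b ≠ g (a + a')
    obtain ⟨b, hb⟩ := exists_of_fr_lt (h2.trans_lt (by linarith [hg a, hg a', hg (a + a')]))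
    rw [not_or, not_or, not_not, not_not, not_not] at hb
    rw [← hb.1, ← hb.2.1, ← hb.2.2, add_comm a a', add_assoc]
    abel
  refine ⟨AddMonoidHom.mk' g hadd, (fr_half (R := fun a b => f (a + b) ≠ f a + f b)
    fun a ha => ?_).trans (by linarith)⟩
  have h1 := fr_not fun b => f (a + b) - f b ≠ g a
  have h2 : fr L (fun b => ¬ f (a + b) - f b ≠ g a) ≤ fr L fun b => f (a + b) ≠ f a + f b :=
    fr_mono fun b hb e => ha (by rw [AddMonoidHom.mk'_apply, ← not_not.1 hb, e, add_sub_cancel_right])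
  linarith [hg a]

theorem blr_tab {X : Type} [Fintype X] (t : X → L → H) : ∃ φ : X → L →+ H,
    fr (X × L) (fun z => t z.1 z.2 ≠ φ z.1 z.2) ≤
      6 * fr (X × L × L) fun z => t z.1 (z.2.1 + z.2.2) ≠ t z.1 z.2.1 + t z.1 z.2.2 := by
  choose φ hφ using fun x => blr_add (t x)
  refine ⟨φ, ?_⟩
  rw [fr_prod, fr_prod, mul_expect]
  exact expect_le_expect fun x _ => hφ x

end Vale.Agent.P330
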