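import Vale.Agent.P330.CodeD

/-! Block B7: the product code and closure properties of Tanner codes. -/

namespace Vale.Agent.P330

open Finset
open scoped Classical BigOperators

variable {F S G : Type} [Field F] {C0 : Submodule F (S → F)} {nb : S → Equiv.Perm G}

theorem cdist_fr (X : Type) [Fintype X] (E : X → Prop) :
    fr X E = (∑ x, if E x then (1 : ℝ) else 0) / Fintype.card X := by
  rw [fr, card_filter]
  push_cast
  rfl

theorem cdist_cons [Fintype S] (n : ℕ) (E : (Fin (n + 1) → S) → Prop) :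
    fr (Fin (n + 1) → S) E =
      (∑ t, fr (Fin n → S) fun s => E (Fin.cons t s)) / Fintype.card S := by
  simp only [cdist_fr]
  rw [← (Fin.consEquiv fun _ => S).sum_comp, Fintype.sum_prod_type, ← sum_div, div_div]
  simp only [Fintype.card_fun, Fintype.card_fin, pow_succ, Nat.cast_mul]
  rfl

theorem dist_pw [Fintype S] {δ0 : ℝ} (h0 : 0 ≤ δ0) (h : Dist0 C0 δ0) (n : ℕ) :
    Dist0 (pwC C0 n) (δ0 ^ n) := by
  induction n with
  | zero =>
    intro y _ hy
    have : y default ≠ 0 := fun e => hy (funext fun s => by rw [Subsingleton.elim s default, e]; rfl)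
    simp [cdist_fr, this]
  | succ n ih =>
    intro y hy hn
    obtain ⟨s0, hs⟩ := Function.ne_iff.1 hn
    have h1 := h _ (hy 0 s0) fun e => hs (by simpa using congrFun e (s0 0))
    rw [cdist_cons, pow_succ]
    refine (mul_le_mul_of_nonneg_left h1 (pow_nonneg h0 n)).trans ?_
    rw [cdist_fr, ← mul_div_assoc, mul_sum]
    refine div_le_div_of_nonneg_right (sum_le_sum fun t _ => ?_) (Nat.cast_nonneg _)
    split_ifs with ht
    · rw [mul_one]
      refine ih (fun s => y (Fin.cons t s)) (fun i s => ?_) fun e => ht ?_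
      · simpa only [Fin.cons_update] using hy i.succ (Fin.cons t s)
      · have := congrFun e (Fin.tail s0)
        rwa [← Fin.update_cons_zero (s0 0), Fin.cons_self_tail] at this
    · rw [mul_zero]
      exact div_nonneg (Nat.cast_nonneg _) (Nat.cast_nonneg _)

theorem cdist_line {n : ℕ} {z : Fin n → S → F} (hz : ∀ i, z i ∈ C0) :
    (fun s : Fin n → S => ∏ i, z i (s i)) ∈ pwC C0 n := by
  intro i s
  have e : (fun t => ∏ k, z k (Function.update s i t k)) =
      (∏ k ∈ univ.erase i, z k (s k)) • z i := funext fun t => by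
    rw [← prod_erase_mul _ _ (mem_univ i), Function.update_self,
      prod_congr rfl fun k hk => by rw [Function.update_of_ne (ne_of_mem_erase hk)]]
    rfl
  exact e ▸ C0.smul_mem _ (hz i)

theorem tens_mem {n : ℕ} {y : Fin n → G × S → F} (hy : ∀ i, y i ∈ tcode C0 nb) :
    tens y ∈ tcode (pwC C0 n) (nbP nb n) :=
  ⟨fun g => cdist_line fun i => (hy i).1 (g i), fun g => cdist_line fun i => (hy i).2 (g i)⟩

theorem cdist_sum {T : Type} [Fintype T] (u : T → F) {z : T → S → F} (hz : ∀ t, z t ∈ C0) :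
    (fun s => ∑ t, u t * z t s) ∈ C0 := by
  have e : (fun s => ∑ t, u t * z t s) = ∑ t, u t • z t := funext fun s => by
    rw [Finset.sum_apply]
    rfl
  exact e ▸ C0.sum_mem fun t _ => C0.smul_mem _ (hz t)

theorem sum_mem_tcode {T : Type} [Fintype T] (u : T → F) {e : T → G × S → F}
    (he : ∀ t, e t ∈ tcode C0 nb) : (fun x => ∑ t, u t * e t x) ∈ tcode C0 nb :=
  ⟨fun g => cdist_sum u fun t => (he t).1 g, fun g => cdist_sum u fun t => (he t).2 g⟩

theorem cdist_perm {τ : Equiv.Perm G} (hτ : ∀ s g, τ (nb s g) = nb s (τ g)) {y : G × S → F}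
    (hy : y ∈ tcode C0 nb) : (fun x => y (τ x.1, x.2)) ∈ tcode C0 nb := by
  refine ⟨fun g => hy.1 (τ g), fun g => ?_⟩
  have e : ∀ s, τ ((nb s)⁻¹ g) = (nb s)⁻¹ (τ g) := fun s =>
    (nb s).injective (by rw [← hτ]; simp)
  simpa only [e] using hy.2 (τ g)

theorem stp_mem {B : Type} [Fintype B] {π : B → Equiv.Perm G} (co : B → F)
    (hπ : ∀ i s g, π i (nb s g) = nb s (π i g)) {y : G × S → F} (hy : y ∈ tcode C0 nb) :
    stp π co y ∈ tcode C0 nb := sum_mem_tcode co fun i => cdist_perm (hπ i) hy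

theorem stp_iter_mem {B : Type} [Fintype B] {π : B → Equiv.Perm G} (co : B → F)
    (hπ : ∀ i s g, π i (nb s g) = nb s (π i g)) {y : G × S → F} (hy : y ∈ tcode C0 nb) (r : ℕ) :
    (stp π co)^[r] y ∈ tcode C0 nb := by
  induction r with
  | zero => exact hy
  | succ r ih =>
    rw [Function.iterate_succ_apply']
    exact stp_mem co hπ ih

theorem shift_mem {τ : Equiv.Perm G} (hτ : ∀ s g, τ (nb s g) = nb s (τ g)) {y : G × S → F}
    (hy : y ∈ tcode C0 nb) (r : ℕ) : (fun x => y ((τ ^ r) x.1, x.2)) ∈ tcode C0 nb := by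
  refine cdist_perm (fun s g => ?_) hy
  induction r with
  | zero => rfl
  | succ r ih => rw [pow_succ', Equiv.Perm.mul_apply, Equiv.Perm.mul_apply, ih, hτ]

theorem supp_large (hS : SSSThm) [Fintype S] [Fintype G] [Nonempty G] {δ0 lam : ℝ}
    (hg : TanGood δ0 lam S) (hd : Dist0 C0 δ0) (hgap : P325.Gap (fun s g => nb s g) lam)
    {y : G × S → F} (hy : y ∈ tcode C0 nb) (h0 : y ≠ 0) :
    δ0 ^ 2 / 8 < fr (G × S) fun x => y x ≠ 0 := by
  by_contra hc
  have e : (fun x => (fun _ : Unit => y x) ≠ 0) = fun x => y x ≠ 0 := funext fun x => by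
    simp [funext_iff]
  have k := hS F S G Unit C0 nb δ0 lam 0 hg hd hgap (fun x _ => y x)
    (by simp [fr, hy.1]) (by simp only [hy.2]; simp [fr]) (by linarith [hg.1])
    (by rw [e]; exact not_lt.1 hc)
  rw [e] at k
  obtain ⟨x, hx⟩ := Function.ne_iff.1 h0
  have : Nonempty (G × S) := ⟨x⟩
  exact k.not_gt (div_pos (Nat.cast_pos.2 (card_pos.2 ⟨x, by simpa using hx⟩))
    (Nat.cast_pos.2 Fintype.card_pos))

end Vale.Agent.P330
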