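import Vale.Agent.P330.ChAlg
import Vale.Agent.P330.ChBLR
import Vale.Agent.P330.CodeDist

/-! Block B5: the line of the chain. -/

namespace Vale.Agent.P330

open Vale.Agent.Lib.PolyTime Finset
open scoped Classical BigOperators

section Code
variable {F S G B : Type} [Field F] [Fintype B] {C0 : Submodule F (S → F)}
  {nb : S → Equiv.Perm G} {π : B → Equiv.Perm G} {n p : ℕ} {u : G × S → F}

theorem wd_good (co : B → F) (hπ : ∀ i s g, π i (nb s g) = nb s (π i g)) (hu : u ∈ tcode C0 nb) :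
    GoodW (tcode C0 nb) (Wd (stp π co) n u p) := by
  refine ⟨wd_add, fun a => sum_mem_tcode a (e := fun j : Fin n => slt (stp π co) u p j) fun j => ?_,
    fun _ _ _ => rfl⟩
  unfold slt
  split_ifs
  · exact stp_iter_mem co hπ hu _
  · exact ⟨fun _ => C0.zero_mem, fun _ => C0.zero_mem⟩

theorem wd_acc (co : B → F) (hπ : ∀ i s g, π i (nb s g) = nb s (π i g)) (hu : u ∈ tcode C0 nb)
    (hp : p < n) (q : TQ (G × S) (Fin n → F)) : AccW C0 nb π co u (Wd (stp π co) n u p) q := by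
  obtain ⟨⟨x, x'⟩, a, m, ρ⟩ := q
  have h := ((wd_good (n := n) (p := p) co hπ hu).2.1 a)
  rw [accW_iff]
  refine ⟨⟨rfl, wd_add _ _ _ _, ?_, ?_⟩, wd_add _ _ _ _, h.1 x.1, h.2 x.1, ?_⟩
  · rw [wd_add.diff, wd_true, wd_true, wd_true, cx_mul]
  · rw [wd_add.diff, wd_true, cx_one hp]
  · simp only [AddW.diff (wd_good (n := n) (p := p) co hπ hu).1]
    exact wd_rel π co u hp x a

end Code

theorem wd_dist {F X : Type} [Field F] [Fintype F] [Fintype X] [Nonempty X] {n p q : ℕ}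
    (A : (X → F) → X → F) (u : X → F) (hp : p < n) (hq : q < n) (h : p ≠ q) :
    1 / 4 ≤ hd (Wd A n u p) (Wd A n u q) := by
  have h1 := add_half (f := fun a : Fin n → F => cx a p - cx a q)
    (fun a b => by rw [cx_add, cx_add]; ring) ⟨Pi.single ⟨p, hp⟩ 1, by
      simp [cx, hp, hq, h.symm]⟩
  have h2 : fr (X × (Fin n → F)) (fun z => Wd A n u p (z.1, z.2, true) ≠
      Wd A n u q (z.1, z.2, true)) = fr (Fin n → F) fun a => cx a p - cx a q ≠ 0 := by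
    simp only [wd_true, sub_ne_zero]
    exact MP.snd.fr fun a => cx a p ≠ cx a q
  rw [hd_tab, h2]
  linarith [fr_nonneg fun z : X × (Fin n → F) =>
    Wd A n u p (z.1, z.2, false) ≠ Wd A n u q (z.1, z.2, false)]

section Line
variable {F Y : Type} [Fintype Y] {W : ℕ → Y → F} {n : ℕ} {Δ : ℝ}

theorem cac_inj (h0 : 0 < Δ) (h : ∀ p, p < n → ∀ q, q < n → p ≠ q → Δ ≤ hd (W p) (W q)) {p q : ℕ}
    (hp : p < n) (hq : q < n) (e : W p = W q) : p = q := by
  by_contra hn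
  have := h p hp q hq hn
  simp only [e, hd, ne_eq, not_true_eq_false, fr_false] at this
  linarith

theorem cac_pos (h0 : 0 < Δ) (h : ∀ p, p < n → ∀ q, q < n → p ≠ q → Δ ≤ hd (W p) (W q)) {p : ℕ}
    (hp : p < n) : posW W n (W p) = p := by
  have e : ∃ q, q < n ∧ W p = W q := ⟨p, hp, rfl⟩
  rw [posW, dif_pos e]
  exact (cac_inj h0 h hp e.choose_spec.1 e.choose_spec.2).symm

omit [Fintype Y] in
theorem cac_lt {p : ℕ} (hp : p < n) (e : W p ∉ (chLine W n).EndS) : p + 1 < n := by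
  by_contra hn
  exact e (congrArg W (by omega))

theorem chLine_ok (h0 : 0 < Δ) (hn : 0 < n)
    (h : ∀ p, p < n → ∀ q, q < n → p ≠ q → Δ ≤ hd (W p) (W q)) : (chLine W n).OK Δ (W 0) := by
  refine ⟨⟨0, hn, rfl⟩, ?_, ?_, ?_⟩
  · rintro _ ⟨p, hp, rfl⟩ _ ⟨q, hq, rfl⟩ e
    exact h p hp q hq fun e' => e (e' ▸ rfl)
  · rintro _ ⟨p, hp, rfl⟩ e
    have h1 := cac_lt hp e
    simp only [chLine, cac_pos h0 h hp, cac_pos h0 h h1, Nat.add_sub_cancel, and_true]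
    exact ⟨⟨_, h1, rfl⟩, fun e' => Nat.succ_ne_zero p (cac_inj h0 h h1 hn e')⟩
  · rintro _ ⟨_ | p, hp, rfl⟩ e -
    · exact absurd rfl e
    · have h1 : p < n := by omega
      simp only [chLine, cac_pos h0 h hp, cac_pos h0 h h1, Nat.add_sub_cancel, and_true]
      exact ⟨_, h1, rfl⟩

theorem chLine_step (h0 : 0 < Δ) (h : ∀ p, p < n → ∀ q, q < n → p ≠ q → Δ ≤ hd (W p) (W q))
    {x c s p : Y → F → ℝ} {T η δ v0 v1 : ℝ}
    (h1 : ∀ k, k < n → du x (W k) ≤ δ → du c (W k) ≤ η)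
    (h2 : ∀ k, k + 1 < n → du x (W k) ≤ δ → du s (W (k + 1)) ≤ η)
    (h3 : ∀ k, k + 1 < n → du x (W (k + 1)) ≤ δ → du p (W k) ≤ η)
    (h4 : T < v1 → ∃ k, k < n ∧ du x (W k) ≤ δ)
    (h5 : ∀ k, k < n → du x (W k) ≤ 2 * η → T ≤ v0) :
    (chLine W n).Step η δ v0 v1 (W 0) x c s p T := by
  refine ⟨?_, fun hT => ?_, ?_⟩
  · rintro _ ⟨k, hk, rfl⟩ e
    refine ⟨h1 k hk e, fun e' => ?_, fun e' _ => ?_⟩
    · simp only [chLine, cac_pos h0 h hk]
      exact h2 k (cac_lt hk e') e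
    · obtain _ | k := k
      · exact absurd rfl e'
      · simp only [chLine, cac_pos h0 h hk, Nat.add_sub_cancel]
        exact h3 k hk e
  · obtain ⟨k, hk, e⟩ := h4 hT
    exact ⟨_, ⟨k, hk, rfl⟩, e⟩
  · rintro _ ⟨k, hk, rfl⟩ e
    exact h5 k hk e

end Line

end Vale.Agent.P330
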