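import Vale.Agent.P330.ChMP

/-! Block B5: algebra of the words of the chain. -/

namespace Vale.Agent.P330

open Vale.Agent.Lib.PolyTime Finset
open scoped Classical BigOperators

variable {F X : Type} [Field F] {n : ℕ} {A : (X → F) → X → F} {u : X → F} {p : ℕ}

theorem cal_cx (a : Fin n → F) (j : Fin n) : cx a j = a j := dif_pos j.2

theorem cal_out (a : Fin n → F) {k : ℕ} (h : n ≤ k) : cx a k = 0 := dif_neg (not_lt.2 h)

theorem cal_sum (a : Fin n → F) (f : ℕ → F) :
    ∑ j : Fin n, a j * f j = ∑ k ∈ range n, cx a k * f k := by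
  rw [← Fin.sum_univ_eq_sum_range (fun k => cx a k * f k) n]
  simp only [cal_cx]

theorem cal_up (a : Fin n → F) {k : ℕ} (h : k + 1 < n) : cx (upv a) (k + 1) = cx a k := by
  rw [cx, dif_pos h]
  simp [upv]

theorem cal_up0 (a : Fin n → F) : cx (upv a) 0 = 0 := by
  unfold cx
  split_ifs
  · simp [upv]
  · rfl

theorem cal_dn (a : Fin n → F) {k : ℕ} (h : k < n) : cx (dnv a) k = cx a (k + 1) := by
  rw [cx, dif_pos h]
  rfl

theorem cal_ev {k : ℕ} (h : k < n) : cx (ev0 F n) k = if k = 0 then 1 else 0 := by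
  rw [cx, dif_pos h]
  rfl

theorem cal_slt_succ (p j : ℕ) : slt A u (p + 1) (j + 1) = slt A u p j := by
  unfold slt
  rw [show p + 1 - 1 - (j + 1) = p - 1 - j by omega]
  simp only [Nat.add_lt_add_iff_right]

theorem cal_slt_zero {j : ℕ} (h : p ≤ j) : slt A u p j = 0 := if_neg (not_lt.2 h)

theorem cal_slt_rec (hA : A 0 = 0) (p j : ℕ) (x : X) :
    slt A u p j x = A (slt A u p (j + 1)) x + if j + 1 = p then u x else 0 := by
  rcases lt_trichotomy (j + 1) p with h | h | h
  · rw [if_neg h.ne, add_zero, slt, slt, if_pos h, if_pos (by omega),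
      show p - 1 - j = p - 1 - (j + 1) + 1 by omega, Function.iterate_succ_apply']
  · rw [if_pos h, cal_slt_zero h.ge, hA, slt, if_pos (by omega), show p - 1 - j = 0 by omega]
    simp
  · rw [if_neg h.ne', cal_slt_zero h.le, cal_slt_zero (by omega), hA]
    simp

theorem cx_add (a a' : Fin n → F) (k : ℕ) : cx (a + a') k = cx a k + cx a' k := by
  unfold cx
  split_ifs <;> simp

theorem cx_mul (a a' : Fin n → F) (k : ℕ) : cx (a * a') k = cx a k * cx a' k := by
  unfold cx
  split_ifs <;> simp

theorem cx_one (hp : p < n) : cx (1 : Fin n → F) p = 1 := dif_pos hp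

theorem upv_add (a a' : Fin n → F) : upv (a + a') = upv a + upv a' := by
  funext j
  simp only [upv, Pi.add_apply, cx_add]
  split_ifs <;> simp

theorem upv_iter (a : Fin n → F) : upv^[n] a = 0 := by
  have h : ∀ (k : ℕ) (j : Fin n), (j : ℕ) < k → upv^[k] a j = 0 := by
    intro k
    induction k with
    | zero => exact fun j hj => absurd hj (Nat.not_lt_zero _)
    | succ k ih =>
      intro j hj
      rw [Function.iterate_succ_apply', upv]
      split_ifs with h0
      · rfl
      · have h1 : (j : ℕ) - 1 < n := by omega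
        rw [cx, dif_pos h1]
        exact ih _ (by simp only; omega)
  funext j
  exact h n j j.2

theorem wd_true (x : X) (a : Fin n → F) : Wd A n u p (x, a, true) = cx a p := rfl

theorem wd_false (x : X) (a : Fin n → F) :
    Wd A n u p (x, a, false) = ∑ j : Fin n, a j * slt A u p j x := rfl

theorem cal_false (x : X) (a : Fin n → F) :
    Wd A n u p (x, a, false) = ∑ k ∈ range n, cx a k * slt A u p k x :=
  cal_sum a fun k => slt A u p k x

theorem cal_ev_false (hn : 0 < n) (x : X) : Wd A n u p (x, ev0 F n, false) = slt A u p 0 x := by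
  rw [cal_false, sum_eq_single_of_mem 0 (mem_range.2 hn), cal_ev hn, if_pos rfl, one_mul]
  intro k hk h0
  rw [cal_ev (mem_range.1 hk), if_neg h0, zero_mul]

theorem wd_add : AddW (Wd A n u p) := by
  intro x a a' b
  cases b
  · simp only [wd_false, Pi.add_apply, add_mul, sum_add_distrib]
  · simp only [wd_true, cx_add]

theorem AddW.diff {L : Type} [AddCommGroup L] {v : X × L × Bool → F} (h : AddW v) (x : X)
    (a ρ : L) (b : Bool) : v (x, a + ρ, b) - v (x, ρ, b) = v (x, a, b) := by
  rw [h, add_sub_cancel_right]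

theorem wd_zero : Wd A n u 0 = fun z => if z.2.2 = true then cx z.2.1 0 else 0 := by
  funext z
  simp [Wd, slt]

theorem wd_up (hp : p + 1 < n) (x : X) (a : Fin n → F) (b : Bool) :
    Wd A n u p (x, a, b) = Wd A n u (p + 1) (x, upv a, b) := by
  cases b
  · obtain ⟨m, rfl⟩ : ∃ m, n = m + 1 := ⟨n - 1, by omega⟩
    rw [cal_false, cal_false, sum_range_succ, sum_range_succ', cal_up0,
      cal_slt_zero (show p ≤ m by omega), Pi.zero_apply, mul_zero, zero_mul]
    congr 1
    refine sum_congr rfl fun k hk => ?_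
    rw [cal_up a (Nat.succ_lt_succ (mem_range.1 hk)), cal_slt_succ]
  · rw [wd_true, wd_true, cal_up a hp]

theorem wd_dn (hA : A 0 = 0) (hp : p + 1 < n) (x : X) (a : Fin n → F) (b : Bool) :
    Wd A n u (p + 1) (x, a, b) = Wd A n u p (x, dnv a, b) + if b = true then 0 else
      cx a 0 * (A (fun x' => Wd A n u p (x', ev0 F n, false)) x +
        Wd A n u p (x, ev0 F n, true) * u x) := by
  cases b
  · obtain ⟨m, rfl⟩ : ∃ m, n = m + 1 := ⟨n - 1, by omega⟩
    simp only [cal_ev_false (Nat.succ_pos m)]
    rw [if_neg Bool.false_ne_true, cal_false, cal_false, sum_range_succ', sum_range_succ,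
      cal_slt_zero (show p ≤ m by omega), Pi.zero_apply, mul_zero, add_zero, wd_true,
      cal_ev (by omega), cal_slt_rec hA (p + 1) 0 x, cal_slt_succ]
    congr 1
    · refine sum_congr rfl fun k hk => ?_
      rw [cal_dn a (Nat.lt_succ_of_lt (mem_range.1 hk)), cal_slt_succ]
    · congr 2
      by_cases h0 : p = 0
      · simp [h0]
      · rw [if_neg h0, if_neg (by omega), zero_mul]
  · rw [wd_true, wd_true, cal_dn a (by omega), if_pos rfl, add_zero]

theorem wd_out (r : ℕ) (x : X) : Wd A (r + 2) u (r + 1) (x, ev0 F (r + 2), false) = A^[r] u x := by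
  rw [cal_ev_false (by omega), slt, if_pos (Nat.succ_pos r)]
  rfl

theorem stp_zero {G S B : Type} [Fintype B] (π : B → Equiv.Perm G) (co : B → F) :
    stp π co (0 : G × S → F) = 0 := by
  funext x
  simp [stp]

theorem wd_rel {G S B : Type} [Fintype B] (π : B → Equiv.Perm G) (co : B → F) (u : G × S → F)
    (hp : p < n) (x : G × S) (a : Fin n → F) :
    Wd (stp π co) n u p (x, a, false) =
      ∑ i, co i * Wd (stp π co) n u p ((π i x.1, x.2), upv a, false) + cx (upv a) p * u x := by
  obtain ⟨m, rfl⟩ : ∃ m, n = m + 1 := ⟨n - 1, by omega⟩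
  have e1 : ∑ i, co i * Wd (stp π co) (m + 1) u p ((π i x.1, x.2), upv a, false) =
      ∑ k ∈ range (m + 1), cx (upv a) k * stp π co (slt (stp π co) u p k) x := by
    simp only [cal_false, mul_sum]
    rw [sum_comm]
    refine sum_congr rfl fun k _ => ?_
    rw [stp, mul_sum]
    exact sum_congr rfl fun i _ => mul_left_comm _ _ _
  have e2 : cx (upv a) p * u x = ∑ k ∈ range m, cx a k * if k + 1 = p then u x else 0 := by
    rcases p with _ | q
    · simp [cal_up0]
    · rw [cal_up a hp, sum_eq_single_of_mem q (mem_range.2 (by omega)), if_pos rfl]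
      intro k _ hk
      rw [if_neg (by omega), mul_zero]
  rw [e1, e2, sum_range_succ', cal_up0, zero_mul, add_zero, cal_false, sum_range_succ,
    cal_slt_zero (show p ≤ m by omega), Pi.zero_apply, mul_zero, add_zero, ← sum_add_distrib]
  refine sum_congr rfl fun k hk => ?_
  rw [cal_up a (Nat.succ_lt_succ (mem_range.1 hk)), ← mul_add, ← cal_slt_rec (stp_zero π co)]

end Vale.Agent.P330
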