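import Vale.Agent.P330.ChMP

/-! Block B5: correction of a Hadamard table. -/

namespace Vale.Agent.P330

open Vale.Agent.Lib.PolyTime Finset
open scoped Classical BigOperators

theorem cha_two {F : Type} [Fintype F] {q : F → ℝ} (h0 : ∀ b, 0 ≤ q b) (h1 : ∑ b, q b = 1) (v : F)
    {i j : Fin 3} (hij : i ≠ j) :
    prob (fun _ : Fin 3 => q) (fun s => s i ≠ v ∧ s j ≠ v) = (1 - q v) ^ 2 := by
  have hq : IsDist fun _ : Fin 3 => q := fun _ => ⟨h0, h1⟩
  have e : ∑ b, (if b = v then (0 : ℝ) else 1) * q b = 1 - q v := by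
    have : ∀ b, (if b = v then (0 : ℝ) else 1) * q b = q b - if b = v then q b else 0 := fun b => by
      split_ifs <;> simp
    simp only [this, sum_sub_distrib, h1, sum_ite_eq', mem_univ, if_true]
  have := ex_slot2 hq hij (fun b => if b = v then (0 : ℝ) else 1) fun b => if b = v then 0 else 1
  rw [e, ← sq] at this
  rw [prob_eq_ex, ← this]
  congr 1
  funext s
  by_cases a : s i = v <;> by_cases b : s j = v <;> simp [a, b]

theorem maj_law {F : Type} [Fintype F] {q : F → ℝ} (h0 : ∀ b, 0 ≤ q b) (h1 : ∑ b, q b = 1) (v : F) :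
    1 - law (fun _ : Fin 3 => q) (fun s => if s 1 = s 2 then s 1 else s 0) v ≤ 3 * (1 - q v) ^ 2 := by
  have hq : IsDist fun _ : Fin 3 => q := fun _ => ⟨h0, h1⟩
  rw [law_eq_prob, ← prob_not hq]
  have a := prob_mono hq (E := fun s => ¬ (if s 1 = s 2 then s 1 else s 0) = v)
    (E' := fun s => (s 0 ≠ v ∧ s 1 ≠ v) ∨ (s 0 ≠ v ∧ s 2 ≠ v) ∨ (s 1 ≠ v ∧ s 2 ≠ v)) fun s h => by
      split_ifs at h with e
      · exact Or.inr (Or.inr ⟨h, e ▸ h⟩)
      · by_cases k : s 1 = v
        · exact Or.inr (Or.inl ⟨h, fun k' => e (k.trans k'.symm)⟩)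
        · exact Or.inl ⟨h, k⟩
  have b := prob_or_le hq (fun s => s 0 ≠ v ∧ s 1 ≠ v)
    fun s => (s 0 ≠ v ∧ s 2 ≠ v) ∨ (s 1 ≠ v ∧ s 2 ≠ v)
  have c := prob_or_le hq (fun s => s 0 ≠ v ∧ s 2 ≠ v) fun s => s 1 ≠ v ∧ s 2 ≠ v
  rw [cha_two h0 h1 v (by decide)] at b
  rw [cha_two h0 h1 v (by decide), cha_two h0 h1 v (by decide)] at c
  linarith

theorem cha_num {t e n : ℝ} (t0 : 0 ≤ t) (t1 : t ≤ 1) (e0 : 0 ≤ e) (e1 : e ≤ 1 / 24) (n0 : 0 ≤ n)
    (h : t ≤ 2 * e + n) : 3 * t ^ 2 ≤ e / 2 + 6 * n := by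
  rcases le_total t (2 * e) with k | k
  · nlinarith
  · nlinarith [mul_le_mul (show t - 2 * e ≤ n by linarith) (show t + 2 * e ≤ 2 by linarith)
      (by linarith) n0]

theorem cha_l1 {C F : Type} [Enc C] [Enc F] [Fintype F] [AddCommGroup F] (L : Fam C)
    [∀ c, AddCommGroup (L.T c)] (dadd : D3 fun c (a b : L.T c) => a + b) {η : ℝ} (hη : 0 < η) :
    Impl F (.of L) (.of L) fun c x y => 𝔼 o, ∑ b, |y o b - 𝔼 ρ : L.T c,
      law (fun i : Bool => x (if i then o + ρ else ρ)) (fun s => s true - s false) b| ≤ η := by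
  have ne : ∀ c, Nonempty (L.T c) := fun _ => ⟨0⟩
  refine (Impl.layer (I := .of L) (O := .of L) (A := Bool) L ne ne
    (fun c o ρ i => if i then o + ρ else ρ) (fun c o ρ s => s true - s false)
    (fun i => ?_) (fun s => PT.const _) 1 (fun c o => (one_div _).ge) (fun c i u => ?_) hη).mono
    fun c x y _ _ h => (dd_unif _ _).symm.le.trans h
  · cases i
    · exact D.sigma_snd.snd
    · exact dadd
  · rw [one_mul]
    cases i
    · exact (MP.snd.single u).le
    · exact ((MP.skew fun a => MP.addLeft a).single u).le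

theorem cha_l2 {C F : Type} [Enc C] [Enc F] [Fintype F] (L : Fam C) (ne : ∀ c, Nonempty (L.T c))
    {η : ℝ} (hη : 0 < η) :
    Impl F (.of L) (.of L) fun _ x y => 𝔼 o, ∑ b, |y o b -
      law (fun _ : Fin 3 => x o) (fun s => if s 1 = s 2 then s 1 else s 0) b| ≤ η := by
  refine (Impl.layer (I := .of L) (O := .of L) (A := Fin 3) (Fam.const C Unit) (fun _ => ⟨()⟩) ne
    (fun c o _ _ => o) (fun c o ρ s => if s 1 = s 2 then s 1 else s 0)
    (fun i => D.sigma_snd.fst) (fun s => PT.const _) 1 (fun c o => (one_div _).ge)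
    (fun c i u => ?_) hη).mono fun c x y _ _ h => le_trans (le_of_eq ?_) h
  · rw [one_mul]
    exact (MP.fst.single u).le
  · rw [dd_unif]
    simp only [univ_unique, expect_singleton]

theorem impl_had {C F : Type} [Enc C] [Enc F] [Fintype F] [AddCommGroup F] (L : Fam C)
    [∀ c, AddCommGroup (L.T c)] (dadd : D3 fun c (a b : L.T c) => a + b) {η : ℝ} (hη : 0 < η) :
    Impl F (.of L) (.of L) fun c x y => ∀ φ : L.T c → F, (∀ a b, φ (a + b) = φ a + φ b) →
      du x φ ≤ 1 / 24 → du y φ ≤ η := by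
  have ne : ∀ c, Nonempty (L.T c) := fun _ => ⟨0⟩
  refine Impl.iter L ne (fun c => {φ | ∀ a b, φ (a + b) = φ a + φ b}) (δ := 1 / 24) (by norm_num)
    (fun η hη => ?_) hη
  have h7 : 0 < η / 7 := by positivity
  refine ((cha_l1 L dadd h7).trans (cha_l2 L ne h7)).mono ?_
  rintro c x z hx - ⟨y, hy, k1, k2⟩ φ hφ he
  have := ne c
  have e0 := du_nonneg hx φ
  have a1 : ∀ o, 1 - 𝔼 ρ : L.T c, law (fun i : Bool => x (if i then o + ρ else ρ))
      (fun s => s true - s false) (φ o) ≤ 2 * du x φ := fun o => by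
    have b1 : ∀ ρ : L.T c, 1 - law (fun i : Bool => x (if i then o + ρ else ρ))
        (fun s => s true - s false) (φ o) ≤ (1 - x (o + ρ) (φ (o + ρ))) + (1 - x ρ (φ ρ)) :=
      fun ρ => by
        have := law_ge (hx.comp fun i : Bool => if i then o + ρ else ρ)
          (f := fun s => s true - s false) (u := fun i => φ (if i then o + ρ else ρ)) (v := φ o)
          (by simp [hφ o ρ])
        simpa only [Fintype.sum_bool, if_true, Bool.false_eq_true, if_false] using this
    have b2 := expect_le_expect (s := univ) fun ρ _ => b1 ρ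
    rw [expect_sub_distrib, expect_add_distrib, Fintype.expect_const,
      MP.addLeft o fun a => 1 - x a (φ a)] at b2
    unfold du
    linarith
  have a2 : ∀ o, 1 - law (fun _ : Fin 3 => y o) (fun s => if s 1 = s 2 then s 1 else s 0) (φ o) ≤
      du x φ / 2 + 6 * ∑ b, |y o b - 𝔼 ρ : L.T c,
        law (fun i : Bool => x (if i then o + ρ else ρ)) (fun s => s true - s false) b| :=
    fun o => by
      refine (maj_law (hy o).1 (hy o).2 (φ o)).trans (cha_num (by linarith [hy.le_one o (φ o)])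
        (by linarith [hy.nonneg o (φ o)]) e0 he (sum_nonneg fun _ _ => abs_nonneg _) ?_)
      have := single_le_sum (f := fun b => |y o b - 𝔼 ρ : L.T c,
        law (fun i : Bool => x (if i then o + ρ else ρ)) (fun s => s true - s false) b|)
        (fun _ _ => abs_nonneg _) (mem_univ (φ o))
      have := neg_abs_le (y o (φ o) - 𝔼 ρ : L.T c,
        law (fun i : Bool => x (if i then o + ρ else ρ)) (fun s => s true - s false) (φ o))
      linarith [a1 o]
  have a3 := expect_le_expect (s := univ) fun o _ => a2 o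
  rw [expect_add_distrib, Fintype.expect_const, ← mul_expect] at a3
  have a4 := du_le_add z (fun o b => law (fun _ : Fin 3 => y o)
    (fun s => if s 1 = s 2 then s 1 else s 0) b) φ
  unfold du at a4 a3 ⊢
  linarith

end Vale.Agent.P330
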