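import Vale.Agent.P330.ChCorT
import Vale.Agent.P330.ChHad

/-! Block B5: the corrector. -/

namespace Vale.Agent.P330

open Vale.Agent.Lib.PolyTime Finset
open scoped Classical BigOperators

theorem cco_dens {X L : Type} [Fintype X] [Fintype L] [Nonempty X] [Nonempty L]
    (u : (Σ _ : L, X) ⊕ L) :
    fr ((X × L × Bool) × Unit) (fun z => (if z.1.2.2 = true then Sum.inr z.1.2.1
      else Sum.inl ⟨z.1.2.1, z.1.1⟩ : (Σ _ : L, X) ⊕ L) = u) ≤
      1 * Sum.elim (fun _ => (Fintype.card X : ℝ)⁻¹ / Fintype.card L)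
        (fun _ => (Fintype.card L : ℝ)⁻¹) u := by
  have h1 : MP fun z : (X × L × Bool) × Unit => (z.1.1, z.1.2.1) :=
    (MP.prod MP.refl MP.fst).comp MP.fst
  rcases u with ⟨a, x⟩ | a
  · refine (fr_mono (E' := fun z => (z.1.1, z.1.2.1) = (x, a)) fun z h => ?_).trans ?_
    · split_ifs at h
      simp only [Sum.inl.injEq, Sigma.mk.injEq, heq_eq_eq] at h
      rw [h.1, h.2]
    · rw [h1.single, Fintype.card_prod, Nat.cast_mul, mul_inv, one_mul]
      exact le_rfl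
  · refine (fr_mono (E' := fun z => z.1.2.1 = a) fun z h => ?_).trans ?_
    · split_ifs at h
      exact Sum.inr.inj h
    · rw [(MP.snd.comp h1).single, one_mul]
      exact le_rfl

namespace ChD
variable {C S B : Type} [Enc C] {l : ℕ} [Fact l.Prime] [Fintype S] [Enc S] [Fintype B]
  {lam : ℝ} (Z : ChD C S B l lam)

theorem impl_corK [Nonempty S] {η : ℝ} (hη : 0 < η) :
    Impl (ZMod l) (.of Z.U) (.of Z.Lam) fun c z y => ∀ K v, GoodW K v → du z v ≤ 1 / 100 →
      ∀ x : Z.Y.Pos.T c, du y (fun a => v (x, a, true)) ≤ η := by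
  have h0 : D (Y := fun z : Σ c, Z.Lam.T c × Z.Y.Pos.T c => Z.Lam.T z.1 × Z.Y.Pos.T z.1)
    fun z => z.2 := D.sigma_snd
  have h1 := Impl.det (F := ZMod l) (I := .of Z.U) (A := Unit) Z.Lam Z.Y.Pos
    (fun c => by have := Z.Y.ne c; infer_instance) (fun c => inferInstance)
    (fun _ a x _ => (x, a, true)) (fun _ _ _ s => s ())
    (fun _ => h0.snd.pair (h0.fst.pair (D.const true))) (fun s => PT.const _) 2
    (fun c _ u => fr_tab_le (f := fun z : Z.Lam.T c × Z.Y.Pos.T c => (z.2, z.1)) MP.swap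
      (fun _ => true) u) (η := 1 / 100) (by norm_num)
  refine (h1.trans (impl_had Z.Lam (d3_vadd Z.pt_n Z.pb_n) hη)).mono ?_
  rintro c z y - - ⟨y1, -, k1, k2⟩ K v hv hz x
  refine k2 _ (fun a b => hv.1 x a b true) ((k1 v _ fun a x' => hv.2.2 x' x a).trans ?_)
  have e : dw ((Reg.of Z.U).w c) z v = du z v := dw_unif z v
  rw [e, Fintype.card_unit, Nat.cast_one]
  linarith

theorem impl_cor (hZ : ZemThm) {C0 : Submodule (ZMod l) (S → ZMod l)} {δ0 : ℝ}
    (hT : TanGood δ0 lam S) (hd0 : Dist0 C0 δ0) {η : ℝ} (hη : 0 < η) :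
    Impl (ZMod l) (.of Z.U) (.of Z.U) fun c z y => ∀ v, GoodW (tcode C0 (Z.Y.nb c)) v →
      du z v ≤ δ0 ^ 2 / 256 → du y v ≤ η := by
  have := hT.neS
  have h3 : 0 < η / 3 := by positivity
  have h0 : D (Y := fun z : Σ c, Z.U.T c × Unit => Z.U.T z.1) fun z => z.2.1 :=
    D.fst (X := fun z : Σ c, Z.U.T c × Unit => Z.U.T z.1) (Y := fun _ => Unit) D.sigma_snd
  have h1 := Impl.det (F := ZMod l) (I := Z.MT.sum (.of Z.Lam)) (A := Unit) Z.U (Fam.const C Unit)
    (fun c => inferInstance) (fun c => by have := Z.Y.ne c; infer_instance)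
    (fun _ o _ _ => if o.2.2 = true then .inr o.2.1 else .inl ⟨o.2.1, o.1⟩) (fun _ _ _ s => s ())
    (fun _ => D.ite (h0.snd.snd.pt.eq (PT.const true)) h0.snd.fst.inr
      (D.inl (D.dsig_mk (X := fun z : Σ c, Z.U.T c × Unit => Z.Lam.T z.1)
        (W := fun z _ => Z.Y.Pos.T z.1) h0.snd.fst h0.fst))) (fun s => PT.const _) 1
    (fun c _ u => by
      have := Z.Y.ne c
      exact cco_dens (X := Z.Y.Pos.T c) (L := Z.Lam.T c) u) h3
  refine (((Z.impl_corT hZ hT hd0 h3).par (Z.impl_corK h3)).trans h1).mono ?_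
  rintro c z y - - ⟨y1, -, ⟨k1, k2⟩, k3⟩ v hv hz
  obtain ⟨g⟩ := Z.Y.ne c
  obtain ⟨s⟩ := this
  have k4 := k2 _ v hv (hz.trans (by nlinarith [hT.1, hT.2.1])) (g, s)
  have k5 := k1 v hv hz
  refine (k3 (Sum.elim (fun o => v (o.2, o.1, false)) fun a => v ((g, s), a, true)) v ?_).trans ?_
  · rintro ⟨x, a, b⟩ -
    cases b
    · rfl
    · exact hv.2.2 _ _ _
  · have e := dw_sum (Z.MT.w c) (fun _ : Z.Lam.T c => (Fintype.card (Z.Lam.T c) : ℝ)⁻¹) y1
      (Sum.elim (fun o => v (o.2, o.1, false)) fun a => v ((g, s), a, true))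
    rw [dw_unif] at e
    rw [Fintype.card_unit, Nat.cast_one, one_mul, one_mul]
    refine (add_le_add_left (e.le.trans (add_le_add k5 k4)) _).trans (le_of_eq (by ring))

end ChD

end Vale.Agent.P330
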