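import Vale.Agent.P330.ChDiff

/-! Block B5: correction of the table of slots. -/

namespace Vale.Agent.P330

open Vale.Agent.Lib.PolyTime Finset
open scoped Classical BigOperators

theorem ccT_dw {J X F : Type} [Fintype J] [Fintype X] (y : (Σ _ : J, X) → F → ℝ)
    (v : (Σ _ : J, X) → F) :
    dw (fun _ => (Fintype.card X : ℝ)⁻¹ / Fintype.card J) y v =
      𝔼 a : J, du (fun x => y ⟨a, x⟩) fun x => v ⟨a, x⟩ := by
  unfold dw du
  rw [Fintype.sum_sigma, expect_eq_sum_div_card, card_univ, sum_div]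
  refine sum_congr rfl fun a _ => ?_
  rw [expect_eq_sum_div_card, card_univ, ← mul_sum]
  ring

theorem ccT_le_one {X F : Type} [Fintype X] [Fintype F] [Nonempty X] {p : X → F → ℝ}
    (hp : IsDist p) (u : X → F) : du p u ≤ 1 := by
  unfold du
  calc 𝔼 x, (1 - p x (u x)) ≤ 𝔼 _x : X, (1 : ℝ) :=
        expect_le_expect fun x _ => by linarith [hp.nonneg x (u x)]
    _ = 1 := expect_const univ_nonempty _

namespace ChD
variable {C S B : Type} [Enc C] {l : ℕ} [Fact l.Prime] [Fintype S] [Enc S] [Fintype B]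
  {lam : ℝ} (Z : ChD C S B l lam)

/-- The register of the corrected slices. -/
@[reducible] noncomputable def MT : Reg C :=
  Reg.sigma Z.Lam ((Reg.of Z.Y.Pos).comap (fun z : Σ c, Z.Lam.T c => z.1) pt_sigma_fst)

omit [Fintype B] in
theorem ccT_slice (hZ : ZemThm) {C0 : Submodule (ZMod l) (S → ZMod l)} {δ0 : ℝ}
    (hT : TanGood δ0 lam S) (hd0 : Dist0 C0 δ0) {η : ℝ} (hη : 0 < η) :
    Impl (ZMod l) ((Reg.of Z.U).comap (fun z : Σ c, Z.Lam.T c => z.1) pt_sigma_fst)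
      ((Reg.of Z.Y.Pos).comap (fun z : Σ c, Z.Lam.T c => z.1) pt_sigma_fst) fun z x y =>
      ∀ v, GoodW (tcode C0 (Z.Y.nb z.1)) v → du x v ≤ δ0 ^ 2 / 256 →
        du y (fun o => v (o, z.2, false)) ≤ η := by
  have hS : Nonempty S := hT.neS
  have hδ : 0 < δ0 := hT.1
  have h1 := impl_diff (F := ZMod l)
    (Z.Y.Pos.comap (fun z : Σ c, Z.Lam.T c => z.1) pt_sigma_fst)
    (Z.Lam.comap (fun z : Σ c, Z.Lam.T c => z.1) pt_sigma_fst)
    (Z.Y.Pos.comap (fun z : Σ c, Z.Lam.T c => z.1) pt_sigma_fst)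
    (fun z => by have := Z.Y.ne z.1; infer_instance)
    (d3_vadd (Z.pt_n.comp pt_sigma_fst) (Z.pb_n.comp pt_sigma_fst))
    (fun _ x => x) (fun z _ => z.2) (fun _ _ => false) D.sigma_snd
    (D.sigma_snd.comp pt_sigma_fst) (PT.const false) (fun _ => MP.refl)
    (η := δ0 ^ 2 / 64) (by positivity)
  have h2 := (hZ C (ZMod l) S C0 δ0 lam hT hd0 Z.Y η hη).comap
    (fun z : Σ c, Z.Lam.T c => z.1) pt_sigma_fst
  refine (Impl.trans (M := (Reg.of Z.Y.Pos).comap (fun z : Σ c, Z.Lam.T c => z.1) pt_sigma_fst)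
    h1 h2).mono ?_
  rintro z x y - - ⟨m, -, hm, hy⟩ v hv hd
  refine hy _ (hv.2.1 z.2) ?_
  have := hm v hv.1
  linarith

theorem impl_corT (hZ : ZemThm) {C0 : Submodule (ZMod l) (S → ZMod l)} {δ0 : ℝ}
    (hT : TanGood δ0 lam S) (hd0 : Dist0 C0 δ0) {η : ℝ} (hη : 0 < η) :
    Impl (ZMod l) (.of Z.U) Z.MT fun c z y => ∀ v, GoodW (tcode C0 (Z.Y.nb c)) v →
      du z v ≤ δ0 ^ 2 / 256 → dw (Z.MT.w c) y (fun o => v (o.2, o.1, false)) ≤ η := by
  have hS : Nonempty S := hT.neS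
  have h := Impl.arr (I := Reg.of Z.U) Z.Lam (fun _ => inferInstance)
    (Z.ccT_slice hZ hT hd0 (half_pos hη)) (fun _ i => i) D.sigma_snd 1
    (fun c u => by
      calc _ ≤ 𝔼 _j : Z.Lam.T c, 1 * (Reg.of Z.U).w c u :=
            expect_le_expect fun j _ => cE_id (Reg.of Z.U) c u
        _ = _ := expect_const univ_nonempty _) (half_pos hη)
  refine h.mono ?_
  intro c z y _ hy hb v hv hd
  have := Z.Y.ne c
  refine (ccT_dw (J := Z.Lam.T c) (X := Z.Y.Pos.T c) y _).trans_le ?_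
  refine le_trans (le_trans (expect_le_fr (half_pos hη).le (fun a => ccT_le_one (hy.comp _) _)
    ?_) (add_le_add hb le_rfl)) (add_halves η).le
  exact fun a ha => not_not.1 ha v hv hd

end ChD

end Vale.Agent.P330
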