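import Vale.Agent.P330.Gad

/-! Basic facts on independent samples, distances and fractions. -/

namespace Vale.Agent.P330

open Finset
open scoped Classical BigOperators

section Fr
variable {X Y : Type} [Fintype X] [Fintype Y]

theorem fr_eq_expect (E : X → Prop) : fr X E = 𝔼 x, if E x then (1 : ℝ) else 0 := by
  rw [fr, Fintype.expect_eq_sum_div_card, sum_boole]

theorem fr_nonneg (E : X → Prop) : 0 ≤ fr X E := by unfold fr; positivity

theorem fr_mono {E E' : X → Prop} (h : ∀ x, E x → E' x) : fr X E ≤ fr X E' := by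
  unfold fr
  gcongr
  exact h _

theorem fr_congr {E E' : X → Prop} (h : ∀ x, E x ↔ E' x) : fr X E = fr X E' :=
  le_antisymm (fr_mono fun x => (h x).1) (fr_mono fun x => (h x).2)

theorem fr_le_one (E : X → Prop) : fr X E ≤ 1 := by
  unfold fr
  refine div_le_one_of_le₀ ?_ (Nat.cast_nonneg _)
  exact_mod_cast card_filter_le _ _

theorem fr_false : fr X (fun _ => False) = 0 := by simp [fr]

theorem fr_true [Nonempty X] : fr X (fun _ => True) = 1 := by simp [fr]

theorem fr_not [Nonempty X] (E : X → Prop) : fr X (fun x => ¬ E x) = 1 - fr X E := by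
  rw [fr_eq_expect, fr_eq_expect, eq_sub_iff_add_eq, ← expect_add_distrib]
  rw [← Fintype.expect_const (ι := X) (1 : ℝ)]
  refine expect_congr rfl fun x _ => ?_
  by_cases h : E x <;> simp [h]

theorem fr_or_le (E E' : X → Prop) : fr X (fun x => E x ∨ E' x) ≤ fr X E + fr X E' := by
  rw [fr_eq_expect, fr_eq_expect, fr_eq_expect, ← expect_add_distrib]
  refine expect_le_expect fun x _ => ?_
  by_cases h : E x <;> by_cases h' : E' x <;> simp [h, h']

theorem fr_exists_le {I : Type} [Fintype I] (E : I → X → Prop) :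
    fr X (fun x => ∃ i, E i x) ≤ ∑ i, fr X (E i) := by
  simp only [fr_eq_expect]
  rw [← expect_sum_comm]
  refine expect_le_expect fun x _ => ?_
  split_ifs with h
  · obtain ⟨i, hi⟩ := h
    refine le_trans ?_ (single_le_sum (f := fun i => if E i x then (1 : ℝ) else 0)
      (fun j _ => by positivity) (mem_univ i))
    simp [hi]
  · exact sum_nonneg fun j _ => by positivity

theorem fr_eq_zero {E : X → Prop} (h : fr X E ≤ 0) (x : X) : ¬ E x := by
  intro hx
  have : Nonempty X := ⟨x⟩
  have h1 : 0 < fr X E := by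
    unfold fr
    refine div_pos ?_ (by exact_mod_cast Fintype.card_pos)
    exact_mod_cast card_pos.2 ⟨x, by simpa using hx⟩
  linarith

theorem expect_equiv' (e : X ≃ Y) (g : Y → ℝ) : 𝔼 x, g (e x) = 𝔼 y, g y :=
  Fintype.expect_equiv e _ _ fun _ => rfl

theorem fr_equiv (e : X ≃ Y) (E : Y → Prop) : fr X (fun x => E (e x)) = fr Y E := by
  rw [fr_eq_expect, fr_eq_expect]
  exact expect_equiv' e fun y => if E y then (1 : ℝ) else 0

theorem expect_prod' (g : X × Y → ℝ) : 𝔼 z, g z = 𝔼 x, 𝔼 y, g (x, y) := by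
  rw [← univ_product_univ, expect_product]

theorem expect_prod'' (g : X × Y → ℝ) : 𝔼 z, g z = 𝔼 y, 𝔼 x, g (x, y) := by
  rw [expect_prod', expect_comm]

theorem fr_prod (E : X × Y → Prop) : fr (X × Y) E = 𝔼 x, fr Y fun y => E (x, y) := by
  simp only [fr_eq_expect]
  exact expect_prod' _

theorem fr_prod' (E : X × Y → Prop) : fr (X × Y) E = 𝔼 y, fr X fun x => E (x, y) := by
  simp only [fr_eq_expect]
  exact expect_prod'' _

theorem fr_fst [Nonempty Y] (E : X → Prop) : fr (X × Y) (fun z => E z.1) = fr X E := by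
  rw [fr_prod']
  exact Fintype.expect_const (ι := Y) (fr X E)

theorem fr_snd [Nonempty X] (E : Y → Prop) : fr (X × Y) (fun z => E z.2) = fr Y E := by
  rw [fr_prod]
  exact Fintype.expect_const (ι := X) (fr Y E)

theorem fr_single (u : X) : fr X (fun x => x = u) = (Fintype.card X : ℝ)⁻¹ := by
  unfold fr
  rw [filter_eq' univ u]
  simp

/-- Markov inequality. -/
theorem fr_markov {g : X → ℝ} (hg : ∀ x, 0 ≤ g x) {t : ℝ} (ht : 0 < t) :
    fr X (fun x => t ≤ g x) ≤ (𝔼 x, g x) / t := by
  rw [fr_eq_expect, expect_div]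
  refine expect_le_expect fun x _ => ?_
  split_ifs with h
  · rwa [le_div_iff₀ ht, one_mul]
  · exact div_nonneg (hg x) ht.le

/-- An average of values at most one is small if the values are small outside a small set. -/
theorem expect_le_fr [Nonempty X] {g : X → ℝ} {E : X → Prop} {a : ℝ} (ha : 0 ≤ a)
    (h1 : ∀ x, g x ≤ 1) (h : ∀ x, ¬ E x → g x ≤ a) : 𝔼 x, g x ≤ fr X E + a := by
  rw [fr_eq_expect, ← Fintype.expect_const (ι := X) a, ← expect_add_distrib]
  refine expect_le_expect fun x _ => ?_
  split_ifs with hx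
  · linarith [h1 x]
  · linarith [h x hx]

theorem exists_le_expect [Nonempty X] (g : X → ℝ) : ∃ x, g x ≤ 𝔼 y, g y := by
  obtain ⟨x, -, hx⟩ := exists_le_of_expect_le (s := (univ : Finset X)) (f := g) univ_nonempty le_rfl
  exact ⟨x, hx⟩

/-- Reading through a map of bounded density. -/
theorem expect_le_dens {f : X → Y} {w : Y → ℝ} {κ : ℝ} (h : ∀ u, fr X (fun t => f t = u) ≤ κ * w u)
    {g : Y → ℝ} (hg : ∀ u, 0 ≤ g u) : 𝔼 t, g (f t) ≤ κ * ∑ u, w u * g u := by
  have e : 𝔼 t, g (f t) = ∑ u, fr X (fun t => f t = u) * g u := by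
    simp only [fr_eq_expect, expect_mul]
    rw [← expect_sum_comm]
    refine expect_congr rfl fun t _ => ?_
    simp
  rw [e, mul_sum]
  refine sum_le_sum fun u _ => ?_
  rw [← mul_assoc]
  exact mul_le_mul_of_nonneg_right (h u) (hg u)

end Fr

section Pr
variable {F A : Type} [Fintype F] [Fintype A] {q q' : A → F → ℝ}

/-- The expectation for independent samples. -/
noncomputable def ex (q : A → F → ℝ) (g : (A → F) → ℝ) : ℝ := ∑ s : A → F, g s * ∏ i, q i (s i)

theorem IsDist.nonneg {X : Type} {p : X → F → ℝ} (h : IsDist p) (x : X) (b : F) : 0 ≤ p x b :=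
  (h x).1 b

theorem IsDist.le_one {X : Type} {p : X → F → ℝ} (h : IsDist p) (x : X) (b : F) : p x b ≤ 1 :=
  (h x).2 ▸ single_le_sum (fun b _ => (h x).1 b) (mem_univ b)

theorem IsDist.comp {X Y : Type} {p : X → F → ℝ} (h : IsDist p) (f : Y → X) :
    IsDist fun y => p (f y) := fun y => h (f y)

theorem IsDist.elim {X Y : Type} {p : X → F → ℝ} {p' : Y → F → ℝ} (h : IsDist p) (h' : IsDist p') :
    IsDist (Sum.elim p p') := fun z => by rcases z with z | z; exacts [h z, h' z]

theorem IsDist.add_le {X : Type} {p : X → F → ℝ} (h : IsDist p) (x : X) {a b : F} (hab : a ≠ b) :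
    p x a + p x b ≤ 1 := by
  rw [← (h x).2, ← sum_pair hab]
  exact sum_le_sum_of_subset_of_nonneg (subset_univ _) fun b _ _ => (h x).1 b

theorem prob_eq_ex (q : A → F → ℝ) (E : (A → F) → Prop) :
    prob q E = ex q fun s => if E s then 1 else 0 := by
  unfold prob ex
  refine sum_congr rfl fun s _ => ?_
  by_cases h : E s <;> simp [h]

theorem law_eq_prob (q : A → F → ℝ) (f : (A → F) → F) (b : F) :
    law q f b = prob q fun s => f s = b := by
  unfold law prob
  refine sum_congr rfl fun s _ => ?_
  congr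

theorem ex_prod (q : A → F → ℝ) (g : A → F → ℝ) :
    ex q (fun s => ∏ i, g i (s i)) = ∏ i, ∑ b, g i b * q i b := by
  unfold ex
  rw [prod_univ_sum, Fintype.piFinset_univ]
  exact sum_congr rfl fun s _ => prod_mul_distrib.symm

theorem ex_const (hq : IsDist q) (c : ℝ) : ex q (fun _ => c) = c := by
  have h := ex_prod q fun _ _ => 1
  simp only [prod_const_one, one_mul, (hq _).2] at h
  unfold ex at h ⊢
  simp only [one_mul] at h
  rw [← mul_sum, h, mul_one]

theorem ex_add (q : A → F → ℝ) (g g' : (A → F) → ℝ) :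
    ex q (fun s => g s + g' s) = ex q g + ex q g' := by
  simp only [ex, add_mul, sum_add_distrib]

theorem ex_sub (q : A → F → ℝ) (g g' : (A → F) → ℝ) :
    ex q (fun s => g s - g' s) = ex q g - ex q g' := by
  simp only [ex, sub_mul, sum_sub_distrib]

theorem ex_mul (q : A → F → ℝ) (c : ℝ) (g : (A → F) → ℝ) :
    ex q (fun s => c * g s) = c * ex q g := by
  simp only [ex, mul_sum, mul_assoc]

theorem ex_sum {I : Type} (q : A → F → ℝ) (t : Finset I) (g : I → (A → F) → ℝ) :
    ex q (fun s => ∑ i ∈ t, g i s) = ∑ i ∈ t, ex q (g i) := by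
  simp only [ex, sum_mul]
  exact sum_comm

theorem ex_expect {I : Type} [Fintype I] (q : A → F → ℝ) (g : I → (A → F) → ℝ) :
    ex q (fun s => 𝔼 i, g i s) = 𝔼 i, ex q (g i) := by
  simp only [ex, expect_mul]
  rw [expect_sum_comm]

theorem ex_mono (hq : IsDist q) {g g' : (A → F) → ℝ} (h : ∀ s, g s ≤ g' s) : ex q g ≤ ex q g' :=
  sum_le_sum fun s _ => mul_le_mul_of_nonneg_right (h s) (prod_nonneg fun i _ => hq.nonneg i _)

theorem ex_nonneg (hq : IsDist q) {g : (A → F) → ℝ} (h : ∀ s, 0 ≤ g s) : 0 ≤ ex q g :=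
  (ex_const hq 0).symm.le.trans (ex_mono hq h)

theorem ex_slot (hq : IsDist q) (i : A) (g : F → ℝ) :
    ex q (fun s => g (s i)) = ∑ b, g b * q i b := by
  have h := ex_prod q fun j b => if j = i then g b else 1
  simp only [prod_ite_eq', mem_univ, if_true] at h
  rw [h, prod_eq_single i]
  · simp
  · intro j _ hj
    simp [hj, (hq j).2]
  · simp

theorem ex_slot2 (hq : IsDist q) {i j : A} (hij : i ≠ j) (g g' : F → ℝ) :
    ex q (fun s => g (s i) * g' (s j)) = (∑ b, g b * q i b) * ∑ b, g' b * q j b := by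
  have h := ex_prod q fun k b => (if k = i then g b else 1) * if k = j then g' b else 1
  simp only [prod_mul_distrib, prod_ite_eq', mem_univ, if_true] at h
  rw [h, ← mul_prod_erase univ _ (mem_univ i),
    ← mul_prod_erase _ _ (mem_erase.2 ⟨hij.symm, mem_univ j⟩), prod_eq_one]
  · simp [hij, hij.symm]
  · intro k hk
    simp only [mem_erase] at hk
    simp [hk.1, hk.2.1, (hq k).2]

theorem prob_nonneg (hq : IsDist q) (E : (A → F) → Prop) : 0 ≤ prob q E := by
  rw [prob_eq_ex]
  exact ex_nonneg hq fun s => by positivity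

theorem prob_mono (hq : IsDist q) {E E' : (A → F) → Prop} (h : ∀ s, E s → E' s) :
    prob q E ≤ prob q E' := by
  rw [prob_eq_ex, prob_eq_ex]
  refine ex_mono hq fun s => ?_
  by_cases h1 : E s
  · simp [h1, h s h1]
  · simp only [h1, if_false]; positivity

theorem prob_congr {E E' : (A → F) → Prop} (h : ∀ s, E s ↔ E' s) : prob q E = prob q E' := by
  rw [show E = E' from funext fun s => propext (h s)]

theorem prob_true (hq : IsDist q) : prob q (fun _ => True) = 1 := by
  rw [prob_eq_ex]
  simpa using ex_const hq 1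

theorem prob_false : prob q (fun _ => False) = 0 := by simp [prob]

theorem prob_le_one (hq : IsDist q) (E : (A → F) → Prop) : prob q E ≤ 1 :=
  (prob_mono hq fun _ _ => trivial).trans (prob_true hq).le

theorem prob_not (hq : IsDist q) (E : (A → F) → Prop) : prob q (fun s => ¬ E s) = 1 - prob q E := by
  rw [prob_eq_ex, prob_eq_ex, eq_sub_iff_add_eq, ← ex_add, ← ex_const hq 1]
  congr 1
  funext s
  by_cases h : E s <;> simp [h, ex_const hq]

theorem prob_or_le (hq : IsDist q) (E E' : (A → F) → Prop) :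
    prob q (fun s => E s ∨ E' s) ≤ prob q E + prob q E' := by
  rw [prob_eq_ex, prob_eq_ex, prob_eq_ex, ← ex_add]
  refine ex_mono hq fun s => ?_
  by_cases h : E s <;> by_cases h' : E' s <;> simp [h, h']

theorem prob_exists_le (hq : IsDist q) {I : Type} [Fintype I] (E : I → (A → F) → Prop) :
    prob q (fun s => ∃ i, E i s) ≤ ∑ i, prob q (E i) := by
  simp only [prob_eq_ex]
  rw [← ex_sum]
  refine ex_mono hq fun s => ?_
  split_ifs with h
  · obtain ⟨i, hi⟩ := h
    refine le_trans ?_ (single_le_sum (f := fun i => if E i s then (1 : ℝ) else 0)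
      (fun j _ => by positivity) (mem_univ i))
    simp [hi]
  · exact sum_nonneg fun j _ => by positivity

theorem prob_slot (hq : IsDist q) (i : A) (b : F) : prob q (fun s => s i = b) = q i b := by
  rw [prob_eq_ex]
  have h := ex_slot hq i fun a => if a = b then (1 : ℝ) else 0
  simp only [ite_mul, one_mul, zero_mul, sum_ite_eq', mem_univ, if_true] at h
  convert h

theorem prob_slot_ne (hq : IsDist q) (i : A) (b : F) : prob q (fun s => s i ≠ b) = 1 - q i b := by
  rw [← prob_slot hq i b, ← prob_not hq]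

/-- The union bound. -/
theorem prob_le_of_ne (hq : IsDist q) (u : A → F) {E : (A → F) → Prop} (h : ¬ E u) :
    prob q E ≤ ∑ i, (1 - q i (u i)) := by
  simp only [← prob_slot_ne hq]
  refine (prob_mono hq fun s hs => ?_).trans (prob_exists_le hq fun i s => s i ≠ u i)
  by_contra hc
  push Not at hc
  exact h (funext hc ▸ hs)

theorem law_ge (hq : IsDist q) {f : (A → F) → F} {u : A → F} {v : F} (h : f u = v) :
    1 - law q f v ≤ ∑ i, (1 - q i (u i)) := by
  rw [law_eq_prob, ← prob_not hq]
  exact prob_le_of_ne hq u (by simp [h])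

theorem law_nonneg (hq : IsDist q) (f : (A → F) → F) (b : F) : 0 ≤ law q f b := by
  rw [law_eq_prob]; exact prob_nonneg hq _

theorem sum_law (hq : IsDist q) (f : (A → F) → F) : ∑ b, law q f b = 1 := by
  simp only [law_eq_prob, prob_eq_ex]
  rw [← ex_sum, ← ex_const hq 1]
  congr 1
  funext s
  simp [ex_const hq]

/-- Markov inequality for samples. -/
theorem prob_markov (hq : IsDist q) {g : (A → F) → ℝ} (hg : ∀ s, 0 ≤ g s) {t : ℝ} (ht : 0 < t) :
    prob q (fun s => t ≤ g s) ≤ ex q g / t := by
  rw [prob_eq_ex, div_eq_inv_mul, ← ex_mul]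
  refine ex_mono hq fun s => ?_
  split_ifs with h
  · rwa [← div_eq_inv_mul, le_div_iff₀ ht, one_mul]
  · exact mul_nonneg (inv_nonneg.2 ht.le) (hg s)

/-- The variance of a sum of independent terms. -/
theorem ex_var (hq : IsDist q) (g : A → F → ℝ) :
    ex q (fun s => (∑ i, (g i (s i) - ∑ b, g i b * q i b)) ^ 2) ≤ ∑ i, ∑ b, g i b ^ 2 * q i b := by
  set m : A → ℝ := fun i => ∑ b, g i b * q i b with hm
  have h0 : ∀ i, ∑ b, (g i b - m i) * q i b = 0 := fun i => by
    simp only [sub_mul, sum_sub_distrib, ← mul_sum, (hq i).2, hm]; ring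
  simp only [sq, sum_mul_sum]
  rw [ex_sum]
  refine sum_le_sum fun i _ => ?_
  rw [ex_sum, sum_eq_single i]
  · rw [ex_slot hq i fun b => (g i b - m i) * (g i b - m i)]
    have e : ∑ b, (g i b - m i) * (g i b - m i) * q i b =
        ∑ b, g i b * g i b * q i b - m i * m i := by
      have : ∀ b, (g i b - m i) * (g i b - m i) * q i b =
          g i b * g i b * q i b - 2 * m i * (g i b * q i b) + m i * m i * q i b := fun b => by ring
      simp only [this, sum_add_distrib, sum_sub_distrib, ← mul_sum, (hq i).2]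
      simp only [hm]; ring
    rw [e]
    nlinarith [mul_self_nonneg (m i)]
  · intro j _ hj
    rw [ex_slot2 hq hj.symm (fun b => g i b - m i) fun b => g j b - m j, h0, zero_mul]
  · simp

/-- Chebyshev inequality for a sum of independent terms. -/
theorem prob_cheb (hq : IsDist q) (g : A → F → ℝ) {t : ℝ} (ht : 0 < t) :
    prob q (fun s => t ≤ |∑ i, g i (s i) - ∑ i, ∑ b, g i b * q i b|) ≤
      (∑ i, ∑ b, g i b ^ 2 * q i b) / t ^ 2 := by
  refine le_trans (prob_mono hq fun s hs => ?_) ((prob_markov hq
    (g := fun s => (∑ i, (g i (s i) - ∑ b, g i b * q i b)) ^ 2) (fun s => sq_nonneg _)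
    (pow_pos ht 2)).trans (div_le_div_of_nonneg_right (ex_var hq g) (by positivity)))
  rw [sum_sub_distrib, ← sq_abs (_ - _)]
  exact pow_le_pow_left₀ ht.le hs 2

/-- Unused slots do not matter. -/
theorem ex_comp (hq : IsDist q) {A' : Type} [Fintype A'] {e : A' → A} (he : Function.Injective e)
    (g : (A' → F) → ℝ) : ex q (fun s => g fun i => s (e i)) = ex (fun i => q (e i)) g := by
  have key : ∀ u : A' → F, ex q (fun s => if (fun i => s (e i)) = u then 1 else 0) =
      ∏ i, q (e i) (u i) := fun u => by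
    have h := ex_prod q fun j b => if ∀ i, e i = j → b = u i then 1 else 0
    have e1 : (fun s : A → F => if (fun i => s (e i)) = u then (1 : ℝ) else 0) =
        fun s => ∏ j, if ∀ i, e i = j → s j = u i then 1 else 0 := by
      funext s
      rw [prod_boole]
      by_cases h : (fun i => s (e i)) = u
      · rw [if_pos h, if_pos]
        intro j _ i hi
        rw [← hi, ← h]
      · rw [if_neg h, if_neg]
        exact fun h' => h (funext fun i => h' _ (mem_univ _) i rfl)
    rw [e1, h, ← prod_subset (subset_univ (univ.image e)), prod_image fun a _ b _ h => he h]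
    · refine prod_congr rfl fun i _ => ?_
      simp [he.eq_iff]
    · intro j _ hj
      have : ∀ i, e i ≠ j := fun i hi => hj (mem_image.2 ⟨i, mem_univ _, hi⟩)
      simp [this, (hq j).2]
  have e2 : (fun s : A → F => g fun i => s (e i)) =
      fun s => ∑ u, g u * if (fun i => s (e i)) = u then 1 else 0 := by
    funext s
    simp
  rw [e2, ex_sum]
  simp only [ex_mul, key]
  rfl

theorem prob_comp (hq : IsDist q) {A' : Type} [Fintype A'] {e : A' → A} (he : Function.Injective e)
    (E : (A' → F) → Prop) : prob q (fun s => E fun i => s (e i)) = prob (fun i => q (e i)) E := by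
  rw [prob_eq_ex, prob_eq_ex]
  exact ex_comp hq he fun s => if E s then 1 else 0

theorem law_comp (hq : IsDist q) {A' : Type} [Fintype A'] {e : A' → A} (he : Function.Injective e)
    (f : (A' → F) → F) (b : F) :
    law q (fun s => f fun i => s (e i)) b = law (fun i => q (e i)) f b := by
  rw [law_eq_prob, law_eq_prob]
  exact prob_comp hq he fun s => f s = b

theorem law_slot (hq : IsDist q) (i : A) (b : F) : law q (fun s => s i) b = q i b := by
  rw [law_eq_prob, prob_slot hq]

theorem law_const (hq : IsDist q) (a b : F) : law q (fun _ => a) b = if a = b then 1 else 0 := by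
  rw [law_eq_prob]
  split_ifs with h
  · simpa [h] using prob_true hq
  · simpa [h] using prob_false (q := q)

/-- Total variation of product laws. -/
theorem tv_prod (hq : IsDist q) (hq' : IsDist q') :
    ∑ s : A → F, |∏ i, q i (s i) - ∏ i, q' i (s i)| ≤ ∑ i, ∑ b, |q i b - q' i b| := by
  have key : ∀ t : Finset A, ∑ s : A → F,
      |∏ i, (if i ∈ t then q i (s i) else q' i (s i)) - ∏ i, q' i (s i)| ≤
        ∑ i ∈ t, ∑ b, |q i b - q' i b| := by
    intro t
    induction t using Finset.induction_on with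
    | empty => simp
    | insert j t hj ih =>
      rw [sum_insert hj]
      refine le_trans (sum_le_sum fun s _ => abs_sub_le _
        (∏ i, (if i ∈ t then q i (s i) else q' i (s i))) _) ?_
      rw [sum_add_distrib]
      refine add_le_add (le_of_eq ?_) ih
      have hd : IsDist fun i b => if i ∈ t then q i b else q' i b := fun i => by
        by_cases h : i ∈ t <;> simp only [h, if_true, if_false]
        exacts [hq i, hq' i]
      have h := prod_univ_sum (fun _ : A => (univ : Finset F)) fun i b =>
        if i = j then |q j b - q' j b| else if i ∈ t then q i b else q' i b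
      rw [Fintype.piFinset_univ, prod_eq_single j (fun i _ hi => by
        simpa [hi] using (hd i).2) (by simp)] at h
      simp only [if_true] at h
      rw [h]
      refine sum_congr rfl fun s _ => ?_
      rw [← mul_prod_erase univ _ (mem_univ j), ← mul_prod_erase univ _ (mem_univ j),
        ← mul_prod_erase univ (fun i => if i = j then |q j (s i) - q' j (s i)| else _) (mem_univ j)]
      have e1 : ∏ i ∈ univ.erase j, (if i ∈ insert j t then q i (s i) else q' i (s i)) =
          ∏ i ∈ univ.erase j, (if i ∈ t then q i (s i) else q' i (s i)) :=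
        prod_congr rfl fun i hi => by simp [(mem_erase.1 hi).1]
      have e2 : ∏ i ∈ univ.erase j, (if i = j then |q j (s i) - q' j (s i)| else
          if i ∈ t then q i (s i) else q' i (s i)) =
          ∏ i ∈ univ.erase j, (if i ∈ t then q i (s i) else q' i (s i)) :=
        prod_congr rfl fun i hi => by simp [(mem_erase.1 hi).1]
      rw [e1, e2, ← sub_mul, abs_mul, abs_of_nonneg (prod_nonneg fun i _ => hd.nonneg i (s i))]
      simp [hj]
  simpa using key univ

theorem prob_lip (hq : IsDist q) (hq' : IsDist q') (E : (A → F) → Prop) :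
    |prob q E - prob q' E| ≤ ∑ i, ∑ b, |q i b - q' i b| := by
  refine le_trans ?_ (tv_prod hq hq')
  unfold prob
  rw [← sum_sub_distrib]
  refine (abs_sum_le_sum_abs _ _).trans (sum_le_sum fun s _ => ?_)
  by_cases h : E s <;> simp [h]

theorem law_lip (hq : IsDist q) (hq' : IsDist q') (f : (A → F) → F) :
    ∑ b, |law q f b - law q' f b| ≤ ∑ i, ∑ b, |q i b - q' i b| := by
  refine le_trans ?_ (tv_prod hq hq')
  unfold law
  simp only [← sum_sub_distrib]
  refine (sum_le_sum fun b _ => abs_sum_le_sum_abs _ _).trans ?_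
  rw [sum_comm]
  refine sum_le_sum fun s _ => ?_
  rw [sum_eq_single (f s)]
  · simp
  · intro b _ hb
    simp [hb.symm]
  · simp

end Pr

section Du
variable {F X : Type} [Fintype F] [Fintype X] {p p' : X → F → ℝ}

theorem isDist_expect {R : Type} [Fintype R] [Nonempty R] {Y : Type} {g : R → Y → F → ℝ}
    (h : ∀ ρ, IsDist (g ρ)) : IsDist fun y b => 𝔼 ρ, g ρ y b := fun y =>
  ⟨fun b => expect_nonneg fun ρ _ => (h ρ).nonneg y b, by
    rw [← expect_sum_comm]
    simp only [fun ρ => (h ρ y).2]
    exact Fintype.expect_const _⟩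

theorem isDist_pure {Y : Type} (u : Y → F) : IsDist fun y b => if u y = b then (1 : ℝ) else 0 :=
  fun y => ⟨fun b => by positivity, by simp⟩

theorem exists_plur [Nonempty F] {Y : Type} (p : Y → F → ℝ) : ∃ u, Plur p u := by
  choose u hu using fun y => Finite.exists_max (p y)
  exact ⟨u, hu⟩

omit [Fintype F] in
theorem dw_unif (p : X → F → ℝ) (u : X → F) :
    dw (fun _ => (Fintype.card X : ℝ)⁻¹) p u = du p u := by
  rw [dw, du, Fintype.expect_eq_sum_div_card, ← mul_sum, div_eq_inv_mul]

omit [Fintype F] in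
theorem dw_sum {Y : Type} [Fintype Y] (w : X → ℝ) (w' : Y → ℝ) (p : X ⊕ Y → F → ℝ)
    (u : X ⊕ Y → F) : dw (Sum.elim w w') p u =
      dw w (fun x => p (.inl x)) (fun x => u (.inl x)) +
        dw w' (fun y => p (.inr y)) fun y => u (.inr y) := by
  simp [dw, Fintype.sum_sum_type]

theorem dd_unif (p p' : X → F → ℝ) :
    dd (fun _ => (Fintype.card X : ℝ)⁻¹) p p' = 𝔼 x, ∑ b, |p x b - p' x b| := by
  rw [dd, Fintype.expect_eq_sum_div_card, ← mul_sum, div_eq_inv_mul]

theorem du_nonneg (hp : IsDist p) (u : X → F) : 0 ≤ du p u :=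
  expect_nonneg fun x _ => sub_nonneg.2 (hp.le_one x _)

theorem dw_nonneg (hp : IsDist p) {w : X → ℝ} (hw : ∀ x, 0 ≤ w x) (u : X → F) : 0 ≤ dw w p u :=
  sum_nonneg fun x _ => mul_nonneg (hw x) (sub_nonneg.2 (hp.le_one x _))

theorem du_le_add (p p' : X → F → ℝ) (u : X → F) :
    du p u ≤ du p' u + 𝔼 x, ∑ b, |p x b - p' x b| := by
  rw [du, du, ← expect_add_distrib]
  refine expect_le_expect fun x _ => ?_
  have h := single_le_sum (f := fun b => |p x b - p' x b|) (fun b _ => abs_nonneg _) (mem_univ (u x))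
  have h' := neg_abs_le (p x (u x) - p' x (u x))
  linarith

theorem hd_le_du (hp : IsDist p) (u v : X → F) : hd u v ≤ du p u + du p v := by
  rw [hd, fr_eq_expect, du, du, ← expect_add_distrib]
  refine expect_le_expect fun x _ => ?_
  split_ifs with h
  · linarith [hp.add_le x h]
  · linarith [hp.le_one x (u x), hp.le_one x (v x)]

theorem du_le_hd (hp : IsDist p) (u v : X → F) : du p u ≤ du p v + hd v u := by
  rw [hd, fr_eq_expect, du, du, ← expect_add_distrib]
  refine expect_le_expect fun x _ => ?_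
  split_ifs with h
  · linarith [hp.nonneg x (u x), hp.le_one x (v x)]
  · rw [not_not.1 h]; linarith

omit [Fintype F] in
theorem Plur.du_le {u : X → F} (h : Plur p u) (v : X → F) : du p u ≤ du p v :=
  expect_le_expect fun x _ => by linarith [h x (v x)]

theorem Plur.hd_le (hp : IsDist p) {u : X → F} (h : Plur p u) (v : X → F) : hd u v ≤ 2 * du p v := by
  linarith [hd_le_du hp u v, h.du_le v]

omit [Fintype F] in
theorem du_pure (u v : X → F) : du (fun y b => if u y = b then (1 : ℝ) else 0) v = hd u v := by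
  rw [hd, fr_eq_expect, du]
  refine expect_congr rfl fun x _ => ?_
  by_cases h : u x = v x <;> simp [h]

omit [Fintype F] in
theorem hd_comm (u v : X → F) : hd u v = hd v u := fr_congr fun _ => ne_comm

omit [Fintype F] in
theorem hd_triangle (u v w : X → F) : hd u w ≤ hd u v + hd v w :=
  le_trans (fr_mono fun x h => by
    by_contra hc
    push Not at hc
    exact h (hc.1.trans hc.2)) (fr_or_le _ _)

omit [Fintype F] in
theorem hd_nonneg (u v : X → F) : 0 ≤ hd u v := fr_nonneg _

omit [Fintype F] in
theorem eq_of_hd {u v : X → F} (h : hd u v ≤ 0) : u = v :=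
  funext fun x => not_not.1 (fr_eq_zero h x)

end Du

end Vale.Agent.P330
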