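import Vale.Agent.P330.Ifc
import Vale.Agent.P330.Comb
import Vale.Agent.P330.Prob

/-! Block B5 (chains of linear steps): definitions. -/

namespace Vale.Agent.P330

open Vale.Agent.Lib.PolyTime Finset
open scoped Classical BigOperators

section Pure
variable {F X : Type}

/-- A coordinate of a vector, zero outside the range. -/
def cx [Zero F] {n : ℕ} (a : Fin n → F) (k : ℕ) : F := if h : k < n then a ⟨k, h⟩ else 0

/-- Shift of the coordinates upwards. -/
def upv [Zero F] {n : ℕ} (a : Fin n → F) : Fin n → F :=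
  fun j => if (j : ℕ) = 0 then 0 else cx a (j - 1)

/-- Shift of the coordinates downwards. -/
def dnv [Zero F] {n : ℕ} (a : Fin n → F) : Fin n → F := fun j => cx a (j + 1)

/-- The first unit vector. -/
def ev0 (F : Type) [Zero F] [One F] (n : ℕ) : Fin n → F := fun j => if (j : ℕ) = 0 then 1 else 0

/-- The content of the slot `j` at time `p`. -/
def slt [Zero F] (A : (X → F) → X → F) (u : X → F) (p j : ℕ) : X → F :=
  if j < p then A^[p - 1 - j] u else 0

/-- The word at time `p`: Hadamard tables of the slots and of the time. -/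
def Wd [Semiring F] (A : (X → F) → X → F) (n : ℕ) (u : X → F) (p : ℕ) :
    X × (Fin n → F) × Bool → F :=
  fun z => if z.2.2 = true then cx z.2.1 p else ∑ j : Fin n, z.2.1 j * slt A u p j z.1

/-- Words that are additive in the middle coordinate. -/
def AddW {L : Type} [Add L] [Add F] (v : X × L × Bool → F) : Prop :=
  ∀ x a a' b, v (x, a + a', b) = v (x, a, b) + v (x, a', b)

/-- Words that the corrector restores. -/
def GoodW {L : Type} [Add L] [Add F] (K : Set (X → F)) (v : X × L × Bool → F) : Prop :=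
  AddW v ∧ (∀ a, (fun x => v (x, a, false)) ∈ K) ∧ ∀ x x' a, v (x, a, true) = v (x', a, true)

/-- The index of a word on a path. -/
noncomputable def posW {Y : Type} (W : ℕ → Y) (n : ℕ) (w : Y) : ℕ :=
  if h : ∃ p, p < n ∧ w = W p then h.choose else 0

/-- A path as a line. -/
noncomputable def chLine (W : ℕ → X → F) (n : ℕ) : Line X F where
  Val := {w | ∃ p, p < n ∧ w = W p}
  EndS := {W (n - 1)}
  EndP := ∅
  S w := W (posW W n w + 1)
  P w := W (posW W n w - 1)

/-- Measure preserving maps of finite types. -/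
def MP {Y : Type} [Fintype X] [Fintype Y] (f : X → Y) : Prop :=
  ∀ g : Y → ℝ, 𝔼 x, g (f x) = 𝔼 y, g y

end Pure

/-- Names of the single slots of the tester. -/
inductive TK : Type
  | ka | kx | km | kam | kr | kmul | kone | kup | ta | tm | tam
  deriving DecidableEq

instance : Fintype TK :=
  ⟨{.ka, .kx, .km, .kam, .kr, .kmul, .kone, .kup, .ta, .tm, .tam}, fun k => by cases k <;> simp⟩

/-- The slots of the tester in the table. -/
abbrev TA (S B : Type) : Type := TK ⊕ (S ⊕ S) ⊕ (B ⊕ B)

/-- The randomness of the tester. -/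
abbrev TQ (X L : Type) : Type := (X × X) × L × L × L

section Test
variable {F G S B : Type} [Field F] {n : ℕ}

/-- The position read by a slot. -/
def tP (nb : S → Equiv.Perm G) (π : B → Equiv.Perm G) (y : (G × S) × G × S) : TA S B → G × S
  | .inl .kx => y.2
  | .inl _ => y.1
  | .inr (.inl (.inl s)) => (y.1.1, s)
  | .inr (.inl (.inr s)) => ((nb s)⁻¹ y.1.1, s)
  | .inr (.inr (.inl i)) => (π i y.1.1, y.1.2)
  | .inr (.inr (.inr i)) => (π i y.1.1, y.1.2)

/-- The vector read by a slot. -/
def tL (z : (Fin n → F) × (Fin n → F) × (Fin n → F)) : TA S B → Fin n → F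
  | .inl .ka => z.1
  | .inl .kx => z.1
  | .inl .km => z.2.1
  | .inl .kam => z.1 + z.2.1
  | .inl .kr => z.2.2
  | .inl .kmul => z.1 * z.2.1 + z.2.2
  | .inl .kone => 1 + z.2.2
  | .inl .kup => upv z.1 + z.2.2
  | .inl .ta => z.1
  | .inl .tm => z.2.1
  | .inl .tam => z.1 + z.2.1
  | .inr (.inl _) => z.1
  | .inr (.inr (.inl _)) => z.2.2
  | .inr (.inr (.inr _)) => upv z.1 + z.2.2

/-- The table read by a slot. -/
def tB : TA S B → Bool
  | .inl .ta => false
  | .inl .tm => false
  | .inl .tam => false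
  | .inl _ => true
  | .inr _ => false

/-- The node read by a slot. -/
def tslot (nb : S → Equiv.Perm G) (π : B → Equiv.Perm G) (q : TQ (G × S) (Fin n → F)) :
    Option (TA S B) → (G × S) ⊕ (G × S) × (Fin n → F) × Bool
  | none => .inl q.1.1
  | some i => .inr (tP nb π q.1 i, tL q.2 i, tB i)

/-- The acceptance predicate of the tester. -/
def tacc [Fintype B] (C0 : Submodule F (S → F)) (co : B → F) (s : Option (TA S B) → F) : Prop :=
  (s (some (.inl .kx)) = s (some (.inl .ka)) ∧
    s (some (.inl .kam)) = s (some (.inl .ka)) + s (some (.inl .km)) ∧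
    s (some (.inl .kmul)) - s (some (.inl .kr)) = s (some (.inl .ka)) * s (some (.inl .km)) ∧
    s (some (.inl .kone)) - s (some (.inl .kr)) = 1) ∧
  s (some (.inl .tam)) = s (some (.inl .ta)) + s (some (.inl .tm)) ∧
  (fun j => s (some (.inr (.inl (.inl j))))) ∈ C0 ∧
  (fun j => s (some (.inr (.inl (.inr j))))) ∈ C0 ∧
  s (some (.inl .ta)) =
    ∑ i, co i * (s (some (.inr (.inr (.inr i)))) - s (some (.inr (.inr (.inl i))))) +
      (s (some (.inl .kup)) - s (some (.inl .kr))) * s none

/-- The tester accepts the words `w` (input) and `v` (tables) at the random point `q`. -/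
def AccW [Fintype B] (C0 : Submodule F (S → F)) (nb : S → Equiv.Perm G) (π : B → Equiv.Perm G)
    (co : B → F) (w : G × S → F) (v : (G × S) × (Fin n → F) × Bool → F)
    (q : TQ (G × S) (Fin n → F)) : Prop :=
  tacc C0 co fun i => Sum.elim w v (tslot nb π q i)

theorem accW_iff [Fintype B] (C0 : Submodule F (S → F)) (nb : S → Equiv.Perm G)
    (π : B → Equiv.Perm G) (co : B → F) (w : G × S → F) (v : (G × S) × (Fin n → F) × Bool → F)
    (x x' : G × S) (a m ρ : Fin n → F) :
    AccW C0 nb π co w v ((x, x'), a, m, ρ) ↔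
      (v (x', a, true) = v (x, a, true) ∧
        v (x, a + m, true) = v (x, a, true) + v (x, m, true) ∧
        v (x, a * m + ρ, true) - v (x, ρ, true) = v (x, a, true) * v (x, m, true) ∧
        v (x, 1 + ρ, true) - v (x, ρ, true) = 1) ∧
      v (x, a + m, false) = v (x, a, false) + v (x, m, false) ∧
      (fun s => v ((x.1, s), a, false)) ∈ C0 ∧
      (fun s => v (((nb s)⁻¹ x.1, s), a, false)) ∈ C0 ∧
      v (x, a, false) =
        ∑ i, co i * (v ((π i x.1, x.2), upv a + ρ, false) - v ((π i x.1, x.2), ρ, false)) +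
          (v (x, upv a + ρ, true) - v (x, ρ, true)) * w x := Iff.rfl

end Test

/-- The data of a chain. -/
structure ChD (C S B : Type) [Enc C] [Fintype S] (l : ℕ) (lam : ℝ) : Type 1 where
  Y : TSys C S lam
  π : ∀ c, B → Equiv.Perm (Y.G.T c)
  co : B → ZMod l
  r : C → ℕ
  dπ : ∀ i, D2 fun c g => π c i g
  comm : ∀ c i s g, π c i (Y.nb c s g) = Y.nb c s (π c i g)
  hr : PT r
  hb : PB fun c => l ^ r c

namespace ChD
variable {C S B : Type} [Enc C] {l : ℕ} [hl : Fact l.Prime] [Fintype S] [Enc S] [Fintype B]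
  {lam : ℝ} (Z : ChD C S B l lam)

omit hl [Enc S] [Fintype B] in
theorem pt_n : PT fun c => Z.r c + 2 := Z.hr.add (PT.const 2)

omit [Enc S] [Fintype B] in
theorem pb_n : PB fun c => Z.r c + 2 :=
  (Z.hb.of_le fun _ => (Nat.lt_pow_self hl.out.one_lt).le).add (PB.const 2)

omit [Enc S] [Fintype B] in
theorem pb_card : PB fun c => Fintype.card ((Fam.const C (ZMod l)).T c) ^ (Z.r c + 2) :=
  (Z.hb.mul (PB.const (l ^ 2))).of_le fun c => by
    show Fintype.card (ZMod l) ^ (Z.r c + 2) ≤ _
    rw [ZMod.card, pow_add]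

/-- The vectors indexing the Hadamard tables. -/
@[reducible] noncomputable def Lam : Fam C :=
  (Fam.const C (ZMod l)).fn (fun c => Z.r c + 2) Z.pt_n Z.pb_n Z.pb_card

/-- The positions of the words of the line. -/
@[reducible] noncomputable def U : Fam C := Z.Y.Pos.prod (Z.Lam.prod (Fam.const C Bool))

/-- The words of the line. -/
noncomputable def W (c : C) (u : Z.Y.Pos.T c → ZMod l) (p : ℕ) : Z.U.T c → ZMod l :=
  Wd (stp (Z.π c) Z.co) (Z.r c + 2) u p

end ChD

end Vale.Agent.P330
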