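import Vale.Agent.P330.ChBLR

/-! Block B5: the dictator test. -/

namespace Vale.Agent.P330

open Vale.Agent.Lib.PolyTime Finset
open scoped Classical BigOperators

variable {l n : ℕ} [Fact l.Prime]

theorem dict_hom (φ : (Fin n → ZMod l) →+ ZMod l) (hm : ∀ a m, φ (a * m) = φ a * φ m)
    (h1 : φ 1 = 1) : ∃ p, p < n ∧ ∀ a, φ a = cx a p := by
  have e : ∀ a : Fin n → ZMod l, φ a = ∑ j, a j * φ (Pi.single j 1) := fun a => by
    conv_lhs => rw [← Finset.univ_sum_single a, map_sum]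
    refine sum_congr rfl fun j _ => ?_
    rw [← smul_eq_mul, ← ZMod.map_smul φ, ← Pi.single_smul', smul_eq_mul, mul_one]
  obtain ⟨p, hp⟩ : ∃ p, φ (Pi.single p 1) ≠ 0 := by
    by_contra hn
    push Not at hn
    rw [e] at h1
    simp [hn] at h1
  have k1 : φ (Pi.single p 1) = 1 := by
    have h := hm (Pi.single p 1) (Pi.single p 1)
    rw [← Pi.single_mul, mul_one] at h
    exact (mul_eq_left₀ hp).1 h.symm
  have k0 : ∀ j, j ≠ p → φ (Pi.single j 1) = 0 := fun j hj => by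
    have h := hm (Pi.single p 1) (Pi.single j 1)
    have h2 : (Pi.single p 1 * Pi.single j 1 : Fin n → ZMod l) = 0 := by
      funext i
      by_cases hi : i = p
      · subst hi
        simp [Pi.single_eq_of_ne hj.symm]
      · simp [Pi.single_eq_of_ne hi]
    rw [h2, map_zero, k1, one_mul] at h
    exact h.symm
  refine ⟨p, p.2, fun a => ?_⟩
  rw [e, sum_eq_single p (fun j _ hj => by rw [k0 j hj, mul_zero]) (by simp), k1, mul_one, cx,
    dif_pos p.2]

theorem dict (k : (Fin n → ZMod l) → ZMod l) {ε : ℝ} (hε : ε ≤ 1 / 200)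
    (h : fr ((Fin n → ZMod l) × (Fin n → ZMod l) × (Fin n → ZMod l)) (fun z =>
      ¬ (k (z.1 + z.2.1) = k z.1 + k z.2.1 ∧ k (z.1 * z.2.1 + z.2.2) - k z.2.2 = k z.1 * k z.2.1 ∧
        k (1 + z.2.2) - k z.2.2 = 1)) ≤ ε) :
    ∃ p, p < n ∧ fr (Fin n → ZMod l) (fun a => k a ≠ cx a p) ≤ 6 * ε := by
  obtain ⟨φ, hφ⟩ := blr_add k
  have h0 : fr ((Fin n → ZMod l) × (Fin n → ZMod l)) (fun z => k (z.1 + z.2) ≠ k z.1 + k z.2) ≤ ε := by
    rw [← (MP.prod MP.refl (MP.fst (Y := Fin n → ZMod l))).fr]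
    exact (fr_mono fun z hz hh => hz hh.1).trans h
  have hd : fr (Fin n → ZMod l) (fun a => k a ≠ φ a) ≤ 6 * ε := hφ.trans (by linarith)
  have m1 : MP fun z : (Fin n → ZMod l) × (Fin n → ZMod l) × (Fin n → ZMod l) => z.1 := MP.fst
  have m2 : MP fun z : (Fin n → ZMod l) × (Fin n → ZMod l) × (Fin n → ZMod l) => z.2.1 :=
    MP.fst.comp MP.snd
  have m3 : ∀ f : (Fin n → ZMod l) → (Fin n → ZMod l) → Fin n → ZMod l,
      MP fun z : (Fin n → ZMod l) × (Fin n → ZMod l) × (Fin n → ZMod l) =>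
        f z.1 z.2.1 + z.2.2 := fun f =>
    MP.skew (f := fun a (y : (Fin n → ZMod l) × (Fin n → ZMod l)) => f a y.1 + y.2) fun a =>
      MP.skew (f := fun m ρ => f a m + ρ) fun _ => MP.addLeft _
  have m4 : MP fun z : (Fin n → ZMod l) × (Fin n → ZMod l) × (Fin n → ZMod l) => z.2.2 :=
    MP.snd.comp MP.snd
  have d1 := (m1.fr fun a => k a ≠ φ a).le.trans hd
  have d2 := (m2.fr fun a => k a ≠ φ a).le.trans hd
  have d3 := ((m3 fun a m => a * m).fr fun a => k a ≠ φ a).le.trans hd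
  have d4 := (m4.fr fun a => k a ≠ φ a).le.trans hd
  have d5 := ((m3 fun _ _ => 1).fr fun a => k a ≠ φ a).le.trans hd
  have hm : ∀ a m, φ (a * m) = φ a * φ m := by
    by_contra hn
    push Not at hn
    obtain ⟨a, m, ham⟩ := hn
    have q := biadd_quarter (f := fun a m => φ (a * m) - φ a * φ m)
      (fun a a' b => by simp only [add_mul, map_add]; ring)
      (fun a b b' => by simp only [mul_add, map_add]; ring) ⟨a, m, sub_ne_zero.2 ham⟩
    rw [← (MP.prod MP.refl (MP.fst (Y := Fin n → ZMod l))).fr] at q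
    have u := (fr_or_le _ _).trans (add_le_add h ((fr_or_le _ _).trans (add_le_add d1
      ((fr_or_le _ _).trans (add_le_add d2 ((fr_or_le _ _).trans (add_le_add d3 d4)))))))
    have := q.trans ((fr_mono fun z hz => ?_).trans u)
    · linarith
    by_contra hc
    simp only [not_or, not_not] at hc
    obtain ⟨⟨-, c0, -⟩, c1, c2, c3, c4⟩ := hc
    rw [c1, c2, c3, c4, map_add, add_sub_cancel_right] at c0
    exact hz (sub_eq_zero.2 c0)
  have h1 : φ 1 = 1 := by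
    have u := (fr_or_le _ _).trans (add_le_add h ((fr_or_le _ _).trans (add_le_add d5 d4)))
    obtain ⟨z, hc⟩ := exists_of_fr_lt (u.trans_lt (by linarith))
    simp only [not_or, not_not] at hc
    obtain ⟨⟨-, -, c0⟩, c1, c2⟩ := hc
    rwa [c1, c2, map_add, add_sub_cancel_right] at c0
  obtain ⟨p, hp, e⟩ := dict_hom φ hm h1
  exact ⟨p, hp, by simpa only [e] using hd⟩

theorem dict_tab {X : Type} [Fintype X] [Nonempty X] (k : X → (Fin n → ZMod l) → ZMod l) {ε : ℝ}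
    (hε : ε ≤ 1 / 200)
    (h : fr (TQ X (Fin n → ZMod l)) (fun q => ¬ (k q.1.2 q.2.1 = k q.1.1 q.2.1 ∧
      k q.1.1 (q.2.1 + q.2.2.1) = k q.1.1 q.2.1 + k q.1.1 q.2.2.1 ∧
      k q.1.1 (q.2.1 * q.2.2.1 + q.2.2.2) - k q.1.1 q.2.2.2 = k q.1.1 q.2.1 * k q.1.1 q.2.2.1 ∧
      k q.1.1 (1 + q.2.2.2) - k q.1.1 q.2.2.2 = 1)) ≤ ε) :
    ∃ p, p < n ∧ fr (X × (Fin n → ZMod l)) (fun z => k z.1 z.2 ≠ cx z.2 p) ≤ 7 * ε := by
  rw [← fr_equiv (Equiv.prodAssoc X X _).symm, fr_prod] at h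
  obtain ⟨x0, h2⟩ := (exists_le_expect (X := X) _).imp fun _ hx => hx.trans h
  obtain ⟨p, hp, hd⟩ := dict (k x0) hε (by
    rw [← fr_snd (X := X)]
    exact (fr_mono fun z hz hh => hz hh.2).trans h2)
  have h3 : fr (X × (Fin n → ZMod l)) (fun z => k z.1 z.2 ≠ k x0 z.2) ≤ ε := by
    rw [← (MP.prod MP.refl (MP.fst (Y := (Fin n → ZMod l) × (Fin n → ZMod l)))).fr]
    exact (fr_mono fun z hz hh => hz hh.1).trans h2
  rw [← fr_snd (X := X)] at hd
  refine ⟨p, hp, le_trans (fr_mono fun z hz => ?_) (((fr_or_le _ _).trans (add_le_add h3 hd)).trans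
    (show ε + 6 * ε ≤ 7 * ε by linarith))⟩
  by_contra hc
  simp only [not_or, not_not] at hc
  exact hz (hc.1.trans hc.2)

end Vale.Agent.P330
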