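import Vale.Agent.P330.ChPT
import Vale.Agent.P330.ChAlg

/-! Block B5: self-corrected reads in a table. -/

namespace Vale.Agent.P330

open Vale.Agent.Lib.PolyTime Finset
open scoped Classical BigOperators

theorem impl_diff {C F : Type} [Enc C] [Enc F] [Fintype F] [AddCommGroup F] (X L O : Fam C)
    [∀ c, AddCommGroup (L.T c)] (hO : ∀ c, Nonempty (O.T c))
    (dadd : D3 fun c (a b : L.T c) => a + b) (fx : ∀ c, O.T c → X.T c) (fa : ∀ c, O.T c → L.T c)
    (fb : ∀ c, O.T c → Bool) (dx : D2 fx) (da : D2 fa) (db : PT fun z : Σ c, O.T c => fb z.1 z.2)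
    (hx : ∀ c, MP (fx c)) {η : ℝ} (hη : 0 < η) :
    Impl F (.of (X.prod (L.prod (Fam.const C Bool)))) (.of O) fun c z y =>
      ∀ v, AddW v → du y (fun o => v (fx c o, fa c o, fb c o)) ≤ 4 * du z v + η := by
  have d1 : D fun z : Σ c, O.T c × L.T c => z.2.1 := D.fst D.sigma_snd
  have d2 : D fun z : Σ c, O.T c × L.T c => z.2.2 := D.snd D.sigma_snd
  have d3 : D (Y := fun _ : Σ c, O.T c × L.T c => Bool) fun z => fb z.1 z.2.1 :=
    D.of_pt (db.comp (pt_sigma_mk pt_sigma_fst d1))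
  refine (Impl.det (F := F) (I := .of (X.prod (L.prod (Fam.const C Bool)))) (A := Bool) O L
    (fun _ => ⟨0⟩) hO (fun c o ρ i => (fx c o, cond i (fa c o + ρ) ρ, fb c o))
    (fun _ _ _ s => s true - s false) (fun i => ?_) (fun _ => PT.const _) 2 (fun c i u => ?_)
    hη).mono fun c z y _ _ h v hv => ?_
  · cases i
    · exact D.pair (dx.app pt_sigma_fst d1) (D.pair d2 d3)
    · exact D.pair (dx.app pt_sigma_fst d1)
        (D.pair (dadd.app pt_sigma_fst (da.app pt_sigma_fst d1) d2) d3)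
  · refine fr_tab_le (f := fun z : O.T c × L.T c => (fx c z.1, cond i (fa c z.1 + z.2) z.2))
      (MP.pair (g := fun o ρ => cond i (fa c o + ρ) ρ) (hx c) fun o => ?_) (fun z => fb c z.1) u
    cases i
    · exact MP.refl
    · exact MP.addLeft _
  · have k := h v (fun o => v (fx c o, fa c o, fb c o)) fun o ρ => by
      show v (fx c o, fa c o + ρ, fb c o) - v (fx c o, ρ, fb c o) = _
      rw [hv, add_sub_cancel_right]
    have e : dw ((Reg.of (X.prod (L.prod (Fam.const C Bool)))).w c) z v = du z v := dw_unif z v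
    rw [e, Fintype.card_bool] at k
    norm_num at k
    exact k

namespace ChD
variable {C S B : Type} [Enc C] {l : ℕ} [Fact l.Prime] [Fintype S] [Enc S] [Fintype B]
  {lam : ℝ} (Z : ChD C S B l lam)

theorem pt_src : PT fun z : Σ c, Z.U.T c => Z.W z.1 0 0 z.2 := by
  have d : D fun z : Σ c, Z.U.T c => z.2.2 := D.snd D.sigma_snd
  have h1 : PT fun z : Σ c, Z.U.T c => z.2.2.2 = true :=
    PT.eq (D.pt (D.snd d)) (PT.const true)
  have h2 : PT fun z : Σ c, Z.U.T c => cx (F := ZMod l) z.2.2.1 0 :=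
    pt_cx (n := fun z : Σ c, Z.U.T c => Z.r z.1 + 2) (D.fst d) (PT.const 0)
  refine (PT.ite h1 h2 (PT.const 0)).congr fun z => ?_
  rw [W, wd_zero]

theorem impl_pred [Nonempty S] {η : ℝ} (hη : 0 < η) :
    Impl (ZMod l) (.of Z.U) (.of Z.U) fun c z y => ∀ u p, p + 1 < Z.r c + 2 →
      du y (Z.W c u p) ≤ 4 * du z (Z.W c u (p + 1)) + η := by
  have d : D fun z : Σ c, Z.U.T c => z.2.2 := D.snd D.sigma_snd
  refine (impl_diff (F := ZMod l) Z.Y.Pos Z.Lam Z.U (fun c => ⟨((Z.Y.ne c).some,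
    Classical.arbitrary S), 0, true⟩) (d3_vadd Z.pt_n Z.pb_n) (fun _ o => o.1)
    (fun _ o => upv o.2.1) (fun _ o => o.2.2) (D.fst D.sigma_snd)
    (d_upv (n := fun z : Σ c, Z.U.T c => Z.r z.1 + 2) (Z.pt_n.comp pt_sigma_fst)
      (Z.pb_n.comp pt_sigma_fst) (D.fst d)) (D.pt (D.snd d)) (fun c => MP.fst) hη).mono
    fun c z y _ _ h u p hp => ?_
  have e : Z.W c u p = fun o : Z.U.T c => Z.W c u (p + 1) (o.1, upv o.2.1, o.2.2) :=
    funext fun o => wd_up hp o.1 o.2.1 o.2.2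
  rw [e]
  exact h (Z.W c u (p + 1)) wd_add

theorem impl_out [Nonempty S] {η : ℝ} (hη : 0 < η) :
    Impl (ZMod l) (.of Z.U) (.of Z.Y.Pos) fun c z y => ∀ u,
      du y ((stp (Z.π c) Z.co)^[Z.r c] u) ≤ 4 * du z (Z.W c u (Z.r c + 1)) + η := by
  refine (impl_diff (F := ZMod l) Z.Y.Pos Z.Lam Z.Y.Pos (fun c => ⟨((Z.Y.ne c).some,
    Classical.arbitrary S)⟩) (d3_vadd Z.pt_n Z.pb_n) (fun _ o => o)
    (fun c _ => ev0 (ZMod l) (Z.r c + 2)) (fun _ _ => false) D.sigma_snd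
    ((d_ev0 Z.pt_n Z.pb_n).comp pt_sigma_fst) (PT.const false) (fun c => MP.refl) hη).mono
    fun c z y _ _ h u => ?_
  have e : (stp (Z.π c) Z.co)^[Z.r c] u =
      fun o => Z.W c u (Z.r c + 1) (o, ev0 (ZMod l) (Z.r c + 2), false) :=
    funext fun o => (wd_out (Z.r c) o).symm
  rw [e]
  exact h (Z.W c u (Z.r c + 1)) wd_add

end ChD

end Vale.Agent.P330
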