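import Vale.Agent.P330.ChMP

/-! Block B5: induction along the chain. -/

namespace Vale.Agent.P330

open Vale.Agent.Lib.PolyTime Finset
open scoped Classical BigOperators

variable {F S G B : Type} [Field F] [Fintype S] [Fintype G] [Nonempty G] [Fintype B]
  {C0 : Submodule F (S → F)} {nb : S → Equiv.Perm G} {δ0 lam : ℝ}

theorem code_unique (hS : SSSThm) (hT : TanGood δ0 lam S) (hd0 : Dist0 C0 δ0)
    (hg : P325.Gap (fun s g => nb s g) lam) {u u' : G × S → F} (hu : u ∈ tcode C0 nb)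
    (hu' : u' ∈ tcode C0 nb) (h : hd u u' ≤ δ0 ^ 2 / 8) : u = u' := by
  have e : fr (G × S) (fun x => (fun _ : Unit => u x - u' x) ≠ 0) = hd u u' :=
    fr_congr fun x => not_congr
      ⟨fun h => sub_eq_zero.1 (congrFun h ()), fun h => funext fun _ => sub_eq_zero.2 h⟩
  have k := hS F S G Unit C0 nb δ0 lam 0 hT hd0 hg (fun x _ => u x - u' x)
    ((fr_mono (E' := fun _ => False) fun g ⟨_, hk⟩ =>
      hk (C0.sub_mem (hu.1 g) (hu'.1 g))).trans fr_false.le)
    ((fr_mono (E' := fun _ => False) fun g ⟨_, hk⟩ =>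
      hk (C0.sub_mem (hu.2 g) (hu'.2 g))).trans fr_false.le)
    (div_nonneg hT.1.le (by norm_num)) (e.trans_le h)
  exact eq_of_hd (e.ge.trans k)

theorem ch_ind (hS : SSSThm) (hT : TanGood δ0 lam S) (hd0 : Dist0 C0 δ0)
    (hg : P325.Gap (fun s g => nb s g) lam) {L : Type} (π : B → Equiv.Perm G) (co : B → F)
    (up : L → L) (n : ℕ) (y : G × S → L → F) {β b : ℝ} (hn : ∀ x a, y x (up^[n] a) = 0)
    (h1 : fr G (fun g => ∃ a, (fun s => y (g, s) a) ∉ C0) ≤ β)
    (h2 : fr G (fun g => ∃ a, (fun s => y ((nb s)⁻¹ g, s) a) ∉ C0) ≤ β)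
    (h3 : fr (G × S) (fun x => ∃ a, y x a ≠ ∑ i, co i * y (π i x.1, x.2) (up a)) ≤ b)
    (hβ : β ≤ δ0 / 8) (hb : b + Fintype.card B * β ≤ δ0 ^ 2 / 8) :
    fr (G × S) (fun x => y x ≠ 0) ≤ β := by
  have key : ∀ k m, m + k = n → fr (G × S) (fun x => (fun a => y x (up^[m] a)) ≠ 0) ≤ β := by
    intro k
    induction k with
    | zero =>
      rintro m rfl
      exact (fr_mono (E' := fun _ => False) fun x hx => hx (funext (hn x))).trans
        (fr_false.le.trans ((fr_nonneg _).trans h1))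
    | succ k ih =>
      intro m hm
      have ih' := ih (m + 1) (by omega)
      refine hS F S G L C0 nb δ0 lam β hT hd0 hg (fun x a => y x (up^[m] a))
        ((fr_mono fun g ⟨a, ha⟩ => ⟨_, ha⟩).trans h1)
        ((fr_mono fun g ⟨a, ha⟩ => ⟨_, ha⟩).trans h2) hβ (le_trans ?_ hb)
      refine le_trans (fr_mono fun x hx => ?_) ((fr_or_le _ fun x : G × S =>
        ∃ i, (fun a => y (π i x.1, x.2) (up^[m + 1] a)) ≠ 0).trans (add_le_add h3 ?_))
      · by_contra hc
        rw [not_or, not_exists, not_exists] at hc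
        refine hx (funext fun a => (not_not.1 (hc.1 _)).trans (sum_eq_zero fun i _ => ?_))
        rw [← Function.iterate_succ_apply' up, congrFun (not_not.1 (hc.2 i)) a]
        exact mul_zero _
      · refine (fr_exists_le _).trans ?_
        rw [← nsmul_eq_mul, ← card_univ]
        exact sum_le_card_nsmul _ _ _ fun i _ => ((MP.prod (MP.equiv (π i)) MP.refl).fr
          fun x : G × S => (fun a => y x (up^[m + 1] a)) ≠ 0).trans_le ih'
  exact key n 0 (zero_add n)

end Vale.Agent.P330
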