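import Vale.Agent.P330.ChDefs

/-! Block B5: measure preserving maps. -/

namespace Vale.Agent.P330

open Vale.Agent.Lib.PolyTime Finset
open scoped Classical BigOperators

variable {X Y Z W : Type} [Fintype X] [Fintype Y] [Fintype Z] [Fintype W]

theorem MP.fr {f : X → Y} (h : MP f) (E : Y → Prop) : fr X (fun x => E (f x)) = fr Y E := by
  rw [fr_eq_expect, fr_eq_expect]
  exact h fun y => if E y then (1 : ℝ) else 0

theorem MP.single {f : X → Y} (h : MP f) (y : Y) :
    P330.fr X (fun x => f x = y) = (Fintype.card Y : ℝ)⁻¹ :=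
  (h.fr fun z => z = y).trans (fr_single y)

theorem MP.du {F : Type} {f : X → Y} (h : MP f) (p : Y → F → ℝ) (u : Y → F) :
    du (fun x => p (f x)) (fun x => u (f x)) = du p u := h fun y => 1 - p y (u y)

theorem MP.hd {F : Type} {f : X → Y} (h : MP f) (u v : Y → F) :
    hd (fun x => u (f x)) (fun x => v (f x)) = hd u v := h.fr fun y => u y ≠ v y

theorem MP.refl : MP fun x : X => x := fun _ => rfl

theorem MP.equiv (e : X ≃ Y) : MP fun x => e x := fun g => expect_equiv' e g

theorem MP.comp {g : Y → Z} {f : X → Y} (hg : MP g) (hf : MP f) : MP fun x => g (f x) :=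
  fun k => (hf fun y => k (g y)).trans (hg k)

theorem MP.skew [Nonempty X] {f : X → Y → Z} (h : ∀ x, MP (f x)) :
    MP fun z : X × Y => f z.1 z.2 := fun g => by
  rw [expect_prod']
  simp only [fun x => h x g]
  exact Fintype.expect_const _

theorem MP.skew' [Nonempty Y] {f : X → Y → Z} (h : ∀ y, MP fun x => f x y) :
    MP fun z : X × Y => f z.1 z.2 := fun g => by
  rw [expect_prod'']
  simp only [fun y => h y g]
  exact Fintype.expect_const _

theorem MP.fst [Nonempty Y] : MP fun z : X × Y => z.1 := MP.skew' (f := fun x _ => x) fun _ => MP.refl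

theorem MP.snd [Nonempty X] : MP fun z : X × Y => z.2 := MP.skew (f := fun _ y => y) fun _ => MP.refl

/-- The second coordinate may depend on the first argument. -/
theorem MP.pair {f : X → Z} {g : X → Y → W} (hf : MP f) (hg : ∀ x, MP (g x)) :
    MP fun z : X × Y => (f z.1, g z.1 z.2) := fun k => by
  rw [expect_prod', expect_prod']
  simp only [fun x => hg x fun w => k (f x, w)]
  exact hf fun z => 𝔼 w, k (z, w)

theorem MP.prod {f : X → Z} {g : Y → W} (hf : MP f) (hg : MP g) :
    MP fun z : X × Y => (f z.1, g z.2) := MP.pair (g := fun _ => g) hf fun _ => hg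

theorem MP.swap : MP fun z : X × Y => (z.2, z.1) := MP.equiv (Equiv.prodComm X Y)

theorem MP.addLeft [AddGroup X] (a : X) : MP fun x => a + x := MP.equiv (Equiv.addLeft a)

theorem MP.addRight [AddGroup X] (a : X) : MP fun x => x + a := MP.equiv (Equiv.addRight a)

theorem fr_and_prod (E : X → Prop) (E' : Y → Prop) :
    fr (X × Y) (fun z => E z.1 ∧ E' z.2) = fr X E * fr Y E' := by
  rw [fr_prod, fr_eq_expect E, expect_mul]
  refine expect_congr rfl fun x _ => ?_
  by_cases h : E x <;> simp [h, fr_false]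

/-- Points whose fibre event has probability at least one half. -/
theorem fr_half {E : X → Prop} {R : X → Y → Prop} (h : ∀ x, E x → 1 / 2 ≤ fr Y (R x)) :
    fr X E ≤ 2 * fr (X × Y) fun z => R z.1 z.2 := by
  rw [fr_prod, fr_eq_expect E, mul_expect]
  refine expect_le_expect fun x _ => ?_
  show _ ≤ 2 * fr Y (R x)
  split_ifs with hx
  · linarith [h x hx]
  · linarith [fr_nonneg (R x)]

theorem exists_of_fr_lt [Nonempty X] {E : X → Prop} (h : fr X E < 1) : ∃ x, ¬ E x := by
  by_contra hc
  push Not at hc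
  have := fr_mono (E := fun _ : X => True) (E' := E) fun x _ => hc x
  rw [fr_true] at this
  linarith

theorem expect_tab (g : X × Y × Bool → ℝ) :
    𝔼 z, g z = (𝔼 z : X × Y, g (z.1, z.2, false) + 𝔼 z : X × Y, g (z.1, z.2, true)) / 2 := by
  rw [← expect_equiv' (Equiv.prodAssoc X Y Bool) g, expect_prod', ← expect_add_distrib, expect_div]
  refine expect_congr rfl fun z _ => ?_
  rw [Fintype.expect_eq_sum_div_card]
  simp [add_comm]

theorem hd_tab {F : Type} (v v' : X × Y × Bool → F) :
    hd v v' = (fr (X × Y) (fun z => v (z.1, z.2, false) ≠ v' (z.1, z.2, false)) +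
      fr (X × Y) fun z => v (z.1, z.2, true) ≠ v' (z.1, z.2, true)) / 2 := by
  rw [hd, fr_eq_expect, fr_eq_expect, fr_eq_expect, expect_tab]

theorem du_tab {F : Type} (p : X × Y × Bool → F → ℝ) (v : X × Y × Bool → F) :
    du p v = (du (fun z : X × Y => p (z.1, z.2, false)) (fun z => v (z.1, z.2, false)) +
      du (fun z : X × Y => p (z.1, z.2, true)) fun z => v (z.1, z.2, true)) / 2 := by
  rw [du, du, du, expect_tab]

/-- The density of a read in a table. -/
theorem fr_tab_le {Q : Type} [Fintype Q] {f : Q → X × Y} (hf : MP f) (b : Q → Bool)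
    (u : X × Y × Bool) : fr Q (fun q => ((f q).1, (f q).2, b q) = u) ≤
      2 * (Fintype.card (X × Y × Bool) : ℝ)⁻¹ := by
  refine (fr_mono (E' := fun q => f q = (u.1, u.2.1)) fun q h => ?_).trans ?_
  · rw [← h]
  · rw [hf.single]
    simp only [Fintype.card_prod, Fintype.card_bool, Nat.cast_mul, Nat.cast_ofNat, mul_inv]
    exact le_of_eq (by ring)

theorem TanGood.neS {δ0 lam : ℝ} {S : Type} [Fintype S] (h : TanGood δ0 lam S) : Nonempty S := by
  by_contra hc
  rw [not_nonempty_iff] at hc
  have := h.2.2.2.2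
  simp only [Fintype.card_eq_zero, Nat.cast_zero, mul_zero] at this
  linarith

section Test
variable {F G S B : Type} [Field F] [Fintype F] [Fintype G] [Fintype S] {n : ℕ}

omit [Fintype G] [Fintype S] in
theorem mp_tL (i : TA S B) :
    MP fun z : (Fin n → F) × (Fin n → F) × (Fin n → F) => tL z i := by
  have h1 : MP fun z : (Fin n → F) × (Fin n → F) × (Fin n → F) => z.1 := MP.fst
  have h2 : MP fun z : (Fin n → F) × (Fin n → F) × (Fin n → F) => z.2.1 := MP.fst.comp MP.snd
  have h3 : ∀ f : (Fin n → F) → (Fin n → F) → Fin n → F,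
      MP fun z : (Fin n → F) × (Fin n → F) × (Fin n → F) => f z.1 z.2.1 + z.2.2 := fun f =>
    MP.skew (f := fun a (y : (Fin n → F) × (Fin n → F)) => f a y.1 + y.2) fun a =>
      MP.skew (f := fun m ρ => f a m + ρ) fun _ => MP.addLeft _
  have h4 : MP fun z : (Fin n → F) × (Fin n → F) × (Fin n → F) => z.2.2 := MP.snd.comp MP.snd
  have h5 : MP fun z : (Fin n → F) × (Fin n → F) × (Fin n → F) => z.1 + z.2.1 :=
    MP.skew' (f := fun a (y : (Fin n → F) × (Fin n → F)) => a + y.1) fun _ => MP.addRight _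
  rcases i with i | i | i | i
  · cases i
    exacts [h1, h1, h2, h5, h4, h3 fun a m => a * m, h3 fun _ _ => 1, h3 fun a _ => upv a, h1, h2,
      h5]
  · exact h1
  · exact h4
  · exact h3 fun a _ => upv a

theorem mp_tP [Nonempty G] [Nonempty S] (nb : S → Equiv.Perm G) (π : B → Equiv.Perm G)
    (i : TA S B) : MP fun y : (G × S) × G × S => (tP nb π y i).1 := by
  have h1 : MP fun y : (G × S) × G × S => y.1.1 := MP.fst.comp MP.fst
  have h2 : ∀ σ : Equiv.Perm G, MP fun y : (G × S) × G × S => σ y.1.1 := fun σ =>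
    (MP.equiv σ).comp h1
  rcases i with i | (i | i) | i | i
  · cases i
    exacts [h1, MP.fst.comp MP.snd, h1, h1, h1, h1, h1, h1, h1, h1, h1]
  · exact h1
  · exact h2 (nb i)⁻¹
  · exact h2 (π i)
  · exact h2 (π i)

end Test

end Vale.Agent.P330
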