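import Vale.Agent.P330.ChDefs

/-! Block B5: the operations on vectors are computable. -/

namespace Vale.Agent.P330

open Vale.Agent.Lib.PolyTime Finset
open scoped Classical BigOperators

variable {C : Type} [Enc C] {l : ℕ} [NeZero l] {n : C → ℕ} {a b : ∀ c, Fin (n c) → ZMod l}

theorem cpt_cx {F : Type} [Zero F] {m : ℕ} (x : Fin m → F) (k : ℕ) :
    cx x k = (List.ofFn x).getD k 0 := by
  unfold cx
  split_ifs with h
  · rw [List.getD_eq_getElem _ _ (by simpa using h)]; simp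
  · rw [List.getD_eq_default _ _ (by simpa using h)]

theorem pt_cx {k : C → ℕ} (ha : D a) (hk : PT k) : PT fun c => cx (a c) (k c) :=
  (D.pt (D.getD (X := fun _ => ZMod l) (D.f_ofFn ha) hk (D.const (0 : ZMod l)))).congr
    fun c => cpt_cx (a c) (k c)

theorem cpt_idx : PT fun z : Σ c, Fin (n c) => (z.2 : ℕ) := D.fin_iff.1 D.sigma_snd

theorem cpt_app (ha : D a) : PT fun z : Σ c, Fin (n c) => a z.1 z.2 :=
  D.pt (D.fn_app (X := fun _ => ZMod l) (ha.comp pt_sigma_fst) D.sigma_snd)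

theorem cpt_cxs {k : (Σ c, Fin (n c)) → ℕ} (ha : D a) (hk : PT k) :
    PT fun z : Σ c, Fin (n c) => cx (a z.1) (k z) :=
  pt_cx (n := fun z : Σ c, Fin (n c) => n z.1) (a := fun z => a z.1) (ha.comp pt_sigma_fst) hk

theorem d_vadd (hn : PT n) (hn' : PB n) (ha : D a) (hb : D b) : D fun c => a c + b c :=
  D.fn_mk (X := fun _ => ZMod l) hn hn' (D.of_pt (pt_addZ (cpt_app ha) (cpt_app hb)))

theorem d_vmul (hn : PT n) (hn' : PB n) (ha : D a) (hb : D b) : D fun c => a c * b c :=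
  D.fn_mk (X := fun _ => ZMod l) hn hn' (D.of_pt (pt_mulZ (cpt_app ha) (cpt_app hb)))

theorem d_vone (hn : PT n) (hn' : PB n) : D fun c => (1 : Fin (n c) → ZMod l) :=
  D.fn_mk (X := fun _ => ZMod l) hn hn' (D.of_pt (PT.const (1 : ZMod l)))

theorem d_ev0 (hn : PT n) (hn' : PB n) : D fun c => ev0 (ZMod l) (n c) :=
  D.fn_mk (X := fun _ => ZMod l) hn hn'
    (D.of_pt (PT.ite (PT.eq cpt_idx (PT.const 0)) (PT.const (1 : ZMod l)) (PT.const 0)))

theorem d_upv (hn : PT n) (hn' : PB n) (ha : D a) : D fun c => upv (a c) :=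
  D.fn_mk (X := fun _ => ZMod l) hn hn'
    (D.of_pt (PT.ite (PT.eq cpt_idx (PT.const 0)) (PT.const (0 : ZMod l))
      (cpt_cxs ha (cpt_idx.sub (PT.const 1)))))

theorem d_dnv (hn : PT n) (hn' : PB n) (ha : D a) : D fun c => dnv (a c) :=
  D.fn_mk (X := fun _ => ZMod l) hn hn' (D.of_pt (cpt_cxs ha (cpt_idx.add (PT.const 1))))

theorem d3_vadd (hn : PT n) (hn' : PB n) : D3 fun c (a b : Fin (n c) → ZMod l) => a + b :=
  d_vadd (n := fun z : Σ c, (Fin (n c) → ZMod l) × (Fin (n c) → ZMod l) => n z.1)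
    (a := fun z => z.2.1) (b := fun z => z.2.2) (hn.comp pt_sigma_fst) (hn'.comp pt_sigma_fst)
    (D.fst D.sigma_snd) (D.snd D.sigma_snd)

end Vale.Agent.P330
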