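import Vale.Agent.P330.ChBLR

/-! Block B5: views and relations of the corrected tables. -/

namespace Vale.Agent.P330

open Vale.Agent.Lib.PolyTime Finset
open scoped Classical BigOperators

variable {F S G B : Type} [Field F] [Fintype S] [Fintype G] [Nonempty G] [Fintype B]
  {C0 : Submodule F (S → F)}

theorem cre_or {X : Type} [Fintype X] {E E1 E2 E3 E4 E5 E6 E7 : X → Prop} {a b c d e f g : ℝ}
    (h1 : fr X E1 ≤ a) (h2 : fr X E2 ≤ b) (h3 : fr X E3 ≤ c) (h4 : fr X E4 ≤ d)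
    (h5 : fr X E5 ≤ e) (h6 : fr X E6 ≤ f) (h7 : fr X E7 ≤ g)
    (h : ∀ x, ¬ E1 x → ¬ E2 x → ¬ E3 x → ¬ E4 x → ¬ E5 x → ¬ E6 x → ¬ E7 x → ¬ E x) :
    fr X E ≤ a + (b + (c + (d + (e + (f + g))))) := by
  refine (fr_mono (E' := fun x => E1 x ∨ E2 x ∨ E3 x ∨ E4 x ∨ E5 x ∨ E6 x ∨ E7 x)
    fun z hz => ?_).trans ((fr_or_le _ _).trans (add_le_add h1
    ((fr_or_le _ _).trans (add_le_add h2 ((fr_or_le _ _).trans (add_le_add h3
    ((fr_or_le _ _).trans (add_le_add h4 ((fr_or_le _ _).trans (add_le_add h5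
    ((fr_or_le _ _).trans (add_le_add h6 h7))))))))))))
  have := h z
  tauto

theorem tab_view [Nonempty S] {L : Type} [AddCommGroup L] [Fintype L] (σ : S → Equiv.Perm G)
    (t : G × S → L → F) (φ : G × S → L →+ F) {ε D : ℝ}
    (h1 : fr (G × L) (fun z => (fun s => t (σ s z.1, s) z.2) ∉ C0) ≤ ε)
    (h2 : fr ((G × S) × L) (fun z => t z.1 z.2 ≠ φ z.1 z.2) ≤ D) :
    fr G (fun g => ∃ a, (fun s => φ (σ s g, s) a) ∉ C0) ≤ 2 * (ε + Fintype.card S * D) := by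
  refine (fr_half (R := fun g a => (fun s => φ (σ s g, s) a) ∉ C0) ?_).trans ?_
  · rintro g ⟨a, ha⟩
    refine (add_half (f := fun a => C0.mkQ fun s => φ (σ s g, s) a) (fun a b => ?_)
      ⟨a, fun h => ha ((Submodule.Quotient.mk_eq_zero _).1 h)⟩).trans_eq
      (fr_congr fun a => not_congr (Submodule.Quotient.mk_eq_zero _))
    rw [← map_add]
    congr 1
    funext s
    exact map_add _ _ _
  refine mul_le_mul_of_nonneg_left ?_ (by norm_num)
  refine (fr_mono (E' := fun z : G × L => (fun s => t (σ s z.1, s) z.2) ∉ C0 ∨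
    ∃ s, t (σ s z.1, s) z.2 ≠ φ (σ s z.1, s) z.2) fun z hz => ?_).trans
    ((fr_or_le _ _).trans (add_le_add h1 ((fr_exists_le _).trans ?_)))
  · by_contra h
    push Not at h
    exact hz (by rw [← funext h.2]; exact h.1)
  have e1 : ∀ s, fr (G × L) (fun z => t (σ s z.1, s) z.2 ≠ φ (σ s z.1, s) z.2) =
      fr (G × L) fun z => t (z.1, s) z.2 ≠ φ (z.1, s) z.2 := fun s =>
    (MP.prod (MP.equiv (σ s)) MP.refl).fr fun z : G × L => t (z.1, s) z.2 ≠ φ (z.1, s) z.2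
  have e2 : fr ((G × S) × L) (fun z => t z.1 z.2 ≠ φ z.1 z.2) =
      𝔼 s, fr (G × L) fun z => t (z.1, s) z.2 ≠ φ (z.1, s) z.2 := by
    rw [← fr_prod fun z : S × G × L => t (z.2.1, z.1) z.2.2 ≠ φ (z.2.1, z.1) z.2.2]
    exact fr_equiv (((Equiv.prodComm G S).prodCongr (Equiv.refl L)).trans (Equiv.prodAssoc S G L))
      fun z : S × G × L => t (z.2.1, z.1) z.2.2 ≠ φ (z.2.1, z.1) z.2.2
  rw [e2, Fintype.expect_eq_sum_div_card,
    div_le_iff₀ (by exact_mod_cast Fintype.card_pos : (0 : ℝ) < Fintype.card S)] at h2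
  simp only [e1]
  linarith

theorem tab_rel [Nonempty S] {L : Type} [AddCommGroup L] [Fintype L] (π : B → Equiv.Perm G)
    (co : B → F) (up : L → L) (hup : ∀ a a', up (a + a') = up a + up a')
    (t k : G × S → L → F) (φ : G × S → L →+ F) (κ : L → F) (hκ : ∀ a a', κ (a + a') = κ a + κ a')
    (w u : G × S → F) {ε D E H : ℝ}
    (h1 : fr ((G × S) × L × L) (fun z => t z.1 z.2.1 ≠
      ∑ i, co i * (t (π i z.1.1, z.1.2) (up z.2.1 + z.2.2) - t (π i z.1.1, z.1.2) z.2.2) +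
        (k z.1 (up z.2.1 + z.2.2) - k z.1 z.2.2) * w z.1) ≤ ε)
    (h2 : fr ((G × S) × L) (fun z => t z.1 z.2 ≠ φ z.1 z.2) ≤ D)
    (h3 : fr ((G × S) × L) (fun z => k z.1 z.2 ≠ κ z.2) ≤ E) (h4 : hd w u ≤ H) :
    fr (G × S) (fun x => ∃ a, φ x a ≠ ∑ i, co i * φ (π i x.1, x.2) (up a) + κ (up a) * u x) ≤
      2 * (ε + (1 + 2 * Fintype.card B) * D + 2 * E + H) := by
  refine (fr_half (Y := L × L) (R := fun x y =>
    φ x y.1 ≠ ∑ i, co i * φ (π i x.1, x.2) (up y.1) + κ (up y.1) * u x) ?_).trans ?_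
  · rintro x ⟨a, ha⟩
    rw [fr_fst fun a => φ x a ≠ ∑ i, co i * φ (π i x.1, x.2) (up a) + κ (up a) * u x]
    refine (add_half (f := fun a => φ x a -
      (∑ i, co i * φ (π i x.1, x.2) (up a) + κ (up a) * u x)) (fun a b => ?_)
      ⟨a, sub_ne_zero.2 ha⟩).trans_eq (fr_congr fun a => sub_ne_zero)
    simp only [hup, hκ, map_add, mul_add, sum_add_distrib]
    ring
  refine mul_le_mul_of_nonneg_left ?_ (by norm_num)
  have hπ : ∀ i, MP fun x : G × S => (π i x.1, x.2) := fun i => MP.prod (MP.equiv (π i)) MP.refl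
  have m1 : MP fun y : L × L => up y.1 + y.2 := MP.skew fun a => MP.addLeft (up a)
  have m2 : MP fun y : L × L => y.2 := MP.snd
  have m3 : MP fun y : L × L => y.1 := MP.fst
  have m4 : MP fun x : G × S => x := MP.refl
  have d : ∀ {f : G × S → G × S} {g : L × L → L}, MP f → MP g →
      fr ((G × S) × L × L) (fun z => t (f z.1) (g z.2) ≠ φ (f z.1) (g z.2)) ≤ D :=
    fun hf hg => ((MP.prod hf hg).fr fun z : (G × S) × L => t z.1 z.2 ≠ φ z.1 z.2).trans_le h2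
  have e : ∀ {g : L × L → L}, MP g →
      fr ((G × S) × L × L) (fun z => k z.1 (g z.2) ≠ κ (g z.2)) ≤ E :=
    fun hg => ((MP.prod m4 hg).fr fun z : (G × S) × L => k z.1 z.2 ≠ κ z.2).trans_le h3
  have b1 := d m4 m3
  have d' : ∀ {g : L × L → L}, MP g → fr ((G × S) × L × L)
      (fun z => ∃ i, t (π i z.1.1, z.1.2) (g z.2) ≠ φ (π i z.1.1, z.1.2) (g z.2)) ≤
        Fintype.card B * D := fun {g} hg => by
    refine (fr_exists_le _).trans ?_
    rw [← nsmul_eq_mul, ← card_univ, ← sum_const]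
    exact sum_le_sum fun i _ => d (f := fun x => (π i x.1, x.2)) (hπ i) hg
  have b2 := d' m1
  have b3 := d' m2
  have b4 := e m1
  have b5 := e m2
  have b6 : fr ((G × S) × L × L) (fun z => w z.1 ≠ u z.1) ≤ H :=
    (fr_fst fun x => w x ≠ u x).trans_le h4
  refine (cre_or h1 b1 b2 b3 b4 b5 b6 ?_).trans (le_of_eq (by ring))
  intro z a1 a2 a3 a4 a5 a6 a7
  simp only [ne_eq, not_not, not_exists] at a1 a2 a3 a4 a5 a6 a7 ⊢
  rw [← a2, a1, a5, a6, a7, hκ]
  simp only [a3, a4, map_add, add_sub_cancel_right]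

end Vale.Agent.P330
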