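import Vale.Agent.P330.ChTab
import Vale.Agent.P330.ChDict

/-! Block B5: soundness of the tester. -/

namespace Vale.Agent.P330

open Vale.Agent.Lib.PolyTime Finset
open scoped Classical BigOperators

variable {S G B : Type} [Fintype S] [Fintype G] [Nonempty G] [Fintype B]
  {nb : S → Equiv.Perm G} {π : B → Equiv.Perm G} {δ0 lam : ℝ} {n : ℕ}

theorem ch_sound (hS : SSSThm) {l : ℕ} [Fact l.Prime] {C0 : Submodule (ZMod l) (S → ZMod l)}
    (hT : TanGood δ0 lam S) (hd0 : Dist0 C0 δ0) (hg : P325.Gap (fun s g => nb s g) lam)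
    (co : B → ZMod l) (hπ : ∀ i s g, π i (nb s g) = nb s (π i g)) {u : G × S → ZMod l}
    (hu : u ∈ tcode C0 nb) (w : G × S → ZMod l) (v : (G × S) × (Fin n → ZMod l) × Bool → ZMod l)
    {ε : ℝ} (h1 : fr (TQ (G × S) (Fin n → ZMod l)) (fun q => ¬ AccW C0 nb π co w v q) ≤ ε)
    (h2 : hd w u ≤ ε) (h3 : ε ≤ 1 / 200)
    (hε : (44 + 24 * Fintype.card B + (Fintype.card B + 1) * (2 + 12 * Fintype.card S)) * ε ≤
      δ0 ^ 2 / 8) :
    ∃ p, p < n ∧ hd v (Wd (stp π co) n u p) ≤ (15 + 12 * Fintype.card S) * ε := by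
  have := hT.neS
  have h0 : 0 ≤ ε := (fr_nonneg _).trans h1
  obtain ⟨p, hp, hk⟩ := dict_tab (fun x a => v (x, a, true)) h3
    ((fr_mono fun q hq hA => hq ((accW_iff C0 nb π co w v q.1.1 q.1.2 q.2.1 q.2.2.1
      q.2.2.2).1 hA).1).trans h1)
  have m1 : MP fun q : TQ (G × S) (Fin n → ZMod l) => (q.1.1, q.2.1, q.2.2.1) :=
    MP.prod MP.fst (MP.prod MP.refl MP.fst)
  have m2 : MP fun q : TQ (G × S) (Fin n → ZMod l) => (q.1.1.1, q.2.1) :=
    MP.prod (MP.fst.comp MP.fst) MP.fst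
  have m3 : MP fun q : TQ (G × S) (Fin n → ZMod l) => (q.1.1, q.2.1, q.2.2.2) :=
    MP.prod MP.fst (MP.prod MP.refl MP.snd)
  have ht := ch_tab hS hT hd0 hg co hπ hu hp (fun x a => v (x, a, false))
    (fun x a => v (x, a, true)) w (ε := ε)
    (by
      rw [← m1.fr]
      exact (fr_mono fun q hq hA => hq ((accW_iff C0 nb π co w v q.1.1 q.1.2 q.2.1 q.2.2.1
        q.2.2.2).1 hA).2.1).trans h1)
    (by
      rw [← m2.fr]
      exact (fr_mono fun q hq hA => hq ((accW_iff C0 nb π co w v q.1.1 q.1.2 q.2.1 q.2.2.1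
        q.2.2.2).1 hA).2.2.1).trans h1)
    (by
      rw [← m2.fr]
      exact (fr_mono fun q hq hA => hq ((accW_iff C0 nb π co w v q.1.1 q.1.2 q.2.1 q.2.2.1
        q.2.2.2).1 hA).2.2.2.1).trans h1)
    (by
      rw [← m3.fr]
      exact (fr_mono fun q hq hA => hq ((accW_iff C0 nb π co w v q.1.1 q.1.2 q.2.1 q.2.2.1
        q.2.2.2).1 hA).2.2.2.2).trans h1)
    hk h2 hε
  refine ⟨p, hp, ?_⟩
  rw [hd_tab]
  have hk' : fr ((G × S) × (Fin n → ZMod l))
      (fun z => v (z.1, z.2, true) ≠ Wd (stp π co) n u p (z.1, z.2, true)) ≤ 7 * ε := hk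
  have hc : 0 ≤ (Fintype.card S : ℝ) * ε := mul_nonneg (Nat.cast_nonneg _) h0
  linarith

end Vale.Agent.P330
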