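import Vale.Agent.P330.ChPT
import Vale.Agent.P330.ChAlg

/-! Block B5: the successor layer. -/

namespace Vale.Agent.P330

open Vale.Agent.Lib.PolyTime Finset
open scoped Classical BigOperators

section Slots
variable {F G S B : Type} [Field F] {n : ℕ}

/-- The position read by a pair of slots. -/
def csu_P (π : B → Equiv.Perm G) (x : G × S) : Option (Option B) → G × S
  | some (some i) => (π i x.1, x.2)
  | some none => x
  | none => x

/-- The vector read by a slot, before the random shift. -/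
def csu_L (a : Fin n → F) : Option (Option B) → Bool → Fin n → F
  | _, false => 0
  | none, true => dnv a
  | some _, true => ev0 F n

/-- The table read by a pair of slots. -/
def csu_B (b : Bool) : Option (Option B) → Bool
  | none => b
  | some none => true
  | some (some _) => false

/-- The node read by a slot. -/
def csu_S (π : B → Equiv.Perm G) (o : (G × S) × (Fin n → F) × Bool) (ρ : Fin n → F) :
    Option (Option (Option B) × Bool) → (G × S) ⊕ (G × S) × (Fin n → F) × Bool
  | none => .inl o.1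
  | some j => .inr (csu_P π o.1 j.1, csu_L o.2.1 j.1 j.2 + ρ, csu_B o.2.2 j.1)

/-- The local function. -/
def csu_F [Fintype B] (co : B → F) (s : Option (Option (Option B) × Bool) → F) (c : F) (b : Bool) :
    F :=
  (s (some (none, true)) - s (some (none, false))) + if b = true then 0 else
    c * (∑ i, co i * (s (some (some (some i), true)) - s (some (some (some i), false))) +
      (s (some (some none, true)) - s (some (some none, false))) * s none)

theorem csu_val [Fintype B] (π : B → Equiv.Perm G) (co : B → F) (u : G × S → F) {p : ℕ}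
    (hp : p + 1 < n) (o : (G × S) × (Fin n → F) × Bool) (ρ : Fin n → F) :
    csu_F co (fun i => Sum.elim u (Wd (stp π co) n u p) (csu_S π o ρ i)) (cx o.2.1 0) o.2.2 =
      Wd (stp π co) n u (p + 1) o := by
  obtain ⟨x, a, b⟩ := o
  have h : ∀ x a b, Wd (stp π co) n u p (x, a + ρ, b) - Wd (stp π co) n u p (x, 0 + ρ, b) =
      Wd (stp π co) n u p (x, a, b) := fun x a b => by
    rw [zero_add]
    exact wd_add.diff x a ρ b
  rw [wd_dn (stp_zero π co) hp]
  simp only [csu_F, csu_S, csu_P, csu_L, csu_B, Sum.elim_inl, Sum.elim_inr, h]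
  rfl

theorem csu_mp [Fintype F] [Fintype G] [Fintype S] (π : B → Equiv.Perm G)
    (j : Option (Option B) × Bool) :
    MP fun z : ((G × S) × (Fin n → F) × Bool) × (Fin n → F) =>
      (csu_P π z.1.1 j.1, csu_L z.1.2.1 j.1 j.2 + z.2) := by
  refine MP.pair (f := fun o : (G × S) × (Fin n → F) × Bool => csu_P π o.1 j.1)
    (g := fun o ρ => csu_L o.2.1 j.1 j.2 + ρ) ?_ fun _ => MP.addLeft _
  rcases j with ⟨_ | _ | i, t⟩
  · exact MP.fst
  · exact MP.fst
  · exact (MP.prod (MP.equiv (π i)) MP.refl).comp MP.fst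

theorem csu_dens [Fintype F] [Fintype G] [Fintype S] (π : B → Equiv.Perm G)
    (i : Option (Option (Option B) × Bool)) (u : (G × S) ⊕ (G × S) × (Fin n → F) × Bool) :
    fr (((G × S) × (Fin n → F) × Bool) × (Fin n → F)) (fun z => csu_S π z.1 z.2 i = u) ≤
      2 * Sum.elim (fun _ => (Fintype.card (G × S) : ℝ)⁻¹)
        (fun _ => (Fintype.card ((G × S) × (Fin n → F) × Bool) : ℝ)⁻¹) u := by
  rcases i with _ | j <;> rcases u with u | u <;>
    simp only [csu_S, Sum.elim_inl, Sum.elim_inr, Sum.inl.injEq, Sum.inr.injEq, reduceCtorEq,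
      fr_false]
  · have h : MP fun z : ((G × S) × (Fin n → F) × Bool) × (Fin n → F) => z.1.1 :=
      MP.fst.comp MP.fst
    rw [h.single]
    have : (0 : ℝ) ≤ (Fintype.card (G × S) : ℝ)⁻¹ := by positivity
    linarith
  · positivity
  · positivity
  · exact fr_tab_le (csu_mp π j) (fun z => csu_B z.1.2.2 j.1) u

end Slots

namespace ChD
variable {C S B : Type} [Enc C] {l : ℕ} [Fact l.Prime] [Fintype S] [Enc S] [Fintype B]
  {lam : ℝ} (Z : ChD C S B l lam)

omit [Fintype B] in
theorem csu_ds (i : Option (Option (Option B) × Bool)) :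
    D3 fun c (o : Z.U.T c) (ρ : Z.Lam.T c) => csu_S (Z.π c) o ρ i := by
  have ho : D fun z : Σ c, Z.U.T c × Z.Lam.T c => z.2.1 := D.fst D.sigma_snd
  have hρ : D fun z : Σ c, Z.U.T c × Z.Lam.T c => z.2.2 := D.snd D.sigma_snd
  have hn : PT fun z : Σ c, Z.U.T c × Z.Lam.T c => Z.r z.1 + 2 := Z.pt_n.comp pt_sigma_fst
  have hn' : PB fun z : Σ c, Z.U.T c × Z.Lam.T c => Z.r z.1 + 2 := Z.pb_n.comp pt_sigma_fst
  rcases i with _ | ⟨j, t⟩
  · exact D.inl ho.fst
  refine D.inr (D.pair ?_ (D.pair ?_ ?_))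
  · rcases j with _ | _ | i
    · exact ho.fst
    · exact ho.fst
    · exact ((Z.dπ i).app pt_sigma_fst ho.fst.fst).pair ho.fst.snd
  · cases t
    · exact hρ.congr fun z => zero_add _
    · rcases j with _ | j
      · exact d_vadd hn hn' (d_dnv hn hn' ho.snd.fst) hρ
      · exact d_vadd hn hn' (d_ev0 hn hn') hρ
  · rcases j with _ | _ | i
    · exact ho.snd.snd
    · exact D.const true
    · exact D.const false

theorem impl_succ [Nonempty S] : ∃ K : ℝ, 0 < K ∧ ∀ η : ℝ, 0 < η →
    Impl (ZMod l) ((Reg.of Z.Y.Pos).sum (.of Z.U)) (.of Z.U) fun c z y =>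
      ∀ u p, p + 1 < Z.r c + 2 → du y (Z.W c u (p + 1)) ≤
        K * (du (fun i => z (.inl i)) u + du (fun i => z (.inr i)) (Z.W c u p)) + η := by
  refine ⟨Fintype.card (Option (Option (Option B) × Bool)) * 2,
    mul_pos (Nat.cast_pos.2 Fintype.card_pos) two_pos, fun η hη => ?_⟩
  have ho : D fun z : Σ c, Z.U.T c × Z.Lam.T c => z.2.1 := D.fst D.sigma_snd
  refine (Impl.det (F := ZMod l) (I := (Reg.of Z.Y.Pos).sum (.of Z.U))
    (A := Option (Option (Option B) × Bool)) Z.U Z.Lam (fun _ => ⟨0⟩)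
    (fun c => ⟨(((Z.Y.ne c).some, Classical.arbitrary S), 0, true)⟩)
    (fun c o ρ => csu_S (Z.π c) o ρ) (fun c o _ s => csu_F Z.co s (cx o.2.1 0) o.2.2) Z.csu_ds
    (fun s => pt_fin2 (pt_cx ho.snd.fst (PT.const 0)) ho.snd.snd.pt (csu_F Z.co s)) 2
    (fun c i u => csu_dens (Z.π c) i u) hη).mono ?_
  intro c x y _ _ h u p hp
  have h1 := h (Sum.elim u (Z.W c u p)) (Z.W c u (p + 1)) fun o ρ => csu_val (Z.π c) Z.co u hp o ρ
  refine h1.trans (le_of_eq ?_)
  congr 2
  exact (dw_sum _ _ x _).trans (congrArg₂ (· + ·) (dw_unif _ _) (dw_unif _ _))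

end ChD

end Vale.Agent.P330
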