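import Vale.Agent.P330.ChInd
import Vale.Agent.P330.ChAcc
import Vale.Agent.P330.ChRel

/-! Block B5: soundness of the test of the slots. -/

namespace Vale.Agent.P330

open Vale.Agent.Lib.PolyTime Finset
open scoped Classical BigOperators

variable {S G B : Type} [Fintype S] [Fintype G] [Nonempty G] [Fintype B]
  {nb : S → Equiv.Perm G} {π : B → Equiv.Perm G} {δ0 lam : ℝ} {n : ℕ}

theorem ch_tab (hS : SSSThm) {F : Type} [Field F] [Fintype F] {C0 : Submodule F (S → F)}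
    (hT : TanGood δ0 lam S) (hd0 : Dist0 C0 δ0) (hg : P325.Gap (fun s g => nb s g) lam)
    (co : B → F) (hπ : ∀ i s g, π i (nb s g) = nb s (π i g)) {u : G × S → F}
    (hu : u ∈ tcode C0 nb) {p : ℕ} (hp : p < n) (t k : G × S → (Fin n → F) → F) (w : G × S → F)
    {ε : ℝ}
    (h1 : fr ((G × S) × (Fin n → F) × (Fin n → F))
      (fun z => t z.1 (z.2.1 + z.2.2) ≠ t z.1 z.2.1 + t z.1 z.2.2) ≤ ε)
    (h2 : fr (G × (Fin n → F)) (fun z => (fun s => t (z.1, s) z.2) ∉ C0) ≤ ε)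
    (h3 : fr (G × (Fin n → F)) (fun z => (fun s => t ((nb s)⁻¹ z.1, s) z.2) ∉ C0) ≤ ε)
    (h4 : fr ((G × S) × (Fin n → F) × (Fin n → F)) (fun z => t z.1 z.2.1 ≠
      ∑ i, co i * (t (π i z.1.1, z.1.2) (upv z.2.1 + z.2.2) - t (π i z.1.1, z.1.2) z.2.2) +
        (k z.1 (upv z.2.1 + z.2.2) - k z.1 z.2.2) * w z.1) ≤ ε)
    (h5 : fr ((G × S) × (Fin n → F)) (fun z => k z.1 z.2 ≠ cx z.2 p) ≤ 7 * ε) (h6 : hd w u ≤ ε)
    (hε : (44 + 24 * Fintype.card B + (Fintype.card B + 1) * (2 + 12 * Fintype.card S)) * ε ≤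
      δ0 ^ 2 / 8) :
    fr ((G × S) × (Fin n → F)) (fun z => t z.1 z.2 ≠ Wd (stp π co) n u p (z.1, z.2, false)) ≤
      (8 + 12 * Fintype.card S) * ε := by
  have := hT.neS
  have hε0 : 0 ≤ ε := (fr_nonneg _).trans h1
  obtain ⟨φ, hφ0⟩ := blr_tab t
  have hφ : fr ((G × S) × (Fin n → F)) (fun z => t z.1 z.2 ≠ φ z.1 z.2) ≤ 6 * ε :=
    hφ0.trans (by linarith)
  have v1 := tab_view (C0 := C0) (fun _ => 1) t φ h2 hφ
  have v2 := tab_view (C0 := C0) (fun s => (nb s)⁻¹) t φ h3 hφ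
  have r := tab_rel π co upv upv_add t k φ (fun a => cx a p) (fun a a' => cx_add a a' p) w u
    h4 hφ h5 h6
  have good := (wd_good (n := n) (p := p) co hπ hu).2.1
  have hB : (0 : ℝ) ≤ Fintype.card B := Nat.cast_nonneg _
  have hS0 : (0 : ℝ) ≤ Fintype.card S := Nat.cast_nonneg _
  have e1 := mul_nonneg hB hε0
  have e2 := mul_nonneg hS0 hε0
  have e3 := mul_nonneg hB e2
  have hδ : δ0 ^ 2 ≤ δ0 := by nlinarith [hT.1, hT.2.1]
  have key := ch_ind hS hT hd0 hg π co upv n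
    (fun x a => φ x a - Wd (stp π co) n u p (x, a, false))
    (β := 2 * (ε + Fintype.card S * (6 * ε)))
    (b := 2 * (ε + (1 + 2 * Fintype.card B) * (6 * ε) + 2 * (7 * ε) + ε))
    (fun x a => by simp [upv_iter, wd_false])
    (le_trans (fr_mono fun g ⟨a, ha⟩ => ⟨a, fun h => ha (C0.sub_mem h ((good a).1 g))⟩) v1)
    (le_trans (fr_mono fun g ⟨a, ha⟩ => ⟨a, fun h => ha (C0.sub_mem h ((good a).2 g))⟩) v2)
    (le_trans (fr_mono fun x ⟨a, ha⟩ => ⟨a, fun h => ha (by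
      rw [h, wd_rel π co u hp x a]
      simp only [mul_sub, Finset.sum_sub_distrib]
      ring)⟩) r)
    (by nlinarith) (by nlinarith)
  have fin := fr_or_le (X := (G × S) × (Fin n → F)) (fun z => t z.1 z.2 ≠ φ z.1 z.2)
    fun z => (fun a => φ z.1 a - Wd (stp π co) n u p (z.1, a, false)) ≠ 0
  rw [fr_fst fun x => (fun a => φ x a - Wd (stp π co) n u p (x, a, false)) ≠ 0] at fin
  refine le_trans (fr_mono fun z hz => ?_) (fin.trans (by linarith))
  by_contra hn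
  rw [not_or, not_not, not_not] at hn
  exact hz (hn.1.trans (sub_eq_zero.1 (congrFun hn.2 z.2)))

end Vale.Agent.P330
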