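import Vale.Agent.P330.ChTestA
import Vale.Agent.P330.ChSound

/-! Block B5: the tester with its constants. -/

namespace Vale.Agent.P330

open Vale.Agent.Lib.PolyTime Finset
open scoped Classical BigOperators

theorem cte_eps {a b δ0 δ : ℝ} (ha : 0 < a) (hb : 0 < b) (h0 : 0 < δ0) (hδ : 0 < δ) :
    ∃ ε : ℝ, 0 < ε ∧ ε ≤ 1 / 200 ∧ a * ε ≤ δ0 ∧ b * ε ≤ δ := by
  refine ⟨min (1 / 200) (min (δ0 / a) (δ / b)), by positivity, min_le_left _ _, ?_, ?_⟩
  · rw [← le_div_iff₀' ha]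
    exact (min_le_right _ _).trans (min_le_left _ _)
  · rw [← le_div_iff₀' hb]
    exact (min_le_right _ _).trans (min_le_right _ _)

namespace ChD
variable {C S B : Type} [Enc C] {l : ℕ} [Fact l.Prime] [Fintype S] [Enc S] [Fintype B]
  {lam : ℝ} (Z : ChD C S B l lam)

theorem impl_test (hS : SSSThm) {C0 : Submodule (ZMod l) (S → ZMod l)} {δ0 : ℝ}
    (hT : TanGood δ0 lam S) (hd0 : Dist0 C0 δ0) {δ : ℝ} (hδ : 0 < δ) :
    ∃ v1 η0 : ℝ, 0 < v1 ∧ 0 < η0 ∧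
    ImplR (ZMod l) ((Reg.of Z.Y.Pos).sum (.of Z.U)) fun c z T =>
      ∀ u ∈ tcode C0 (Z.Y.nb c), du (fun i => z (.inl i)) u ≤ η0 →
        (T < v1 → ∃ p, p < Z.r c + 2 ∧ du (fun i => z (.inr i)) (Z.W c u p) ≤ δ) ∧
        ∀ p, p < Z.r c + 2 → du (fun i => z (.inr i)) (Z.W c u p) ≤ η0 → T ≤ v1 / 2 := by
  have := hT.neS
  have h0 : 0 < δ0 := hT.1
  obtain ⟨K, hK, h⟩ := Z.impl_test0 C0
  obtain ⟨ε, hε, e1, e2, e3⟩ := cte_eps
    (a := 44 + 24 * Fintype.card B + (Fintype.card B + 1) * (2 + 12 * Fintype.card S))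
    (b := 16 + 12 * Fintype.card S) (δ0 := δ0 ^ 2 / 8) (by positivity) (by positivity)
    (by positivity) hδ
  have hK0 : 0 < K := by linarith
  obtain ⟨t, ht, hKt⟩ : ∃ t : ℝ, 0 < t ∧ K * (K * t) = ε / 16 :=
    ⟨ε / (16 * K ^ 2), by positivity, by field_simp⟩
  have h1 : t ≤ K * t := le_mul_of_one_le_left ht.le hK
  have h2 : K * t ≤ K * (K * t) := le_mul_of_one_le_left (by positivity) hK
  refine ⟨8 * (K * t), t, by positivity, ht, (h (2 * (K * t)) (by positivity)).mono ?_⟩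
  rintro c z T hz - - ⟨g1, w, v, hw, g2, g3⟩ u hu hx
  have := Z.Y.ne c
  refine ⟨fun hT1 => ?_, fun p hp hp' => ?_⟩
  · have h3 : K * (T + 2 * (K * t)) ≤ ε := by
      have := mul_le_mul_of_nonneg_left hT1.le hK0.le
      nlinarith
    have h4 : hd w u ≤ ε := (hw.hd_le (hz.comp Sum.inl) u).trans (by linarith)
    obtain ⟨p, hp, h5⟩ := ch_sound hS hT hd0 (Z.Y.gap c) Z.co (Z.comm c) hu w v (g2.trans h3) h4
      e1 e2
    refine ⟨p, hp, (du_le_hd (hz.comp Sum.inr) _ v).trans ?_⟩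
    have h6 : hd v (Z.W c u p) ≤ (15 + 12 * Fintype.card S) * ε := h5
    linarith
  · have h3 := g1 u (Z.W c u p) fun q => wd_acc Z.co (Z.comm c) hu hp q
    have h4 := mul_le_mul_of_nonneg_left (add_le_add hx hp') hK0.le
    linarith

end ChD

end Vale.Agent.P330
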