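import Vale.Agent.P330.ChPT
import Vale.Agent.P330.ChMP

/-! Block B5: the tester as a gadget. -/

namespace Vale.Agent.P330

open Vale.Agent.Lib.PolyTime Finset
open scoped Classical BigOperators

namespace ChD
variable {C S B : Type} [Enc C] {l : ℕ} [Fact l.Prime] [Fintype S] [Enc S] [Fintype B]
  {lam : ℝ} (Z : ChD C S B l lam)

/-- The randomness of the tester. -/
@[reducible] noncomputable def Q : Fam C :=
  (Z.Y.Pos.prod Z.Y.Pos).prod (Z.Lam.prod (Z.Lam.prod Z.Lam))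

omit [Fintype B] in
theorem ctA_dP (i : TA S B) :
    D2 (X := Z.Q.T) (Y := Z.Y.Pos.T) fun c q => tP (Z.Y.nb c) (Z.π c) q.1 i := by
  have hq : D (Y := fun z : Σ c, Z.Q.T c => Z.Q.T z.1) fun z => z.2 := D.sigma_snd
  have h1 := hq.fst.fst
  have hπ := fun j => ((Z.dπ j).app pt_sigma_fst h1.fst).pair h1.snd
  rcases i with k | (s | s) | i | i
  · cases k
    exacts [h1, hq.fst.snd, h1, h1, h1, h1, h1, h1, h1, h1, h1]
  · exact h1.fst.pair (D.const s)
  · exact ((Z.Y.G.pf.d_symm (Z.Y.d_nb s)).app pt_sigma_fst h1.fst).pair (D.const s)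
  · exact hπ i
  · exact hπ i

omit [Fintype B] in
theorem ctA_dL (i : TA S B) : D2 (X := Z.Q.T) (Y := Z.Lam.T) fun _ q => tL q.2 i := by
  have hq : D (Y := fun z : Σ c, Z.Q.T c => Z.Q.T z.1) fun z => z.2 := D.sigma_snd
  have hn : PT fun z : Σ c, Z.Q.T c => Z.r z.1 + 2 := Z.pt_n.comp pt_sigma_fst
  have hn' : PB fun z : Σ c, Z.Q.T c => Z.r z.1 + 2 := Z.pb_n.comp pt_sigma_fst
  have h1 := hq.snd.fst
  have h2 := hq.snd.snd.fst
  have h3 := hq.snd.snd.snd
  have h4 := d_vadd hn hn' h1 h2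
  have h5 := d_vadd hn hn' (d_upv hn hn' h1) h3
  rcases i with k | s | i | i
  · cases k
    exacts [h1, h1, h2, h4, h3, d_vadd hn hn' (d_vmul hn hn' h1 h2) h3,
      d_vadd hn hn' (d_vone hn hn') h3, h5, h1, h2, h4]
  · exact h1
  · exact h3
  · exact h5

theorem d_tslot (i : Option (TA S B)) :
    D2 (X := Z.Q.T) (Y := ((Reg.of Z.Y.Pos).sum (.of Z.U)).T)
      fun c q => tslot (Z.Y.nb c) (Z.π c) q i := by
  rcases i with _ | i
  · exact D.inl (D.sigma_snd (X := Z.Q.T)).fst.fst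
  · exact D.inr ((Z.ctA_dP i).pair ((Z.ctA_dL i).pair (D.const (tB i))))

theorem dens_tslot [Nonempty S] (c : C) (i : Option (TA S B))
    (u : ((Reg.of Z.Y.Pos).sum (.of Z.U)).T c) :
    fr (Z.Q.T c) (fun q => tslot (Z.Y.nb c) (Z.π c) q i = u) ≤
      2 * Fintype.card S * ((Reg.of Z.Y.Pos).sum (.of Z.U)).w c u := by
  have := Z.Y.ne c
  have hS : (1 : ℝ) ≤ Fintype.card S := by exact_mod_cast Fintype.card_pos
  have h0 := mul_nonneg (by positivity : (0 : ℝ) ≤ 2 * Fintype.card S)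
    (((Reg.of Z.Y.Pos).sum (.of Z.U)).w0 c u)
  rcases i with _ | i <;> rcases u with x | ⟨x, a, b⟩
  · refine (fr_mono (E' := fun q : Z.Q.T c => q.1.1 = x) fun q h => Sum.inl.inj h).trans ?_
    rw [(MP.fst.comp MP.fst).single]
    exact le_mul_of_one_le_left (by positivity) (by linarith)
  · exact ((fr_mono (E' := fun _ => False) fun q h => Sum.inl_ne_inr h).trans fr_false.le).trans h0
  · exact ((fr_mono (E' := fun _ => False) fun q h => Sum.inr_ne_inl h).trans fr_false.le).trans h0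
  · refine (fr_mono (E' := fun q : Z.Q.T c => (tP (Z.Y.nb c) (Z.π c) q.1 i).1 = x.1 ∧ tL q.2 i = a)
      fun q h => ?_).trans ?_
    · have h' := Sum.inr.inj h
      exact ⟨congrArg (·.1.1) h', congrArg (·.2.1) h'⟩
    · rw [fr_and_prod (fun y => (tP (Z.Y.nb c) (Z.π c) y i).1 = x.1) fun z => tL z i = a,
        (mp_tP _ _ i).single, (mp_tL i).single]
      show _ ≤ 2 * (Fintype.card S : ℝ) *
        ((Fintype.card ((Z.Y.G.T c × S) × Z.Lam.T c × Bool) : ℕ) : ℝ)⁻¹
      simp only [Fintype.card_prod, Fintype.card_bool, Nat.cast_mul, Nat.cast_ofNat, mul_inv]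
      refine le_of_eq ?_
      field_simp

theorem impl_test0 [Nonempty S] (C0 : Submodule (ZMod l) (S → ZMod l)) :
    ∃ K : ℝ, 1 ≤ K ∧ ∀ η : ℝ, 0 < η →
    ImplR (ZMod l) ((Reg.of Z.Y.Pos).sum (.of Z.U)) fun c z r =>
      (∀ w v, (∀ q, AccW C0 (Z.Y.nb c) (Z.π c) Z.co w v q) →
        r ≤ K * (du (fun i => z (.inl i)) w + du (fun i => z (.inr i)) v) + η) ∧
      ∃ w v, Plur (fun i => z (.inl i)) w ∧
        fr (Z.Q.T c) (fun q => ¬ AccW C0 (Z.Y.nb c) (Z.π c) Z.co w v q) ≤ K * (r + η) ∧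
        du (fun i => z (.inr i)) v ≤ K * (r + η) := by
  have hN : (0 : ℝ) ≤ Fintype.card (Option (TA S B)) := Nat.cast_nonneg _
  have hM : (0 : ℝ) ≤ Fintype.card S := Nat.cast_nonneg _
  have hK : (1 : ℝ) ≤ 4 * (Fintype.card (Option (TA S B)) + 1) * (2 * Fintype.card S + 1) := by
    nlinarith [mul_nonneg hN hM]
  refine ⟨_, hK, fun η hη => ?_⟩
  refine (ImplR.test (I := (Reg.of Z.Y.Pos).sum (.of Z.U)) zero_ne_one Z.Q
    (fun c => by have := Z.Y.ne c; infer_instance)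
    (fun c q => tslot (Z.Y.nb c) (Z.π c) q) (fun _ _ s => tacc C0 Z.co s) Z.d_tslot
    (fun s => PT.const _) (2 * Fintype.card S) Z.dens_tslot hη).mono ?_
  intro c z r hz hr0 _ ⟨h1, h2⟩
  have := Z.Y.ne c
  have hK' : 4 * ((Fintype.card (Option (TA S B)) : ℝ) + 1) * (r + η) ≤
      4 * (Fintype.card (Option (TA S B)) + 1) * (2 * Fintype.card S + 1) * (r + η) :=
    mul_le_mul_of_nonneg_right (le_mul_of_one_le_right (by positivity) (by linarith))
      (by positivity)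
  refine ⟨fun w v h => ?_, ?_⟩
  · have h3 := h1 (Sum.elim w v) h
    have h4 : dw (((Reg.of Z.Y.Pos).sum (.of Z.U)).w c) z (Sum.elim w v) =
        du (fun i => z (.inl i)) w + du (fun i => z (.inr i)) v :=
      (dw_sum _ _ z _).trans (by rw [dw_unif, dw_unif]; rfl)
    have h5 := add_nonneg (du_nonneg (hz.comp Sum.inl) w) (du_nonneg (hz.comp Sum.inr) v)
    rw [h4] at h3
    refine h3.trans (add_le_add (mul_le_mul_of_nonneg_right ?_ h5) le_rfl)
    nlinarith [mul_nonneg hN hM]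
  · obtain ⟨u, hu⟩ := exists_plur z
    obtain ⟨h3, h4⟩ := h2 u hu
    have e : Sum.elim (fun i => u (.inl i)) (fun i => u (.inr i)) = u :=
      funext fun i => by rcases i with i | i <;> rfl
    refine ⟨fun i => u (.inl i), fun i => u (.inr i), fun x => hu _, ?_, ?_⟩
    · refine le_trans (le_of_eq ?_) (h3.trans hK')
      simp only [AccW, e]
    · have hm : MP fun q : Z.Q.T c => (q.1.1, q.2.1) := MP.prod MP.fst MP.fst
      have h5 := h4 (some (.inl .ta))
      have h6 := h4 (some (.inl .ka))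
      have h7 := hm.du (fun y => z (.inr (y.1, y.2, false))) fun y => u (.inr (y.1, y.2, false))
      have h8 := hm.du (fun y => z (.inr (y.1, y.2, true))) fun y => u (.inr (y.1, y.2, true))
      rw [du_tab, ← h7, ← h8]
      exact ((div_le_iff₀ two_pos).2 ((add_le_add h5 h6).trans (mul_two _).ge)).trans hK'

end ChD

end Vale.Agent.P330
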