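import Vale.Agent.P330.ChTest
import Vale.Agent.P330.ChCor
import Vale.Agent.P330.ChSucc

/-! Block B5: logarithmically many uniform linear steps. -/

namespace Vale.Agent.P330

open Vale.Agent.Lib.PolyTime Finset
open scoped Classical BigOperators

namespace ChD
variable {C S B : Type} [Enc C] {l : ℕ} [Fact l.Prime] [Fintype S] [Enc S] [Fintype B]
  {lam : ℝ} (Z : ChD C S B l lam) {C0 : Submodule (ZMod l) (S → ZMod l)} {δ0 : ℝ}

theorem w_zero (c : C) (u : Z.Y.Pos.T c → ZMod l) : Z.W c u 0 = Z.W c 0 0 :=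
  wd_zero.trans wd_zero.symm

theorem w_dist [Nonempty S] (c : C) (u : Z.Y.Pos.T c → ZMod l) (p : ℕ) (hp : p < Z.r c + 2) (q : ℕ)
    (hq : q < Z.r c + 2) (h : p ≠ q) : 1 / 4 ≤ hd (Z.W c u p) (Z.W c u q) :=
  haveI := Z.Y.ne c
  wd_dist _ u hp hq h

theorem w_good (c : C) {u : Z.Y.Pos.T c → ZMod l} (hu : u ∈ tcode C0 (Z.Y.nb c)) (p : ℕ) :
    GoodW (tcode C0 (Z.Y.nb c)) (Z.W c u p) := wd_good Z.co (Z.comm c) hu

theorem step_succ (hZ : ZemThm) (hT : TanGood δ0 lam S) (hd0 : Dist0 C0 δ0) {η : ℝ} (hη : 0 < η) :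
    Impl (ZMod l) ((Reg.of Z.Y.Pos).sum (.of Z.U)) (.of Z.U) fun c z y =>
      ∀ u ∈ tcode C0 (Z.Y.nb c), du (fun i => z (.inl i)) u ≤ δ0 ^ 2 / 32 →
        ∀ p, p + 1 < Z.r c + 2 → du (fun i => z (.inr i)) (Z.W c u p) ≤ δ0 ^ 2 / 256 →
          du y (Z.W c u (p + 1)) ≤ η := by
  have := hT.neS
  obtain ⟨K, hK, h⟩ := Z.impl_succ
  have he : 0 < η / (4 * K) := by positivity
  refine ((((hZ C (ZMod l) S C0 δ0 lam hT hd0 Z.Y _ he).inl (I' := .of Z.U)).par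
    ((Z.impl_cor hZ hT hd0 he).inr (I := .of Z.Y.Pos))).trans (h (η / 2) (half_pos hη))).mono ?_
  rintro c z y - - ⟨m, -, ⟨h1, h2⟩, h3⟩ u hu hx p hp hz
  have h4 := h1 u hu hx
  have h5 := h2 _ (Z.w_good c hu p) hz
  have h6 := h3 u p hp
  have h7 : K * (η / (4 * K) + η / (4 * K)) = η / 2 := by field_simp; ring
  have h8 := mul_le_mul_of_nonneg_left (add_le_add h4 h5) hK.le
  linarith

theorem step_pred (hZ : ZemThm) (hT : TanGood δ0 lam S) (hd0 : Dist0 C0 δ0) {η : ℝ} (hη : 0 < η) :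
    Impl (ZMod l) (.of Z.U) (.of Z.U) fun c z y =>
      ∀ u ∈ tcode C0 (Z.Y.nb c), ∀ p, p + 1 < Z.r c + 2 →
        du z (Z.W c u (p + 1)) ≤ δ0 ^ 2 / 256 → du y (Z.W c u p) ≤ η := by
  have := hT.neS
  refine ((Z.impl_cor hZ hT hd0 (η := η / 8) (by positivity)).trans
    (Z.impl_pred (half_pos hη))).mono ?_
  rintro c z y - - ⟨m, -, h1, h2⟩ u hu p hp hz
  have h3 := h1 _ (Z.w_good c hu _) hz
  have h4 := h2 u p hp
  linarith

/-- The codeword close to the input. -/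
noncomputable def near (C0 : Submodule (ZMod l) (S → ZMod l)) (e : ℝ) (c : C)
    (x : Z.Y.Pos.T c → ZMod l → ℝ) : Z.Y.Pos.T c → ZMod l :=
  if h : ∃ u ∈ tcode C0 (Z.Y.nb c), du x u ≤ e then h.choose else 0

omit [Fintype B] in
theorem near_spec {e : ℝ} {c : C} {x : Z.Y.Pos.T c → ZMod l → ℝ}
    (h : ∃ u ∈ tcode C0 (Z.Y.nb c), du x u ≤ e) :
    Z.near C0 e c x ∈ tcode C0 (Z.Y.nb c) ∧ du x (Z.near C0 e c x) ≤ e := by
  rw [near, dif_pos h]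
  exact h.choose_spec

theorem line_end (hH : HPVThm) (hS : SSSThm) (hZ : ZemThm) (hT : TanGood δ0 lam S)
    (hd0 : Dist0 C0 δ0) {ξ : ℝ} (hξ : 0 < ξ) : ∃ e : ℝ, 0 < e ∧ e ≤ δ0 ^ 2 / 32 ∧
    Impl (ZMod l) (.of Z.Y.Pos) ((Reg.of Z.U).sum (.of Z.U)) fun c x y =>
      (∃ u ∈ tcode C0 (Z.Y.nb c), du x u ≤ e) →
        du (fun i => y (.inl i)) (Z.W c (Z.near C0 e c x) (Z.r c + 1)) ≤ ξ := by
  have := hT.neS
  have h0 : 0 < δ0 := hT.1
  have h1 : δ0 ^ 2 ≤ 1 := pow_le_one₀ h0.le hT.2.1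
  have hδ : 0 < δ0 ^ 2 / 256 := by positivity
  obtain ⟨v1, η0, hv1, hη0, htest⟩ := Z.impl_test hS hT hd0 hδ
  obtain ⟨η, hη, a1, a2, a3⟩ : ∃ η : ℝ, 0 < η ∧ η ≤ δ0 ^ 2 / 1024 ∧ η ≤ η0 / 2 ∧ η ≤ ξ :=
    ⟨min (δ0 ^ 2 / 1024) (min (η0 / 2) ξ), by positivity, min_le_left _ _,
      (min_le_right _ _).trans (min_le_left _ _), (min_le_right _ _).trans (min_le_right _ _)⟩
  obtain ⟨e, he, e1, e2⟩ : ∃ e : ℝ, 0 < e ∧ e ≤ δ0 ^ 2 / 32 ∧ e ≤ η0 :=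
    ⟨min (δ0 ^ 2 / 32) η0, by positivity, min_le_left _ _, min_le_right _ _⟩
  refine ⟨e, he, e1, (hH C (ZMod l) zero_ne_one (.of Z.Y.Pos) Z.U
    (fun c => haveI := Z.Y.ne c; inferInstance) (fun c => Z.W c 0 0) Z.pt_src
    (fun c x => ∃ u ∈ tcode C0 (Z.Y.nb c), du x u ≤ e)
    (fun c x => chLine (Z.W c (Z.near C0 e c x)) (Z.r c + 2)) η (δ0 ^ 2 / 256) (1 / 4) (v1 / 2) v1
    hη (by linarith) (by linarith) (by linarith) (fun c x _ _ => ?_) ?_).mono ?_⟩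
  · rw [← Z.w_zero c (Z.near C0 e c x)]
    exact chLine_ok (by norm_num) (by omega) (Z.w_dist c _)
  · refine (((Z.impl_cor hZ hT hd0 hη).inr (I := .of Z.Y.Pos)).par
      ((Z.step_succ hZ hT hd0 hη).par (((Z.step_pred hZ hT hd0 hη).inr (I := .of Z.Y.Pos)).par
        htest))).mono ?_
    rintro c z y - - ⟨g1, g2, g3, g4⟩ hp
    obtain ⟨hu, hx⟩ := Z.near_spec hp
    rw [← Z.w_zero c (Z.near C0 e c fun i => z (.inl i))]
    exact chLine_step (Δ := 1 / 4) (by norm_num) (Z.w_dist c _)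
      (fun k _ hk => g1 _ (Z.w_good c hu k) hk) (fun k hk => g2 _ hu (hx.trans e1) k hk)
      (fun k hk => g3 _ hu k hk) (g4 _ hu (hx.trans e2)).1
      fun k hk h => (g4 _ hu (hx.trans e2)).2 k hk (h.trans (by linarith))
  · intro c x y _ _ h hp
    rcases h hp with ⟨u, -, hu, h⟩ | ⟨v, -, -, hv, -⟩
    · obtain rfl : u = Z.W c (Z.near C0 e c x) (Z.r c + 1) := hu
      exact h.trans a3
    · exact hv.elim

end ChD

theorem chainThm (hH : HPVThm) (hS : SSSThm) (hZ : ZemThm) : ChainThm := by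
  intro C S B _ l _ _ _ _ C0 δ0 lam hT hd0 Y π co r dπ comm hr hb η hη
  let Z : ChD C S B l lam := ⟨Y, π, co, r, dπ, comm, hr, hb⟩
  have := hT.neS
  obtain ⟨e, he, e1, h⟩ := Z.line_end hH hS hZ hT hd0 (ξ := η / 8) (by positivity)
  refine ((hZ C (ZMod l) S C0 δ0 lam hT hd0 Y e he).trans
    (h.trans ((Z.impl_out (half_pos hη)).inl (I' := .of Z.U)))).mono ?_
  rintro c x y - - ⟨x', hx', h1, m, -, h2, h3⟩ u hu hx
  have h4 := h1 u hu hx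
  obtain ⟨h5, h6⟩ := Z.near_spec ⟨u, hu, h4⟩
  have := Y.ne c
  have h7 : Z.near C0 e c x' = u := code_unique hS hT hd0 (Y.gap c) h5 hu
    ((hd_le_du hx' _ _).trans (by linarith [sq_nonneg δ0]))
  have h8 := h2 ⟨u, hu, h4⟩
  rw [h7] at h8
  have h9 := h3 u
  exact h9.trans (by linarith)

end Vale.Agent.P330
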