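import Vale.Agent.P330.CodeD

/-! Block B7: the two chains compute the diagonal sum of a tensor product. -/

namespace Vale.Agent.P330

open Finset
open scoped Classical BigOperators

theorem calg_stp_sum {F S G B I : Type} [Field F] [Fintype B] [Fintype I]
    (π : B → Equiv.Perm G) (co : B → F) (a : I → F) (y : I → G × S → F) :
    stp π co (fun x => ∑ b, a b * y b x) = fun x => ∑ b, a b * stp π co (y b) x := by
  funext x
  simp only [stp, Finset.mul_sum]
  rw [Finset.sum_comm]
  refine Finset.sum_congr rfl fun b _ => Finset.sum_congr rfl fun i _ => ?_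
  ring

theorem calg_iter_sum {F S G B I : Type} [Field F] [Fintype B] [Fintype I]
    (π : B → Equiv.Perm G) (co : B → F) (a : I → F) (r : ℕ) (y : I → G × S → F) :
    (stp π co)^[r] (fun x => ∑ b, a b * y b x) =
      fun x => ∑ b, a b * (stp π co)^[r] (y b) x := by
  induction r with
  | zero => rfl
  | succ r ih =>
    simp only [Function.iterate_succ_apply']
    rw [ih, calg_stp_sum]

theorem calg_stp_mul {F S G B : Type} [Field F] [Fintype B]
    (π : B → Equiv.Perm G) (co : B → F) (a : F) (y : G × S → F) :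
    stp π co (fun x => a * y x) = fun x => a * stp π co y x := by
  funext x
  simp only [stp, Finset.mul_sum]
  refine Finset.sum_congr rfl fun i _ => ?_
  ring

theorem calg_tens_sum {F S G T : Type} [Field F] [Fintype T] {n : ℕ} (u : Fin n → T → F)
    (y : T → G × S → F) :
    (tens fun i x => ∑ t, u i t * y t x) =
      fun x => ∑ b : Fin n → T, (∏ i, u i (b i)) * tens (fun i => y (b i)) x := by
  funext x
  simp only [tens]
  rw [Fintype.prod_sum]
  refine Finset.sum_congr rfl fun b _ => ?_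
  rw [Finset.prod_mul_distrib]

theorem calg_bool_sum {F : Type} [Field F] {n : ℕ} (c d : Fin n → F) :
    ∑ B : Fin n → Bool, ∏ i, (if B i then c i else d i) = ∏ i, (c i + d i) := by
  have h := Fintype.prod_sum (fun (i : Fin n) (b : Bool) => if b then c i else d i)
  rw [← h]
  refine Finset.prod_congr rfl fun i _ => ?_
  simp

theorem calg_coE {F : Type} [Field F] (h2 : (2 : F) ≠ 0) {n : ℕ} (c : Fin (n + 1) → F)
    (hc : ∀ i, c i = 1 ∨ c i = -1) :
    ∑ B : Fin (n + 1) → Bool, coE F (n + 1) B * ∏ i, (if B i then c i else 1) =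
      if ∀ i, c i = c 0 then 1 else 0 := by
  have h1 : ∀ B : Fin (n + 1) → Bool, coE F (n + 1) B * ∏ i, (if B i then c i else 1) =
      (∏ i, (if B i then c i else 1) + ∏ i, (if B i then -c i else 1)) / 2 ^ (n + 1) := by
    intro B
    have : ∏ i, (if B i then -c i else 1) =
        (∏ i, (if B i then (-1 : F) else 1)) * ∏ i, (if B i then c i else 1) := by
      rw [← Finset.prod_mul_distrib]
      refine Finset.prod_congr rfl fun i _ => ?_
      split_ifs <;> simp
    rw [this, coE]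
    ring
  simp only [h1]
  rw [← Finset.sum_div, Finset.sum_add_distrib, calg_bool_sum, calg_bool_sum]
  have hp : (2 : F) ^ (n + 1) ≠ 0 := pow_ne_zero _ h2
  split_ifs with h
  · rw [div_eq_one_iff_eq hp]
    rcases hc 0 with h0 | h0
    · have e1 : ∀ i, c i + 1 = 2 := fun i => by rw [h i, h0]; norm_num
      have e2 : ∀ i, -c i + 1 = 0 := fun i => by rw [h i, h0]; norm_num
      simp [e1, e2]
    · have e1 : ∀ i, c i + 1 = 0 := fun i => by rw [h i, h0]; norm_num
      have e2 : ∀ i, -c i + 1 = 2 := fun i => by rw [h i, h0]; norm_num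
      simp [e1, e2]
  · push Not at h
    obtain ⟨i, hi⟩ := h
    have : ∃ a b, c a = 1 ∧ c b = -1 := by
      rcases hc 0 with h0 | h0 <;> rcases hc i with h1 | h1
      · exact absurd (h1.trans h0.symm) hi
      · exact ⟨0, i, h0, h1⟩
      · exact ⟨i, 0, h1, h0⟩
      · exact absurd (h1.trans h0.symm) hi
    obtain ⟨a, b, ha, hb⟩ := this
    rw [Finset.prod_eq_zero (Finset.mem_univ b) (by rw [hb]; norm_num),
      Finset.prod_eq_zero (Finset.mem_univ a) (by rw [ha]; norm_num)]
    simp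

theorem calg_step1 {F S G K : Type} [Field F] (h2 : (2 : F) ≠ 0) {n : ℕ}
    (τ σ₁ : Equiv.Perm G) (e : K → G × S → F) (c : K → F) (j : ℕ)
    (he : ∀ b g s, e b ((τ ^ j) (σ₁ g), s) = c b * e b ((τ ^ j) g, s))
    (hc : ∀ b, c b = 1 ∨ c b = -1) (k : Fin (n + 1) → K) :
    stp (perB σ₁ τ) (coE F (n + 1)) (tens fun i x => e (k i) ((τ ^ j) x.1, x.2)) =
      fun x => (if ∀ i, c (k i) = c (k 0) then 1 else 0) *
        tens (fun i x => e (k i) ((τ ^ (j + 1)) x.1, x.2)) x := by
  funext x
  rw [← calg_coE h2 (fun i => c (k i)) (fun i => hc _), Finset.sum_mul]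
  simp only [stp, tens, perB, piP_apply]
  refine Finset.sum_congr rfl fun B _ => ?_
  rw [mul_assoc, ← Finset.prod_mul_distrib]
  congr 1
  refine Finset.prod_congr rfl fun i _ => ?_
  split_ifs
  · rw [Equiv.Perm.mul_apply, he, pow_succ, Equiv.Perm.mul_apply]
  · rw [one_mul, pow_succ, Equiv.Perm.mul_apply]

theorem calg_iter1 {F S G K : Type} [Field F] (h2 : (2 : F) ≠ 0) {n r : ℕ}
    (τ σ₁ : Equiv.Perm G) (e : K → G × S → F) (χ : ℕ → K → F)
    (he : ∀ j < r, ∀ b g s, e b ((τ ^ j) (σ₁ g), s) = χ j b * e b ((τ ^ j) g, s))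
    (hχ : ∀ j b, χ j b = 1 ∨ χ j b = -1) (k : Fin (n + 1) → K) (j : ℕ) (hj : j ≤ r) :
    (stp (perB σ₁ τ) (coE F (n + 1)))^[j] (tens fun i => e (k i)) =
      fun x => (if ∀ j' < j, ∀ i, χ j' (k i) = χ j' (k 0) then 1 else 0) *
        tens (fun i x => e (k i) ((τ ^ j) x.1, x.2)) x := by
  induction j with
  | zero =>
    funext x
    simp
  | succ j ih =>
    rw [Function.iterate_succ_apply', ih (by omega), calg_stp_mul,
      calg_step1 h2 τ σ₁ e (χ j) j (he j (by omega)) (hχ j) k]
    funext x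
    rw [← mul_assoc]
    congr 1
    by_cases h : ∀ j' < j + 1, ∀ i, χ j' (k i) = χ j' (k 0)
    · rw [if_pos h, if_pos (fun j' hj' => h j' (by omega)), if_pos (h j (by omega)), one_mul]
    · rw [if_neg h]
      by_cases h1 : ∀ j' < j, ∀ i, χ j' (k i) = χ j' (k 0)
      · rw [if_neg (c := ∀ i, χ j (k i) = χ j (k 0)), mul_zero]
        intro h3
        apply h
        intro j' hj'
        rcases Nat.lt_succ_iff_lt_or_eq.1 hj' with h4 | h4
        · exact h1 j' h4
        · rw [h4]; exact h3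
      · rw [if_neg h1, zero_mul]

theorem calg_step2 {F S G : Type} [Field F] {n : ℕ} (τ σ₂ : Equiv.Perm G)
    (y : Fin n → G × S → F) :
    stp (perB σ₂ τ) (fun _ => 1) (tens y) =
      tens fun i => stp (fun b : Bool => if b then σ₂ * τ else τ) (fun _ => 1) (y i) := by
  funext x
  simp only [stp, tens, perB, piP_apply, one_mul]
  rw [Fintype.prod_sum]

theorem calg_iter2 {F S G : Type} [Field F] {n : ℕ} (τ σ₂ : Equiv.Perm G) (r : ℕ)
    (y : Fin n → G × S → F) :
    (stp (perB σ₂ τ) fun _ => 1)^[r] (tens y) =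
      tens fun i => (stp (fun b : Bool => if b then σ₂ * τ else τ) fun _ => 1)^[r] (y i) := by
  induction r with
  | zero => rfl
  | succ r ih =>
    simp only [Function.iterate_succ_apply']
    rw [ih, calg_step2]

theorem chain_alg {F S G K T : Type} [Field F] [Fintype T] (h2 : (2 : F) ≠ 0) {n r : ℕ}
    (τ σ₁ σ₂ : Equiv.Perm G) (e : K → G × S → F) (E : G × S → F) (χ : ℕ → K → F)
    (he : ∀ j < r, ∀ b g s, e b ((τ ^ j) (σ₁ g), s) = χ j b * e b ((τ ^ j) g, s))
    (hχ : ∀ j b, χ j b = 1 ∨ χ j b = -1) (hi : ∀ b b', (∀ j < r, χ j b = χ j b') → b = b')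
    (hE : ∀ b, (stp (fun i : Bool => if i then σ₂ * τ else τ) fun _ => 1)^[r]
      (fun x => e b ((τ ^ r) x.1, x.2)) = E)
    (ι : T → K) (hι : Function.Injective ι) (u : Fin (n + 1) → T → F) :
    (stp (perB σ₂ τ) fun _ => 1)^[r] ((stp (perB σ₁ τ) (coE F (n + 1)))^[r]
      (tens fun i x => ∑ t, u i t * e (ι t) x)) =
      fun x => (∑ t, ∏ i, u i t) * tens (fun _ : Fin (n + 1) => E) x := by
  rw [calg_tens_sum u (fun t => e (ι t)), calg_iter_sum]
  have h1 : ∀ b : Fin (n + 1) → T, ∀ x,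
      (∏ i, u i (b i)) * (stp (perB σ₁ τ) (coE F (n + 1)))^[r] (tens fun i => e (ι (b i))) x =
      ((∏ i, u i (b i)) * if ∀ i, b i = b 0 then 1 else 0) *
        tens (fun i x => e (ι (b i)) ((τ ^ r) x.1, x.2)) x := by
    intro b x
    have h0 : (∀ j' < r, ∀ i, χ j' (ι (b i)) = χ j' (ι (b 0))) ↔ ∀ i, b i = b 0 :=
      ⟨fun h i => hι (hi _ _ fun j hj => h j hj i), fun h j _ i => by rw [h i]⟩
    rw [calg_iter1 h2 τ σ₁ e χ he hχ (fun i => ι (b i)) r le_rfl, mul_assoc]
    simp only [h0]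
  simp only [h1]
  rw [calg_iter_sum]
  funext x
  simp only [calg_iter2, hE]
  rw [← Finset.sum_mul]
  congr 1
  symm
  simp only [mul_ite, mul_one, mul_zero]
  rw [← Finset.sum_filter]
  refine Finset.sum_bij (fun t _ => fun _ => t) (fun t _ => by simp) ?_ ?_ (fun t _ => rfl)
  · intro a _ b _ h
    exact congrFun h 0
  · intro b hb
    refine ⟨b 0, Finset.mem_univ _, ?_⟩
    funext i
    exact ((Finset.mem_filter.1 hb).2 i).symm

end Vale.Agent.P330
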