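import Vale.Agent.P330.CodeD

/-! Block B7: the spectral gap of a product graph. -/

namespace Vale.Agent.P330

open Finset
open scoped Classical BigOperators

theorem cgap_orth {X : Type} [Fintype X] (A : X → ℝ) (hA : ∑ x, A x = 0) (c : ℝ) :
    ∑ x, (A x + c) ^ 2 = ∑ x, A x ^ 2 + Fintype.card X * c ^ 2 := by
  have h1 : ∀ x, (A x + c) ^ 2 = A x ^ 2 + 2 * c * A x + c ^ 2 := fun x => by ring
  simp only [h1, sum_add_distrib, ← mul_sum, hA, sum_const, card_univ, nsmul_eq_mul]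
  ring

theorem cgap_jensen {T : Type} [Fintype T] [Nonempty T] (g : T → ℝ) :
    (𝔼 t, g t) ^ 2 ≤ 𝔼 t, g t ^ 2 := by
  have h := Finset.expect_mul_sq_le_sq_mul_sq (univ : Finset T) g (fun _ => (1 : ℝ))
  simpa [Finset.expect_const univ_nonempty] using h

theorem cgap_prod {S T X Y : Type} [Fintype S] [Nonempty S] [Fintype T] [Nonempty T] [Fintype X]
    [Fintype Y] (a : S → Equiv.Perm X) (b : T → Equiv.Perm Y) {lam : ℝ}
    (ha : P325.Gap (fun s g => a s g) lam) (hb : P325.Gap (fun s g => b s g) lam) :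
    P325.Gap (fun (p : S × T) (x : X × Y) => (a p.1 x.1, b p.2 x.2)) lam := by
  intro f hf
  rcases isEmpty_or_nonempty X with hX | hX
  · simp
  set m : Y → ℝ := fun y => 𝔼 x, f (x, y) with hm
  set f1 : X → Y → ℝ := fun x y => f (x, y) - m y with hf1
  have hcard : (Fintype.card X : ℝ) ≠ 0 := by exact_mod_cast Fintype.card_ne_zero
  have hmy : ∀ y, (Fintype.card X : ℝ) * m y = ∑ x, f (x, y) := by
    intro y
    simp only [hm, Finset.expect_eq_sum_div_card, card_univ]
    field_simp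
  have h0 : ∀ y, ∑ x, f1 x y = 0 := by
    intro y
    simp only [hf1, sum_sub_distrib, sum_const, card_univ, nsmul_eq_mul, hmy, sub_self]
  have hm0 : ∑ y, m y = 0 := by
    have h2 : (Fintype.card X : ℝ) * ∑ y, m y = 0 := by
      rw [mul_sum]
      simp only [hmy]
      rw [← hf, Fintype.sum_prod_type_right]
    exact (mul_eq_zero.1 h2).resolve_left hcard
  have hsq : ∑ x, f x ^ 2 = ∑ y, ∑ x, f1 x y ^ 2 + Fintype.card X * ∑ y, m y ^ 2 := by
    rw [Fintype.sum_prod_type_right, mul_sum, ← sum_add_distrib]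
    refine sum_congr rfl fun y _ => ?_
    rw [← cgap_orth (fun x => f1 x y) (h0 y) (m y)]
    refine sum_congr rfl fun x _ => ?_
    simp only [hf1, sub_add_cancel]
  set A : X → Y → ℝ := fun x y => 𝔼 t, 𝔼 s, f1 (a s x) (b t y) with hA
  set B : Y → ℝ := fun y => 𝔼 t, m (b t y) with hB
  have hE : ∀ x y, (𝔼 p : S × T, f (a p.1 x, b p.2 y)) = A x y + B y := by
    intro x y
    rw [← univ_product_univ, Finset.expect_product' univ univ (fun s t => f (a s x, b t y)),
      Finset.expect_comm]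
    simp only [hA, hB]
    rw [← Finset.expect_add_distrib]
    refine Finset.expect_congr rfl fun t _ => ?_
    simp only [hf1]
    rw [Finset.expect_sub_distrib, Finset.expect_const univ_nonempty, sub_add_cancel]
  have hA0 : ∀ y, ∑ x, A x y = 0 := by
    intro y
    simp only [hA]
    rw [← Finset.expect_sum_comm]
    refine Finset.expect_eq_zero fun t _ => ?_
    rw [← Finset.expect_sum_comm]
    refine Finset.expect_eq_zero fun s _ => ?_
    rw [Equiv.sum_comp (a s) (fun x => f1 x (b t y))]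
    exact h0 _
  have hAle : ∑ y, ∑ x, A x y ^ 2 ≤ lam ^ 2 * ∑ y, ∑ x, f1 x y ^ 2 := by
    calc ∑ y, ∑ x, A x y ^ 2 ≤ ∑ y, ∑ x, 𝔼 t, (𝔼 s, f1 (a s x) (b t y)) ^ 2 :=
          sum_le_sum fun y _ => sum_le_sum fun x _ => cgap_jensen _
      _ = 𝔼 t, ∑ y, ∑ x, (𝔼 s, f1 (a s x) (b t y)) ^ 2 := by
          rw [Finset.expect_sum_comm]
          refine sum_congr rfl fun y _ => ?_
          rw [Finset.expect_sum_comm]
      _ ≤ 𝔼 _t : T, lam ^ 2 * ∑ y, ∑ x, f1 x y ^ 2 := by
          refine Finset.expect_le_expect fun t _ => ?_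
          rw [← Equiv.sum_comp (b t) (fun y => ∑ x, f1 x y ^ 2), mul_sum]
          exact sum_le_sum fun y _ => ha (fun x => f1 x (b t y)) (h0 _)
      _ = _ := Finset.expect_const univ_nonempty _
  have hBle : ∑ y, B y ^ 2 ≤ lam ^ 2 * ∑ y, m y ^ 2 := hb m hm0
  have hL : ∑ x : X × Y, (𝔼 p : S × T, f (a p.1 x.1, b p.2 x.2)) ^ 2
      = ∑ y, ∑ x, A x y ^ 2 + Fintype.card X * ∑ y, B y ^ 2 := by
    rw [Fintype.sum_prod_type_right, mul_sum, ← sum_add_distrib]
    refine sum_congr rfl fun y _ => ?_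
    rw [← cgap_orth (fun x => A x y) (hA0 y) (B y)]
    refine sum_congr rfl fun x _ => ?_
    rw [hE]
  show ∑ x : X × Y, (𝔼 p : S × T, f (a p.1 x.1, b p.2 x.2)) ^ 2 ≤ _
  rw [hL, hsq, mul_add]
  have h3 : (Fintype.card X : ℝ) * ∑ y, B y ^ 2 ≤ Fintype.card X * (lam ^ 2 * ∑ y, m y ^ 2) :=
    mul_le_mul_of_nonneg_left hBle (Nat.cast_nonneg _)
  linarith

theorem cgap_congr {P P2 X X2 : Type} [Fintype P] [Fintype P2] [Fintype X] [Fintype X2]
    (π : P → X → X) (π2 : P2 → X2 → X2) (eP : P ≃ P2) (eX : X ≃ X2)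
    (he : ∀ p x, eX (π p x) = π2 (eP p) (eX x)) {lam : ℝ} (h : P325.Gap π lam) :
    P325.Gap π2 lam := by
  intro f hf
  have h1 := h (fun x => f (eX x)) (by rw [Equiv.sum_comp eX f, hf])
  rw [Equiv.sum_comp eX (fun x => f x ^ 2)] at h1
  rw [← Equiv.sum_comp eX (fun x => (𝔼 p, f (π2 p x)) ^ 2)]
  refine le_of_eq_of_le (sum_congr rfl fun x _ => ?_) h1
  rw [Fintype.expect_equiv eP (fun p => f (eX (π p x))) (fun p => f (π2 p (eX x)))
    (fun p => by rw [he])]

theorem gap_pi {S G : Type} [Fintype S] [Nonempty S] [Fintype G] (nb : S → Equiv.Perm G) {lam : ℝ}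
    (h : P325.Gap (fun s g => nb s g) lam) (n : ℕ) :
    P325.Gap (fun s g => nbP nb n s g) lam := by
  induction n with
  | zero =>
    intro f hf
    have hz : ∀ x, f x = 0 := by
      intro x
      rw [Fintype.sum_unique] at hf
      rw [Subsingleton.elim x default, hf]
    simp [hz]
  | succ n ih =>
    refine cgap_congr _ _ (Fin.consEquiv fun _ : Fin (n + 1) => S)
      (Fin.consEquiv fun _ : Fin (n + 1) => G) ?_ (cgap_prod nb (nbP nb n) h ih)
    rintro ⟨s, t⟩ ⟨g, k⟩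
    funext i
    refine Fin.cases ?_ (fun j => ?_) i
    · simp [nbP, Fin.consEquiv]
    · simp [nbP, Fin.consEquiv]

end Vale.Agent.P330
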