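import Vale.Agent.P330.CodeQ
import Vale.Agent.P330.CodeGap
import Vale.Agent.P330.CodeDist
import Vale.Agent.P330.CodeAlg

/-! Block B7: the gadget for the diagonal sum of four codewords. -/

namespace Vale.Agent.P330

open Vale.Agent.Lib.PolyTime Finset
open scoped Classical BigOperators

variable {C : Type} [Enc C]

/-- Powers of a family of expanders. -/
@[reducible] noncomputable def TSys.pw {S : Type} [Fintype S] [Nonempty S] {lam : ℝ}
    (Y : TSys C S lam) (n : ℕ) : TSys C (Fin n → S) lam where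
  G := Y.G.pw n
  ne c := ⟨fun _ => (Y.ne c).some⟩
  nb c := nbP (Y.nb c) n
  d_nb s := cq_fn_const fun i => (Y.d_nb (s i)).app pt_sigma_fst (cq_app_const D.sigma_snd i)
  gap c := gap_pi _ (Y.gap c) n

theorem cquad_sub {X : Type} [Fintype X] (p : X → Prop) [Fintype {x // p x}] {θ : ℝ} (hθ : 0 < θ)
    (h : θ ≤ fr X p) : Nonempty {x // p x} ∧
      (Fintype.card {x // p x} : ℝ)⁻¹ ≤ θ⁻¹ * (Fintype.card X : ℝ)⁻¹ := by
  have hne : (univ.filter p).Nonempty := by
    by_contra h0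
    rw [fr, not_nonempty_iff_eq_empty.1 h0] at h
    simp only [card_empty, Nat.cast_zero, zero_div] at h
    linarith
  obtain ⟨x, hx⟩ := hne
  have : Nonempty X := ⟨x⟩
  have h3 : (0 : ℝ) < Fintype.card X := by exact_mod_cast Fintype.card_pos
  rw [fr, le_div_iff₀ h3] at h
  rw [← mul_inv, Fintype.card_subtype]
  exact ⟨⟨⟨x, (mem_filter.1 hx).2⟩⟩, inv_anti₀ (mul_pos hθ h3) h⟩

theorem cquad_read {l : ℕ} [Fact l.Prime] (U : Fam C) (E : ∀ c, U.T c → ZMod l)
    (hE : PT fun z : Σ c, U.T c => E z.1 z.2) {θ : ℝ} (hθ : 0 < θ)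
    (hs : ∀ c, θ ≤ fr (U.T c) fun x => E c x ≠ 0) {η : ℝ} (hη : 0 < η) :
    Impl (ZMod l) (.of U) (.unit C) fun c x y =>
      ∀ a, 1 - (θ⁻¹ * du x (fun z => a * E c z) + η) ≤ y () a := by
  have hp : PT fun z : Σ c, U.T c => E z.1 z.2 ≠ 0 := PT.ne hE (PT.const 0)
  have hv : D fun z : Σ c, Unit × {x // E c x ≠ 0} => z.2.2.1 := (D.snd D.sigma_snd).val
  have hsub := fun c => @cquad_sub (U.T c) _ (fun x => E c x ≠ 0)
    ((U.sub (fun c x => E c x ≠ 0) hp).fin c) _ hθ (hs c)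
  refine cq_unit ((Impl.det (F := ZMod l) (I := .of U) (A := Unit) (Fam.const C Unit)
    (U.sub (fun c x => E c x ≠ 0) hp)
    (fun c => (hsub c).1) (fun _ => ⟨()⟩)
    (fun _ _ ρ _ => ρ.1) (fun c _ ρ s => s () * (E c ρ.1)⁻¹) (fun _ => hv)
    (fun s => pt_mulZ (PT.const _) (pt_invZ (hE.comp (pt_sigma_mk pt_sigma_fst hv)))) θ⁻¹
    (fun c i u => ?_) hη).mono ?_)
  · refine (@cq_fr_single _ (_) _ fun x y a b =>
      Prod.ext rfl (Subtype.ext (a.trans b.symm))).trans ?_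
    simp only [Fintype.card_prod, Fintype.card_unique, one_mul]
    exact (hsub c).2
  · intro c x y _ _ H a
    have := H (fun z => a * E c z) (fun _ => a) fun _ ρ => mul_inv_cancel_right₀ ρ.2 a
    rw [cq_dw_of x] at this
    simp only [du, Fintype.card_unique, Nat.cast_one, one_mul, univ_unique,
      expect_singleton] at this ⊢
    linarith

theorem cquad_size (n : ℕ) : 2 ^ (Nat.size n + 1) ≤ 4 * n + 2 := by
  rcases Nat.eq_zero_or_pos n with rfl | h
  · simp
  · obtain ⟨k, hk⟩ : ∃ k, Nat.size n = k + 1 := ⟨Nat.size n - 1, by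
      have := Nat.size_pos.2 h; omega⟩
    have : 2 ^ k ≤ n := Nat.lt_size.1 (by omega)
    rw [hk, pow_succ, pow_succ]; omega

theorem cquad_per {G : C → Type} [∀ c, Enc (G c)] {σ τ : ∀ c, Equiv.Perm (G c)}
    (dσ : D2 fun c g => σ c g) (dτ : D2 fun c g => τ c g) {n : ℕ} (B : Fin n → Bool) :
    D2 fun c g => perB (σ c) (τ c) B g := by
  refine cq_fn_const fun i => ?_
  have h := dτ.app pt_sigma_fst (cq_app_const (D.sigma_snd (X := fun c => Fin n → G c)) i)
  rcases hB : B i with _ | _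
  · exact h.congr fun z => by simp [perB, hB]
  · exact (dσ.app pt_sigma_fst h).congr fun z => by simp [perB, hB]

theorem cquad_comm {S G : Type} {nb : S → Equiv.Perm G} {σ τ : Equiv.Perm G}
    (hσ : ∀ s g, σ (nb s g) = nb s (σ g)) (hτ : ∀ s g, τ (nb s g) = nb s (τ g)) {n : ℕ}
    (B : Fin n → Bool) (s : Fin n → S) (g : Fin n → G) :
    perB σ τ B (nbP nb n s g) = nbP nb n s (perB σ τ B g) := by
  funext i
  rcases hB : B i with _ | _ <;> simp [perB, nbP, hB, hσ, hτ]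

theorem quadThm (hS : SSSThm) (hD : DecThm) (hC : ChainThm) (hH : HeisThm) : QuadThm := by
  obtain ⟨l, hl, S, _, _, C0, h3, hn, hd, H⟩ := hH (1 / (64 * 81 ^ 2)) (512 * 81 ^ 3) (by norm_num)
  have hn' : (512 * 81 ^ 3 : ℝ) ≤ Fintype.card S := by exact_mod_cast hn
  have hSne : Nonempty S := Fintype.card_pos_iff.1 (by omega)
  have g1 : TanGood (1 / 3) (1 / (64 * 81 ^ 2)) S :=
    ⟨by norm_num, by norm_num, by norm_num, by norm_num, by linarith⟩
  have g4 : TanGood ((1 / 3) ^ 4) (1 / (64 * 81 ^ 2)) (Fin 4 → S) := by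
    refine ⟨by norm_num, by norm_num, by norm_num, by norm_num, ?_⟩
    have : (Fintype.card S : ℝ) ≤ Fintype.card (Fin 4 → S) := by
      exact_mod_cast Fintype.card_le_of_injective (fun s _ => s) fun a b e => congrFun e 0
    linarith
  have d4 := dist_pw (by norm_num) hd 4
  have h2 : (2 : ZMod l) ≠ 0 := fun h => by
    have : l ∣ 2 := (ZMod.natCast_eq_zero_iff 2 l).1 (by exact_mod_cast h)
    have := Nat.le_of_dvd (by norm_num) this
    omega
  refine ⟨l, hl, ((1 / 3) ^ 4) ^ 2 / 32, (1 / 3) ^ 2 / 8, h3, by norm_num, by norm_num,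
    fun C _ T => ?_⟩
  let r : C → ℕ := fun c => Nat.size (Fintype.card (T.T c)) + 1
  have hr : PT r := (Q.pt_size T.pf.pt_card).add (PT.const 1)
  have hr2 : PB fun c => 2 ^ r c := (T.pf.pb_card.lin 4 2).of_le fun c => cquad_size _
  have hrl : PB fun c => l ^ r c := (hr2.pow l).of_le fun c => by
    rw [← pow_mul, mul_comm, pow_mul]
    exact Nat.pow_le_pow_left Nat.lt_two_pow_self.le _
  obtain ⟨Y, τ, σ₁, σ₂, e, rd, E, χ, dτ, dσ₁, dσ₂, pe, prd, pE, hc⟩ :=
    H C r hr hr2 fun c => Nat.le_add_left _ _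
  obtain ⟨q, dq, -⟩ := T.pf.equiv
  have hle : ∀ c, Fintype.card (T.T c) ≤ 2 ^ r c := fun c =>
    (Nat.lt_size_self _).le.trans (Nat.pow_le_pow_right (by norm_num) (Nat.le_succ _))
  let μ : ∀ c, T.T c → Fin (2 ^ r c) := fun c t => Fin.castLE (hle c) (q c t)
  have hμ : ∀ c, Function.Injective (μ c) := fun c =>
    (Fin.castLE_injective _).comp (q c).injective
  have dμ : D2 μ := D.fin_iff.2 (D.fin_iff.1 dq)
  have hne : ∀ c, Nonempty (Y.G.T c) := Y.ne
  have hcw : ∀ c (A : Type) [Fintype A] (ι : A → T.T c) (w : A → ZMod l),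
      cw (fun x a => e c (μ c (ι a)) x) w = fun x => ∑ a, w a * e c (μ c (ι a)) x :=
    fun c A _ ι w => funext fun x => sum_congr rfl fun a _ => mul_comm _ _
  have hmem : ∀ c (A : Type) [Fintype A] (ι : A → T.T c) (w : A → ZMod l),
      (fun x => ∑ a, w a * e c (μ c (ι a)) x) ∈ tcode C0 (Y.nb c) :=
    fun c A _ ι w => sum_mem_tcode w fun a => (hc c).2.1 _
  have hrd : ∀ c (A : Type) [Fintype A] (ι : A → T.T c), Function.Injective ι →
      ∀ (w : A → ZMod l) a, ∑ x, rd c (μ c (ι a)) x * ∑ a', w a' * e c (μ c (ι a')) x = w a := by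
    intro c A _ ι hι w a
    simp only [mul_sum]
    rw [sum_comm]
    have : ∀ a', ∑ x, rd c (μ c (ι a)) x * (w a' * e c (μ c (ι a')) x) =
        if a = a' then w a' else 0 := fun a' => by
      simp only [mul_left_comm _ (w a'), ← mul_sum, (hc c).2.2.2.2.2.2.2, (hμ c).eq_iff, hι.eq_iff]
      split_ifs <;> simp
    simp [this]
  refine ⟨Y.Pos, fun c x t => e c (μ c t) x, fun c => inferInstance,
    pe.comp (pt_sigma_mk (X := fun c => Fin (2 ^ r c) × Y.Pos.T c) pt_sigma_fst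
      ((dμ.app pt_sigma_fst (D.snd D.sigma_snd)).pair (D.fst D.sigma_snd))),
    fun c A _ ι hι w w' hw => ?_, fun η hη => ?_, fun B _ p u hp hu => ?_⟩
  · refine (supp_large hS g1 hd (Y.gap c) (hmem c A ι (w - w')) fun h0 => hw ?_).le.trans_eq ?_
    · funext a
      have := hrd c A ι hι (w - w') a
      have h1 : ∀ x, ∑ a', (w - w') a' * e c (μ c (ι a')) x = 0 := congrFun h0
      simp only [h1, mul_zero, sum_const_zero] at this
      exact sub_eq_zero.1 this.symm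
    · simp only [P330.hd, hcw, Pi.sub_apply, sub_mul, sum_sub_distrib, sub_ne_zero]
  · have hEm : ∀ c, E c ∈ tcode C0 (Y.nb c) := fun c => by
      rw [← (hc c).2.2.2.2.2.1 ⟨0, by positivity⟩]
      refine stp_iter_mem _ (fun i s g => ?_)
        (shift_mem (fun s g => ((hc c).1 s g).1) ((hc c).2.1 _) _) _
      cases i <;> simp [((hc c).1 s _).1, ((hc c).1 s _).2.2]
    have hθ : (0 : ℝ) < ((1 / 3) ^ 4) ^ 2 / 8 := by norm_num
    have c1 := fun c => cquad_comm (n := 4) (fun s g => ((hc c).1 s g).2.1)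
      fun s g => ((hc c).1 s g).1
    have c2 := fun c => cquad_comm (n := 4) (fun s g => ((hc c).1 s g).2.2)
      fun s g => ((hc c).1 s g).1
    have k1 := hC C (Fin 4 → S) (Fin 4 → Bool) l (pwC C0 4) _ _ g4 d4 (Y.pw 4)
      (fun c => perB (σ₁ c) (τ c)) (coE _ 4) r (cquad_per dσ₁ dτ) c1 hr hrl
      (((1 / 3) ^ 4) ^ 2 / 32) (by norm_num)
    have k2 := hC C (Fin 4 → S) (Fin 4 → Bool) l (pwC C0 4) _ _ g4 d4 (Y.pw 4)
      (fun c => perB (σ₂ c) (τ c)) (fun _ => 1) r (cquad_per dσ₂ dτ) c2 hr hrl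
      (((1 / 3) ^ 4) ^ 2 / 8 * (η / 2)) (by positivity)
    have k3 := cquad_read (Y.pw 4).Pos (fun c => tens fun _ : Fin 4 => E c) (by
      simp only [tens, Fin.prod_univ_four]
      have := fun i : Fin 4 => pE.comp (pt_sigma_mk (X := Y.Pos.T)
        (pt_sigma_fst (X := (Y.pw 4).Pos.T))
        ((cq_app_const (D.fst D.sigma_snd) i).pair (cq_app_const (D.snd D.sigma_snd) i)))
      exact pt_mulZ (pt_mulZ (pt_mulZ (this 0) (this 1)) (this 2)) (this 3)) hθ (fun c => by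
        obtain ⟨x, hx⟩ := Function.ne_iff.1 (hc c).2.2.2.2.2.2.1
        have := (Y.pw 4).ne c
        exact (supp_large hS g4 d4 ((Y.pw 4).gap c) (tens_mem fun _ => hEm c) (Function.ne_iff.2
          ⟨(fun _ => x.1, fun _ => x.2), prod_ne_zero_iff.2 fun _ _ => hx⟩)).le) (half_pos hη)
    refine (cq_rename (U' := Y.Pos.pw 4) ((k1.trans k2).trans k3)
      (fun c => (Equiv.arrowProdEquivProdArrow _ _ _).symm) (cq_fn_const fun i =>
        (cq_app_const (D.fst D.sigma_snd) i).pair (cq_app_const (D.snd D.sigma_snd) i))).mono ?_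
    rintro c x y - - ⟨m2, -, ⟨m1, -, a1, a2⟩, a3⟩ A _ ι hι u hu
    have t1 := tens_mem fun i => hmem c A ι (u i)
    have b1 := a1 _ t1 (le_of_eq_of_le (Fintype.expect_equiv
      (Equiv.arrowProdEquivProdArrow _ _ _).symm _ _ fun z => by simp only [hcw]; rfl) hu)
    have b2 := a2 _ (stp_iter_mem _ (c1 c) t1 _) b1
    rw [chain_alg (n := 3) h2 (τ c) (σ₁ c) (σ₂ c) (e c) (E c) (χ c) (hc c).2.2.1 (hc c).2.2.2.1
      (hc c).2.2.2.2.1 (hc c).2.2.2.2.2.1 (fun a => μ c (ι a)) ((hμ c).comp hι) u] at b2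
    refine le_trans ?_ (a3 _)
    have := mul_le_mul_of_nonneg_left b2 (inv_pos.2 hθ).le
    rw [inv_mul_cancel_left₀ hθ.ne'] at this
    linarith
  · obtain ⟨v, hv, hv'⟩ := hD C (ZMod l) S C0 _ _ g1 hd Y B p u hp hu
    have hb : PT fun z : Σ b, T.T (p b) => z.1 := pt_sigma_fst
    refine ⟨fun b t => ∑ x, rd (p b) (μ _ t) x * v b x, (Y.Pos.pf.comap (hp.comp hb)).pt_sumZ
      (pt_mulZ (prd.comp (pt_sigma_mk (X := fun c => Fin (2 ^ r c) × Y.Pos.T c)
        ((hp.comp hb).comp pt_sigma_fst)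
        (((dμ.app (hp.comp hb) D.sigma_snd).comp pt_sigma_fst).pair D.sigma_snd)))
        (hv.comp (pt_sigma_mk (hb.comp pt_sigma_fst) D.sigma_snd))), fun b A _ ι hι w hw a => ?_⟩
    rw [hcw] at hw
    simp only [hv' b _ (hmem _ A ι w) (hw.trans (by norm_num))]
    exact hrd _ A ι hι w a

end Vale.Agent.P330
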