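import Vale.Agent.P330.CodeTop
import Vale.Agent.P330.CodeQuad

/-! Block B7: a code on which cubic functionals of the message are implemented. -/

namespace Vale.Agent.P330

theorem codeThm (hS : SSSThm) (hD : DecThm) (hC : ChainThm) (hH : HeisThm) : CodeThm :=
  code_of_quad (quadThm hS hD hC hH)

end Vale.Agent.P330
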