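import Vale.Agent.P330.Ifc

/-! Block B7: tensor powers of Tanner codes, definitions. -/

namespace Vale.Agent.P330

open Finset
open scoped Classical BigOperators

variable {F S G : Type} {n : ℕ}

/-- Coordinatewise permutations. -/
def piP (σ : Fin n → Equiv.Perm G) : Equiv.Perm (Fin n → G) := Equiv.piCongrRight σ

@[simp] theorem piP_apply (σ : Fin n → Equiv.Perm G) (g : Fin n → G) (i : Fin n) :
    piP σ g i = σ i (g i) := rfl

@[simp] theorem piP_inv_apply (σ : Fin n → Equiv.Perm G) (g : Fin n → G) (i : Fin n) :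
    (piP σ)⁻¹ g i = (σ i)⁻¹ (g i) := rfl

/-- The neighbours in the product graph. -/
def nbP (nb : S → Equiv.Perm G) (n : ℕ) (s : Fin n → S) : Equiv.Perm (Fin n → G) :=
  piP fun i => nb (s i)

/-- The product code: all lines parallel to the axes are codewords. -/
def pwC [Field F] (C0 : Submodule F (S → F)) (n : ℕ) : Submodule F ((Fin n → S) → F) where
  carrier := {y | ∀ i s, (fun t => y (Function.update s i t)) ∈ C0}
  add_mem' ha hb i s := C0.add_mem (ha i s) (hb i s)
  zero_mem' _ _ := C0.zero_mem
  smul_mem' a _ h i s := C0.smul_mem a (h i s)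

theorem mem_pwC [Field F] {C0 : Submodule F (S → F)} {y : (Fin n → S) → F} :
    y ∈ pwC C0 n ↔ ∀ i s, (fun t => y (Function.update s i t)) ∈ C0 := Iff.rfl

/-- Tensor products of words. -/
def tens [CommRing F] (y : Fin n → G × S → F) (x : (Fin n → G) × (Fin n → S)) : F :=
  ∏ i, y i (x.1 i, x.2 i)

/-- The coefficients that test equality of signs. -/
def coE (F : Type) [Field F] (n : ℕ) (B : Fin n → Bool) : F :=
  (1 + ∏ i, if B i then -1 else 1) / 2 ^ n

/-- The moves in the product graph. -/
def perB (σ τ : Equiv.Perm G) (B : Fin n → Bool) : Equiv.Perm (Fin n → G) :=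
  piP fun i => if B i then σ * τ else τ

end Vale.Agent.P330
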