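import Vale.Agent.P330.CodeQ

/-! Block B7: one level of products, for an array of output symbols. -/

namespace Vale.Agent.P330

open Vale.Agent.Lib.PolyTime Finset
open scoped Classical BigOperators

variable {C : Type} [Enc C]

theorem clev_fr_coord {X : Type} [Fintype X] [Nonempty X] {n : ℕ} (i : Fin n) (E : X → Prop) :
    fr ((Fin n → X) × Unit) (fun z => E (z.1 i)) = fr X E := by
  obtain ⟨m, rfl⟩ : ∃ m, n = m + 1 := ⟨n - 1, by have := i.2; omega⟩
  have hc : (univ.filter fun z : (Fin (m + 1) → X) × Unit => E (z.1 i)).card =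
      (univ.filter E).card * Fintype.card X ^ m := by
    have h1 : (univ.filter fun z : (Fin (m + 1) → X) × Unit => E (z.1 i)).card =
        (univ.filter fun z : X × (Fin m → X) => E z.1).card := by
      refine Finset.card_equiv ((Equiv.prodUnique _ _).trans
        (Fin.insertNthEquiv (fun _ => X) i).symm) fun z => ?_
      simp [Fin.insertNthEquiv]
    have h2 : (univ.filter fun z : X × (Fin m → X) => E z.1) = (univ.filter E) ×ˢ univ := by
      ext z; simp
    rw [h1, h2, card_product]; simp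
  have hX : (0 : ℝ) < Fintype.card X := by exact_mod_cast Fintype.card_pos
  rw [fr, fr, hc]
  simp only [Fintype.card_prod, Fintype.card_pi, Fintype.card_unique, mul_one, prod_const,
    card_univ, Fintype.card_fin]
  push_cast
  field_simp
  ring

theorem clev_level {l : ℕ} [NeZero l] {X : Fam C} (hX : ∀ c, Nonempty (X.T c))
    (R : ∀ c, ((Fin 4 → X.T c) → ZMod l) → ZMod l → Prop) {δ : ℝ} (hδ : 0 < δ)
    (hQ : ∀ η : ℝ, 0 < η → Impl (ZMod l) (.of (X.pw 4)) (.unit C) fun c x y =>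
      ∀ W a, R c W a → du x W ≤ δ → 1 - η ≤ y () a)
    (I : Reg C) (J : Fam C) (hJ : ∀ c, Nonempty (J.T c))
    (sl : ∀ c, J.T c → Fin 4 → X.T c → I.T c)
    (fn : ∀ c, J.T c → Fin 4 → X.T c → ZMod l → ZMod l)
    (ds : ∀ i, D3 fun c j x => sl c j i x)
    (df : ∀ i a, PT fun z : Σ c, J.T c × X.T c => fn z.1 z.2.1 i z.2.2 a) (κ : ℝ)
    (hs : ∀ c j i u, fr (X.T c) (fun x => sl c j i x = u) ≤ κ * I.w c u) {η : ℝ} (hη : 0 < η) :
    Impl (ZMod l) I (.of J) fun c x y => ∀ v, (∃ u, 4 * κ * dw (I.w c) x u ≤ δ / 2 ∧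
      ∀ j, R c (fun q => ∏ i, fn c j i (q i) (u (sl c j i (q i)))) (v j)) → du y v ≤ η := by
  refine Impl.symbols J hJ _ (fun η' hη' => ?_) hη
  have hp : PT fun z : Σ c, J.T c => z.1 := pt_sigma_fst
  have hb : PT fun z : Σ z : Σ c, J.T c, (Fin 4 → X.T z.1) × Unit => z.1 := pt_sigma_fst
  have hq : ∀ i, D fun z : Σ z : Σ c, J.T c, (Fin 4 → X.T z.1) × Unit => z.2.1 i := fun i =>
    cq_app_const (D.fst D.sigma_snd) i
  have hj : D fun z : Σ z : Σ c, J.T c, (Fin 4 → X.T z.1) × Unit => z.1.2 :=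
    (D.sigma_snd (X := J.T)).comp hb
  have h1 := Impl.det (F := ZMod l) (I := I.comap _ hp) (A := Fin 4) ((X.pw 4).comap _ hp)
    (Fam.const _ Unit) (fun _ => ⟨()⟩) (fun z => ⟨fun _ => (hX z.1).some⟩)
    (fun z q _ i => sl z.1 z.2 i (q i)) (fun z q _ s => ∏ i, fn z.1 z.2 i (q i) (s i))
    (fun i => (ds i).app (hp.comp hb) hj (hq i))
    (fun s => by
      simp only [Fin.prod_univ_four]
      have := fun i => (df i (s i)).comp (pt_sigma_mk (X := fun c => J.T c × X.T c)
        (hp.comp hb) (hj.pair (hq i)))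
      exact pt_mulZ (pt_mulZ (pt_mulZ (this 0) (this 1)) (this 2)) (this 3)) κ
    (fun z i u => by
      have := hX z.1
      exact (clev_fr_coord i fun x => sl z.1 z.2 i x = u).trans_le (hs z.1 z.2 i u))
    (half_pos hδ)
  refine (h1.trans ((hQ η' hη').comap _ hp)).mono ?_
  rintro z x y - - ⟨m, -, hm, hy⟩ v ⟨u, hu, hR⟩
  refine hy _ _ (hR z.2) ((hm u _ fun _ _ => rfl).trans ?_)
  simp only [Fintype.card_fin, Nat.cast_ofNat]
  linarith

end Vale.Agent.P330
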