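import Vale.Agent.P330.CodeD
import Vale.Agent.P330.Comb

/-! Block B7: the intermediate statement and small tools. -/

namespace Vale.Agent.P330

open Vale.Agent.Lib.PolyTime Finset
open scoped Classical BigOperators

variable {C : Type} [Enc C]

theorem cq_fn_const {X : C → Type} [∀ c, Enc (X c)] {n : ℕ} {f : ∀ c, Fin n → X c}
    (h : ∀ i, D fun c => f c i) : D f :=
  D.fn_mk (n := fun _ => n) (PT.const n) (PB.const n)
    (D.cases (X := fun z : Σ _ : C, Fin n => X z.1) (g := fun z : Σ _ : C, Fin n => z.2)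
      (D.sigma_snd (X := fun _ : C => Fin n)).pt (fun i z => f z.1 i)
      fun i => (h i).comp (pt_sigma_fst (X := fun _ : C => Fin n)))

theorem cq_app_const {X : C → Type} [∀ c, Enc (X c)] {n : ℕ} {f : ∀ c, Fin n → X c} (h : D f)
    (i : Fin n) : D fun c => f c i :=
  D.fn_app (n := fun _ => n) h (D.const i)

/-- Powers of a family. -/
@[reducible] noncomputable def Fam.pw (U : Fam C) (n : ℕ) : Fam C :=
  U.fn (fun _ => n) (PT.const n) (PB.const n) (U.pf.pb_card.pow n)

theorem cq_dw_of {X F : Type} [Fintype X] (p : X → F → ℝ) (c : X → F) :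
    dw (fun _ => (Fintype.card X : ℝ)⁻¹) p c = du p c := by
  rw [dw, du, ← Finset.mul_sum, Finset.expect_eq_sum_div_card, Finset.card_univ, div_eq_inv_mul]

theorem cq_fr_single {X : Type} [Fintype X] (E : X → Prop) (h : ∀ x y, E x → E y → x = y) :
    fr X E ≤ (Fintype.card X : ℝ)⁻¹ := by
  rw [fr, inv_eq_one_div]
  refine div_le_div_of_nonneg_right ?_ (Nat.cast_nonneg _)
  have : (univ.filter E).card ≤ 1 :=
    Finset.card_le_one.2 fun x hx y hy => h x y (mem_filter.1 hx).2 (mem_filter.1 hy).2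
  exact_mod_cast this

/-- Renaming of a uniform input register. -/
theorem cq_rename {F : Type} [Enc F] [Fintype F] {U U' : Fam C} {O : Reg C}
    {S : ∀ c, (U.T c → F → ℝ) → (O.T c → F → ℝ) → Prop} (h : Impl F (.of U) O S)
    (e : ∀ c, U.T c ≃ U'.T c) (de : D2 fun c x => e c x) :
    Impl F (.of U') O fun c x y => S c (fun i => x (e c i)) y := by
  refine (Impl.wire (I' := .of U') (O' := O) h (fun c => e c) (fun _ o => o) de D.sigma_snd 1
    (fun c u => ?_) fun c o => ?_).mono ?_
  · have : (univ.filter fun i => e c i = u) = {(e c).symm u} := by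
      ext i; simp [Equiv.eq_symm_apply]
    rw [this, sum_singleton, one_mul]
    simp only [Fintype.card_congr (e c), le_refl]
  · rw [Finset.filter_eq' univ o]; simp
  · rintro c x y - - ⟨y0, -, hS, rfl⟩
    exact hS

/-- A uniform register with one node is a heavy node. -/
theorem cq_unit {F : Type} [Enc F] [Fintype F] {I : Reg C}
    {S : ∀ c, (I.T c → F → ℝ) → (Unit → F → ℝ) → Prop}
    (h : Impl F I (.of (Fam.const C Unit)) S) : Impl F I (.unit C) S := by
  refine (Impl.wire (I' := I) (O' := .unit C) h (fun _ i => i) (fun _ o => o) D.sigma_snd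
    D.sigma_snd 1 (fun c u => ?_) fun c o => ?_).mono ?_
  · rw [Finset.filter_eq' univ u]; simp
  · simp
  · rintro c x y - - ⟨y0, -, hS, rfl⟩
    exact hS

/-- A code together with a gadget for the diagonal sum of four codewords. -/
def QuadThm : Prop :=
  ∃ (l : ℕ) (_ : Fact l.Prime) (δ Δ : ℝ), 3 ≤ l ∧ 0 < δ ∧ 0 < Δ ∧
    ∀ (C : Type) [Enc C] (T : Fam C), ∃ (X : Fam C) (gen : ∀ c, X.T c → T.T c → ZMod l),
      (∀ c, Nonempty (X.T c)) ∧ PT (fun z : Σ c, X.T c × T.T c => gen z.1 z.2.1 z.2.2) ∧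
      (∀ c (A : Type) [Fintype A] (ι : A → T.T c), Function.Injective ι →
        ∀ w w' : A → ZMod l, w ≠ w' →
          Δ ≤ hd (cw (fun x a => gen c x (ι a)) w) (cw (fun x a => gen c x (ι a)) w')) ∧
      (∀ η : ℝ, 0 < η → Impl (ZMod l) (.of (X.pw 4)) (.unit C) fun c x y =>
        ∀ (A : Type) [Fintype A] (ι : A → T.T c), Function.Injective ι →
          ∀ u : Fin 4 → A → ZMod l,
            du x (fun z => ∏ i, cw (fun x a => gen c x (ι a)) (u i) (z i)) ≤ δ →
              1 - η ≤ y () (∑ a, ∏ i, u i a)) ∧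
      ∀ (B : Type) [Enc B] (p : B → C) (u : ∀ b, X.T (p b) → ZMod l), PT p →
        PT (fun z : Σ b, X.T (p b) => u z.1 z.2) →
        ∃ v : ∀ b, T.T (p b) → ZMod l, PT (fun z : Σ b, T.T (p b) => v z.1 z.2) ∧
          ∀ b (A : Type) [Fintype A] (ι : A → T.T (p b)), Function.Injective ι →
            ∀ w, hd (u b) (cw (fun x a => gen (p b) x (ι a)) w) ≤ δ → ∀ a, v b (ι a) = w a

end Vale.Agent.P330
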