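import Vale.Agent.P330.CodeLev

/-! Block B7: cubic functionals from two levels of products. -/

namespace Vale.Agent.P330

open Vale.Agent.Lib.PolyTime Finset
open scoped Classical BigOperators

theorem ctop_pt {C B β : Type} [Enc C] [Enc B] [Enc β] {X Y : C → Type} [∀ c, Enc (X c)]
    [∀ c, Enc (Y c)] {g : ∀ c, X c → Y c → β} (hg : PT fun z : Σ c, X c × Y c => g z.1 z.2.1 z.2.2)
    {p : B → C} (hp : PT p) {x : ∀ b, X (p b)} {y : ∀ b, Y (p b)} (hx : D x) (hy : D y) :
    PT fun b => g (p b) (x b) (y b) :=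
  hg.comp (pt_sigma_mk (X := fun c => X c × Y c) hp (hx.pair hy))

theorem code_of_quad (h : QuadThm) : CodeThm := by
  obtain ⟨l, hl, δ, Δ, h3, hδ, hΔ, H⟩ := h
  refine ⟨l, hl, δ / 8, Δ, h3, by positivity, hΔ, fun C _ V => ?_⟩
  obtain ⟨X, g, hX, hg, hd, hQ, hD⟩ := H C (V.option.pw 3)
  have hι : ∀ c, Function.Injective fun (v : V.T c) (_ : Fin 3) => some v := fun c a b e =>
    Option.some.inj (congrFun e 0)
  have hι' : ∀ c, Function.Injective fun (o : Option (V.T c)) (_ : Fin 3) => o := fun c a b e =>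
    congrFun e 0
  refine ⟨X, fun c x v => g c x fun _ => some v, hX,
    ctop_pt hg pt_sigma_fst (D.fst D.sigma_snd) (cq_fn_const fun _ => (D.snd D.sigma_snd).some),
    fun c w w' hw => hd c _ _ (hι c) w w' hw, fun J f hJ hf η hη => ?_, fun B _ p u hp hu => ?_⟩
  swap
  · obtain ⟨v, hv, hv'⟩ := hD B p u hp hu
    refine ⟨fun b a => v b fun _ => some a, hv.comp (pt_sigma_mk pt_sigma_fst
      (cq_fn_const fun _ => D.sigma_snd.some)), fun b w hw => funext fun a => ?_⟩
    exact hv' b _ _ (hι _) w (hw.trans (by linarith)) a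
  obtain ⟨φ, hφ, hf⟩ := hf
  let R : ∀ c, ((Fin 4 → X.T c) → ZMod l) → ZMod l → Prop := fun c W a =>
    ∃ (A : Type) (_ : Fintype A) (ι : A → Fin 3 → Option (V.T c)), Function.Injective ι ∧
      ∃ u : Fin 4 → A → ZMod l, (W = fun z => ∏ i, cw (fun x a => g c x (ι a)) (u i) (z i)) ∧
        a = ∑ a, ∏ i, u i a
  have hR : ∀ η : ℝ, 0 < η → Impl (ZMod l) (.of (X.pw 4)) (.unit C) fun c x y =>
      ∀ W a, R c W a → du x W ≤ δ → 1 - η ≤ y () a := fun η hη => (hQ η hη).mono <| by
    rintro c x y - - H W a ⟨A, _, ι, hi, u, rfl, rfl⟩ hW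
    exact H A ι hi u hW
  let J1 : Fam C := (Fam.const C (Fin 3)).prod X
  have h1 := clev_level hX R hδ hR (.of X) J1 (fun c => ⟨(0, (hX c).some)⟩) (fun _ _ _ x => x)
    (fun c j i x a => if i = 0 then g c x (fun _ => none) + a else ∑ o : Option (V.T c),
      g c x (fun _ => o) * if i = 1 then ∑ m : Fin 3 → Option (V.T c),
        if m j.1 = o then g c j.2 m else 0 else 1)
    (fun _ => D.snd D.sigma_snd) (fun i a => by
      have hp : PT fun z : Σ c, J1.T c × X.T c => z.1 := pt_sigma_fst
      have hx : D fun z : Σ c, J1.T c × X.T c => z.2.2 := D.snd D.sigma_snd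
      have hj : D fun z : Σ c, J1.T c × X.T c => z.2.1 := D.fst D.sigma_snd
      split_ifs
      · exact pt_addZ (ctop_pt hg hp hx (cq_fn_const fun _ => D.none)) (PT.const a)
      · refine (V.option.pf.comap hp).pt_sumZ (pt_mulZ (ctop_pt hg (hp.comp pt_sigma_fst)
          (hx.comp pt_sigma_fst) (cq_fn_const fun _ => D.sigma_snd)) ?_)
        have hp2 : PT fun z : Σ z : Σ c, J1.T c × X.T c, Option (V.T z.1) => z.1.1 :=
          hp.comp pt_sigma_fst
        refine ((V.option.pw 3).pf.comap hp2).pt_sumZ (PT.ite (D.eq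
          (D.fn_app (n := fun _ => 3) D.sigma_snd
            ((hj.fst.comp pt_sigma_fst).comp pt_sigma_fst)) (D.sigma_snd.comp pt_sigma_fst))
          (ctop_pt hg (hp2.comp pt_sigma_fst) ((hj.snd.comp pt_sigma_fst).comp pt_sigma_fst)
            D.sigma_snd) (PT.const 0))
      · exact (V.option.pf.comap hp).pt_sumZ (pt_mulZ (ctop_pt hg (hp.comp pt_sigma_fst)
          (hx.comp pt_sigma_fst) (cq_fn_const fun _ => D.sigma_snd)) (PT.const 1))) 1
    (fun c j i u => (cq_fr_single _ fun x y a b => a.trans b.symm).trans_eq (one_mul _).symm)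
    (η := δ / 24) (by positivity)
  have h2 := clev_level hX R hδ hR (.of J1) J hJ
    (fun _ _ i x => ((Fin.cons 0 id : Fin 4 → Fin 3) i, x))
    (fun c j i x a => if i = 0 then ∑ m : Fin 3 → Option (V.T c), g c x m * φ c j m else a)
    (fun _ => (D.const _).pair (D.snd D.sigma_snd)) (fun i a => by
      have hp : PT fun z : Σ c, J.T c × X.T c => z.1 := pt_sigma_fst
      have hx : D fun z : Σ c, J.T c × X.T c => z.2.2 := D.snd D.sigma_snd
      have hj : D fun z : Σ c, J.T c × X.T c => z.2.1 := D.fst D.sigma_snd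
      split_ifs
      · exact ((V.option.pw 3).pf.comap hp).pt_sumZ (pt_mulZ (ctop_pt hg (hp.comp pt_sigma_fst)
          (hx.comp pt_sigma_fst) D.sigma_snd)
          (ctop_pt hφ (hp.comp pt_sigma_fst) (hj.comp pt_sigma_fst) D.sigma_snd))
      · exact PT.const a) 3
    (fun c j i u => (cq_fr_single _ fun x y a b => (Prod.mk.inj (a.trans b.symm)).2).trans_eq (by
      simp only [J1, Fintype.card_prod, Fintype.card_fin]
      push_cast
      rw [mul_inv, ← mul_assoc, mul_inv_cancel₀ (by norm_num), one_mul])) hη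
  refine (h1.trans h2).mono ?_
  rintro c x y - - ⟨m, -, hm, hy⟩ w hw
  refine hy _ ⟨fun j => cw (g c) (fun m => ev w (m j.1)) j.2, ?_, fun j => ?_⟩
  · refine le_trans ?_ (by linarith : 4 * 3 * (δ / 24) ≤ δ / 2)
    refine mul_le_mul_of_nonneg_left ((cq_dw_of _ _).trans_le
      (hm _ ⟨cw (fun x v => g c x fun _ => some v) w, ?_, fun j => ?_⟩)) (by norm_num)
    · have : dw ((Reg.of X).w c) x (cw (fun x v => g c x fun _ => some v) w) ≤ δ / 8 :=
        (cq_dw_of _ _).trans_le hw
      linarith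
    · refine ⟨Option (V.T c), inferInstance, _, hι' c, fun i o => if i = 0 then ev w o else
        if i = 1 then ∑ m : Fin 3 → Option (V.T c), if m j.1 = o then g c j.2 m else 0 else 1,
        funext fun q => prod_congr rfl fun i _ => ?_, ?_⟩
      · by_cases h0 : i = 0
        · simp [cw, ev, Fintype.sum_option, h0]
        · simp only [cw, h0, if_false]
      · simp only [Fin.prod_univ_four, cw]
        simp only [Fin.isValue, ↓reduceIte, one_ne_zero, Fin.reduceEq, mul_one, mul_sum]
        rw [sum_comm]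
        refine sum_congr rfl fun m _ => ?_
        simp [mul_comm]
  · refine ⟨Fin 3 → Option (V.T c), inferInstance, id, Function.injective_id,
      Fin.cons (φ c j) fun i m => ev w (m i), funext fun q => prod_congr rfl fun i _ => ?_, ?_⟩
    · refine Fin.cases ?_ (fun i => ?_) i
      · simp [cw]
      · simp [cw, Fin.succ_ne_zero]
    · rw [hf]
      refine sum_congr rfl fun m _ => ?_
      rw [Fin.prod_univ_succ (n := 3)]
      simp

end Vale.Agent.P330
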