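import Vale.Agent.P330.Prob

/-! Gadget combinators: rewiring and feedback. -/

namespace Vale.Agent.P330

open Vale.Agent.Lib.PolyTime Finset
open scoped Classical BigOperators

variable {C F : Type} [Enc C] [Enc F] [Fintype F] {I I' M O O' : Reg C}

theorem cA_fr_map {T U U' : Type} [Fintype T] [Fintype U] (φ : T → U) (h : U → U') (u' : U') :
    fr T (fun t => h (φ t) = u') = ∑ u ∈ univ.filter fun u => h u = u', fr T fun t => φ t = u := by
  simp only [fr_eq_expect]
  rw [← expect_sum_comm]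
  refine expect_congr rfl fun t _ => ?_
  by_cases k : h (φ t) = u' <;> simp [k]

theorem cA_fr_le {T U U' : Type} [Fintype T] [Fintype U] (φ : T → U) (h : U → U') (u' : U')
    {W : U → ℝ} {κ : ℝ} (hW : ∀ u, 0 ≤ W u) (hφ : ∀ u, fr T (fun t => φ t = u) ≤ κ * W u) :
    fr T (fun t => h (φ t) = u') ≤ max κ 0 * ∑ u, if h u = u' then W u else 0 := by
  rw [cA_fr_map, ← sum_filter, mul_sum]
  exact sum_le_sum fun u _ => (hφ u).trans (mul_le_mul_of_nonneg_right (le_max_left _ _) (hW u))

theorem cA_fst2 {X : C → Type} [∀ c, Enc (X c)] {Y : (Σ c, X c) → Type} [∀ z, Enc (Y z)] :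
    PT fun w : Σ z : (Σ c, X c), Y z => w.1.1 :=
  ((D.of_pt (pt_sigma_fst (X := X))).comp (pt_sigma_fst (X := Y))).pt

omit [Fintype F] in
theorem cA_wt {A : Type} (G : Gad F A I O) (c : C) (v : G.V.T c) : 0 ≤ G.wt c v := fr_nonneg _

omit [Fintype F] in
theorem cA_W {A : Type} (G : Gad F A I O) (c : C) (u : I.T c ⊕ G.V.T c) :
    0 ≤ Sum.elim (I.w c) (G.wt c) u := by
  rcases u with u | u
  exacts [I.w0 c u, cA_wt G c u]

theorem Impl.mono {S S' : ∀ c, (I.T c → F → ℝ) → (O.T c → F → ℝ) → Prop} (h : Impl F I O S)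
    (hS : ∀ c x y, IsDist x → IsDist y → S c x y → S' c x y) : Impl F I O S' := by
  obtain ⟨A, hA, G, κ, γ, h0, h1, h2⟩ := h
  exact ⟨A, hA, G, κ, γ, h0, h1, fun c x p hx hp he =>
    hS c x _ hx (hp.comp _) (h2 c x p hx hp he)⟩

theorem Impl.comap {B : Type} [Enc B] {S : ∀ c, (I.T c → F → ℝ) → (O.T c → F → ℝ) → Prop}
    (h : Impl F I O S) (p : B → C) (hp : PT p) :
    Impl F (I.comap p hp) (O.comap p hp) fun b => S (p b) := by
  obtain ⟨A, hA, G, κ, γ, h0, h1, h2⟩ := h
  have hq : PT fun z : Σ b, G.T.T (p b) => p z.1 := ((D.of_pt hp).comp pt_sigma_fst).pt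
  have hq' : PT fun z : Σ b, O.T (p b) => p z.1 := ((D.of_pt hp).comp pt_sigma_fst).pt
  exact ⟨A, hA,
    { T := G.T.comap p hp
      V := G.V.comap p hp
      ne := fun b => G.ne (p b)
      out := fun b => G.out (p b)
      slot := fun b => G.slot (p b)
      fn := fun b => G.fn (p b)
      res := fun b => G.res (p b)
      d_out := G.d_out.app hq (D.sigma_snd (X := fun b => G.T.T (p b)))
      d_slot := fun i => (G.d_slot i).app hq (D.sigma_snd (X := fun b => G.T.T (p b)))
      d_fn := fun s => ((D.of_pt (G.d_fn s)).comp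
        (pt_sigma_mk hq (D.sigma_snd (X := fun b => G.T.T (p b))))).pt
      d_res := G.d_res.app hq' (D.sigma_snd (X := fun b => O.T (p b))) },
    κ, γ, h0, fun b => h1 (p b), fun b => h2 (p b)⟩

/-- Rewiring of inputs and outputs along maps of bounded density. -/
theorem Impl.wire {S : ∀ c, (I.T c → F → ℝ) → (O.T c → F → ℝ) → Prop} (h : Impl F I O S)
    (f : ∀ c, I.T c → I'.T c) (g : ∀ c, O'.T c → O.T c) (df : D2 f) (dg : D2 g) (κ : ℝ)
    (hf : ∀ c u, ∑ i ∈ univ.filter fun i => f c i = u, I.w c i ≤ κ * I'.w c u)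
    (hg : ∀ c o, ∑ i ∈ univ.filter fun i => g c i = o, O'.w c i ≤ κ * O.w c o) :
    Impl F I' O' fun c x y => ∃ y0, IsDist y0 ∧ S c (fun i => x (f c i)) y0 ∧
      y = fun o => y0 (g c o) := by
  obtain ⟨A, hA, G, κ0, γ, h0, h1, h2⟩ := h
  refine ⟨A, hA,
    { T := G.T
      V := G.V
      ne := G.ne
      out := G.out
      slot := fun c t i => Sum.elim (fun j => Sum.inl (f c j)) Sum.inr (G.slot c t i)
      fn := G.fn
      res := fun c o => G.res c (g c o)
      d_out := G.d_out
      d_slot := fun i => D.sum_elim (G.d_slot i)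
        (D.inl (df.app cA_fst2 (D.sigma_snd (X := fun z : Σ c, G.T.T c => I.T z.1))))
        (D.inr (D.sigma_snd (X := fun z : Σ c, G.T.T c => G.V.T z.1)))
      d_fn := G.d_fn
      d_res := G.d_res.app pt_sigma_fst dg },
    max κ0 0 * max κ 1, γ, h0, fun c => ⟨fun i u => ?_, fun v => ?_⟩, fun c x p hx hp he =>
      ⟨fun o => p (G.res c o), hp.comp _, h2 c _ p (hx.comp _) hp (le_of_eq_of_le ?_ he), rfl⟩⟩
  · refine (cA_fr_le (fun t => G.slot c t i) (Sum.elim (fun j => Sum.inl (f c j)) Sum.inr) u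
      (cA_W G c) ((h1 c).1 i)).trans ?_
    rw [mul_assoc]
    refine mul_le_mul_of_nonneg_left ?_ (le_max_right _ _)
    rcases u with u | u
    · simp only [Fintype.sum_sum_type, Sum.elim_inl, Sum.elim_inr, Sum.inl.injEq, reduceCtorEq,
        if_false, sum_const_zero, add_zero]
      rw [← sum_filter]
      exact (hf c u).trans (mul_le_mul_of_nonneg_right (le_max_left _ _) (I'.w0 c u))
    · simp only [Fintype.sum_sum_type, Sum.elim_inl, Sum.elim_inr, Sum.inr.injEq, reduceCtorEq,
        if_false, sum_const_zero, zero_add, sum_ite_eq', mem_univ, if_true]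
      exact le_mul_of_one_le_left (cA_wt G c u) (le_max_right _ _)
  · have e := sum_fiberwise_eq_sum_filter univ (univ.filter fun o => G.res c o = v) (g c) (O'.w c)
    simp only [mem_filter, mem_univ, true_and] at e
    refine le_of_eq_of_le e.symm ((sum_le_sum fun o _ => (hg c o).trans
      (mul_le_mul_of_nonneg_right (le_max_left κ 1) (O.w0 c o))).trans ?_)
    rw [← mul_sum, mul_comm (max κ0 0), mul_assoc]
    exact mul_le_mul_of_nonneg_left (((h1 c).2 v).trans
      (mul_le_mul_of_nonneg_right (le_max_left _ _) (cA_wt G c v)))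
      (zero_le_one.trans (le_max_right _ _))
  · have e : ∀ u : I.T c ⊕ G.V.T c, Sum.elim x p (Sum.elim (fun j => Sum.inl (f c j)) Sum.inr u) =
        Sum.elim (fun i => x (f c i)) p u := fun u => by rcases u with u | u <;> rfl
    simp only [Gad.err, e]

theorem Impl.loop {S : ∀ c, ((I.sum M).T c → F → ℝ) → ((O.sum M).T c → F → ℝ) → Prop}
    (h : Impl F (I.sum M) (O.sum M) S) :
    Impl F I O fun c x y => ∃ m, IsDist m ∧ S c (Sum.elim x m) (Sum.elim y m) := by
  obtain ⟨A, hA, G, κ, γ, h0, h1, h2⟩ := h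
  have k0 : 0 ≤ max κ 0 := le_max_right _ _
  refine ⟨A, hA,
    { T := G.T
      V := G.V
      ne := G.ne
      out := G.out
      slot := fun c t i => Sum.elim (Sum.elim Sum.inl fun m => Sum.inr (G.res c (Sum.inr m)))
        Sum.inr (G.slot c t i)
      fn := G.fn
      res := fun c o => G.res c (Sum.inl o)
      d_out := G.d_out
      d_slot := fun i => D.sum_elim (G.d_slot i)
        (D.sum_elim (D.sigma_snd (X := fun z : Σ c, G.T.T c => I.T z.1 ⊕ M.T z.1))
          (D.inl (D.sigma_snd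
            (X := fun w : Σ z : (Σ c, G.T.T c), I.T z.1 ⊕ M.T z.1 => I.T w.1.1)))
          (D.inr (G.d_res.app ((D.of_pt cA_fst2).comp pt_sigma_fst).pt (D.inr (D.sigma_snd
            (X := fun w : Σ z : (Σ c, G.T.T c), I.T z.1 ⊕ M.T z.1 => M.T w.1.1))))))
        (D.inr (D.sigma_snd (X := fun z : Σ c, G.T.T c => G.V.T z.1)))
      d_fn := G.d_fn
      d_res := G.d_res.app pt_sigma_fst (D.inl (D.sigma_snd (X := O.T))) },
    max κ 0 * (max κ 0 + 1), γ, h0, fun c => ⟨fun i u => ?_, fun v => ?_⟩, fun c x p hx hp he =>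
      ⟨fun j => p (G.res c (Sum.inr j)), hp.comp _, ?_⟩⟩
  · refine (cA_fr_le (fun t => G.slot c t i)
      (Sum.elim (Sum.elim Sum.inl fun m => Sum.inr (G.res c (Sum.inr m))) Sum.inr) u
      (cA_W G c) ((h1 c).1 i)).trans ?_
    rw [mul_assoc]
    refine mul_le_mul_of_nonneg_left ?_ k0
    rcases u with u | u
    · simp only [Fintype.sum_sum_type, Sum.elim_inl, Sum.elim_inr, Sum.inl.injEq, reduceCtorEq,
        if_false, sum_const_zero, add_zero, sum_ite_eq', mem_univ, if_true]
      exact le_mul_of_one_le_left (I.w0 c u) (by linarith)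
    · have k := (h1 c).2 u
      rw [sum_filter] at k
      simp only [Fintype.sum_sum_type, Sum.elim_inl, Sum.elim_inr] at k
      simp only [Fintype.sum_sum_type, Sum.elim_inl, Sum.elim_inr, Sum.inr.injEq, reduceCtorEq,
        if_false, sum_const_zero, zero_add, sum_ite_eq', mem_univ, if_true]
      have k1 : 0 ≤ ∑ o, if G.res c (Sum.inl o) = u then O.w c o else 0 :=
        sum_nonneg fun o _ => by
          split_ifs
          exacts [O.w0 c o, le_rfl]
      have k2 := mul_le_mul_of_nonneg_right (le_max_left κ 0) (cA_wt G c u)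
      change _ ≤ (max κ 0 + 1) * G.wt c u
      linarith
  · have k := (h1 c).2 v
    rw [sum_filter] at k
    simp only [Fintype.sum_sum_type, Sum.elim_inl, Sum.elim_inr] at k
    have k1 : 0 ≤ ∑ o, if G.res c (Sum.inr o) = v then M.w c o else 0 :=
      sum_nonneg fun o _ => by
        split_ifs
        exacts [M.w0 c o, le_rfl]
    have k2 := mul_le_mul_of_nonneg_right (le_max_left κ 0) (cA_wt G c v)
    have k3 := mul_nonneg (mul_nonneg k0 k0) (cA_wt G c v)
    rw [sum_filter]
    change (∑ o, if G.res c (Sum.inl o) = v then O.w c o else 0) ≤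
      max κ 0 * (max κ 0 + 1) * G.wt c v
    linarith
  · have e : ∀ u : (I.T c ⊕ M.T c) ⊕ G.V.T c, Sum.elim x p (Sum.elim (Sum.elim Sum.inl
        fun m => Sum.inr (G.res c (Sum.inr m))) Sum.inr u) =
        Sum.elim (Sum.elim x fun j => p (G.res c (Sum.inr j))) p u := fun u => by
      rcases u with (u | u) | u <;> rfl
    have k := h2 c (Sum.elim x fun j => p (G.res c (Sum.inr j))) p (hx.elim (hp.comp _)) hp
      (le_of_eq_of_le (by simp only [Gad.err, e]) he)
    have e2 : (fun o => p (G.res c o)) = Sum.elim (fun o => p (G.res c (Sum.inl o)))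
        fun j => p (G.res c (Sum.inr j)) := funext fun o => by rcases o with o | o <;> rfl
    rw [e2] at k
    exact k

end Vale.Agent.P330
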