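import Vale.Agent.P330.Gad
import Vale.Agent.P330.Prob

/-! Gadget combinators: one layer. -/

namespace Vale.Agent.P330

open Vale.Agent.Lib.PolyTime Finset
open scoped Classical BigOperators

variable {C F : Type} [Enc C] [Enc F] [Fintype F] {I I' M O O' : Reg C}

/-- The gadget of one layer. -/
@[reducible] noncomputable def cB_gad {A : Type} (Rn : Fam C) (hR : ∀ c, Nonempty (Rn.T c))
    (hO : ∀ c, Nonempty (O.T c)) (slot : ∀ c, O.T c → Rn.T c → A → I.T c)
    (fn : ∀ c, O.T c → Rn.T c → (A → F) → F) (ds : ∀ i, D3 fun c o ρ => slot c o ρ i)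
    (df : ∀ s, PT fun z : Σ c, O.T c × Rn.T c => fn z.1 z.2.1 z.2.2 s) : Gad F A I O where
  T := O.toFam.prod Rn
  V := O.toFam
  ne c := ⟨((hO c).some, (hR c).some)⟩
  out _ t := t.1
  slot c t i := Sum.inl (slot c t.1 t.2 i)
  fn c t := fn c t.1 t.2
  res _ o := o
  d_out := D.fst (C := Σ c, O.T c × Rn.T c) (X := fun z => O.T z.1) (Y := fun z => Rn.T z.1)
    (z := fun z => z.2) D.sigma_snd
  d_slot i := D.inl (C := Σ c, O.T c × Rn.T c) (X := fun z => I.T z.1) (Y := fun z => O.T z.1)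
    (ds i)
  d_fn := df
  d_res := D.sigma_snd

theorem cB_fibre {X R : Type} [Fintype X] [Fintype R] (v : X) (g : X × R → ℝ) :
    ∑ t ∈ univ.filter (fun t : X × R => t.1 = v), g t = ∑ ρ, g (v, ρ) := by
  rw [sum_filter, Fintype.sum_prod_type, sum_comm]
  refine sum_congr rfl fun ρ _ => ?_
  simp

theorem cB_abs {R : Type} [Fintype R] [Nonempty R] (a : ℝ) (g : R → ℝ) :
    |∑ ρ, (a - g ρ)| = Fintype.card R * |a - 𝔼 ρ, g ρ| := by
  have hR : (0 : ℝ) < Fintype.card R := by exact_mod_cast Fintype.card_pos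
  have e : ∑ ρ, (a - g ρ) = Fintype.card R * (a - 𝔼 ρ, g ρ) := by
    rw [Fintype.expect_eq_sum_div_card, sum_sub_distrib, sum_const, card_univ, nsmul_eq_mul]
    field_simp
  rw [e, abs_mul, abs_of_pos hR]

/-- One layer of local functions with internal randomness `Rn`. -/
theorem Impl.layer {A : Type} [Fintype A] (Rn : Fam C) (hR : ∀ c, Nonempty (Rn.T c))
    (hO : ∀ c, Nonempty (O.T c)) (slot : ∀ c, O.T c → Rn.T c → A → I.T c)
    (fn : ∀ c, O.T c → Rn.T c → (A → F) → F) (ds : ∀ i, D3 fun c o ρ => slot c o ρ i)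
    (df : ∀ s, PT fun z : Σ c, O.T c × Rn.T c => fn z.1 z.2.1 z.2.2 s) (κ : ℝ)
    (hw : ∀ c o, O.w c o ≤ κ / Fintype.card (O.T c))
    (hs : ∀ c i u, fr (O.T c × Rn.T c) (fun z => slot c z.1 z.2 i = u) ≤ κ * I.w c u)
    {η : ℝ} (hη : 0 < η) :
    Impl F I O fun c x y =>
      dd (O.w c) y (fun o b => 𝔼 ρ, law (fun i => x (slot c o ρ i)) (fn c o ρ) b) ≤ η := by
  have hκ : ∀ _ : C, 0 ≤ κ := fun c => by
    have hOc : (0 : ℝ) < Fintype.card (O.T c) := by
      have := hO c
      exact_mod_cast Fintype.card_pos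
    have h := (O.w0 c (hO c).some).trans (hw c (hO c).some)
    rwa [le_div_iff₀ hOc, zero_mul] at h
  have hwt : ∀ c (v : O.T c), (cB_gad Rn hR hO slot fn ds df).wt c v =
      (Fintype.card (O.T c) : ℝ)⁻¹ := fun c v => by
    have := hR c
    exact (fr_fst (Y := Rn.T c) fun o : O.T c => o = v).trans (fr_single v)
  refine ⟨A, inferInstance, cB_gad Rn hR hO slot fn ds df, κ, η / (|κ| + 1), by positivity,
    fun c => ⟨fun i u => ?_, fun v => ?_⟩, fun c x p _ _ herr => ?_⟩
  · rcases u with u | v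
    · refine le_trans (le_of_eq ?_) (hs c i u)
      exact fr_congr fun t => Sum.inl_injective.eq_iff
    · have h0 : fr ((cB_gad Rn hR hO slot fn ds df).T.T c)
          (fun t => (cB_gad Rn hR hO slot fn ds df).slot c t i = Sum.inr v) = 0 :=
        (fr_congr fun t => ⟨fun h => Sum.inl_ne_inr h, False.elim⟩).trans fr_false
      rw [h0]
      exact mul_nonneg (hκ c) (fr_nonneg _)
  · rw [hwt c v]
    have e : ∑ o ∈ univ.filter (fun o => (cB_gad Rn hR hO slot fn ds df).res c o = v), O.w c o =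
        O.w c v := by
      rw [sum_filter]
      exact (sum_congr rfl fun o _ => by congr).trans (sum_ite_eq' univ (v : O.T c) (O.w c) |>.trans
        (if_pos (mem_univ _)))
    rw [e]
    exact hw c v
  · have := hR c
    have := hO c
    have hOc : (0 : ℝ) < Fintype.card (O.T c) := by exact_mod_cast Fintype.card_pos
    have hRc : (0 : ℝ) < Fintype.card (Rn.T c) := by exact_mod_cast Fintype.card_pos
    have e : (cB_gad Rn hR hO slot fn ds df).err c x p = (∑ o : O.T c, ∑ b,
        |p o b - 𝔼 ρ, law (fun i => x (slot c o ρ i)) (fn c o ρ) b|) / Fintype.card (O.T c) := by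
      have e1 : ∀ (o : O.T c) (b : F), |∑ t ∈ univ.filter (fun t : O.T c × Rn.T c => t.1 = o),
          (p o b - law (fun i => x (slot c t.1 t.2 i)) (fn c t.1 t.2) b)| = Fintype.card (Rn.T c) *
          |p o b - 𝔼 ρ, law (fun i => x (slot c o ρ i)) (fn c o ρ) b| := fun o b => by
        rw [cB_fibre, cB_abs]
      have e2 : (cB_gad Rn hR hO slot fn ds df).err c x p = (∑ o : O.T c, ∑ b,
          |∑ t ∈ univ.filter (fun t : O.T c × Rn.T c => t.1 = o),
          (p o b - law (fun i => x (slot c t.1 t.2 i)) (fn c t.1 t.2) b)|) /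
          Fintype.card (O.T c × Rn.T c) := rfl
      rw [e2]
      simp only [e1, ← mul_sum, Fintype.card_prod, Nat.cast_mul]
      field_simp
    rw [e] at herr
    set E := ∑ o : O.T c, ∑ b, |p o b - 𝔼 ρ, law (fun i => x (slot c o ρ i)) (fn c o ρ) b|
      with hE
    have h1 : dd (O.w c) (fun o => p ((cB_gad Rn hR hO slot fn ds df).res c o))
        (fun o b => 𝔼 ρ, law (fun i => x (slot c o ρ i)) (fn c o ρ) b) ≤
        κ * (E / Fintype.card (O.T c)) := by
      rw [hE, mul_div_assoc', mul_div_right_comm, mul_sum]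
      exact sum_le_sum fun o _ => mul_le_mul_of_nonneg_right (hw c o)
        (sum_nonneg fun b _ => abs_nonneg _)
    refine h1.trans ((mul_le_mul_of_nonneg_left herr (hκ c)).trans ?_)
    rw [abs_of_nonneg (hκ c), mul_div_assoc', div_le_iff₀ (by linarith [hκ c])]
    nlinarith [hκ c]

end Vale.Agent.P330
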