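import Vale.Agent.P330.Gad
import Vale.Agent.P330.Prob

/-! Gadget combinators: sequential composition. -/

namespace Vale.Agent.P330

open Vale.Agent.Lib.PolyTime Finset
open scoped Classical BigOperators

section Dep
variable {C : Type} [Enc C] {X Y Z : C → Type} [∀ c, Enc (X c)] [∀ c, Enc (Y c)] [∀ c, Enc (Z c)]

theorem cC_elim {f : ∀ c, X c → Z c} {g : ∀ c, Y c → Z c} (hf : D2 f) (hg : D2 g) :
    D2 fun c => Sum.elim (f c) (g c) :=
  D.sum_elim (C := Σ c, X c ⊕ Y c) (X := fun z => X z.1) (Y := fun z => Y z.1)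
    (Z := fun z => Z z.1) (f := fun z => f z.1) (g := fun z => g z.1) D.sigma_snd
    (hf.app (pt_sigma_fst.comp pt_sigma_fst) D.sigma_snd)
    (hg.app (pt_sigma_fst.comp pt_sigma_fst) D.sigma_snd)

theorem cC_comp {f : ∀ c, X c → Y c} {g : ∀ c, Y c → Z c} (hg : D2 g) (hf : D2 f) :
    D2 fun c x => g c (f c x) := hg.app pt_sigma_fst hf

theorem cC_inl {f : ∀ c, X c → Y c} (hf : D2 f) :
    D2 fun c x => (Sum.inl (f c x) : Y c ⊕ Z c) :=
  D.inl (C := Σ c, X c) (X := fun z => Y z.1) (Y := fun z => Z z.1) hf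

theorem cC_inr {f : ∀ c, X c → Z c} (hf : D2 f) :
    D2 fun c x => (Sum.inr (f c x) : Y c ⊕ Z c) :=
  D.inr (C := Σ c, X c) (X := fun z => Y z.1) (Y := fun z => Z z.1) hf

theorem cC_id : D2 fun c (x : X c) => x := D.sigma_snd

theorem cC_fst : D2 fun c (x : X c × Y c) => x.1 :=
  D.fst (C := Σ c, X c × Y c) (X := fun z => X z.1) (Y := fun z => Y z.1) D.sigma_snd

theorem cC_snd : D2 fun c (x : X c × Y c) => x.2 :=
  D.snd (C := Σ c, X c × Y c) (X := fun z => X z.1) (Y := fun z => Y z.1) D.sigma_snd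

end Dep

section Plain

theorem cC_fr_sum {X : Type} [Fintype X] (E : X ⊕ X → Prop) :
    fr (X ⊕ X) E = (fr X (fun x => E (.inl x)) + fr X fun x => E (.inr x)) / 2 := by
  simp only [fr_eq_expect, Fintype.expect_eq_sum_div_card, Fintype.sum_sum_type, Fintype.card_sum,
    Nat.cast_add]
  rw [← add_div, div_div, mul_two]

theorem cC_fr_two {X Y : Type} [Fintype X] [Fintype Y] [Nonempty X] [Nonempty Y]
    {Z : Type} (f : X → Z) (g : Y → Z) (u : Z) :
    fr ((X × Y) ⊕ (X × Y)) (fun t => Sum.elim (fun t => f t.1) (fun t => g t.2) t = u) =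
      (fr X (fun x => f x = u) + fr Y fun y => g y = u) / 2 := by
  rw [cC_fr_sum, ← fr_fst (Y := Y) fun x => f x = u, ← fr_snd (X := X) fun y => g y = u]
  rfl

theorem cC_fr_zero {X : Type} [Fintype X] {E : X → Prop} (h : ∀ x, ¬ E x) : fr X E = 0 :=
  (fr_congr fun x => iff_false_intro (h x)).trans fr_false

theorem cC_err_plain {X Y V W F : Type} [Fintype X] [Fintype Y] [Fintype V] [Fintype W] [Fintype F]
    [Nonempty X] [Nonempty Y] (o : X → V) (o' : Y → W)
    (g : V ⊕ W → F → (X × Y) ⊕ (X × Y) → ℝ) (g1 : V → F → X → ℝ) (g2 : W → F → Y → ℝ)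
    (h1 : ∀ v b t, g (.inl v) b (.inl t) = g1 v b t.1)
    (h2 : ∀ v b t, g (.inr v) b (.inr t) = g2 v b t.2) :
    (∑ v, ∑ b, |∑ t, if Sum.elim (fun t => Sum.inl (o t.1)) (fun t => Sum.inr (o' t.2)) t = v then
      g v b t else 0|) / Fintype.card ((X × Y) ⊕ (X × Y)) =
    ((∑ v, ∑ b, |∑ t, if o t = v then g1 v b t else 0|) / Fintype.card X +
      (∑ v, ∑ b, |∑ t, if o' t = v then g2 v b t else 0|) / Fintype.card Y) / 2 := by
  have hX : (0 : ℝ) < Fintype.card X := by exact_mod_cast Fintype.card_pos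
  have hY : (0 : ℝ) < Fintype.card Y := by exact_mod_cast Fintype.card_pos
  have e1 : ∀ v b, |∑ t : (X × Y) ⊕ (X × Y), if Sum.elim (fun t => Sum.inl (o t.1))
      (fun t => Sum.inr (o' t.2)) t = Sum.inl v then g (.inl v) b t else 0| =
      Fintype.card Y * |∑ t, if o t = v then g1 v b t else 0| := fun v b => by
    simp only [Fintype.sum_sum_type, Sum.elim_inl, Sum.elim_inr, Sum.inl.injEq, h1, reduceCtorEq,
      if_false, sum_const_zero, add_zero, Fintype.sum_prod_type, sum_const, card_univ, nsmul_eq_mul]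
    rw [← mul_sum, abs_mul, abs_of_pos hY]
  have e2 : ∀ v b, |∑ t : (X × Y) ⊕ (X × Y), if Sum.elim (fun t => Sum.inl (o t.1))
      (fun t => Sum.inr (o' t.2)) t = Sum.inr v then g (.inr v) b t else 0| =
      Fintype.card X * |∑ t, if o' t = v then g2 v b t else 0| := fun v b => by
    simp only [Fintype.sum_sum_type, Sum.elim_inl, Sum.elim_inr, Sum.inr.injEq, h2, reduceCtorEq,
      if_false, sum_const_zero, zero_add, Fintype.sum_prod_type, sum_const, card_univ, nsmul_eq_mul]
    rw [abs_mul, abs_of_pos hX]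
  rw [Fintype.sum_sum_type]
  simp only [e1, e2, ← mul_sum, Fintype.card_sum, Fintype.card_prod, Nat.cast_add, Nat.cast_mul]
  field_simp
  ring

/-- Renaming the reads of the second gadget. -/
def cC_mp {I M V W : Type} (r : M → V) : (I ⊕ M) ⊕ W → I ⊕ (V ⊕ W) :=
  Sum.elim (Sum.elim .inl fun m => .inr (.inl (r m))) fun w => .inr (.inr w)

/-- Renaming the reads of the first gadget. -/
def cC_mq {I V W : Type} : I ⊕ V → I ⊕ (V ⊕ W) := Sum.elim .inl fun v => .inr (.inl v)

end Plain

variable {C F : Type} [Enc C] [Enc F] [Fintype F] {I I' M O O' : Reg C}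

/-- The sequential composition of two gadgets. -/
@[reducible] noncomputable def cC_gad {A A' : Type} (G : Gad F A I M) (H : Gad F A' (I.sum M) O) :
    Gad F (A ⊕ A') I (M.sum O) where
  T := (G.T.prod H.T).sum (G.T.prod H.T)
  V := G.V.sum H.V
  ne c := ⟨.inl ((G.ne c).some, (H.ne c).some)⟩
  out c := Sum.elim (fun t => .inl (G.out c t.1)) fun t => .inr (H.out c t.2)
  slot c t a := Sum.elim
    (fun t => Sum.elim (fun a => cC_mq (G.slot c t.1 a)) (fun _ => .inr (.inl (G.out c t.1))) a)
    (fun t => Sum.elim (fun _ => .inr (.inr (H.out c t.2)))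
      (fun a => cC_mp (G.res c) (H.slot c t.2 a)) a) t
  fn c t s := Sum.elim (fun t => G.fn c t.1 fun a => s (.inl a))
    (fun t => H.fn c t.2 fun a => s (.inr a)) t
  res c := Sum.elim (fun m => .inl (G.res c m)) fun o => .inr (H.res c o)
  d_out := cC_elim (cC_inl (cC_comp G.d_out cC_fst)) (cC_inr (cC_comp H.d_out cC_snd))
  d_slot i := by
    rcases i with a | a
    · exact cC_elim (cC_comp (cC_elim (cC_inl cC_id) (cC_inr (cC_inl cC_id)))
        (cC_comp (G.d_slot a) cC_fst)) (cC_inr (cC_inr (cC_comp H.d_out cC_snd)))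
    · exact cC_elim (cC_inr (cC_inl (cC_comp G.d_out cC_fst)))
        (cC_comp (cC_elim (cC_elim (cC_inl cC_id) (cC_inr (cC_inl G.d_res)))
          (cC_inr (cC_inr cC_id))) (cC_comp (H.d_slot a) cC_snd))
  d_fn s := by
    have h1 : D2 (Y := fun _ => F) fun c t => G.fn c t fun a => s (.inl a) := D.of_pt (G.d_fn _)
    have h2 : D2 (Y := fun _ => F) fun c t => H.fn c t fun a => s (.inr a) := D.of_pt (H.d_fn _)
    exact D.pt (cC_elim (cC_comp h1 cC_fst) (cC_comp h2 cC_snd))
  d_res := cC_elim (cC_inl G.d_res) (cC_inr H.d_res)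

section Facts
variable {A A' : Type} [Fintype A] [Fintype A'] (G : Gad F A I M) (H : Gad F A' (I.sum M) O)

omit [Fintype F] [Fintype A] [Fintype A'] in
theorem cC_wt_inl (c : C) (v : G.V.T c) : (cC_gad G H).wt c (.inl v) = G.wt c v / 2 := by
  have := G.ne c
  have := H.ne c
  refine (cC_fr_two (fun t => Sum.inl (G.out c t)) (fun t => Sum.inr (H.out c t)) _).trans ?_
  rw [cC_fr_zero (X := H.T.T c) (by simp), add_zero, Gad.wt]
  simp only [Sum.inl.injEq]

omit [Fintype F] [Fintype A] [Fintype A'] in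
theorem cC_wt_inr (c : C) (v : H.V.T c) : (cC_gad G H).wt c (.inr v) = H.wt c v / 2 := by
  have := G.ne c
  have := H.ne c
  refine (cC_fr_two (fun t => Sum.inl (G.out c t)) (fun t => Sum.inr (H.out c t)) _).trans ?_
  rw [cC_fr_zero (X := G.T.T c) (by simp), zero_add, Gad.wt]
  simp only [Sum.inr.injEq]

theorem cC_err (c : C) {x : I.T c → F → ℝ} {p : G.V.T c ⊕ H.V.T c → F → ℝ} (hx : IsDist x)
    (hp : IsDist p) : (cC_gad G H).err c x p = (G.err c x (fun v => p (.inl v)) +
      H.err c (Sum.elim x fun m => p (.inl (G.res c m))) fun v => p (.inr v)) / 2 := by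
  have := G.ne c
  have := H.ne c
  simp only [Gad.err, sum_filter]
  have key := cC_err_plain (G.out c) (H.out c)
    (fun v b t => p v b - law (fun i => Sum.elim x p ((cC_gad G H).slot c t i))
      ((cC_gad G H).fn c t) b)
    (fun v b t => p (.inl v) b - law (fun i => Sum.elim x (fun v => p (.inl v)) (G.slot c t i))
      (G.fn c t) b)
    (fun v b t => p (.inr v) b - law (fun i => Sum.elim (Sum.elim x fun m => p (.inl (G.res c m)))
      (fun v => p (.inr v)) (H.slot c t i)) (H.fn c t) b)
    (fun v b t => by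
      congr 1
      refine (law_comp ((hx.elim hp).comp _) Sum.inl_injective (G.fn c t.1) b).trans ?_
      congr 1
      funext i
      change Sum.elim x p (cC_mq (G.slot c t.1 i)) = _
      rcases G.slot c t.1 i with u | u <;> rfl)
    (fun v b t => by
      congr 1
      refine (law_comp ((hx.elim hp).comp _) Sum.inr_injective (H.fn c t.2) b).trans ?_
      congr 1
      funext i
      change Sum.elim x p (cC_mp (G.res c) (H.slot c t.2 i)) = _
      rcases H.slot c t.2 i with (u | u) | u <;> rfl)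
  convert key

omit [Fintype F] [Fintype A] [Fintype A'] in
theorem cC_dens {k k' : ℝ} (hk : 0 ≤ k) (hk' : 0 ≤ k') (hG : G.Dens k) (hH : H.Dens k') :
    (cC_gad G H).Dens (2 * k + 2 * k' + k * k' + 1) := by
  intro c
  have := G.ne c
  have := H.ne c
  have hkk := mul_nonneg hk hk'
  have w1 : ∀ v, 0 ≤ G.wt c v := fun v => fr_nonneg _
  have w2 : ∀ v, 0 ≤ H.wt c v := fun v => fr_nonneg _
  refine ⟨fun i u => ?_, fun v => ?_⟩
  · rcases i with a | a
    · refine (cC_fr_two (fun t => cC_mq (G.slot c t a))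
        (fun t => Sum.inr (Sum.inr (H.out c t))) u).trans_le ?_
      rcases u with u | u | u
      · have h := (hG c).1 a (.inl u)
        have h0 := I.w0 c u
        rw [cC_fr_zero (X := H.T.T c) (by simp), fr_congr (E' := fun t => G.slot c t a = .inl u)
          fun t => by rcases G.slot c t a with z | z <;> simp [cC_mq]]
        simp only [Sum.elim_inl] at h ⊢
        nlinarith [mul_nonneg hk h0, mul_nonneg hk' h0, mul_nonneg hkk h0]
      · have h := (hG c).1 a (.inr u)
        have h0 := w1 u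
        rw [cC_fr_zero (X := H.T.T c) (by simp), fr_congr (E' := fun t => G.slot c t a = .inr u)
          fun t => by rcases G.slot c t a with z | z <;> simp [cC_mq]]
        simp only [Sum.elim_inr, cC_wt_inl] at h ⊢
        nlinarith [mul_nonneg hk h0, mul_nonneg hk' h0, mul_nonneg hkk h0]
      · have h0 := w2 u
        rw [cC_fr_zero (X := G.T.T c)
          fun t => by rcases G.slot c t a with z | z <;> simp [cC_mq]]
        simp only [Sum.elim_inr, cC_wt_inr, Sum.inr.injEq]
        change (0 + H.wt c u) / 2 ≤ _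
        nlinarith [mul_nonneg hk h0, mul_nonneg hk' h0, mul_nonneg hkk h0]
    · refine (cC_fr_two (fun t => Sum.inr (Sum.inl (G.out c t)))
        (fun t => cC_mp (G.res c) (H.slot c t a)) u).trans_le ?_
      rcases u with u | u | u
      · have h := (hH c).1 a (.inl (.inl u))
        have h0 := I.w0 c u
        rw [cC_fr_zero (X := G.T.T c) (by simp),
          fr_congr (E' := fun t => H.slot c t a = .inl (.inl u))
          fun t => by rcases H.slot c t a with (z | z) | z <;> simp [cC_mp]]
        simp only [Sum.elim_inl] at h ⊢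
        nlinarith [mul_nonneg hk h0, mul_nonneg hk' h0, mul_nonneg hkk h0]
      · have h0 := w1 u
        have h1 : fr (H.T.T c) (fun t => cC_mp (G.res c) (H.slot c t a) = .inr (.inl u)) ≤
            k' * (k * G.wt c u) := by
          refine (fr_mono (E' := fun t => ∃ m, G.res c m = u ∧ H.slot c t a = .inl (.inr m))
            fun t => ?_).trans ((fr_exists_le _).trans ?_)
          · rcases H.slot c t a with (z | z) | z <;> simp [cC_mp]
          · refine le_trans ?_ (mul_le_mul_of_nonneg_left ((hG c).2 u) hk')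
            rw [sum_filter, mul_sum]
            refine sum_le_sum fun m _ => ?_
            by_cases hm : G.res c m = u
            · simp only [hm, true_and, if_true]
              exact (hH c).1 a (.inl (.inr m))
            · simp only [hm, false_and, if_false, mul_zero, fr_false, le_refl]
        simp only [Sum.elim_inr, cC_wt_inl, Sum.inr.injEq, Sum.inl.injEq]
        change (G.wt c u + _) / 2 ≤ _
        nlinarith [mul_nonneg hk h0, mul_nonneg hk' h0, mul_nonneg hkk h0]
      · have h := (hH c).1 a (.inr u)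
        have h0 := w2 u
        rw [cC_fr_zero (X := G.T.T c) (by simp), fr_congr (E' := fun t => H.slot c t a = .inr u)
          fun t => by rcases H.slot c t a with (z | z) | z <;> simp [cC_mp]]
        simp only [Sum.elim_inr, cC_wt_inr] at h ⊢
        nlinarith [mul_nonneg hk h0, mul_nonneg hk' h0, mul_nonneg hkk h0]
  · rw [sum_filter]
    refine (Fintype.sum_sum_type (α₁ := M.T c) (α₂ := O.T c) _).trans_le ?_
    rcases v with v | v
    · have h := (hG c).2 v
      have h0 := w1 v
      rw [sum_filter] at h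
      rw [cC_wt_inl]
      simp only [cC_gad, Sum.elim_inl, Sum.elim_inr, Sum.inl.injEq, reduceCtorEq, if_false,
        sum_const_zero, add_zero]
      nlinarith [mul_nonneg hk h0, mul_nonneg hk' h0, mul_nonneg hkk h0]
    · have h := (hH c).2 v
      have h0 := w2 v
      rw [sum_filter] at h
      rw [cC_wt_inr]
      simp only [cC_gad, Sum.elim_inl, Sum.elim_inr, Sum.inr.injEq, reduceCtorEq, if_false,
        sum_const_zero, zero_add]
      nlinarith [mul_nonneg hk h0, mul_nonneg hk' h0, mul_nonneg hkk h0]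

end Facts

omit [Fintype F] in
theorem cC_dens_max {A : Type} {G : Gad F A I O} {k : ℝ} (h : G.Dens k) : G.Dens (max k 0) :=
  fun c => ⟨fun i u => ((h c).1 i u).trans (mul_le_mul_of_nonneg_right (le_max_left _ _) (by
      rcases u with u | u
      exacts [I.w0 c u, fr_nonneg _])),
    fun v => ((h c).2 v).trans (mul_le_mul_of_nonneg_right (le_max_left _ _) (fr_nonneg _))⟩

theorem cC_err_nonneg {A : Type} [Fintype A] (G : Gad F A I O) (c : C) (x : I.T c → F → ℝ)
    (p : G.V.T c → F → ℝ) : 0 ≤ G.err c x p := by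
  unfold Gad.err
  positivity

theorem Impl.seq {S : ∀ c, (I.T c → F → ℝ) → (M.T c → F → ℝ) → Prop}
    {S' : ∀ c, ((I.sum M).T c → F → ℝ) → (O.T c → F → ℝ) → Prop} (h : Impl F I M S)
    (h' : Impl F (I.sum M) O S') :
    Impl F I (M.sum O) fun c x z => S c x (fun m => z (.inl m)) ∧
      S' c (Sum.elim x fun m => z (.inl m)) fun o => z (.inr o) := by
  obtain ⟨A, _, G, k, γ, hγ, hG, h⟩ := h
  obtain ⟨A', _, H, k', γ', hγ', hH, h'⟩ := h'
  refine ⟨A ⊕ A', inferInstance, cC_gad G H, _, min γ γ' / 2, by positivity,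
    cC_dens G H (le_max_right _ _) (le_max_right _ _) (cC_dens_max hG) (cC_dens_max hH),
    fun c x p hx hp he => ?_⟩
  rw [cC_err G H c hx hp] at he
  have e1 := cC_err_nonneg G c x fun v => p (.inl v)
  have e2 := cC_err_nonneg H c (Sum.elim x fun m => p (.inl (G.res c m))) fun v => p (.inr v)
  have m1 := min_le_left γ γ'
  have m2 := min_le_right γ γ'
  exact ⟨h c x (fun v => p (.inl v)) hx (hp.comp _) (by linarith),
    h' c (Sum.elim x fun m => p (.inl (G.res c m))) (fun v => p (.inr v))
      (hx.elim (hp.comp _)) (hp.comp _) (by linarith)⟩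

end Vale.Agent.P330
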