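import Vale.Agent.P330.Gad
import Vale.Agent.P330.Prob

/-! Gadget combinators: arrays. -/

namespace Vale.Agent.P330

open Vale.Agent.Lib.PolyTime Finset
open scoped Classical BigOperators

section Count
variable {J : Type} [Fintype J] {T V : J → Type} [∀ j, Fintype (T j)]

theorem cD_fib (r : ∀ j, T j → V j) (g : (Σ j, T j) → ℝ) (j : J) (v : V j)
    {_ : DecidablePred fun o : Σ j, T j => (⟨o.1, r o.1 o.2⟩ : Σ j, V j) = ⟨j, v⟩}
    (_ : DecidablePred fun o => r j o = v) :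
    ∑ o ∈ univ.filter fun o : Σ j, T j => (⟨o.1, r o.1 o.2⟩ : Σ j, V j) = ⟨j, v⟩, g o =
      ∑ o ∈ univ.filter fun o => r j o = v, g ⟨j, o⟩ := by
  rw [sum_filter, sum_filter, Fintype.sum_sigma, sum_eq_single j]
  · refine sum_congr rfl fun o _ => if_congr ?_ rfl rfl
    exact ⟨fun h => eq_of_heq (Sigma.mk.inj h).2, fun h => h ▸ rfl⟩
  · exact fun j' _ hj => sum_eq_zero fun o _ => if_neg fun h => hj (Sigma.mk.inj h).1
  · simp

theorem cD_rep {X : Type} [Fintype X] (k : ℕ) (p : X → Prop) (g : X → ℝ) [DecidablePred p]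
    [DecidablePred fun t : X × Fin k => p t.1] :
    ∑ t ∈ univ.filter fun t : X × Fin k => p t.1, g t.1 = k * ∑ t ∈ univ.filter p, g t := by
  rw [sum_filter, sum_filter, Fintype.sum_prod_type, mul_sum]
  refine sum_congr rfl fun t _ => ?_
  by_cases h : p t <;> simp [h]

/-- The share of the block `j`. -/
noncomputable def cD_a (T : J → Type) [∀ j, Fintype (T j)] (k : J → ℕ) (j : J) : ℝ :=
  k j * Fintype.card (T j) / Fintype.card (Σ j, T j × Fin (k j))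

theorem cD_fr (hT : ∀ j, Nonempty (T j)) (k : J → ℕ) (E : ∀ j, T j → Prop) :
    fr (Σ j, T j × Fin (k j)) (fun t => E t.1 t.2.1) = ∑ j, cD_a T k j * fr (T j) (E j) := by
  unfold fr cD_a
  rw [card_eq_sum_ones, Nat.cast_sum, sum_filter, Fintype.sum_sigma, sum_div]
  refine sum_congr rfl fun j _ => ?_
  have h : (Fintype.card (T j) : ℝ) ≠ 0 := Nat.cast_ne_zero.2 Fintype.card_ne_zero
  rw [← sum_filter, cD_rep (k j) (E j) fun _ => ((1 : ℕ) : ℝ), ← Nat.cast_sum, ← card_eq_sum_ones]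
  field_simp

theorem cD_single (a : J → ℝ) (E : ∀ j, T j → Prop) (j : J) (h : ∀ j' t, E j' t → j' = j) :
    ∑ j', a j' * fr (T j') (E j') = a j * fr (T j) (E j) := by
  refine sum_eq_single j (fun j' _ hj => ?_) (by simp)
  rw [fr_congr (E' := fun _ => False) fun t => iff_false_intro fun ht => hj (h j' t ht), fr_false,
    mul_zero]

theorem cD_bounds (hJ : Nonempty J) (hT : ∀ j, Nonempty (T j)) (L : ℕ) (k : J → ℕ)
    (hL : ∀ j, Fintype.card (T j) ≤ L) (hk : ∀ j, k j = L / Fintype.card (T j) + 1) (j : J) :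
    (Fintype.card J : ℝ)⁻¹ ≤ 2 * cD_a T k j ∧ cD_a T k j ≤ 2 * (Fintype.card J : ℝ)⁻¹ := by
  have h1 : ∀ j, L ≤ k j * Fintype.card (T j) ∧ k j * Fintype.card (T j) ≤ 2 * L := fun j => by
    have := Nat.lt_div_mul_add (a := L) (Fintype.card_pos (α := T j))
    have := Nat.div_mul_le_self L (Fintype.card (T j))
    have := hL j
    rw [hk, add_mul, one_mul]
    omega
  have hN : Fintype.card (Σ j, T j × Fin (k j)) = ∑ j, k j * Fintype.card (T j) := by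
    simp [mul_comm]
  have h2 : Fintype.card J * L ≤ Fintype.card (Σ j, T j × Fin (k j)) := by
    rw [hN, ← smul_eq_mul, ← card_univ]
    exact card_nsmul_le_sum _ _ _ fun j _ => (h1 j).1
  have h3 : Fintype.card (Σ j, T j × Fin (k j)) ≤ Fintype.card J * (2 * L) := by
    rw [hN, ← smul_eq_mul, ← card_univ]
    exact sum_le_card_nsmul _ _ _ fun j _ => (h1 j).2
  have hJ0 : (0 : ℝ) < Fintype.card J := Nat.cast_pos.2 Fintype.card_pos
  have hL0 : (0 : ℝ) < L := Nat.cast_pos.2 (Fintype.card_pos.trans_le (hL j))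
  have h2' : (Fintype.card J : ℝ) * L ≤ Fintype.card (Σ j, T j × Fin (k j)) := by exact_mod_cast h2
  have h3' : (Fintype.card (Σ j, T j × Fin (k j)) : ℝ) ≤ Fintype.card J * (2 * L) := by
    exact_mod_cast h3
  have h4 : (L : ℝ) ≤ k j * Fintype.card (T j) := by exact_mod_cast (h1 j).1
  have h5 : (k j : ℝ) * Fintype.card (T j) ≤ 2 * L := by exact_mod_cast (h1 j).2
  have hN0 : (0 : ℝ) < Fintype.card (Σ j, T j × Fin (k j)) := (mul_pos hJ0 hL0).trans_le h2'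
  unfold cD_a
  rw [← mul_div_assoc, ← one_div, div_le_div_iff₀ hJ0 hN0, mul_one_div, div_le_div_iff₀ hN0 hJ0]
  constructor <;> nlinarith

end Count

variable {C F : Type} [Enc C] [Enc F] [Fintype F] {I I' M O O' : Reg C}

section Arr
variable {A : Type} (J : Fam C) (hJ : ∀ c, Nonempty (J.T c)) {I1 O1 : Reg (Σ c, J.T c)}
  (G : Gad F A I1 O1) (f : ∀ z, I1.T z → I.T z.1)
  (df : D2 (Y := fun z : Σ c, J.T c => I.T z.1) f) (k : (Σ c, J.T c) → ℕ) (hk : PT k) (hk' : PB k)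
  (hk0 : ∀ z, 0 < k z)

theorem cD_fst (W : Fam (Σ c, J.T c)) :
    D (Y := fun z : Σ c, (J.sigma W).T c => J.T z.1) fun z => z.2.1 :=
  D.dsig_fst (X := fun z : Σ c, (J.sigma W).T c => J.T z.1) (W := fun z j => W.T ⟨z.1, j⟩)
    (z := fun z => z.2) D.sigma_snd

theorem cD_snd (W : Fam (Σ c, J.T c)) :
    D (Y := fun z : Σ c, (J.sigma W).T c => W.T ⟨z.1, z.2.1⟩) fun z => z.2.2 :=
  D.dsig_snd (X := fun z : Σ c, (J.sigma W).T c => J.T z.1) (W := fun z j => W.T ⟨z.1, j⟩)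
    (z := fun z => z.2) D.sigma_snd

theorem cD_base (W : Fam (Σ c, J.T c)) :
    PT fun z : Σ c, (J.sigma W).T c => (⟨z.1, z.2.1⟩ : Σ c, J.T c) :=
  pt_sigma_mk pt_sigma_fst (cD_fst J W)

theorem cD_re (W : Fam (Σ c, J.T c)) :
    PT fun z : Σ c, (J.sigma W).T c => (⟨⟨z.1, z.2.1⟩, z.2.2⟩ : Σ y, W.T y) :=
  pt_sigma_mk (cD_base J W) (cD_snd J W)

theorem cD_mk (W V : Fam (Σ c, J.T c)) (r : ∀ z, W.T z → V.T z) (hr : D2 r) :
    D2 (X := (J.sigma W).T) (Y := (J.sigma V).T) fun c o => ⟨o.1, r ⟨c, o.1⟩ o.2⟩ :=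
  D.dsig_mk (X := fun z : Σ c, (J.sigma W).T c => J.T z.1) (W := fun z j => V.T ⟨z.1, j⟩)
    (cD_fst J W) (D.comp hr (cD_re J W))

theorem cD_in (V : Fam (Σ c, J.T c)) :
    D2 (X := V.T) (Y := fun z => (J.sigma V).T z.1) fun z v => ⟨z.2, v⟩ :=
  D.dsig_mk (X := fun z : Σ y, V.T y => J.T z.1.1) (W := fun z j => V.T ⟨z.1.1, j⟩)
    (x := fun z => z.1.2) (w := fun z => z.2) (D.comp D.sigma_snd pt_sigma_fst) D.sigma_snd

include df in
theorem cD_slot (W V : Fam (Σ c, J.T c)) (r : ∀ z, W.T z → I1.T z ⊕ V.T z) (hr : D2 r) :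
    D2 (X := W.T) (Y := fun z => I.T z.1 ⊕ (J.sigma V).T z.1) fun z t =>
      Sum.elim (fun u => .inl (f z u)) (fun v => .inr ⟨z.2, v⟩) (r z t) :=
  D.sum_elim (X := fun z : Σ y, W.T y => I1.T z.1) (Y := fun z => V.T z.1)
    (Z := fun z => I.T z.1.1 ⊕ (J.sigma V).T z.1.1) hr
    (D.inl (D2.app df (pt_sigma_fst.comp pt_sigma_fst) D.sigma_snd))
    (D.inr (D2.app (cD_in J V) (pt_sigma_fst.comp pt_sigma_fst) D.sigma_snd))

theorem cD_pr (W W' : Fam (Σ c, J.T c)) :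
    PT fun z : Σ y, (W.prod W').T y => (⟨z.1, z.2.1⟩ : Σ y, W.T y) :=
  pt_sigma_mk pt_sigma_fst (D.fst D.sigma_snd)

/-- The array of gadgets. -/
noncomputable def cD_gad : Gad F A I (Reg.sigma J O1) where
  T := J.sigma (G.T.prod (Fam.ofFin k hk hk'))
  V := J.sigma G.V
  ne c := ⟨⟨(hJ c).some, (G.ne _).some, ⟨0, hk0 _⟩⟩⟩
  out c t := ⟨t.1, G.out ⟨c, t.1⟩ t.2.1⟩
  slot c t i := Sum.elim (fun u => .inl (f ⟨c, t.1⟩ u)) (fun v => .inr ⟨t.1, v⟩)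
    (G.slot ⟨c, t.1⟩ t.2.1 i)
  fn c t := G.fn ⟨c, t.1⟩ t.2.1
  res c o := ⟨o.1, G.res ⟨c, o.1⟩ o.2⟩
  d_out := cD_mk J (G.T.prod (Fam.ofFin k hk hk')) G.V (fun z t => G.out z t.1)
    (D.comp G.d_out (cD_pr J G.T _))
  d_slot i := D.comp (D.comp (cD_slot J f df G.T G.V (fun z t => G.slot z t i) (G.d_slot i))
    (cD_pr J G.T (Fam.ofFin k hk hk'))) (cD_re J _)
  d_fn s := ((G.d_fn s).comp (cD_pr J G.T (Fam.ofFin k hk hk'))).comp (cD_re J _)
  d_res := cD_mk J O1.toFam G.V G.res G.d_res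

omit [Fintype F] in
theorem cD_wt (c : C) (j : J.T c) (v : G.V.T ⟨c, j⟩) :
    (cD_gad J hJ G f df k hk hk' hk0).wt c ⟨j, v⟩ =
      cD_a (fun j => G.T.T ⟨c, j⟩) (fun j => k ⟨c, j⟩) j * G.wt ⟨c, j⟩ v := by
  refine (cD_fr (fun j => G.ne ⟨c, j⟩) (fun j => k ⟨c, j⟩) fun j' t =>
    (⟨j', G.out ⟨c, j'⟩ t⟩ : Σ j, G.V.T ⟨c, j⟩) = ⟨j, v⟩).trans ?_
  rw [cD_single _ _ j fun j' t h => ?_]
  swap
  · exact (Sigma.mk.inj h).1
  exact congrArg _ (fr_congr fun t => ⟨fun h => eq_of_heq (Sigma.mk.inj h).2, fun h => h ▸ rfl⟩)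

theorem cD_err [Fintype A] (c : C) (x : I.T c → F → ℝ) (p : (Σ j, G.V.T ⟨c, j⟩) → F → ℝ) :
    (cD_gad J hJ G f df k hk hk' hk0).err c x p =
      ∑ j, cD_a (fun j => G.T.T ⟨c, j⟩) (fun j => k ⟨c, j⟩) j *
        G.err ⟨c, j⟩ (fun i => x (f ⟨c, j⟩ i)) fun v => p ⟨j, v⟩ := by
  unfold Gad.err cD_a
  refine (congrArg (· / _) (Fintype.sum_sigma _)).trans ?_
  rw [sum_div]
  refine sum_congr rfl fun j _ => ?_
  have := G.ne ⟨c, j⟩
  have h : (Fintype.card (G.T.T ⟨c, j⟩) : ℝ) ≠ 0 := Nat.cast_ne_zero.2 Fintype.card_ne_zero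
  rw [div_mul_div_comm, mul_right_comm, mul_comm _ (Fintype.card (G.T.T ⟨c, j⟩) : ℝ),
    mul_comm _ (Fintype.card (G.T.T ⟨c, j⟩) : ℝ), mul_div_mul_left _ _ h, mul_sum]
  refine congrArg (· / _) (sum_congr rfl fun v _ => ?_)
  rw [mul_sum]
  refine sum_congr rfl fun b _ => ?_
  rw [← abs_of_nonneg (Nat.cast_nonneg (α := ℝ) (k ⟨c, j⟩)), ← abs_mul, ← cD_rep]
  refine congrArg _ ((cD_fib (T := fun j => G.T.T ⟨c, j⟩ × Fin (k ⟨c, j⟩))
    (fun j t => G.out ⟨c, j⟩ t.1) _ j v _).trans (sum_congr rfl fun t _ => ?_))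
  refine congrArg (fun q => p ⟨j, v⟩ b - law q (G.fn ⟨c, j⟩ t.1) b) (funext fun i => ?_)
  show Sum.elim x p (Sum.elim _ _ (G.slot ⟨c, j⟩ t.1 i)) = _
  cases G.slot ⟨c, j⟩ t.1 i <;> rfl

omit [Fintype F] in
theorem cD_dens {κ κ₁ κ₂ : ℝ} (hG : G.Dens κ₁) (h1 : κ₁ ≤ κ₂) (h0 : 0 ≤ κ₂)
    (hf : ∀ c u, 𝔼 j, ∑ i ∈ univ.filter fun i => f ⟨c, j⟩ i = u, I1.w ⟨c, j⟩ i ≤ κ * I.w c u)
    (ha : ∀ c j, (Fintype.card (J.T c) : ℝ)⁻¹ ≤
        2 * cD_a (fun j => G.T.T ⟨c, j⟩) (fun j => k ⟨c, j⟩) j ∧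
      cD_a (fun j => G.T.T ⟨c, j⟩) (fun j => k ⟨c, j⟩) j ≤ 2 * (Fintype.card (J.T c) : ℝ)⁻¹) :
    (cD_gad J hJ G f df k hk hk' hk0).Dens (2 * κ₂ * max κ 1) := by
  intro c
  have a0 : ∀ j, 0 ≤ cD_a (fun j => G.T.T ⟨c, j⟩) (fun j => k ⟨c, j⟩) j := fun j => by
    unfold cD_a
    positivity
  have w0 : ∀ z v, 0 ≤ G.wt z v := fun z v => fr_nonneg _
  have k1 : 2 * κ₂ ≤ 2 * κ₂ * max κ 1 := le_mul_of_one_le_right (by linarith) (le_max_right _ _)
  refine ⟨fun i u => ?_, fun ⟨j, v⟩ => ?_⟩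
  · refine (cD_fr (fun j => G.ne ⟨c, j⟩) (fun j => k ⟨c, j⟩) fun j t =>
      Sum.elim (fun u => Sum.inl (f ⟨c, j⟩ u)) (fun v => Sum.inr (⟨j, v⟩ : Σ j, G.V.T ⟨c, j⟩))
        (G.slot ⟨c, j⟩ t i) = u).trans_le ?_
    rcases u with u | ⟨j, v⟩
    · have hb : ∀ j, fr (G.T.T ⟨c, j⟩) (fun t => Sum.elim (fun u => Sum.inl (f ⟨c, j⟩ u))
          (fun v => Sum.inr (⟨j, v⟩ : Σ j, G.V.T ⟨c, j⟩)) (G.slot ⟨c, j⟩ t i) = Sum.inl u) ≤
          κ₂ * ∑ i ∈ univ.filter fun i => f ⟨c, j⟩ i = u, I1.w ⟨c, j⟩ i := fun j => by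
        refine le_trans (fr_mono fun t ht => ?_) ((fr_exists_le fun i' t =>
          f ⟨c, j⟩ i' = u ∧ G.slot ⟨c, j⟩ t i = Sum.inl i').trans ?_)
        · rcases hs : G.slot ⟨c, j⟩ t i with i' | v
          · rw [hs] at ht
            exact ⟨i', Sum.inl.inj ht, rfl⟩
          · rw [hs] at ht
            exact absurd ht Sum.inr_ne_inl
        · rw [sum_filter, mul_sum]
          refine sum_le_sum fun i' _ => ?_
          split_ifs with hi
          · exact (fr_mono fun t ht => ht.2).trans (((hG ⟨c, j⟩).1 i (Sum.inl i')).trans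
              (mul_le_mul_of_nonneg_right h1 (I1.w0 _ _)))
          · rw [fr_congr (E' := fun _ => False) fun t => iff_false_intro fun ht => hi ht.1,
              fr_false, mul_zero]
      refine (sum_le_sum fun j _ => mul_le_mul (ha c j).2 (hb j) (fr_nonneg _)
        ((a0 j).trans (ha c j).2)).trans ?_
      have h2 := hf c u
      rw [Fintype.expect_eq_sum_div_card, div_eq_inv_mul] at h2
      have h3 : κ * I.w c u ≤ max κ 1 * I.w c u :=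
        mul_le_mul_of_nonneg_right (le_max_left _ _) (I.w0 _ _)
      rw [← mul_sum, ← mul_sum, mul_mul_mul_comm, mul_assoc (2 * κ₂)]
      exact mul_le_mul_of_nonneg_left (h2.trans h3) (by linarith)
    · rw [cD_single _ _ j fun j' t h => ?_]
      · refine le_trans ?_ (mul_le_mul_of_nonneg_left (cD_wt J hJ G f df k hk hk' hk0 c j v).ge
          (by linarith))
        rw [mul_left_comm]
        refine mul_le_mul_of_nonneg_left (le_trans (fr_mono fun t ht => ?_)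
          (((hG ⟨c, j⟩).1 i (Sum.inr v)).trans
            (mul_le_mul_of_nonneg_right (by linarith) (w0 _ _)))) (a0 j)
        rcases hs : G.slot ⟨c, j⟩ t i with i' | v'
        · rw [hs] at ht
          exact absurd ht Sum.inl_ne_inr
        · rw [hs] at ht
          rw [eq_of_heq (Sigma.mk.inj (Sum.inr.inj ht)).2]
      · rcases hs : G.slot ⟨c, j'⟩ t i with i' | v'
        · rw [hs] at h
          exact absurd h Sum.inl_ne_inr
        · rw [hs] at h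
          exact (Sigma.mk.inj (Sum.inr.inj h)).1
  · rw [cD_wt]
    refine (cD_fib (T := fun j => O1.T ⟨c, j⟩) (fun j o => G.res ⟨c, j⟩ o) _ j v
      inferInstance).trans_le ?_
    refine (sum_div _ (fun o => O1.w ⟨c, j⟩ o) _).symm.trans_le ?_
    rw [div_eq_mul_inv]
    refine (mul_le_mul (((hG ⟨c, j⟩).2 v).trans (mul_le_mul_of_nonneg_right h1 (w0 _ _)))
      (ha c j).1 (by positivity) (mul_nonneg h0 (w0 _ _))).trans ?_
    refine le_trans (le_of_eq (by ring))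
      (mul_le_mul_of_nonneg_right k1 (mul_nonneg (a0 j) (w0 _ v)))

end Arr

/-- Arrays of gadgets. -/
theorem Impl.arr (J : Fam C) (hJ : ∀ c, Nonempty (J.T c)) {I1 O1 : Reg (Σ c, J.T c)}
    {S : ∀ z, (I1.T z → F → ℝ) → (O1.T z → F → ℝ) → Prop} (h : Impl F I1 O1 S)
    (f : ∀ z, I1.T z → I.T z.1) (df : D2 (Y := fun z : Σ c, J.T c => I.T z.1) f) (κ : ℝ)
    (hf : ∀ c u, 𝔼 j, ∑ i ∈ univ.filter fun i => f ⟨c, j⟩ i = u, I1.w ⟨c, j⟩ i ≤ κ * I.w c u)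
    {θ : ℝ} (hθ : 0 < θ) :
    Impl F I (Reg.sigma J O1) fun c x y =>
      fr (J.T c) (fun j => ¬ S ⟨c, j⟩ (fun i => x (f ⟨c, j⟩ i)) fun o => y ⟨j, o⟩) ≤ θ := by
  obtain ⟨A, _, G, κ₁, γ, hγ, hG, hS⟩ := h
  obtain ⟨L, hL, hL', hLe⟩ : ∃ L : C → ℕ, PT L ∧ PB L ∧
      ∀ c j, Fintype.card (G.T.T ⟨c, j⟩) ≤ L c :=
    ⟨_, (J.sigma G.T).pf.pt_card, (J.sigma G.T).pf.pb_card, fun c j =>
      Fintype.card_le_of_injective (fun t => (⟨j, t⟩ : Σ j, G.T.T ⟨c, j⟩))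
        fun _ _ h => eq_of_heq (Sigma.mk.inj h).2⟩
  have hk : PT fun z : Σ c, J.T c => L z.1 / Fintype.card (G.T.T z) + 1 :=
    (Vale.Agent.P325.pt_div (hL.comp pt_sigma_fst) G.T.pf.pt_card).add (PT.const 1)
  have hk' : PB fun z : Σ c, J.T c => L z.1 / Fintype.card (G.T.T z) + 1 :=
    ((hL'.comp pt_sigma_fst).of_le fun _ => Nat.div_le_self _ _).add (PB.const 1)
  have ha := fun c => cD_bounds (hJ c) (fun j => G.ne ⟨c, j⟩) (L c)
    (fun j => L c / Fintype.card (G.T.T ⟨c, j⟩) + 1) (hLe c) fun _ => rfl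
  refine ⟨A, inferInstance, cD_gad J hJ G f df _ hk hk' fun _ => Nat.succ_pos _,
    2 * max κ₁ 0 * max κ 1, θ * γ / 2, by positivity,
    cD_dens J hJ G f df _ hk hk' _ hG (le_max_left _ _) (le_max_right _ _) hf ha,
    fun c x p hx hp he => ?_⟩
  replace he := (cD_err J hJ G f df _ hk hk' (fun _ => Nat.succ_pos _) c x p).ge.trans he
  have e0 : ∀ j, 0 ≤ G.err ⟨c, j⟩ (fun i => x (f ⟨c, j⟩ i)) fun v => p ⟨j, v⟩ := fun j => by
    unfold Gad.err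
    positivity
  refine le_trans (fr_mono fun j hj => ?_) ((fr_markov e0 hγ).trans ?_)
  · exact le_of_not_ge fun h => hj (hS ⟨c, j⟩ _ _ (hx.comp _) (hp.comp _) h)
  · rw [div_le_iff₀ hγ, Fintype.expect_eq_sum_div_card, div_eq_inv_mul, mul_sum]
    refine (sum_le_sum fun j _ => mul_le_mul_of_nonneg_right (ha c j).1 (e0 j)).trans ?_
    simp only [mul_assoc]
    rw [← mul_sum]
    linarith

end Vale.Agent.P330
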