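import Vale.Agent.P330.CombA
import Vale.Agent.P330.CombC
import Vale.Agent.P330.CombD
import Vale.Agent.P330.Prob

/-! Gadget combinators: derived forms. -/

namespace Vale.Agent.P330

open Vale.Agent.Lib.PolyTime Finset
open scoped Classical BigOperators

variable {C F : Type} [Enc C] [Enc F] [Fintype F] {I I' M O O' : Reg C}

theorem cE_inj {X Y : Type} [Fintype X] {f : X → Y} (hf : Function.Injective f) {w : X → ℝ}
    {w' : Y → ℝ} (h0 : ∀ y, 0 ≤ w' y) (h : ∀ x, w x ≤ w' (f x)) (u : Y)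
    {_ : DecidablePred fun i => f i = u} :
    ∑ i ∈ univ.filter fun i => f i = u, w i ≤ 1 * w' u := by
  rw [one_mul]
  by_cases k : ∃ x, f x = u
  · obtain ⟨x, rfl⟩ := k
    rw [sum_eq_single x (fun y hy e => absurd (hf (mem_filter.1 hy).2) e)
      fun e => (e (mem_filter.2 ⟨mem_univ _, rfl⟩)).elim]
    exact h x
  · rw [sum_eq_zero fun y hy => absurd ⟨y, (mem_filter.1 hy).2⟩ k]
    exact h0 u

theorem cE_id (I : Reg C) (c : C) (u : I.T c) :
    ∑ i ∈ univ.filter fun i => i = u, I.w c i ≤ 1 * I.w c u :=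
  cE_inj Function.injective_id (I.w0 c) (fun _ => le_rfl) u

/-- Use only the left part of the input. -/
theorem Impl.inl {S : ∀ c, (I.T c → F → ℝ) → (O.T c → F → ℝ) → Prop} (h : Impl F I O S) :
    Impl F (I.sum I') O fun c x y => S c (fun i => x (.inl i)) y :=
  (h.wire (I' := I.sum I') (O' := O) (fun _ i => .inl i) (fun _ o => o) D.sigma_snd.inl D.sigma_snd 1
    (fun c u => cE_inj Sum.inl_injective ((I.sum I').w0 c) (fun _ => le_rfl) u) (cE_id O)).mono
    fun _ _ _ _ _ ⟨_, _, k, e⟩ => e ▸ k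

/-- Use only the right part of the input. -/
theorem Impl.inr {S : ∀ c, (I'.T c → F → ℝ) → (O.T c → F → ℝ) → Prop} (h : Impl F I' O S) :
    Impl F (I.sum I') O fun c x y => S c (fun i => x (.inr i)) y :=
  (h.wire (I' := I.sum I') (O' := O) (fun _ i => .inr i) (fun _ o => o) D.sigma_snd.inr D.sigma_snd 1
    (fun c u => cE_inj Sum.inr_injective ((I.sum I').w0 c) (fun _ => le_rfl) u) (cE_id O)).mono
    fun _ _ _ _ _ ⟨_, _, k, e⟩ => e ▸ k

theorem Impl.seq' {S : ∀ c, (I.T c → F → ℝ) → (M.T c → F → ℝ) → Prop}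
    {S' : ∀ c, ((I.sum M).T c → F → ℝ) → (O.T c → F → ℝ) → Prop} (h : Impl F I M S)
    (h' : Impl F (I.sum M) O S') :
    Impl F I O fun c x z => ∃ y, IsDist y ∧ S c x y ∧ S' c (Sum.elim x y) z :=
  ((h.seq h').wire (I' := I) (O' := O) (fun _ i => i) (fun _ o => .inr o) D.sigma_snd
    D.sigma_snd.inr 1 (cE_id I)
    fun c u => cE_inj Sum.inr_injective ((M.sum O).w0 c) (fun _ => le_rfl) u).mono
    fun _ _ _ _ _ ⟨_, d, k, e⟩ => ⟨_, d.comp Sum.inl, k.1, e ▸ k.2⟩

theorem Impl.trans {S : ∀ c, (I.T c → F → ℝ) → (M.T c → F → ℝ) → Prop}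
    {S' : ∀ c, (M.T c → F → ℝ) → (O.T c → F → ℝ) → Prop} (h : Impl F I M S)
    (h' : Impl F M O S') :
    Impl F I O fun c x z => ∃ y, IsDist y ∧ S c x y ∧ S' c y z := h.seq' h'.inr

theorem Impl.par {S : ∀ c, (I.T c → F → ℝ) → (O.T c → F → ℝ) → Prop}
    {S' : ∀ c, (I.T c → F → ℝ) → (O'.T c → F → ℝ) → Prop} (h : Impl F I O S) (h' : Impl F I O' S') :
    Impl F I (O.sum O') fun c x z => S c x (fun o => z (.inl o)) ∧ S' c x fun o => z (.inr o) :=
  h.seq h'.inl

/-- Iteration of a contraction. -/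
theorem Impl.iter (U : Fam C) (hU : ∀ c, Nonempty (U.T c)) (K : ∀ c, Set (U.T c → F)) {δ : ℝ}
    (hδ : 0 < δ) (h : ∀ η : ℝ, 0 < η → Impl F (Reg.of U) (Reg.of U) fun c x y =>
      ∀ u ∈ K c, du x u ≤ δ → du y u ≤ du x u / 2 + η) {η : ℝ} (hη : 0 < η) :
    Impl F (Reg.of U) (Reg.of U) fun c x y => ∀ u ∈ K c, du x u ≤ δ → du y u ≤ η := by
  have _ := hU
  have key : ∀ n : ℕ, ∀ η : ℝ, 0 < η → Impl F (Reg.of U) (Reg.of U) fun c x y =>
      ∀ u ∈ K c, du x u ≤ δ → du y u ≤ δ * (1 / 2) ^ (n + 1) + η := by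
    intro n
    induction n with
    | zero =>
      refine fun η hη => (h η hη).mono fun c x y _ _ k u hu e => ?_
      have := k u hu e
      rw [zero_add, pow_one]
      linarith
    | succ n ih =>
      refine fun η hη => ((ih (min η (δ / 2)) (lt_min hη (half_pos hδ))).trans
        (h (η / 2) (half_pos hη))).mono fun c x z _ _ ⟨y, _, k, k'⟩ u hu e => ?_
      have h1 := k u hu e
      have h2 := min_le_left η (δ / 2)
      have h3 := min_le_right η (δ / 2)
      have h4 : δ * (1 / 2) ^ (n + 1) ≤ δ * (1 / 2) ^ 1 :=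
        mul_le_mul_of_nonneg_left (pow_le_pow_of_le_one (by norm_num) (by norm_num) (by omega)) hδ.le
      have h5 := k' u hu (by linarith)
      rw [pow_succ _ (n + 1)]
      linarith
  obtain ⟨n, hn⟩ := exists_pow_lt_of_lt_one (div_pos hη hδ) (by norm_num : (1 / 2 : ℝ) < 1)
  refine (key n (η / 2) (half_pos hη)).mono fun c x y _ _ k u hu e => (k u hu e).trans ?_
  rw [lt_div_iff₀ hδ] at hn
  rw [pow_succ]
  linarith

/-- An array of gadgets, each with one heavy output node, fills a uniform register. -/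
theorem Impl.symbols (J : Fam C) (hJ : ∀ c, Nonempty (J.T c))
    (P : ∀ c, (I.T c → F → ℝ) → (J.T c → F) → Prop)
    (h : ∀ η : ℝ, 0 < η → Impl F (I.comap (fun z : Σ c, J.T c => z.1) pt_sigma_fst)
      (Reg.unit (Σ c, J.T c)) fun z x y => ∀ v, P z.1 x v → 1 - η ≤ y () (v z.2))
    {η : ℝ} (hη : 0 < η) :
    Impl F I (Reg.of J) fun c x y => ∀ v, P c x v → du y v ≤ η := by
  have a := Impl.arr (I := I) J hJ (h (η / 2) (half_pos hη)) (fun _ i => i) D.sigma_snd 1
    (fun c u => have := hJ c; expect_le univ_nonempty fun _ _ => cE_id I c u) (half_pos hη)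
  refine (a.wire (I' := I) (O' := Reg.of J) (fun _ i => i) (fun _ j => ⟨j, ()⟩) D.sigma_snd
    (D.dsig_mk (X := fun z : Σ c, J.T c => J.T z.1) (W := fun _ _ => Unit) D.sigma_snd
      (D.const ())) 1 (cE_id I) fun c u =>
      cE_inj (fun _ _ e => congrArg Sigma.fst e) ((Reg.sigma J (Reg.unit _)).w0 c)
        (fun _ => (one_div _).ge) u).mono fun c x y _ hy ⟨y0, _, k, e⟩ v hv => ?_
  have := hJ c
  refine (expect_le_fr (half_pos hη).le (fun j => sub_le_self _ (hy.nonneg j _))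
    fun j hj => ?_).trans ((add_le_add k le_rfl).trans (add_halves η).le)
  have := not_not.1 hj v hv
  subst e
  linarith

end Vale.Agent.P330
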