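import Vale.Agent.P330.CombB
import Vale.Agent.P330.CombE
import Vale.Agent.P330.Prob

/-! Gadget combinators: deterministic layers and real nodes. -/

namespace Vale.Agent.P330

open Vale.Agent.Lib.PolyTime Finset
open scoped Classical BigOperators

variable {C F : Type} [Enc C] [Enc F] [Fintype F] {I I' M O O' : Reg C}

/-- A layer whose output is close to a word whenever the words read are close to words: the
union bound. -/
theorem Impl.det {A : Type} [Fintype A] (U Rn : Fam C) (hR : ∀ c, Nonempty (Rn.T c))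
    (hU : ∀ c, Nonempty (U.T c)) (slot : ∀ c, U.T c → Rn.T c → A → I.T c)
    (fn : ∀ c, U.T c → Rn.T c → (A → F) → F) (ds : ∀ i, D3 fun c o ρ => slot c o ρ i)
    (df : ∀ s, PT fun z : Σ c, U.T c × Rn.T c => fn z.1 z.2.1 z.2.2 s) (κ : ℝ)
    (hs : ∀ c i u, fr (U.T c × Rn.T c) (fun z => slot c z.1 z.2 i = u) ≤ κ * I.w c u)
    {η : ℝ} (hη : 0 < η) :
    Impl F I (Reg.of U) fun c x y => ∀ (u : I.T c → F) (v : U.T c → F),
      (∀ o ρ, fn c o ρ (fun i => u (slot c o ρ i)) = v o) →
        du y v ≤ Fintype.card A * κ * dw (I.w c) x u + η := by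
  have hκ : ∀ c i u, fr (U.T c × Rn.T c) (fun z => slot c z.1 z.2 i = u) ≤ max κ 1 * I.w c u :=
    fun c i u => (hs c i u).trans (mul_le_mul_of_nonneg_right (le_max_left _ _) (I.w0 c u))
  refine (Impl.layer (O := Reg.of U) Rn hR hU slot fn ds df (max κ 1) ?_ hκ hη).mono ?_
  · intro c o
    show (Fintype.card (U.T c) : ℝ)⁻¹ ≤ max κ 1 / Fintype.card (U.T c)
    rw [div_eq_mul_inv]
    exact le_mul_of_one_le_left (by positivity) (le_max_right _ _)
  · intro c x y hx hy h u v huv
    have := hR c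
    have := hU c
    have h0 : 𝔼 o : U.T c, ∑ b, |y o b -
        𝔼 ρ, law (fun i => x (slot c o ρ i)) (fn c o ρ) b| ≤ η := (dd_unif _ _).symm.le.trans h
    have h1 := du_le_add (X := U.T c) y
      (fun o b => 𝔼 ρ, law (fun i => x (slot c o ρ i)) (fn c o ρ) b) v
    have h2 : du (X := U.T c) (fun o b => 𝔼 ρ, law (fun i => x (slot c o ρ i)) (fn c o ρ) b) v ≤
        Fintype.card A * κ * dw (I.w c) x u := by
      have h3 : ∀ i : A, 𝔼 z : U.T c × Rn.T c,
          (1 - x (slot c z.1 z.2 i) (u (slot c z.1 z.2 i))) ≤ κ * dw (I.w c) x u := fun i =>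
        expect_le_dens (hs c i) (g := fun j => 1 - x j (u j)) fun j => sub_nonneg.2 (hx.le_one j _)
      calc _ ≤ 𝔼 o : U.T c, 𝔼 ρ : Rn.T c,
            ∑ i, (1 - x (slot c o ρ i) (u (slot c o ρ i))) := by
            refine expect_le_expect fun o _ => ?_
            rw [← Fintype.expect_const (ι := Rn.T c) (1 : ℝ), ← expect_sub_distrib]
            refine expect_le_expect fun ρ _ => ?_
            rw [Fintype.expect_const]
            exact law_ge (hx.comp _) (huv o ρ)
        _ = ∑ i, 𝔼 z : U.T c × Rn.T c, (1 - x (slot c z.1 z.2 i) (u (slot c z.1 z.2 i))) := by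
            rw [← expect_sum_comm, expect_prod']
        _ ≤ ∑ _i : A, κ * dw (I.w c) x u := sum_le_sum fun i _ => h3 i
        _ = _ := by rw [sum_const, card_univ, nsmul_eq_mul, mul_assoc]
    linarith

/-- A hard-wired word. -/
theorem Impl.word (U : Fam C) (hU : ∀ c, Nonempty (U.T c)) (v : ∀ c, U.T c → F)
    (dv : PT fun z : Σ c, U.T c => v z.1 z.2) {η : ℝ} (hη : 0 < η) :
    Impl F I (Reg.of U) fun c _ y => du y (v c) ≤ η := by
  refine (Impl.det (I := I) (A := Empty) U (Fam.const C Unit) (fun _ => ⟨()⟩) hU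
    (fun _ _ _ e => e.elim) (fun c o _ _ => v c o) (fun i => i.elim)
    (fun _ => dv.comp (pt_sigma_mk pt_sigma_fst (D.fst D.sigma_snd))) 0 (fun _ i => i.elim)
    hη).mono ?_
  intro c x y _ _ h
  obtain ⟨o⟩ := hU c
  simpa using h (fun _ => v c o) (v c) fun _ _ => rfl

theorem cF_unit {y q : Unit → F → ℝ} {η : ℝ} (h : dd (fun _ => (1 : ℝ)) y q ≤ η) (b : F) :
    |y () b - q () b| ≤ η := by
  refine le_trans ?_ h
  simp only [dd, univ_unique, sum_singleton, one_mul]
  exact single_le_sum (f := fun b => |y () b - q () b|) (fun b _ => abs_nonneg _) (mem_univ b)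

section R
variable [Zero F] [One F] [Nontrivial F]

theorem ImplR.mono {S S' : ∀ c, (I.T c → F → ℝ) → ℝ → Prop} (h : ImplR F I S)
    (hS : ∀ c x r, IsDist x → 0 ≤ r → r ≤ 1 → S c x r → S' c x r) : ImplR F I S' :=
  Impl.mono h fun c x _ hx hy => hS c x _ hx (hy.nonneg _ _) (hy.le_one _ _)

/-- The average of two real nodes. -/
theorem ImplR.avg (h01 : (0 : F) ≠ 1) {S S' : ∀ c, (I.T c → F → ℝ) → ℝ → Prop} (h : ImplR F I S)
    (h' : ImplR F I S') {η : ℝ} (hη : 0 < η) :
    ImplR F I fun c x r => ∃ s s', 0 ≤ s ∧ 0 ≤ s' ∧ S c x s ∧ S' c x s' ∧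
      |r - (s + s') / 2| ≤ η := by
  have hl := Impl.layer (F := F) (I := I.sum ((Reg.unit C).sum (Reg.unit C))) (O := Reg.unit C)
    (A := Unit) (Fam.const C Bool) (fun _ => ⟨true⟩) (fun _ => ⟨()⟩)
    (fun _ _ ρ _ => cond ρ (.inr (.inl ())) (.inr (.inr ()))) (fun _ _ _ s => s ())
    (fun _ => D.cases (g := fun z : Σ _ : C, Unit × Bool => z.2.2) (D.pt (D.snd D.sigma_snd))
      (fun b z => cond b (Sum.inr (Sum.inl ()) : I.T z.1 ⊕ Unit ⊕ Unit) (.inr (.inr ())))
      fun b => by
        cases b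
        · exact D.inr (D.inr (D.const ()))
        · exact D.inr (D.inl (D.const ())))
    (fun s => PT.const (s ())) 1 (fun c o => by simp) (fun c i u => by
      rcases u with u | u | u
      · refine le_trans (fr_mono fun z hz => ?_) (fr_false.le.trans (mul_nonneg zero_le_one (I.w0 c u)))
        rcases z with ⟨_, _ | _⟩ <;> simp at hz
      · exact (fr_le_one _).trans (by simp)
      · exact (fr_le_one _).trans (by simp)) hη
  refine ((Impl.par h h').seq' hl).mono ?_
  rintro c x z hx hz ⟨y, hy, ⟨h1, h2⟩, h3⟩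
  refine ⟨_, _, hy.nonneg _ _, hy.nonneg _ _, h1, h2, ?_⟩
  have h4 := cF_unit h3 1
  have h5 : ∀ j : I.T c ⊕ Unit ⊕ Unit, law (fun _ : Unit => Sum.elim x y j) (fun s => s ()) 1 =
      Sum.elim x y j 1 := fun j => law_slot ((hx.elim hy).comp fun _ => j) () 1
  simp only [h5] at h4
  rw [Fintype.expect_eq_sum_div_card, Fintype.sum_bool] at h4
  simpa using h4

/-- The rejection probability of a local test. -/
theorem ImplR.rej (h01 : (0 : F) ≠ 1) {A : Type} [Fintype A] (Q : Fam C) (hQ : ∀ c, Nonempty (Q.T c))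
    (slot : ∀ c, Q.T c → A → I.T c) (acc : ∀ c, Q.T c → (A → F) → Prop)
    (ds : ∀ i, D2 fun c t => slot c t i) (da : ∀ s, PT fun z : Σ c, Q.T c => acc z.1 z.2 s) (κ : ℝ)
    (hs : ∀ c i u, fr (Q.T c) (fun t => slot c t i = u) ≤ κ * I.w c u) {η : ℝ} (hη : 0 < η) :
    ImplR F I fun c x r =>
      |r - 𝔼 t, prob (fun i => x (slot c t i)) fun s => ¬ acc c t s| ≤ η := by
  have hp : PT fun z : Σ c, Unit × Q.T c => (⟨z.1, z.2.2⟩ : Σ c, Q.T c) :=
    pt_sigma_mk pt_sigma_fst (D.snd D.sigma_snd)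
  refine (Impl.layer (F := F) (I := I) (O := Reg.unit C) Q hQ (fun _ => ⟨()⟩)
    (fun c _ t i => slot c t i) (fun c _ t s => if acc c t s then 0 else 1)
    (fun i => (ds i).comp hp)
    (fun s => D.pt (D.ite ((da s).comp hp) (D.const (0 : F)) (D.const (1 : F)))) (max κ 1)
    (fun c o => by simp) (fun c i u => ?_) hη).mono ?_
  · refine le_trans (fr_snd (X := Unit) fun t => slot c t i = u).le ((hs c i u).trans ?_)
    exact mul_le_mul_of_nonneg_right (le_max_left _ _) (I.w0 c u)
  · intro c x y _ _ h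
    have h4 := cF_unit h 1
    have h5 : ∀ t, law (fun i => x (slot c t i)) (fun s => if acc c t s then (0 : F) else 1) 1 =
        prob (fun i => x (slot c t i)) fun s => ¬ acc c t s := fun t => by
      rw [law_eq_prob]
      refine prob_congr fun s => ?_
      by_cases ha : acc c t s <;> simp [ha, h01]
    simp only [h5] at h4
    exact h4

end R

end Vale.Agent.P330
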