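import Vale.Agent.P330.CombF
import Vale.Agent.P330.Prob

/-! Gadget combinators: local tests. -/

namespace Vale.Agent.P330

open Vale.Agent.Lib.PolyTime Finset
open scoped Classical BigOperators

/-- A local test together with the purity tests. -/
def cG_acc {A F : Type} (P : (A → F) → Prop) : Option A × Bool → (A × Bool → F) → Prop
  | (_, false), s => P fun a => s (a, false)
  | (some a, true), s => s (a, false) = s (a, true)
  | (none, true), _ => True

section Aux
variable {F A : Type} [Fintype F] [Fintype A] {q : A → F → ℝ}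

/-- The rejection probability of one of the tests. -/
noncomputable def cG_g (q : A → F → ℝ) (P : (A → F) → Prop) (j : Option A × Bool) : ℝ :=
  prob (fun i : A × Bool => q i.1) fun s => ¬ cG_acc P j s

theorem cG_nonneg (hq : IsDist q) (P : (A → F) → Prop) (j : Option A × Bool) : 0 ≤ cG_g q P j :=
  prob_nonneg (hq.comp Prod.fst) _

theorem cG_comp (hq : IsDist q) {P : (A → F) → Prop} {u : A → F} (hu : P u)
    (j : Option A × Bool) : cG_g q P j ≤ ∑ i : A × Bool, (1 - q i.1 (u i.1)) := by
  refine prob_le_of_ne (hq.comp Prod.fst) (fun i => u i.1) (not_not.2 ?_)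
  rcases j with ⟨_ | a, _ | _⟩
  exacts [hu, trivial, hu, rfl]

theorem cG_pure (hq : IsDist q) (P : (A → F) → Prop) {a : A} {v : F} (hv : ∀ b, q a b ≤ q a v) :
    1 - q a v ≤ cG_g q P (some a, true) := by
  have hq' : IsDist fun i : A × Bool => q i.1 := hq.comp Prod.fst
  have h1 : prob (fun i : A × Bool => q i.1) (fun s => s (a, false) = s (a, true)) ≤
      ∑ b, q a b * q a b := by
    have e : ∀ b, ex (fun i : A × Bool => q i.1) (fun s => (if s (a, false) = b then (1 : ℝ) else 0) *
        if s (a, true) = b then (1 : ℝ) else 0) = q a b * q a b := fun b => by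
      rw [ex_slot2 hq' (i := (a, false)) (j := (a, true)) (by simp)
        (fun y => if y = b then (1 : ℝ) else 0) fun y => if y = b then (1 : ℝ) else 0]
      simp
    simp only [← e]
    rw [← ex_sum, prob_eq_ex]
    refine ex_mono hq' fun s => ?_
    by_cases h : s (a, false) = s (a, true)
    · simp [h]
    · rw [if_neg h]
      exact sum_nonneg fun b _ => by positivity
  have h2 : ∑ b, q a b * q a b ≤ q a v := by
    calc ∑ b, q a b * q a b ≤ ∑ b, q a b * q a v :=
          sum_le_sum fun b _ => mul_le_mul_of_nonneg_left (hv b) (hq.nonneg a b)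
      _ = q a v := by rw [← sum_mul, (hq a).2, one_mul]
  have h3 : cG_g q P (some a, true) =
      1 - prob (fun i : A × Bool => q i.1) fun s => s (a, false) = s (a, true) :=
    prob_not hq' _
  linarith

theorem cG_rej (hq : IsDist q) {P : (A → F) → Prop} {u : A → F} (hu : ¬ P u) :
    1 - ∑ a, (1 - q a (u a)) ≤ cG_g q P (none, false) := by
  have hq' : IsDist fun i : A × Bool => q i.1 := hq.comp Prod.fst
  have h1 : cG_g q P (none, false) = prob q fun s => ¬ P s :=
    prob_comp hq' (e := fun a : A => (a, false)) (fun _ _ h => (Prod.mk.inj h).1) fun s => ¬ P s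
  rw [h1, prob_not hq]
  linarith [prob_le_of_ne hq u hu]

theorem cG_sum (q : A → F → ℝ) (P : (A → F) → Prop) :
    ∑ j, cG_g q P j = 2 * (Fintype.card A + 1) * 𝔼 j, cG_g q P j := by
  have e : (Fintype.card (Option A × Bool) : ℝ) = 2 * (Fintype.card A + 1) := by
    simp [mul_comm]
  rw [Fintype.expect_eq_sum_div_card, e, mul_div_cancel₀ _ (by positivity)]

theorem cG_s1 (hq : IsDist q) (P : (A → F) → Prop) {a : A} {v : F} (hv : ∀ b, q a b ≤ q a v) :
    1 - q a v ≤ 2 * (Fintype.card A + 1) * 𝔼 j, cG_g q P j := by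
  rw [← cG_sum]
  exact (cG_pure hq P hv).trans (single_le_sum (fun j _ => cG_nonneg hq P j) (mem_univ _))

theorem cG_s2 (hq : IsDist q) (P : (A → F) → Prop) {u : A → F} (hv : ∀ a b, q a b ≤ q a (u a))
    {_ : Decidable (¬ P u)} : (if ¬ P u then (1 : ℝ) else 0) ≤ 2 * (Fintype.card A + 1) * 𝔼 j, cG_g q P j := by
  rw [← cG_sum]
  by_cases hu : P u
  · rw [if_neg (not_not.2 hu)]
    exact sum_nonneg fun j _ => cG_nonneg hq P j
  · rw [if_pos hu]
    have h1 := cG_rej hq hu
    have h2 : ∑ a, (1 - q a (u a)) ≤ ∑ a, cG_g q P (some a, true) :=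
      sum_le_sum fun a _ => cG_pure hq P (hv a)
    have h3 : 0 ≤ ∑ a, cG_g q P (some a, false) := sum_nonneg fun a _ => cG_nonneg hq P _
    have h4 := cG_nonneg hq P (none, true)
    rw [Fintype.sum_prod_type, Fintype.sum_option]
    simp only [Fintype.sum_bool, sum_add_distrib]
    linarith

end Aux

variable {C F : Type} [Enc C] [Enc F] [Fintype F] {I I' M O O' : Reg C}

section R
variable [Zero F] [One F] [Nontrivial F]

/-- A local test together with purity tests: completeness by the union bound, and soundness for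
every plurality word. -/
theorem ImplR.test (h01 : (0 : F) ≠ 1) {A : Type} [Fintype A] (Q : Fam C)
    (hQ : ∀ c, Nonempty (Q.T c))
    (slot : ∀ c, Q.T c → A → I.T c) (acc : ∀ c, Q.T c → (A → F) → Prop)
    (ds : ∀ i, D2 fun c t => slot c t i) (da : ∀ s, PT fun z : Σ c, Q.T c => acc z.1 z.2 s) (κ : ℝ)
    (hs : ∀ c i u, fr (Q.T c) (fun t => slot c t i = u) ≤ κ * I.w c u) {η : ℝ} (hη : 0 < η) :
    ImplR F I fun c x r =>
      (∀ u : I.T c → F, (∀ t, acc c t fun i => u (slot c t i)) →
        r ≤ 2 * Fintype.card A * κ * dw (I.w c) x u + η) ∧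
      ∀ u : I.T c → F, Plur x u →
        fr (Q.T c) (fun t => ¬ acc c t fun i => u (slot c t i)) ≤
          4 * (Fintype.card A + 1) * (r + η) ∧
        ∀ i, 𝔼 t, (1 - x (slot c t i) (u (slot c t i))) ≤ 4 * (Fintype.card A + 1) * (r + η) := by
  let _ : Enc (Option A × Bool) := Enc.fin _
  have h := ImplR.rej (I := I) h01 (A := A × Bool) (Q.prod (Fam.const C (Option A × Bool)))
    (fun c => (hQ c).elim fun t => ⟨(t, (none, false))⟩) (fun c z i => slot c z.1 i.1)
    (fun c z => cG_acc (acc c z.1) z.2)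
    (fun i => (ds i.1).app pt_sigma_fst D.sigma_snd.fst)
    (fun s => P325.pt_cases (β := Option A × Bool) (D.pt D.sigma_snd.snd)
      (fun j (z : Σ c, Q.T c × (Option A × Bool)) => cG_acc (acc z.1 z.2.1) j s) fun j => by
        rcases j with ⟨_ | a, _ | _⟩
        · exact (da _).comp (pt_sigma_mk pt_sigma_fst D.sigma_snd.fst)
        · exact PT.const True
        · exact (da _).comp (pt_sigma_mk pt_sigma_fst D.sigma_snd.fst)
        · exact PT.const (s (a, false) = s (a, true)))
    κ (fun c i u => (fr_fst (Y := Option A × Bool) fun t => slot c t i.1 = u).le.trans (hs c i.1 u))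
    hη
  refine h.mono fun c x r hx hr0 _ hr => ?_
  have hq : ∀ t, IsDist fun a => x (slot c t a) := fun t => hx.comp _
  set R : ℝ := 𝔼 t, 𝔼 j, cG_g (fun a => x (slot c t a)) (acc c t) j with hR
  have hr' : |r - R| ≤ η := by
    rw [hR, ← expect_prod' fun z : Q.T c × (Option A × Bool) =>
      cG_g (fun a => x (slot c z.1 a)) (acc c z.1) z.2]
    exact hr
  obtain ⟨h1, h2⟩ := abs_le.1 hr'
  have hc : (0 : ℝ) ≤ Fintype.card A + 1 := by positivity
  have key : 2 * (Fintype.card A + 1) * R ≤ 4 * (Fintype.card A + 1) * (r + η) := by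
    nlinarith [mul_nonneg hc (show 0 ≤ r + η - R by linarith),
      mul_nonneg hc (show 0 ≤ r + η by linarith)]
  refine ⟨fun u hu => ?_, fun u hu => ⟨le_trans ?_ key, fun i => le_trans ?_ key⟩⟩
  · have h3 : R ≤ 𝔼 t, ∑ i : A × Bool, (1 - x (slot c t i.1) (u (slot c t i.1))) := by
      refine expect_le_expect fun t _ => ?_
      exact expect_le univ_nonempty fun j _ => cG_comp (hq t) (hu t) j
    have h4 : ∑ i : A × Bool, 𝔼 t, (1 - x (slot c t i.1) (u (slot c t i.1))) ≤
        ∑ _i : A × Bool, κ * dw (I.w c) x u := sum_le_sum fun i _ =>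
      expect_le_dens (hs c i.1) (g := fun y => 1 - x y (u y)) fun y => sub_nonneg.2 (hx.le_one y _)
    rw [expect_sum_comm] at h3
    rw [sum_const, card_univ, Fintype.card_prod, Fintype.card_bool, nsmul_eq_mul] at h4
    push_cast at h4
    linarith
  · rw [fr_eq_expect, hR, mul_expect]
    exact expect_le_expect fun t _ => cG_s2 (hq t) (acc c t) fun a b => hu _ b
  · rw [hR, mul_expect]
    exact expect_le_expect fun t _ => cG_s1 (hq t) (acc c t) fun b => hu _ b

end R

end Vale.Agent.P330
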