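import Vale.Agent.P325.PTools
import Vale.Agent.Lib.PolyTime.Rat

/-! Polynomial time for dependent families of finite types: definitions. -/

namespace Vale.Agent.P330

open Vale.Agent.Lib.PolyTime
open scoped Classical BigOperators

/-- A code pulled back along an injection. -/
@[reducible] def Enc.pull {X Y : Type} [Enc Y] (f : X → Y) (hf : Function.Injective f) : Enc X :=
  ⟨fun x => enc (f x), fun x => sz (f x), fun _ => Enc.size_le _, fun _ _ h => hf (Enc.inj h)⟩

instance encSigma {C : Type} {X : C → Type} [Enc C] [∀ c, Enc (X c)] : Enc (Σ c, X c) :=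
  ⟨fun z => pr (enc z.1) (enc z.2), fun z => 2 * sz z.1 + sz z.2 + 1,
    fun z => by
      have h1 := size_pr (enc z.1) (enc z.2)
      have h2 := Enc.size_le z.1
      have h3 := Enc.size_le z.2
      omega,
    fun ⟨a, x⟩ ⟨b, y⟩ h => by
      obtain rfl : a = b := Enc.inj (pr_inj h).1
      obtain rfl : x = y := Enc.inj (pr_inj h).2
      rfl⟩

instance encSum {X Y : Type} [Enc X] [Enc Y] : Enc (X ⊕ Y) :=
  ⟨Sum.elim (fun x => pr 0 (enc x)) (fun y => pr 1 (enc y)),
    Sum.elim (fun x => sz x + 3) (fun y => sz y + 3),
    fun z => by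
      rcases z with x | y
      · have h1 := size_pr 0 (enc x)
        have h2 := Enc.size_le x
        simp only [Sum.elim_inl, Nat.size_zero] at *
        omega
      · have h1 := size_pr 1 (enc y)
        have h2 := Enc.size_le y
        simp only [Sum.elim_inr, Nat.size_one] at *
        omega,
    fun a b h => by
      rcases a with x | y <;> rcases b with x' | y' <;> simp only [Sum.elim_inl, Sum.elim_inr] at h
      · rw [Enc.inj (pr_inj h).2]
      · exact absurd (pr_inj h).1 (by omega)
      · exact absurd (pr_inj h).1 (by omega)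
      · rw [Enc.inj (pr_inj h).2]⟩

instance encEmpty : Enc Empty := ⟨fun x => x.elim, fun x => x.elim, fun x => x.elim, fun x => x.elim⟩

instance encFin {n : ℕ} : Enc (Fin n) := Enc.pull Fin.val Fin.val_injective

instance encSub {X : Type} [Enc X] {p : X → Prop} : Enc {x // p x} :=
  Enc.pull Subtype.val Subtype.val_injective

instance encZMod {l : ℕ} [NeZero l] : Enc (ZMod l) := Enc.pull ZMod.val (ZMod.val_injective l)

instance encFun {n : ℕ} {X : Type} [Enc X] : Enc (Fin n → X) :=
  Enc.pull List.ofFn List.ofFn_injective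

/-- A code for a fixed finite type. -/
@[reducible] noncomputable def Enc.fin (X : Type) [Fintype X] : Enc X :=
  Enc.pull (Fintype.equivFin X) (Fintype.equivFin X).injective

/-- A dependent function is computable in polynomial time. -/
def D {C : Type} [Enc C] {Y : C → Type} [∀ c, Enc (Y c)] (f : ∀ c, Y c) : Prop :=
  PT (fun c => enc (f c)) ∧ PB fun c => sz (f c)

/-- A dependent function of two arguments is computable in polynomial time. -/
abbrev D2 {C : Type} [Enc C] {X : C → Type} [∀ c, Enc (X c)] {Y : C → Type} [∀ c, Enc (Y c)]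
    (f : ∀ c, X c → Y c) : Prop :=
  D (Y := fun z : Σ c, X c => Y z.1) fun z => f z.1 z.2

/-- A dependent function of three arguments is computable in polynomial time. -/
abbrev D3 {C : Type} [Enc C] {X X' : C → Type} [∀ c, Enc (X c)] [∀ c, Enc (X' c)] {Y : C → Type}
    [∀ c, Enc (Y c)] (f : ∀ c, X c → X' c → Y c) : Prop :=
  D (Y := fun z : Σ c, X c × X' c => Y z.1) fun z => f z.1 z.2.1 z.2.2

/-- A family of types that can be listed in polynomial time. -/
def PFam {C : Type} [Enc C] (X : C → Type) [∀ c, Enc (X c)] : Prop :=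
  ∃ l : ∀ c, List (X c), D l ∧ ∀ c, (l c).Nodup ∧ ∀ x, x ∈ l c

/-- Bundled families. -/
structure Fam (C : Type) [Enc C] : Type 1 where
  T : C → Type
  fin : ∀ c, Fintype (T c)
  cod : ∀ c, Enc (T c)
  pf : PFam T

attribute [instance] Fam.fin Fam.cod

end Vale.Agent.P330
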