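import Vale.Agent.P330.DTb

/-! Dependent polynomial time: kernels of linear systems. -/

namespace Vale.Agent.P330

open Vale.Agent.Lib.PolyTime Finset
open scoped Classical BigOperators

variable {B C : Type} [Enc B] [Enc C] {X Y Z : C → Type} [∀ c, Enc (X c)] [∀ c, Enc (Y c)]
  [∀ c, Enc (Z c)] {β : Type} [Enc β]

section Elim

variable {F U V : Type} [Field F] [Fintype U] [Fintype V] (M : V → U → F) (e : V × U → ℕ)

/-- A row of the system applied to a row of the table. -/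
def dk_dot (w : U × U → F) (j : V × U) : F := ∑ x, M j.1 x * w (j.2, x)

/-- The first violated pair. -/
def dk_fst (w : U × U → F) (j : V × U) : Prop :=
  dk_dot M w j ≠ 0 ∧ ∀ j', dk_dot M w j' = 0 ∨ e j ≤ e j'

/-- One elimination step. -/
noncomputable def dk_st (w : U × U → F) (z : U × U) : F :=
  w z - ∑ j, if dk_fst M e w j then dk_dot M w (j.1, z.1) * (dk_dot M w j)⁻¹ * w (j.2, z.2) else 0

variable {e}

theorem dk_cases (he : Function.Injective e) (w : U × U → F) :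
    ((∀ j, dk_dot M w j = 0) ∧ dk_st M e w = w) ∨ ∃ j, dk_dot M w j ≠ 0 ∧ ∀ z, dk_st M e w z =
      w z - dk_dot M w (j.1, z.1) * (dk_dot M w j)⁻¹ * w (j.2, z.2) := by
  by_cases h : ∀ j, dk_dot M w j = 0
  · refine Or.inl ⟨h, funext fun z => ?_⟩
    simp [dk_st, dk_fst, h]
  · obtain ⟨j, hj, hm⟩ := (univ.filter fun j => dk_dot M w j ≠ 0).exists_min_image e
      (by simpa [Finset.Nonempty] using h)
    have h1 : dk_fst M e w j :=
      ⟨(mem_filter.1 hj).2, fun j' => or_iff_not_imp_left.2 fun h' => hm j' (by simpa using h')⟩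
    refine Or.inr ⟨j, h1.1, fun z => ?_⟩
    rw [dk_st, sum_eq_single j (fun j' _ hne => if_neg fun h' => hne (he (le_antisymm
      ((h'.2 j).resolve_left h1.1) ((h1.2 j').resolve_left h'.1)))) (by simp), if_pos h1]

theorem dk_iter (he : Function.Injective e) {v : U → F} (hv : ∀ y, ∑ x, M y x * v x = 0) (k : ℕ) :
    let w := (dk_st M e)^[k] fun z => if z.1 = z.2 then 1 else 0
    (∃ a : U → F, ∀ x, v x = ∑ b, a b * w (b, x)) ∧ ((∀ j, dk_dot M w j = 0) ∨
      (univ.filter fun b => ∃ x, w (b, x) ≠ 0).card + k ≤ Fintype.card U) := by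
  induction k with
  | zero => exact ⟨⟨v, fun x => by simp⟩, Or.inr (card_le_univ _)⟩
  | succ k ih =>
    simp only [Function.iterate_succ_apply']
    set w := (dk_st M e)^[k] fun z => if z.1 = z.2 then 1 else 0
    obtain ⟨⟨a, ha⟩, h2⟩ := ih
    rcases dk_cases M he w with ⟨h3, h4⟩ | ⟨j, h3, h4⟩
    · rw [h4]
      exact ⟨⟨a, ha⟩, Or.inl h3⟩
    · refine ⟨⟨a, fun x => ?_⟩, Or.inr ?_⟩
      · have h5 : ∑ b, a b * dk_dot M w (j.1, b) = 0 := by
          rw [← hv j.1]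
          simp only [dk_dot, ha, mul_sum]
          rw [sum_comm]
          exact sum_congr rfl fun x _ => sum_congr rfl fun b _ => by ring
        simp only [h4, mul_sub, sum_sub_distrib, ← mul_assoc, ← sum_mul, h5, zero_mul, sub_zero]
        exact ha x
      · refine le_trans ?_ (h2.resolve_left fun h => h3 (h j))
        rw [add_comm k, ← add_assoc]
        refine Nat.add_le_add_right (card_lt_card ⟨fun b hb => ?_, fun hs => ?_⟩) k
        · obtain ⟨x, hx⟩ := (mem_filter.1 hb).2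
          refine mem_filter.2 ⟨mem_univ _, by_contra fun h => hx ?_⟩
          have h5 : ∀ x, w (b, x) = 0 := by simpa using h
          simp [h4, dk_dot, h5]
        · have h5 : j.2 ∈ univ.filter fun b => ∃ x, w (b, x) ≠ 0 := by
            refine mem_filter.2 ⟨mem_univ _, by_contra fun h => h3 ?_⟩
            have h5 : ∀ x, w (j.2, x) = 0 := by simpa using h
            simp [dk_dot, h5]
          obtain ⟨x, hx⟩ := (mem_filter.1 (hs h5)).2
          refine hx ?_
          rw [h4, Prod.mk.eta, mul_inv_cancel₀ h3, one_mul, sub_self]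

theorem dk_fin (he : Function.Injective e) {v : U → F} (h0 : v ≠ 0)
    (hv : ∀ y, ∑ x, M y x * v x = 0) :
    let w := (dk_st M e)^[Fintype.card U] fun z => if z.1 = z.2 then 1 else 0
    (∃ b x, w (b, x) ≠ 0) ∧ ∀ j, dk_dot M w j = 0 := by
  intro w
  obtain ⟨⟨a, ha⟩, h2⟩ := dk_iter M he hv (Fintype.card U)
  have h1 : ∃ b x, w (b, x) ≠ 0 := by_contra fun h => h0 (funext fun x => by
    have h5 : ∀ b x, w (b, x) = 0 := by simpa using h
    rw [ha x]
    exact sum_eq_zero fun b _ => mul_eq_zero_of_right _ (h5 b x))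
  refine ⟨h1, h2.resolve_right fun h => ?_⟩
  obtain ⟨b, hb⟩ := h1
  have : 0 < (univ.filter fun b => ∃ x, w (b, x) ≠ 0).card :=
    card_pos.2 ⟨b, mem_filter.2 ⟨mem_univ b, hb⟩⟩
  exact absurd h (not_le.2 (Nat.lt_add_of_pos_left this))

end Elim

theorem dk_app {f : ∀ c, X c → β} (hf : PT fun z : Σ c, X c => f z.1 z.2) {p : B → C} (hp : PT p)
    {x : ∀ b, X (p b)} (hx : D x) : PT fun b => f (p b) (x b) :=
  hf.comp (pt_sigma_mk hp hx)

variable [∀ c, Fintype (X c)]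

theorem dk_pt_dot {l : ℕ} [Fact l.Prime] [∀ c, Fintype (Y c)] (hX : PFam X)
    {M : ∀ c, Y c → X c → ZMod l} (hM : PT fun z : Σ c, Y c × X c => M z.1 z.2.1 z.2.2)
    {w : ∀ c, X c × X c → ZMod l} (hw : PT fun z : Σ c, X c × X c => w z.1 z.2) :
    PT fun z : Σ c, Y c × X c => dk_dot (M z.1) (w z.1) z.2 := by
  refine (hX.comap pt_sigma_fst).pt_sumZ
    (f := fun (z : Σ c, Y c × X c) x => M z.1 z.2.1 x * w z.1 (z.2.2, x)) (pt_mulZ ?_ ?_)
  · exact dk_app (f := fun c (j : Y c × X c) => M c j.1 j.2) hM (pt_sigma_fst.comp pt_sigma_fst)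
      (x := fun u : Σ z : Σ c, Y c × X c, X z.1 => (u.1.2.1, u.2))
      ((D.sigma_snd.comp pt_sigma_fst).fst.pair D.sigma_snd)
  · exact dk_app (f := w) hw (pt_sigma_fst.comp pt_sigma_fst)
      (x := fun u : Σ z : Σ c, Y c × X c, X z.1 => (u.1.2.2, u.2))
      ((D.sigma_snd.comp pt_sigma_fst).snd.pair D.sigma_snd)

theorem dk_pt_st {l : ℕ} [Fact l.Prime] [∀ c, Fintype (Y c)] (hX : PFam X) (hY : PFam Y)
    {M : ∀ c, Y c → X c → ZMod l} (hM : PT fun z : Σ c, Y c × X c => M z.1 z.2.1 z.2.2)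
    {e : ∀ c, Y c × X c → ℕ} (he : PT fun z : Σ c, Y c × X c => e z.1 z.2)
    {w : ∀ c, X c × X c → ZMod l} (hw : PT fun z : Σ c, X c × X c => w z.1 z.2) :
    PT fun z : Σ c, X c × X c => dk_st (M z.1) (e z.1) (w z.1) z.2 := by
  have h1 := dk_pt_dot hX hM hw
  have h2 : PT fun z : Σ c, Y c × X c => dk_fst (M z.1) (e z.1) (w z.1) z.2 :=
    (h1.ne (PT.const 0)).and (((hY.prod hX).comap pt_sigma_fst).pt_forall
      (p := fun (z : Σ c, Y c × X c) j' => dk_dot (M z.1) (w z.1) j' = 0 ∨ e z.1 z.2 ≤ e z.1 j')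
      (((dk_app (f := fun c j => dk_dot (M c) (w c) j) h1 (pt_sigma_fst.comp pt_sigma_fst)
        D.sigma_snd).eq (PT.const 0)).or ((he.comp pt_sigma_fst).le
          (dk_app he (pt_sigma_fst.comp pt_sigma_fst) D.sigma_snd))))
  refine pt_subZ hw (((hY.prod hX).comap pt_sigma_fst).pt_sumZ
    (f := fun (z : Σ c, X c × X c) j => if dk_fst (M z.1) (e z.1) (w z.1) j then
      dk_dot (M z.1) (w z.1) (j.1, z.2.1) * (dk_dot (M z.1) (w z.1) j)⁻¹ * w z.1 (j.2, z.2.2)
      else 0) (PT.ite ?_ (pt_mulZ (pt_mulZ ?_ (pt_invZ ?_)) ?_) (PT.const 0)))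
  · exact dk_app (f := fun c j => dk_fst (M c) (e c) (w c) j) h2 (pt_sigma_fst.comp pt_sigma_fst)
      D.sigma_snd
  · exact dk_app (f := fun c j => dk_dot (M c) (w c) j) h1 (pt_sigma_fst.comp pt_sigma_fst)
      (D.sigma_snd.fst.pair (D.sigma_snd.comp pt_sigma_fst).fst)
  · exact dk_app (f := fun c j => dk_dot (M c) (w c) j) h1 (pt_sigma_fst.comp pt_sigma_fst)
      D.sigma_snd
  · exact dk_app hw (pt_sigma_fst.comp pt_sigma_fst)
      (D.sigma_snd.snd.pair (D.sigma_snd.comp pt_sigma_fst).snd)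

/-- A nonzero solution of a homogeneous linear system, by elimination. -/
theorem PFam.kernel {l : ℕ} [Fact l.Prime] [∀ c, Fintype (Y c)] (hX : PFam X) (hY : PFam Y)
    {M : ∀ c, Y c → X c → ZMod l} (hM : PT fun z : Σ c, Y c × X c => M z.1 z.2.1 z.2.2)
    (h : ∀ c, ∃ v : X c → ZMod l, v ≠ 0 ∧ ∀ y, ∑ x, M c y x * v x = 0) :
    ∃ v : ∀ c, X c → ZMod l, (PT fun z : Σ c, X c => v z.1 z.2) ∧
      ∀ c, v c ≠ 0 ∧ ∀ y, ∑ x, M c y x * v c x = 0 := by
  obtain ⟨e, he, -⟩ := (hY.prod hX).equiv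
  have he' : PT fun z : Σ c, Y c × X c => (e z.1 z.2 : ℕ) := D.fin_iff.1 he
  have hw := (hX.prod hX).iter_word (fun c => dk_st (M c) fun j => (e c j : ℕ))
    (fun B' _ p w hp hw => dk_pt_st (hX.comap hp) (hY.comap hp) (M := fun b => M (p b))
      (dk_app (f := fun c (j : Y c × X c) => M c j.1 j.2) hM (hp.comp pt_sigma_fst) D.sigma_snd)
      (e := fun b j => (e (p b) j : ℕ))
      (dk_app (f := fun c j => (e c j : ℕ)) he' (hp.comp pt_sigma_fst) D.sigma_snd) hw)
    (w := fun c z => if z.1 = z.2 then 1 else 0)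
    (PT.ite (D.sigma_snd.fst.eq D.sigma_snd.snd) (PT.const 1) (PT.const 0)) hX.pt_card hX.pb_card
  have hk := fun c => (h c).elim fun v hv =>
    dk_fin (M c) (e := fun j => (e c j : ℕ)) (Fin.val_injective.comp (e c).injective) hv.1 hv.2
  set w : ∀ c, X c × X c → ZMod l := fun c => (dk_st (M c) fun j => (e c j : ℕ))^[Fintype.card (X c)]
    fun z => if z.1 = z.2 then 1 else 0
  obtain ⟨b, hb, h1⟩ := hX.choose (p := fun c b => ∃ x, w c (b, x) ≠ 0)
    ((hX.comap pt_sigma_fst).pt_exists (p := fun (z : Σ c, X c) x => w z.1 (z.2, x) ≠ 0)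
      ((dk_app (f := w) hw (pt_sigma_fst.comp pt_sigma_fst)
        (x := fun u : Σ z : Σ c, X c, X z.1 => (u.1.2, u.2))
        ((D.sigma_snd.comp pt_sigma_fst).pair D.sigma_snd)).ne (PT.const 0))) fun c => (hk c).1
  refine ⟨fun c x => w c (b c, x), dk_app (f := w) hw pt_sigma_fst
    (x := fun z : Σ c, X c => (b z.1, z.2)) ((hb.comp pt_sigma_fst).pair D.sigma_snd),
    fun c => ⟨fun h0 => ?_, fun y => (hk c).2 (y, b c)⟩⟩
  obtain ⟨x, hx⟩ := h1 c
  exact hx (congrFun h0 x)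

end Vale.Agent.P330
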