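import Vale.Agent.P330.DTf
import Vale.Agent.P330.DTk

/-! Toolkit for polynomial time on dependent families: bundled families. -/

namespace Vale.Agent.P330

open Vale.Agent.Lib.PolyTime Finset
open scoped Classical BigOperators

variable {B C : Type} [Enc B] [Enc C] {X Y Z : C → Type} [∀ c, Enc (X c)] [∀ c, Enc (Y c)]
  [∀ c, Enc (Z c)] {β : Type} [Enc β]

/-- A fixed finite type as a family. -/
@[reducible] def Fam.const (C : Type) [Enc C] (A : Type) [h : Fintype A] [e : Enc A] : Fam C :=
  ⟨fun _ => A, fun _ => h, fun _ => e, PFam.const A⟩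
/-- Initial segments. -/
@[reducible] def Fam.ofFin (n : C → ℕ) (hn : PT n) (hn' : PB n) : Fam C :=
  ⟨fun c => Fin (n c), fun _ => inferInstance, fun _ => inferInstance, PFam.fin hn hn'⟩
/-- Products. -/
@[reducible] def Fam.prod (U V : Fam C) : Fam C :=
  ⟨fun c => U.T c × V.T c, fun _ => inferInstance, fun _ => inferInstance, U.pf.prod V.pf⟩
/-- Sums. -/
@[reducible] def Fam.sum (U V : Fam C) : Fam C :=
  ⟨fun c => U.T c ⊕ V.T c, fun _ => inferInstance, fun _ => inferInstance, U.pf.sum V.pf⟩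
/-- Option. -/
@[reducible] def Fam.option (U : Fam C) : Fam C :=
  ⟨fun c => Option (U.T c), fun _ => inferInstance, fun _ => inferInstance, U.pf.option⟩
/-- Dependent sums. -/
@[reducible] def Fam.sigma (J : Fam C) (W : Fam (Σ c, J.T c)) : Fam C :=
  ⟨fun c => Σ j : J.T c, W.T ⟨c, j⟩, fun _ => inferInstance, fun _ => inferInstance,
    J.pf.sigma W.pf⟩
/-- Subfamilies. -/
@[reducible] noncomputable def Fam.sub (U : Fam C) (p : ∀ c, U.T c → Prop)
    (hp : PT fun z : Σ c, U.T c => p z.1 z.2) : Fam C :=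
  ⟨fun c => {x // p c x}, fun _ => inferInstance, fun _ => inferInstance, U.pf.sub hp⟩
/-- Tuples. -/
@[reducible] noncomputable def Fam.fn (U : Fam C) (n : C → ℕ) (hn : PT n) (hn' : PB n)
    (hb : PB fun c => Fintype.card (U.T c) ^ n c) : Fam C :=
  ⟨fun c => Fin (n c) → U.T c, fun _ => inferInstance, fun _ => inferInstance, U.pf.fn hn hn' hb⟩
/-- Change of the base. -/
@[reducible] def Fam.comap (U : Fam C) (p : B → C) (hp : PT p) : Fam B :=
  ⟨fun b => U.T (p b), fun _ => inferInstance, fun _ => inferInstance, U.pf.comap hp⟩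

end Vale.Agent.P330
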