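import Vale.Agent.P330.D

/-! Dependent polynomial time: basic closure properties. -/

namespace Vale.Agent.P330

open Vale.Agent.Lib.PolyTime Finset
open scoped Classical BigOperators

variable {B C : Type} [Enc B] [Enc C] {X Y Z : C → Type} [∀ c, Enc (X c)] [∀ c, Enc (Y c)]
  [∀ c, Enc (Z c)] {β : Type} [Enc β]

theorem D.iff_pt {f : C → β} : D (Y := fun _ => β) f ↔ PT f :=
  ⟨fun h => PT.of_enc h.1 (fun _ => rfl) h.2, fun h => ⟨h.encN, h.1⟩⟩
theorem D.pt {f : C → β} (h : D (Y := fun _ => β) f) : PT f := D.iff_pt.1 h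
theorem D.of_pt {f : C → β} (h : PT f) : D (Y := fun _ => β) f := D.iff_pt.2 h
theorem D.const (b : β) : D (Y := fun _ : C => β) fun _ => b := D.of_pt (PT.const b)
theorem D.congr {f g : ∀ c, X c} (h : D f) (e : ∀ c, g c = f c) : D g := by
  rwa [show g = f from funext e]
/-- Transfer between types with the same codes. -/
theorem D.of_enc {f : ∀ c, X c} {g : ∀ c, Y c} (h : D f) (e : ∀ c, enc (g c) = enc (f c))
    (s : PB fun c => sz (g c)) : D g := ⟨h.1.congr e, s⟩
theorem D.of_code {f : C → ℕ} {g : ∀ c, Y c} (h : PT f) (e : ∀ c, enc (g c) = f c)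
    (s : PB fun c => sz (g c)) : D g := ⟨h.congr e, s⟩
theorem D.comp {f : ∀ c, X c} {p : B → C} (h : D f) (hp : PT p) : D fun b => f (p b) :=
  ⟨h.1.comp hp, h.2.comp hp⟩

theorem sz_sigma {C : Type} [Enc C] {X : C → Type} [∀ c, Enc (X c)] (z : Σ c, X c) :
    sz z = 2 * sz z.1 + sz z.2 + 1 := rfl

theorem D.dsig_mk {W : ∀ c, X c → Type} [∀ c x, Enc (W c x)] {x : ∀ c, X c} {w : ∀ c, W c (x c)}
    (hx : D x) (hw : D w) : D fun c => (⟨x c, w c⟩ : Σ j, W c j) :=
  D.of_code (hx.1.pr hw.1) (fun _ => rfl)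
    (((hx.2.lin 2 1).add hw.2).of_le fun c => by rw [sz_sigma]; dsimp only; omega)
theorem D.dsig_fst {W : ∀ c, X c → Type} [∀ c x, Enc (W c x)] {z : ∀ c, Σ j, W c j} (h : D z) :
    D fun c => (z c).1 :=
  D.of_code h.1.fstN (fun _ => (fstN_pr _ _).symm) (h.2.of_le fun c => by rw [sz_sigma]; omega)
theorem D.dsig_snd {W : ∀ c, X c → Type} [∀ c x, Enc (W c x)] {z : ∀ c, Σ j, W c j} (h : D z) :
    D fun c => (z c).2 :=
  D.of_code h.1.sndN (fun _ => (sndN_pr _ _).symm) (h.2.of_le fun c => by rw [sz_sigma]; omega)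
theorem pt_sigma_mk {p : B → C} {x : ∀ b, X (p b)} (hp : PT p) (hx : D x) :
    PT fun b => (⟨p b, x b⟩ : Σ c, X c) :=
  (D.dsig_mk (X := fun _ => C) (W := fun _ c => X c) (D.of_pt hp) hx).pt
theorem pt_sigma_fst : PT fun z : Σ c, X c => z.1 :=
  (D.dsig_fst (X := fun _ => C) (W := fun _ c => X c) (D.of_pt PT.id)).pt
theorem D.sigma_snd : D (Y := fun z : Σ c, X c => X z.1) fun z => z.2 :=
  D.dsig_snd (X := fun _ => C) (W := fun _ c => X c) (D.of_pt PT.id)
theorem D2.app {f : ∀ c, X c → Y c} (h : D2 f) {p : B → C} (hp : PT p) {x : ∀ b, X (p b)}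
    (hx : D x) : D fun b => f (p b) (x b) :=
  D.comp h (pt_sigma_mk hp hx)
theorem D.pair {x : ∀ c, X c} {y : ∀ c, Y c} (hx : D x) (hy : D y) : D fun c => (x c, y c) :=
  D.of_code (hx.1.pr hy.1) (fun _ => rfl)
    (((hx.2.lin 2 1).add hy.2).of_le fun c => by rw [sz_pair]; omega)
theorem D3.app {W : C → Type} [∀ c, Enc (W c)] {f : ∀ c, X c → Y c → W c} (h : D3 f) {p : B → C}
    (hp : PT p) {x : ∀ b, X (p b)} {y : ∀ b, Y (p b)} (hx : D x) (hy : D y) :
    D fun b => f (p b) (x b) (y b) :=
  D.comp h (pt_sigma_mk (X := fun c => X c × Y c) hp (hx.pair hy))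
theorem D.fst {z : ∀ c, X c × Y c} (h : D z) : D fun c => (z c).1 :=
  D.of_code h.1.fstN (fun _ => (fstN_pr _ _).symm) (h.2.of_le fun c => by rw [sz_prod]; omega)
theorem D.snd {z : ∀ c, X c × Y c} (h : D z) : D fun c => (z c).2 :=
  D.of_code h.1.sndN (fun _ => (sndN_pr _ _).symm) (h.2.of_le fun c => by rw [sz_prod]; omega)
theorem D.inl {x : ∀ c, X c} (h : D x) : D fun c => (Sum.inl (x c) : X c ⊕ Y c) :=
  D.of_code ((PT.const 0).pr h.1) (fun _ => rfl) (h.2.add (PB.const 3))
theorem D.inr {y : ∀ c, Y c} (h : D y) : D fun c => (Sum.inr (y c) : X c ⊕ Y c) :=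
  D.of_code ((PT.const 1).pr h.1) (fun _ => rfl) (h.2.add (PB.const 3))
theorem pt_val {p : C → Prop} : PT fun z : {c // p c} => z.1 :=
  PT.of_enc (PT.id (α := {c // p c})).encN (fun _ => rfl) PB.sz

open Vale.Agent.Lib.StackLang in
theorem pt_dite {p : C → Prop} [DecidablePred p] {f : ∀ c, p c → ℕ} {g : ∀ c, ¬ p c → ℕ}
    (hp : PT p) (hf : PT fun z : {c // p c} => f z.1 z.2)
    (hg : PT fun z : {c // ¬ p c} => g z.1 z.2) :
    PT fun c => if h : p c then f c h else g c h := by
  obtain ⟨-, w, V, hV, hw⟩ := hp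
  obtain ⟨-, r, T, ⟨P, hP⟩, hr⟩ := hf
  obtain ⟨-, q, U, ⟨Q, hQ⟩, hq⟩ := hg
  refine PT.of_cmp (.seq (acts [.dup .m .m]) (.seq w (.ite (.nz .m) (.seq (acts [.pop .m]) r)
      (.seq (acts [.pop .m]) q)))) (fun a => V a + P.eval (sz a) + Q.eval (sz a) + 7)
    (((hV.add (PB.sz.eval P)).add (PB.sz.eval Q)).add (PB.const 7)) fun a m x y z => ?_
  have h0 : R (acts [.dup .m .m]) (st (enc a :: m) x y z) (st (enc a :: enc a :: m) x y z) 3 :=
    run_acts' _ (by simp [act2])
  have h3 : R (acts [.pop .m]) (st (enc (p a) :: enc a :: m) x y z) (st (enc a :: m) x y z) 3 :=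
    run_acts' _ (by simp [act2])
  by_cases h : p a
  · have h4 : T ⟨a, h⟩ ≤ P.eval (sz a) := hP ⟨a, h⟩
    exact (h0.seq ((hw a _ x y z).seq (Run.iteT (by simp [tst2, h, Enc.enc])
      (h3.seq (hr ⟨a, h⟩ m x y z))))).congr (by simp [h]) (by omega)
  · have h4 : U ⟨a, h⟩ ≤ Q.eval (sz a) := hQ ⟨a, h⟩
    exact (h0.seq ((hw a _ x y z).seq (Run.iteF (by simp [tst2, h, Enc.enc])
      (h3.seq (hq ⟨a, h⟩ m x y z))))).congr (by simp [h]) (by omega)

/-- Dependent case distinction. -/
theorem D.dite {p : C → Prop} [DecidablePred p] {f : ∀ c, p c → X c} {g : ∀ c, ¬ p c → X c}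
    (hp : PT p) (hf : D (Y := fun z : {c // p c} => X z.1) fun z => f z.1 z.2)
    (hg : D (Y := fun z : {c // ¬ p c} => X z.1) fun z => g z.1 z.2) :
    D fun c => if h : p c then f c h else g c h := by
  refine D.of_code (pt_dite (f := fun c h => enc (f c h)) (g := fun c h => enc (g c h))
    hp hf.1 hg.1) (fun c => by split_ifs <;> rfl) ?_
  obtain ⟨P, hP⟩ := hf.2
  obtain ⟨Q, hQ⟩ := hg.2
  refine ((PB.sz.eval P).add (PB.sz.eval Q)).of_le fun c => ?_
  split_ifs with h
  · exact (hP ⟨c, h⟩).trans (Nat.le_add_right _ _)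
  · exact (hQ ⟨c, h⟩).trans (Nat.le_add_left _ _)
theorem D.ite {p : C → Prop} [DecidablePred p] {f g : ∀ c, X c} (hp : PT p) (hf : D f) (hg : D g) :
    D fun c => if p c then f c else g c :=
  D.dite (f := fun c _ => f c) (g := fun c _ => g c) hp (hf.comp pt_val) (hg.comp pt_val)
theorem D.eq {f g : ∀ c, X c} (hf : D f) (hg : D g) : PT fun c => f c = g c :=
  (PT.eq hf.1 hg.1).congr fun _ => propext ⟨fun h => congrArg enc h, fun h => Enc.inj h⟩
theorem D.isLeft {z : ∀ c, X c ⊕ Y c} (h : D z) : PT fun c => (z c).isLeft = true :=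
  (PT.eq h.1.fstN (PT.const 0)).congr fun c => by
    rcases z c with x | y
    · exact propext ⟨fun _ => fstN_pr _ _, fun _ => rfl⟩
    · exact propext ⟨fun h => by simp at h, fun h => absurd ((fstN_pr _ _).symm.trans h) one_ne_zero⟩
theorem D.getLeft {z : ∀ c, X c ⊕ Y c} (h : D z) (e : ∀ c, (z c).isLeft = true) :
    D fun c => (z c).getLeft (e c) := by
  have key : ∀ c (w : X c ⊕ Y c) (e : w.isLeft = true),
      enc (w.getLeft e) = sndN (enc w) ∧ sz (w.getLeft e) ≤ sz w := fun c w e => by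
    rcases w with x | y
    · exact ⟨(sndN_pr _ _).symm, Nat.le_add_right _ 3⟩
    · simp at e
  exact D.of_code h.1.sndN (fun c => (key c _ _).1) (h.2.of_le fun c => (key c _ _).2)
theorem D.getRight {z : ∀ c, X c ⊕ Y c} (h : D z) (e : ∀ c, (z c).isRight = true) :
    D fun c => (z c).getRight (e c) := by
  have key : ∀ c (w : X c ⊕ Y c) (e : w.isRight = true),
      enc (w.getRight e) = sndN (enc w) ∧ sz (w.getRight e) ≤ sz w := fun c w e => by
    rcases w with x | y
    · simp at e
    · exact ⟨(sndN_pr _ _).symm, Nat.le_add_right _ 3⟩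
  exact D.of_code h.1.sndN (fun c => (key c _ _).1) (h.2.of_le fun c => (key c _ _).2)
theorem D.sum_elim {z : ∀ c, X c ⊕ Y c} {f : ∀ c, X c → Z c} {g : ∀ c, Y c → Z c} (h : D z)
    (hf : D2 f) (hg : D2 g) : D fun c => Sum.elim (f c) (g c) (z c) := by
  refine (D.dite (p := fun c => (z c).isLeft = true) (f := fun c e => f c ((z c).getLeft e))
    (g := fun c e => g c ((z c).getRight (by simpa using e))) h.isLeft
    (hf.app pt_val ((h.comp pt_val).getLeft fun w => w.2))
    (hg.app pt_val ((h.comp pt_val).getRight fun w => by simpa using w.2))).congr fun c => ?_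
  rcases z c with x | y <;> simp
theorem D.some {x : ∀ c, X c} (h : D x) : D fun c => some (x c) :=
  D.of_code (h.1.add (PT.const 1)) (fun _ => rfl) (h.2.add (PB.const 1))
theorem D.none : D fun c => (none : Option (X c)) :=
  D.of_code (PT.const 0) (fun _ => rfl) (PB.const 0)
theorem D.isSome {z : ∀ c, Option (X c)} (h : D z) : PT fun c => (z c).isSome = true :=
  (PT.ne h.1 (PT.const 0)).congr fun c => by cases z c <;> simp
theorem D.get {z : ∀ c, Option (X c)} (h : D z) (e : ∀ c, (z c).isSome = true) :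
    D fun c => (z c).get (e c) := by
  have key : ∀ c (w : Option (X c)) (e : w.isSome = true),
      enc (w.get e) = enc w - 1 ∧ sz (w.get e) ≤ sz w := fun c w e => by
    cases w with
    | none => simp at e
    | some x => simp
  exact D.of_code (h.1.sub (PT.const 1)) (fun c => (key c _ _).1) (h.2.of_le fun c => (key c _ _).2)
theorem D.option_elim {z : ∀ c, Option (X c)} {d : ∀ c, Z c} {f : ∀ c, X c → Z c} (h : D z)
    (hd : D d) (hf : D2 f) : D fun c => (z c).elim (d c) (f c) := by
  refine (D.dite (p := fun c => (z c).isSome = true) (f := fun c e => f c ((z c).get e))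
    (g := fun c _ => d c) h.isSome (hf.app pt_val ((h.comp pt_val).get fun w => w.2))
    (hd.comp pt_val)).congr fun c => ?_
  cases z c <;> simp
theorem D.val {p : ∀ c, X c → Prop} {x : ∀ c, {y // p c y}} (h : D x) : D fun c => (x c).1 := h
theorem D.sub_mk {p : ∀ c, X c → Prop} {x : ∀ c, X c} (h : D x) (hp : ∀ c, p c (x c)) :
    D fun c => (⟨x c, hp c⟩ : {y // p c y}) := h
theorem D.fin_iff {n : C → ℕ} {x : ∀ c, Fin (n c)} : D x ↔ PT fun c => (x c : ℕ) :=
  D.iff_pt (f := fun c => (x c : ℕ))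
theorem D.cases [Finite β] {g : C → β} (hg : PT g) (f : β → ∀ c, X c) (hf : ∀ b, D (f b)) :
    D fun c => f (g c) c := by
  refine ⟨P325.pt_cases hg (fun b c => enc (f b c)) fun b => (hf b).1, ?_⟩
  have := Fintype.ofFinite β
  have key : ∀ s : Finset β, PB fun c => ∑ b ∈ s, sz (f b c) := fun s => by
    induction s using Finset.induction_on with
    | empty => simpa using PB.const 0
    | insert a s ha ih => simpa only [sum_insert ha] using (hf a).2.add ih
  exact (key univ).of_le fun c =>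
    single_le_sum (f := fun b => sz (f b c)) (fun _ _ => Nat.zero_le _) (mem_univ _)
/-- Case distinction on a function on a fixed finite type with finitely many values. -/
theorem D.cases_fun {A : Type} [Fintype A] [Finite β] {g : C → A → β} (hg : ∀ i, PT fun c => g c i)
    (f : (A → β) → ∀ c, X c) (hf : ∀ b, D (f b)) : D fun c => f (g c) c := by
  have := Fintype.ofFinite β
  let _ := Enc.fin (A → β)
  exact D.cases (P325.pt_finite_fun g hg (fun b _ => b) fun b => PT.const b) f hf

/-! ### Lists -/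

theorem enc_codes (l : List β) : enc (l.map enc) = enc l := by
  induction l with
  | nil => rfl
  | cons a l ih => simp [ih]
theorem sz_codes (l : List β) : sz (l.map enc) ≤ sz l := by
  induction l with
  | nil => simp
  | cons a l ih =>
    have := Enc.size_le a
    simp only [List.map_cons, sz_cons, sz_nat]; omega
theorem D.codes {l : ∀ c, List (X c)} (h : D l) : PT fun c => (l c).map enc :=
  PT.of_enc h.1 (fun _ => enc_codes _) (h.2.of_le fun _ => sz_codes _)
theorem D.of_codes {l : ∀ c, List (X c)} {k : C → List ℕ} (h : PT k) (e : ∀ c, (l c).map enc = k c)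
    (s : PB fun c => sz (l c)) : D l :=
  D.of_code h.encN (fun c => by rw [← e, enc_codes]) s

theorem D.nil : D fun c => ([] : List (X c)) := D.of_code (PT.const 0) (fun _ => rfl) (PB.const 0)
theorem D.cons {x : ∀ c, X c} {l : ∀ c, List (X c)} (hx : D x) (hl : D l) :
    D fun c => x c :: l c :=
  D.of_code ((hx.1.pr hl.1).add (PT.const 1)) (fun _ => rfl)
    (((hx.2.lin 2 2).add hl.2).of_le fun c => by rw [sz_cons]; omega)
theorem D.append {l l' : ∀ c, List (X c)} (hl : D l) (hl' : D l') : D fun c => l c ++ l' c :=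
  D.of_codes (hl.codes.append hl'.codes) (fun _ => List.map_append)
    ((hl.2.add hl'.2).of_le fun _ => (sz_append _ _).le)
theorem D.tail {l : ∀ c, List (X c)} (hl : D l) : D fun c => (l c).tail :=
  D.of_codes hl.codes.tail (fun _ => List.map_tail) (hl.2.of_le fun _ => sz_tail _)
theorem D.reverse {l : ∀ c, List (X c)} (hl : D l) : D fun c => (l c).reverse :=
  D.of_codes hl.codes.reverse (fun _ => List.map_reverse) (hl.2.of_le fun _ => (sz_reverse _).le)
theorem D.take {l : ∀ c, List (X c)} {n : C → ℕ} (hl : D l) (hn : PT n) :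
    D fun c => (l c).take (n c) :=
  D.of_codes (PT.take hn hl.codes) (fun _ => List.map_take)
    (hl.2.of_le fun _ => sz_sublist (List.take_sublist _ _))
theorem D.drop {l : ∀ c, List (X c)} {n : C → ℕ} (hl : D l) (hn : PT n) :
    D fun c => (l c).drop (n c) :=
  D.of_codes (PT.drop hn hl.codes) (fun _ => List.map_drop)
    (hl.2.of_le fun _ => sz_sublist (List.drop_sublist _ _))
theorem D.head? {l : ∀ c, List (X c)} (hl : D l) : D fun c => (l c).head? :=
  D.of_code hl.codes.head?.encN (fun c => by cases l c <;> simp)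
    (hl.2.of_le fun c => by cases l c <;> simp; omega)
theorem D.length {l : ∀ c, List (X c)} (hl : D l) : PT fun c => (l c).length :=
  hl.codes.length.congr fun _ => by simp
theorem D.pb_length {l : ∀ c, List (X c)} (hl : D l) : PB fun c => (l c).length :=
  hl.2.of_le fun _ => length_le_sz _
theorem D.getElem? {l : ∀ c, List (X c)} {n : C → ℕ} (hl : D l) (hn : PT n) :
    D fun c => (l c)[n c]? :=
  (hl.drop hn).head?.congr fun _ => List.head?_drop.symm
theorem D.option_getD {z : ∀ c, Option (X c)} {d : ∀ c, X c} (h : D z) (hd : D d) :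
    D fun c => (z c).getD (d c) :=
  (D.option_elim (f := fun _ x => x) h hd D.sigma_snd).congr fun c => by cases z c <;> rfl
theorem D.getD {l : ∀ c, List (X c)} {n : C → ℕ} {d : ∀ c, X c} (hl : D l) (hn : PT n) (hd : D d) :
    D fun c => (l c).getD (n c) (d c) :=
  ((hl.getElem? hn).option_getD hd).congr fun _ => List.getD_eq_getElem?_getD
theorem D.getElem {l : ∀ c, List (X c)} {n : C → ℕ} (hl : D l) (hn : PT n)
    (h : ∀ c, n c < (l c).length) : D fun c => (l c)[n c]'(h c) :=
  ((hl.getElem? hn).get fun c => by simp [h c]).congr fun c => by simp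
theorem D.idxOf {l : ∀ c, List (X c)} {x : ∀ c, X c} (hl : D l) (hx : D x) :
    PT fun c => (l c).idxOf (x c) := by
  refine (P325.pt_idxOf hx.1 hl.codes).congr fun c => ?_
  induction l c with
  | nil => simp
  | cons y L ih =>
    by_cases h : y = x c
    · simp [h]
    · have h' : enc y ≠ enc (x c) := fun e => h (Enc.inj e)
      rw [List.map_cons, List.idxOf_cons_ne _ h, List.idxOf_cons_ne _ h', ih]
theorem D.mem {l : ∀ c, List (X c)} {x : ∀ c, X c} (hl : D l) (hx : D x) :
    PT fun c => x c ∈ l c :=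
  (PT.mem hx.1 hl.codes).congr fun _ => propext (List.mem_map_of_injective Enc.inj).symm
theorem D.iterate {f : ∀ c, X c → X c} {x : ∀ c, X c} {n b : C → ℕ} (hf : D2 f) (hx : D x)
    (hn : PT n) (hn' : PB n) (hb : PB b) (h : ∀ c k, k ≤ n c → sz ((f c)^[k] (x c)) ≤ b c) :
    D fun c => (f c)^[n c] (x c) := by
  let F : (Σ c, X c) → Σ c, X c := fun z => ⟨z.1, f z.1 z.2⟩
  have hF : PT F := pt_sigma_mk pt_sigma_fst hf
  have key : ∀ c k (y : X c), F^[k] ⟨c, y⟩ = ⟨c, (f c)^[k] y⟩ := fun c k => by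
    induction k with
    | zero => exact fun _ => rfl
    | succ k ih => exact fun y => ih _
  have h1 := PT.iterate (f := fun (_ : C) s => F s) (i := fun c => ⟨c, x c⟩)
    (B := fun c => 2 * sz c + 1 + b c) (hF.comp PT.id.snd) hn hn' (pt_sigma_mk PT.id hx)
    ((PB.sz.lin 2 1).add hb) fun c k hk => by
      have := h c k hk
      rw [key, sz_sigma]; dsimp only; omega
  exact D.comp D.sigma_snd (p := fun c => ⟨c, (f c)^[n c] (x c)⟩) (h1.congr fun c => (key _ _ _).symm)
/-- Left fold with polynomially bounded accumulators. -/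
theorem D.foldl {f : ∀ c, Y c → X c → Y c} {l : ∀ c, List (X c)} {i : ∀ c, Y c} {b : C → ℕ}
    (hf : D3 f) (hl : D l) (hi : D i) (hb : PB b)
    (h : ∀ c k, sz (((l c).take k).foldl (f c) (i c)) ≤ b c) :
    D fun c => (l c).foldl (f c) (i c) := by
  let F : ∀ c, Y c × List (X c) → Y c × List (X c) :=
    fun c s => (s.2.head?.elim s.1 (f c s.1), s.2.tail)
  have hF : D2 F := D.pair (D.option_elim D.sigma_snd.snd.head? D.sigma_snd.fst
    (hf.app (pt_sigma_fst.comp pt_sigma_fst) (D.sigma_snd.comp pt_sigma_fst).fst D.sigma_snd))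
    D.sigma_snd.snd.tail
  have key : ∀ c k (s : Y c) (L : List (X c)),
      (F c)^[k] (s, L) = ((L.take k).foldl (f c) s, L.drop k) := fun c k => by
    induction k with
    | zero => simp
    | succ k ih =>
      intro s L
      rw [Function.iterate_succ_apply]
      cases L with
      | nil => simpa [F] using ih s []
      | cons y L => simpa [F] using ih (f c s y) L
  have h1 := D.iterate (b := fun c => 2 * b c + 1 + sz (l c)) hF (hi.pair hl) hl.length
    hl.pb_length ((hb.lin 2 1).add hl.2) fun c k _ => by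
      have h2 := h c k
      have h3 := sz_sublist (List.drop_sublist k (l c))
      rw [key, sz_pair]; omega
  exact h1.fst.congr fun c => by rw [key, List.take_length]
/-- Left fold whose step enlarges the accumulator by a polynomial amount. -/
theorem D.foldl_add {f : ∀ c, Y c → X c → Y c} {l : ∀ c, List (X c)} {i : ∀ c, Y c} {b : C → ℕ}
    (hf : D3 f) (hl : D l) (hi : D i) (hb : PB b)
    (h : ∀ c s, ∀ y ∈ l c, sz (f c s y) ≤ sz s + b c) : D fun c => (l c).foldl (f c) (i c) := by
  refine D.foldl hf hl hi (hi.2.add (hl.pb_length.mul hb)) fun c k => ?_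
  have key : ∀ (L : List (X c)) (s : Y c), (∀ y ∈ L, y ∈ l c) →
      sz (L.foldl (f c) s) ≤ sz s + L.length * b c := by
    intro L
    induction L with
    | nil => simp
    | cons y L ih =>
      intro s hL
      have h1 := ih (f c s y) fun z hz => hL z (by simp [hz])
      have h2 := h c s y (hL y (by simp))
      simp only [List.foldl_cons, List.length_cons, add_mul]; omega
  refine (key _ _ fun y hy => List.mem_of_mem_take hy).trans ?_
  exact Nat.add_le_add_left (Nat.mul_le_mul_right _ (by simp)) _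
/-- A uniform bound along a list. -/
theorem pb_along {g : (Σ c, X c) → ℕ} {l : ∀ c, List (X c)} (hg : PB g) (hl : D l) :
    ∃ b : C → ℕ, PB b ∧ ∀ c, ∀ y ∈ l c, g ⟨c, y⟩ ≤ b c := by
  obtain ⟨Q, hQ⟩ := hg
  refine ⟨fun c => Q.eval (2 * sz c + 1 + sz (l c)), ((PB.sz.lin 2 1).add hl.2).eval Q,
    fun c y hy => (hQ _).trans (eval_mono Q ?_)⟩
  have := sz_mem hy
  rw [sz_sigma]; dsimp only; omega
theorem D.flatMap {l : ∀ c, List (X c)} {f : ∀ c, X c → List (Y c)} (hl : D l) (hf : D2 f) :
    D fun c => (l c).flatMap (f c) := by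
  obtain ⟨b, hb, h⟩ := pb_along hf.2 hl
  refine (D.foldl_add (f := fun c (acc : List (Y c)) y => acc ++ f c y)
    (D.sigma_snd.fst.append (hf.app pt_sigma_fst D.sigma_snd.snd)) hl D.nil hb
    fun c s y hy => by rw [sz_append]; exact Nat.add_le_add_left (h c y hy) _).congr fun c => ?_
  simp [List.flatMap_eq_foldl]
theorem D.map {l : ∀ c, List (X c)} {f : ∀ c, X c → Y c} (hl : D l) (hf : D2 f) :
    D fun c => (l c).map (f c) :=
  (D.flatMap (f := fun c x => [f c x]) hl (D.cons hf D.nil)).congr fun _ => List.map_eq_flatMap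
theorem D.filter {l : ∀ c, List (X c)} {p : ∀ c, X c → Prop} [∀ c, DecidablePred (p c)] (hl : D l)
    (hp : PT fun z : Σ c, X c => p z.1 z.2) : D fun c => (l c).filter fun x => decide (p c x) := by
  refine (D.flatMap (f := fun c x => if p c x then [x] else []) hl
    (D.ite hp (D.cons D.sigma_snd D.nil) D.nil)).congr fun c => ?_
  induction l c with
  | nil => simp
  | cons y L ih => by_cases hy : p c y <;> simp [hy, ih]
theorem D.filterB {l : ∀ c, List (X c)} {p : ∀ c, X c → Bool} (hl : D l)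
    (hp : PT fun z : Σ c, X c => p z.1 z.2) : D fun c => (l c).filter (p c) :=
  (D.filter (p := fun c x => p c x = true) hl (PT.eq hp (PT.const true))).congr fun _ => by simp
theorem D.filterMap {l : ∀ c, List (X c)} {f : ∀ c, X c → Option (Y c)} (hl : D l) (hf : D2 f) :
    D fun c => (l c).filterMap (f c) := by
  refine (D.flatMap (f := fun c x => (f c x).elim [] fun y => [y]) hl
    (D.option_elim hf D.nil (D.cons D.sigma_snd D.nil))).congr fun c => ?_
  induction l c with
  | nil => simp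
  | cons y L ih => cases hy : f c y <;> simp [hy, ih]
theorem D.fn_app {n : C → ℕ} {f : ∀ c, Fin (n c) → X c} {i : ∀ c, Fin (n c)} (hf : D f) (hi : D i) :
    D fun c => f c (i c) :=
  (D.getElem (l := fun c => List.ofFn (f c)) hf (D.fin_iff.1 hi) fun c => by simp).congr
    fun c => by simp
theorem D.finRange {n : C → ℕ} (hn : PT n) (hn' : PB n) : D fun c => List.finRange (n c) := by
  have e : ∀ c, (List.finRange (n c)).map enc = List.range (n c) := fun c =>
    List.map_coe_finRange_eq_range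
  refine D.of_codes (PT.range hn hn') e ((PT.range hn hn').1.of_le fun c => le_of_eq ?_)
  beta_reduce
  rw [← e, sz_eq_sum, sz_eq_sum, List.map_map]; rfl
theorem D.fn_mk {n : C → ℕ} {f : ∀ c, Fin (n c) → X c} (hn : PT n) (hn' : PB n) (hf : D2 f) :
    D f :=
  ((D.finRange hn hn').map hf).congr (g := fun c => List.ofFn (f c)) fun _ => List.ofFn_eq_map

theorem pt_fin2 {γ δ : Type} [Enc γ] [Enc δ] [Finite β] [Finite γ] {f : C → β} {g : C → γ}
    (hf : PT f) (hg : PT g) (op : β → γ → δ) : PT fun c => op (f c) (g c) :=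
  P325.pt_finite (hf.mk hg) fun z => op z.1 z.2

@[fun_prop] theorem pt_addZ {l : ℕ} [NeZero l] {f g : C → ZMod l} (hf : PT f) (hg : PT g) :
    PT fun c => f c + g c := pt_fin2 hf hg _
@[fun_prop] theorem pt_subZ {l : ℕ} [NeZero l] {f g : C → ZMod l} (hf : PT f) (hg : PT g) :
    PT fun c => f c - g c := pt_fin2 hf hg _
@[fun_prop] theorem pt_mulZ {l : ℕ} [NeZero l] {f g : C → ZMod l} (hf : PT f) (hg : PT g) :
    PT fun c => f c * g c := pt_fin2 hf hg _
@[fun_prop] theorem pt_negZ {l : ℕ} [NeZero l] {f : C → ZMod l} (hf : PT f) :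
    PT fun c => - f c := P325.pt_finite hf _
@[fun_prop] theorem pt_invZ {l : ℕ} [NeZero l] {f : C → ZMod l} (hf : PT f) :
    PT fun c => (f c)⁻¹ := P325.pt_finite hf _

end Vale.Agent.P330
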