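import Vale.Agent.P330.DTa

/-! Dependent polynomial time: listable families. -/

namespace Vale.Agent.P330

open Vale.Agent.Lib.PolyTime Finset
open scoped Classical BigOperators

variable {B C : Type} [Enc B] [Enc C] {X Y Z : C → Type} [∀ c, Enc (X c)] [∀ c, Enc (Y c)]
  [∀ c, Enc (Z c)] {β : Type} [Enc β]

theorem D.lift {W : (Σ c, X c) → Type} [∀ z, Enc (W z)] {f : ∀ c, Y c} (h : D f) :
    D (Y := fun z : Σ z, W z => Y z.1.1) fun z => f z.1.1 :=
  h.comp (pt_sigma_fst.comp pt_sigma_fst)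

theorem D.find? {l : ∀ c, List (X c)} {p : ∀ c, X c → Bool} (hl : D l)
    (hp : PT fun z : Σ c, X c => p z.1 z.2) : D fun c => (l c).find? (p c) :=
  (hl.filterB hp).head?.congr fun _ => List.head?_filter.symm

theorem D.attach {p : ∀ c, X c → Prop} {l : ∀ c, List (X c)} (hl : D l)
    (h : ∀ c, ∀ x ∈ l c, p c x) : D fun c => (l c).pmap Subtype.mk (h c) := by
  have e : ∀ c, ((l c).pmap Subtype.mk (h c)).map Subtype.val = l c := fun c => by
    simp [List.map_pmap]
  refine D.of_codes hl.codes (fun c => ?_) (hl.2.of_le fun c => le_of_eq ?_)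
  · conv_rhs => rw [← e c, List.map_map]
    rfl
  · conv_rhs => rw [← e c, sz_eq_sum, List.map_map]
    rw [sz_eq_sum]; rfl

theorem PFam.const (A : Type) [Fintype A] [Enc A] : PFam fun _ : C => A :=
  ⟨fun _ => univ.toList, D.const _, fun _ => ⟨nodup_toList _, fun _ => by simp⟩⟩
theorem PFam.fin {n : C → ℕ} (hn : PT n) (hn' : PB n) : PFam fun c => Fin (n c) :=
  ⟨_, D.finRange hn hn', fun _ => ⟨List.nodup_finRange _, List.mem_finRange⟩⟩
theorem PFam.sigma {W : (Σ c, X c) → Type} [∀ z, Enc (W z)] (hX : PFam X) (hW : PFam W) :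
    PFam fun c => Σ x : X c, W ⟨c, x⟩ := by
  obtain ⟨l, hl, h⟩ := hX
  obtain ⟨k, hk, h'⟩ := hW
  refine ⟨fun c => (l c).flatMap fun x => (k ⟨c, x⟩).map (Sigma.mk x), hl.flatMap
    (D.map (X := W) (Y := fun z => Σ x : X z.1, W ⟨z.1, x⟩) (f := fun z w => ⟨z.2, w⟩) hk
      (D.dsig_mk (W := fun (z : Σ z, W z) x => W ⟨z.1.1, x⟩) (D.sigma_snd.comp pt_sigma_fst)
        D.sigma_snd)), fun c => ⟨?_, fun z => ?_⟩⟩
  · exact (h c).1.sigma fun x => (h' ⟨c, x⟩).1
  · exact List.mem_flatMap.2 ⟨z.1, (h c).2 _, List.mem_map.2 ⟨z.2, (h' ⟨c, z.1⟩).2 _, rfl⟩⟩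
theorem PFam.prod (hX : PFam X) (hY : PFam Y) : PFam fun c => X c × Y c := by
  obtain ⟨l, hl, h⟩ := hX
  obtain ⟨k, hk, h'⟩ := hY
  refine ⟨fun c => (l c).flatMap fun x => (k c).map (Prod.mk x), hl.flatMap
    (D.map (f := fun (z : Σ c, X c) w => (z.2, w)) (hk.comp pt_sigma_fst)
      (D.pair (D.sigma_snd.comp pt_sigma_fst) D.sigma_snd)), fun c => ⟨?_, fun z => ?_⟩⟩
  · exact (h c).1.product (h' c).1
  · exact List.mem_flatMap.2 ⟨z.1, (h c).2 _, List.mem_map.2 ⟨z.2, (h' c).2 _, rfl⟩⟩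
theorem PFam.sum (hX : PFam X) (hY : PFam Y) : PFam fun c => X c ⊕ Y c := by
  obtain ⟨l, hl, h⟩ := hX
  obtain ⟨k, hk, h'⟩ := hY
  refine ⟨fun c => (l c).map .inl ++ (k c).map .inr, D.append (hl.map (f := fun _ => Sum.inl)
    D.sigma_snd.inl) (hk.map (f := fun _ => Sum.inr) D.sigma_snd.inr), fun c => ⟨?_, fun z => ?_⟩⟩
  · refine ((h c).1.map Sum.inl_injective).append ((h' c).1.map Sum.inr_injective) ?_
    simp [List.disjoint_left]
  · rcases z with x | y <;> simp [(h c).2, (h' c).2]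
theorem PFam.option (hX : PFam X) : PFam fun c => Option (X c) := by
  obtain ⟨l, hl, h⟩ := hX
  refine ⟨fun c => none :: (l c).map some, D.none.cons (hl.map D.sigma_snd.some),
    fun c => ⟨?_, fun z => ?_⟩⟩
  · exact List.nodup_cons.2 ⟨by simp, (h c).1.map (Option.some_injective _)⟩
  · cases z <;> simp [(h c).2]
theorem PFam.sub {p : ∀ c, X c → Prop} (hX : PFam X) (hp : PT fun z : Σ c, X c => p z.1 z.2) :
    PFam fun c => {x // p c x} := by
  obtain ⟨l, hl, h⟩ := hX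
  refine ⟨_, (hl.filter hp).attach (p := p) fun c x hx => by simpa using (List.mem_filter.1 hx).2,
    fun c => ⟨?_, fun z => ?_⟩⟩
  · exact ((h c).1.filter _).pmap fun _ _ _ _ e => congrArg Subtype.val e
  · exact List.mem_pmap.2 ⟨z.1, List.mem_filter.2 ⟨(h c).2 _, by simpa using z.2⟩, rfl⟩
theorem PFam.comap (hX : PFam X) {p : B → C} (hp : PT p) : PFam fun b => X (p b) := by
  obtain ⟨l, hl, h⟩ := hX
  exact ⟨_, hl.comp hp, fun b => h (p b)⟩
/-- Transfer along a computable bijection. -/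
theorem PFam.of_bij (hX : PFam X) {f : ∀ c, X c → Y c} (hf : D2 f)
    (hb : ∀ c, Function.Bijective (f c)) : PFam Y := by
  obtain ⟨l, hl, h⟩ := hX
  refine ⟨_, hl.map hf, fun c => ⟨(h c).1.map (hb c).1, fun y => ?_⟩⟩
  obtain ⟨x, rfl⟩ := (hb c).2 y
  exact List.mem_map_of_mem ((h c).2 x)

theorem PFam.pb_sz (hX : PFam X) : ∃ b : C → ℕ, PB b ∧ ∀ c (x : X c), sz x ≤ b c := by
  obtain ⟨l, hl, h⟩ := hX
  exact ⟨_, hl.2, fun c x => sz_mem ((h c).2 x)⟩

section Fin
variable [∀ c, Fintype (X c)]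

theorem dt_univ {A : Type} [Fintype A] {l : List A} (h : l.Nodup ∧ ∀ x, x ∈ l) :
    l.toFinset = univ := eq_univ_of_forall fun x => List.mem_toFinset.2 (h.2 x)
theorem dt_len {A : Type} [Fintype A] {l : List A} (h : l.Nodup ∧ ∀ x, x ∈ l) :
    l.length = Fintype.card A := by rw [← List.toFinset_card_of_nodup h.1, dt_univ h, card_univ]
theorem dt_sum {A M : Type} [Fintype A] [AddCommMonoid M] {l : List A} (h : l.Nodup ∧ ∀ x, x ∈ l)
    (f : A → M) : ∑ x, f x = (l.map f).sum := by rw [← dt_univ h, List.sum_toFinset f h.1]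
theorem dt_prod {A M : Type} [Fintype A] [CommMonoid M] {l : List A} (h : l.Nodup ∧ ∀ x, x ∈ l)
    (f : A → M) : ∏ x, f x = (l.map f).prod := by rw [← dt_univ h, List.prod_toFinset f h.1]

theorem PFam.pt_card (hX : PFam X) : PT fun c => Fintype.card (X c) := by
  obtain ⟨l, hl, h⟩ := hX
  exact hl.length.congr fun c => (dt_len (h c)).symm
theorem PFam.pb_card (hX : PFam X) : PB fun c => Fintype.card (X c) := by
  obtain ⟨l, hl, h⟩ := hX
  exact hl.pb_length.of_le fun c => (dt_len (h c)).ge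
theorem PFam.pt_sumN (hX : PFam X) {f : ∀ c, X c → ℕ} (hf : PT fun z : Σ c, X c => f z.1 z.2) :
    PT fun c => ∑ x, f c x := by
  obtain ⟨l, hl, h⟩ := hX
  exact (hl.map (Y := fun _ => ℕ) (D.of_pt hf)).pt.sum.congr fun c => dt_sum (h c) _
theorem PFam.pt_sumI (hX : PFam X) {f : ∀ c, X c → ℤ} (hf : PT fun z : Σ c, X c => f z.1 z.2) :
    PT fun c => ∑ x, f c x := by
  obtain ⟨l, hl, h⟩ := hX
  exact (Q.pt_sumZ (hl.map (Y := fun _ => ℤ) (D.of_pt hf)).pt).congr fun c => dt_sum (h c) _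
theorem PFam.pt_sumQ (hX : PFam X) {f : ∀ c, X c → ℚ} (hf : PT fun z : Σ c, X c => f z.1 z.2) :
    PT fun c => ∑ x, f c x := by
  obtain ⟨l, hl, h⟩ := hX
  exact (Q.pt_sumQ (hl.map (Y := fun _ => ℚ) (D.of_pt hf)).pt).congr fun c => dt_sum (h c) _
theorem PFam.pb_sumN (hX : PFam X) {f : ∀ c, X c → ℕ} (hf : PB fun z : Σ c, X c => f z.1 z.2) :
    PB fun c => ∑ x, f c x := by
  have h0 := hX.pb_card
  obtain ⟨l, hl, h⟩ := hX
  obtain ⟨b, hb, h1⟩ := pb_along hf hl
  exact (h0.mul hb).of_le fun c =>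
    (sum_le_card_nsmul _ _ _ fun x _ => h1 c x ((h c).2 x)).trans (by simp)
theorem PFam.pt_count (hX : PFam X) {p : ∀ c, X c → Prop} (hp : PT fun z : Σ c, X c => p z.1 z.2) :
    PT fun c => (univ.filter (p c)).card :=
  (hX.pt_sumN (f := fun c x => if p c x then 1 else 0)
    (PT.ite hp (PT.const 1) (PT.const 0))).congr fun _ => card_filter _ _
omit [∀ c, Fintype (X c)] in
theorem PFam.pt_exists (hX : PFam X) {p : ∀ c, X c → Prop} (hp : PT fun z : Σ c, X c => p z.1 z.2) :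
    PT fun c => ∃ x, p c x := by
  obtain ⟨l, hl, h⟩ := hX
  refine (PT.ne (hl.filter hp).length (PT.const 0)).congr fun c => propext ?_
  simp [(h c).2]
omit [∀ c, Fintype (X c)] in
theorem PFam.pt_forall (hX : PFam X) {p : ∀ c, X c → Prop} (hp : PT fun z : Σ c, X c => p z.1 z.2) :
    PT fun c => ∀ x, p c x :=
  (hX.pt_exists (p := fun c x => ¬ p c x) hp.not).not.congr fun c => by simp

theorem dt_sz_fin (β : Type) [Enc β] [Finite β] : ∃ k, ∀ b : β, sz b ≤ k := by
  obtain ⟨k, hk⟩ := (Set.finite_range fun b : β => sz b).bddAbove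
  exact ⟨k, fun b => hk ⟨b, rfl⟩⟩

/-- Folding with an operation on a finite type. -/
theorem pt_foldl_fin {γ : Type} [Enc γ] [Finite β] [Finite γ] [Inhabited γ] (op : β → γ → β)
    {l : C → List γ} {i : C → β} (hl : PT l) (hi : PT i) : PT fun c => (l c).foldl op (i c) := by
  obtain ⟨k, hk⟩ := dt_sz_fin β
  exact PT.foldl (f := fun _ => op) (pt_fin2 PT.id.snd.fst PT.id.snd.snd op) hl hi (PB.const k)
    fun _ _ => hk _

/-- Sums in a fixed finite monoid. -/
theorem PFam.pt_sumF [Finite β] [AddCommMonoid β] (hX : PFam X) {f : ∀ c, X c → β}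
    (hf : PT fun z : Σ c, X c => f z.1 z.2) : PT fun c => ∑ x, f c x := by
  obtain ⟨l, hl, h⟩ := hX
  let _ : Inhabited β := ⟨0⟩
  exact (pt_foldl_fin (· + ·) (hl.map (Y := fun _ => β) (D.of_pt hf)).pt (PT.const 0)).congr
    fun c => (dt_sum (h c) _).trans List.sum_eq_foldl
/-- Products in a fixed finite monoid. -/
theorem PFam.pt_prodF [Finite β] [CommMonoid β] (hX : PFam X) {f : ∀ c, X c → β}
    (hf : PT fun z : Σ c, X c => f z.1 z.2) : PT fun c => ∏ x, f c x := by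
  obtain ⟨l, hl, h⟩ := hX
  let _ : Inhabited β := ⟨1⟩
  exact (pt_foldl_fin (· * ·) (hl.map (Y := fun _ => β) (D.of_pt hf)).pt (PT.const 1)).congr
    fun c => (dt_prod (h c) _).trans List.prod_eq_foldl
theorem PFam.pt_sumZ {l : ℕ} [NeZero l] (hX : PFam X) {f : ∀ c, X c → ZMod l}
    (hf : PT fun z : Σ c, X c => f z.1 z.2) : PT fun c => ∑ x, f c x := hX.pt_sumF hf
theorem PFam.pt_prodZ {l : ℕ} [NeZero l] (hX : PFam X) {f : ∀ c, X c → ZMod l}
    (hf : PT fun z : Σ c, X c => f z.1 z.2) : PT fun c => ∏ x, f c x := hX.pt_prodF hf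
theorem PFam.equiv (hX : PFam X) : ∃ e : ∀ c, X c ≃ Fin (Fintype.card (X c)),
    D2 (fun c x => e c x) ∧ D2 fun c i => (e c).symm i := by
  obtain ⟨l, hl, h⟩ := hX
  refine ⟨fun c => ((h c).1.getEquivOfForallMemList _ (h c).2).symm.trans
    (finCongr (dt_len (h c))), D.fin_iff.2 ?_, ?_⟩
  · exact (hl.comp pt_sigma_fst).idxOf D.sigma_snd
  · exact D.getElem (hl.comp pt_sigma_fst) (D.fin_iff.1 D.sigma_snd) fun z => by
      rw [dt_len (h z.1)]; exact z.2.2
omit [∀ c, Fintype (X c)] in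
theorem PFam.choose (hX : PFam X) {p : ∀ c, X c → Prop} (hp : PT fun z : Σ c, X c => p z.1 z.2)
    (h : ∀ c, ∃ x, p c x) : ∃ f : ∀ c, X c, D f ∧ ∀ c, p c (f c) := by
  obtain ⟨l, hl, h'⟩ := hX
  have e : ∀ c, ((l c).find? fun x => decide (p c x)).isSome = true := fun c => by
    obtain ⟨x, hx⟩ := h c
    exact List.find?_isSome.2 ⟨x, (h' c).2 x, by simpa using hx⟩
  refine ⟨_, (hl.find? hp.decide).get e, fun c => ?_⟩
  simpa using List.find?_some (Option.some_get (e c)).symm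
omit [∀ c, Fintype (X c)] in
/-- The inverse of a computable bijection is computable. -/
theorem PFam.d_symm (hX : PFam X) {e : ∀ c, X c ≃ Y c} (he : D2 fun c x => e c x) :
    D2 fun c y => (e c).symm y := by
  obtain ⟨f, hf, h⟩ := (hX.comap (pt_sigma_fst (X := Y))).choose
    (p := fun z x => e z.1 x = z.2) (D.eq (he.app (pt_sigma_fst.comp pt_sigma_fst) D.sigma_snd)
      (D.sigma_snd.comp pt_sigma_fst)) fun z => ⟨_, (e z.1).apply_symm_apply z.2⟩
  exact hf.congr fun z => (Equiv.symm_apply_eq _).2 (h z).symm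

theorem PFam.fn {n : C → ℕ} (hX : PFam X) (hn : PT n) (hn' : PB n)
    (hb : PB fun c => Fintype.card (X c) ^ n c) : PFam fun c => Fin (n c) → X c := by
  obtain ⟨e, -, he⟩ := hX.equiv
  have hc := hX.pt_card
  refine (PFam.fin (P325.pt_pow hc hn hn') hb).of_bij
    (f := fun c i j => (e c).symm (finFunctionFinEquiv.symm i j)) ?_ fun c => ?_
  · have h1 : PT fun z : Σ c, Fin (Fintype.card (X c) ^ n c) => z.1 := pt_sigma_fst
    have h2 := h1.comp (pt_sigma_fst (X := fun z : Σ c, Fin (Fintype.card (X c) ^ n c) =>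
      Fin (n z.1)))
    refine D.fn_mk (hn.comp h1) (hn'.comp h1) (he.app h2 (D.fin_iff.2 ?_))
    have h3 := D.fin_iff.1 (D.sigma_snd (X := fun z : Σ c, Fin (Fintype.card (X c) ^ n c) =>
      Fin (n z.1)))
    have h4 := D.fin_iff.1 (D.sigma_snd (X := fun c => Fin (Fintype.card (X c) ^ n c)))
    exact PT.mod (P325.pt_div (h4.comp pt_sigma_fst)
      (P325.pt_pow (hc.comp h2) h3 ((hn'.comp h2).of_le fun z => z.2.2.le))) (hc.comp h2)
  · exact (finFunctionFinEquiv.symm.trans (Equiv.piCongrRight fun _ => (e c).symm)).bijective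

/-- Iteration of an operator on words that is computable with the word as an oracle. -/
theorem PFam.iter_word [Finite β] (hX : PFam X) (st : ∀ c, (X c → β) → X c → β)
    (hst : ∀ (B' : Type) [Enc B'] (p : B' → C) (w : ∀ b, X (p b) → β), PT p →
      (PT fun z : Σ b, X (p b) => w z.1 z.2) → PT fun z : Σ b, X (p b) => st (p z.1) (w z.1) z.2)
    {w : ∀ c, X c → β} (hw : PT fun z : Σ c, X c => w z.1 z.2) {n : C → ℕ} (hn : PT n) (hn' : PB n) :
    PT fun z : Σ c, X c => (st z.1)^[n z.1] (w z.1) z.2 := by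
  obtain ⟨e, he, he'⟩ := hX.equiv
  obtain ⟨k, hk⟩ := dt_sz_fin β
  have hc := hX.pt_card
  have hc' := hX.pb_card
  let T : C → Type := fun c => Fin (Fintype.card (X c)) → β
  let F : ∀ c, T c → T c := fun c t i => st c (fun x => t (e c x)) ((e c).symm i)
  have h1 : PT fun z : Σ c, T c => z.1 := pt_sigma_fst
  have h2 := hst (Σ c, T c) (fun z => z.1) (fun z x => z.2 (e z.1 x)) h1
    (D.fn_app (D.sigma_snd.comp pt_sigma_fst) (he.app (h1.comp pt_sigma_fst) D.sigma_snd)).pt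
  have hF : D2 F := D.fn_mk (hc.comp h1) (hc'.comp h1) (D.of_pt (h2.comp
    (pt_sigma_mk (X := fun z : Σ c, T c => X z.1) pt_sigma_fst
      (he'.app (h1.comp pt_sigma_fst) D.sigma_snd))))
  have h0 : D fun c => (fun i => w c ((e c).symm i) : T c) :=
    D.fn_mk hc hc' (D.of_pt (hw.comp (pt_sigma_mk pt_sigma_fst he')))
  have key : ∀ c m (v : X c → β), (F c)^[m] (fun i => v ((e c).symm i)) =
      fun i => (st c)^[m] v ((e c).symm i) := fun c m => by
    induction m with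
    | zero => exact fun _ => rfl
    | succ m ih =>
      intro v
      rw [Function.iterate_succ_apply, Function.iterate_succ_apply, ← ih]
      simp only [F, Equiv.symm_apply_apply]
  have h3 := D.iterate hF h0 hn hn' (hc'.mul (PB.const (2 * k + 2))) fun c m _ =>
    (sz_le_of_forall (l := List.ofFn _) fun y _ => hk y).trans (by simp)
  exact (D.fn_app (h3.comp pt_sigma_fst) he).pt.congr fun z => by
    rw [key]; simp

end Fin

end Vale.Agent.P330
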