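import Vale.Agent.P330.DTb

/-! Dependent polynomial time: rules for `fun_prop`. -/

namespace Vale.Agent.P330

open Vale.Agent.Lib.PolyTime Finset
open scoped Classical BigOperators

attribute [fun_prop] D

variable {B C : Type} [Enc B] [Enc C] {X Y Z : C → Type} [∀ c, Enc (X c)] [∀ c, Enc (Y c)]
  [∀ c, Enc (Z c)] {β : Type} [Enc β]

/-- Equality of instances, found by unification. -/
class EqI {A : Type} (x y : A) : Prop where
  eq : x = y

instance eqI_refl {A : Type} (x : A) : EqI x x := ⟨rfl⟩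

@[fun_prop] theorem D.f_id : D fun c : C => c := D.of_pt PT.id
@[fun_prop] theorem D.f_const (b : β) : D fun _ : C => b := D.const b
@[fun_prop] theorem D.f_comp {g : C → β} {f : B → C} (hg : D g) (hf : D f) : D fun b => g (f b) :=
  hg.comp hf.pt
@[fun_prop] theorem D.f_pt {f : C → β} (h : PT f) : D f := D.of_pt h
@[fun_prop] theorem D.f_sig {W : ∀ c, X c → Type} [∀ c x, Enc (W c x)] {z : ∀ c, Σ j, W c j}
    (h1 : D fun c => (z c).1) (h2 : D fun c => (z c).2) : D z := D.dsig_mk h1 h2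
@[fun_prop] theorem D.f_sub {p : ∀ c, X c → Prop} {z : ∀ c, {x // p c x}}
    (h : D fun c => (z c).1) : D z := h
@[fun_prop] theorem D.f_ssnd {W : ∀ c, X c → Type} [I : ∀ c x, Enc (W c x)] {z : ∀ c, Σ j, W c j}
    {E : ∀ c, Enc (W c (z c).1)} [e : EqI E fun c => I c (z c).1] (h : D z) :
    @D C _ (fun c => W c (z c).1) E fun c => (z c).2 := by
  obtain rfl := e.eq
  exact h.dsig_snd

attribute [fun_prop] D.dsig_fst D.pair D.fst D.snd D.inl D.inr D.some D.none D.val D.nil D.cons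
  D.append D.tail D.reverse D.head? D.option_getD

@[fun_prop] theorem D.f_sum_elim {z : ∀ c, X c ⊕ Y c} {f : ∀ c, X c → Z c} {g : ∀ c, Y c → Z c}
    (h : D z) (hf : D fun w : Σ c, X c => f w.1 w.2) (hg : D fun w : Σ c, Y c => g w.1 w.2) :
    D fun c => Sum.elim (f c) (g c) (z c) := D.sum_elim h hf hg
@[fun_prop] theorem D.f_sum_map {W : C → Type} [∀ c, Enc (W c)] {z : ∀ c, X c ⊕ Y c}
    {f : ∀ c, X c → Z c} {g : ∀ c, Y c → W c}
    (h : D z) (hf : D fun w : Σ c, X c => f w.1 w.2) (hg : D fun w : Σ c, Y c => g w.1 w.2) :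
    D fun c => Sum.map (f c) (g c) (z c) :=
  D.sum_elim (f := fun c x => Sum.inl (f c x)) (g := fun c x => Sum.inr (g c x)) h hf.inl hg.inr
@[fun_prop] theorem D.f_option_elim {z : ∀ c, Option (X c)} {d : ∀ c, Z c} {f : ∀ c, X c → Z c}
    (h : D z) (hd : D d) (hf : D fun w : Σ c, X c => f w.1 w.2) :
    D fun c => (z c).elim (d c) (f c) := D.option_elim h hd hf
@[fun_prop] theorem D.f_option_map {z : ∀ c, Option (X c)} {f : ∀ c, X c → Z c}
    (h : D z) (hf : D fun w : Σ c, X c => f w.1 w.2) : D fun c => (z c).map (f c) :=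
  (D.option_elim (f := fun c x => Option.some (f c x)) h D.none hf.some).congr fun c => by
    cases z c <;> rfl
@[fun_prop] theorem D.f_option_bind {z : ∀ c, Option (X c)} {f : ∀ c, X c → Option (Z c)}
    (h : D z) (hf : D fun w : Σ c, X c => f w.1 w.2) : D fun c => (z c).bind (f c) :=
  (D.option_elim h D.none hf).congr fun c => by cases z c <;> rfl
@[fun_prop] theorem D.f_isSome {z : ∀ c, Option (X c)} (h : D z) : D fun c => (z c).isSome :=
  D.of_pt (h.isSome.decide.congr fun _ => by simp)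
@[fun_prop] theorem D.f_ite {p : C → Prop} [DecidablePred p] {f g : ∀ c, X c} (hp : D p) (hf : D f)
    (hg : D g) : D fun c => if p c then f c else g c := D.ite hp.pt hf hg
@[fun_prop] theorem D.f_dite {p : C → Prop} [DecidablePred p] {f : ∀ c, p c → X c}
    {g : ∀ c, ¬ p c → X c} (hp : D p) (hf : D fun z : {c // p c} => f z.1 z.2)
    (hg : D fun z : {c // ¬ p c} => g z.1 z.2) : D fun c => if h : p c then f c h else g c h :=
  D.dite hp.pt hf hg
@[fun_prop] theorem D.f_cond {p : C → Bool} {f g : ∀ c, X c} (hp : D p) (hf : D f)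
    (hg : D g) : D fun c => bif p c then f c else g c :=
  (D.ite (PT.eq hp.pt (PT.const true)) hf hg).congr fun c => by cases p c <;> simp
@[fun_prop] theorem D.f_decide {p : C → Prop} [DecidablePred p] (hp : D p) :
    D fun c => decide (p c) := D.of_pt hp.pt.decide
@[fun_prop] theorem D.f_eq {f g : ∀ c, X c} (hf : D f) (hg : D g) : D fun c => f c = g c :=
  D.of_pt (hf.eq hg)
@[fun_prop] theorem D.f_ne {f g : ∀ c, X c} (hf : D f) (hg : D g) : D fun c => f c ≠ g c :=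
  D.of_pt (hf.eq hg).not
@[fun_prop] theorem D.f_fin_val {n : C → ℕ} {x : ∀ c, Fin (n c)} (h : D x) :
    D fun c => (x c : ℕ) := h
@[fun_prop] theorem D.f_fin_mk {n x : C → ℕ} {e : ∀ c, x c < n c} (h : D x) :
    D fun c => (⟨x c, e c⟩ : Fin (n c)) := h
@[fun_prop] theorem D.f_fin_lt {n : C → ℕ} {x y : ∀ c, Fin (n c)} (hx : D x) (hy : D y) :
    D fun c => x c < y c := D.of_pt (PT.lt (D.fin_iff.1 hx) (D.fin_iff.1 hy))
@[fun_prop] theorem D.f_fin_le {n : C → ℕ} {x y : ∀ c, Fin (n c)} (hx : D x) (hy : D y) :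
    D fun c => x c ≤ y c := D.of_pt (PT.le (D.fin_iff.1 hx) (D.fin_iff.1 hy))
@[fun_prop] theorem D.f_fin_cast {n m : C → ℕ} {e : ∀ c, n c = m c} {x : ∀ c, Fin (n c)}
    (h : D x) : D fun c => Fin.cast (e c) (x c) := h
@[fun_prop] theorem D.f_castSucc {n : C → ℕ} {x : ∀ c, Fin (n c)} (h : D x) :
    D fun c => (x c).castSucc := h
@[fun_prop] theorem D.f_castLE {n m : C → ℕ} {e : ∀ c, n c ≤ m c} {x : ∀ c, Fin (n c)}
    (h : D x) : D fun c => Fin.castLE (e c) (x c) := h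
@[fun_prop] theorem D.f_fin_succ {n : C → ℕ} {x : ∀ c, Fin (n c)} (h : D x) :
    D fun c => (x c).succ := D.fin_iff.2 ((D.fin_iff.1 h).add (PT.const 1))
@[fun_prop] theorem D.f_map {l : ∀ c, List (X c)} {f : ∀ c, X c → Y c} (hl : D l)
    (hf : D fun w : Σ c, X c => f w.1 w.2) : D fun c => (l c).map (f c) := hl.map hf
@[fun_prop] theorem D.f_flatMap {l : ∀ c, List (X c)} {f : ∀ c, X c → List (Y c)} (hl : D l)
    (hf : D fun w : Σ c, X c => f w.1 w.2) : D fun c => (l c).flatMap (f c) := hl.flatMap hf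
@[fun_prop] theorem D.f_filterMap {l : ∀ c, List (X c)} {f : ∀ c, X c → Option (Y c)} (hl : D l)
    (hf : D fun w : Σ c, X c => f w.1 w.2) : D fun c => (l c).filterMap (f c) := hl.filterMap hf
@[fun_prop] theorem D.f_filter {l : ∀ c, List (X c)} {p : ∀ c, X c → Bool} (hl : D l)
    (hp : D fun w : Σ c, X c => p w.1 w.2) : D fun c => (l c).filter (p c) := hl.filterB hp.pt
@[fun_prop] theorem D.f_find? {l : ∀ c, List (X c)} {p : ∀ c, X c → Bool} (hl : D l)
    (hp : D fun w : Σ c, X c => p w.1 w.2) : D fun c => (l c).find? (p c) := hl.find? hp.pt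
@[fun_prop] theorem D.f_countP {l : ∀ c, List (X c)} {p : ∀ c, X c → Bool} (hl : D l)
    (hp : D fun w : Σ c, X c => p w.1 w.2) : D fun c => (l c).countP (p c) :=
  D.of_pt ((hl.filterB hp.pt).length.congr fun _ => List.countP_eq_length_filter)
@[fun_prop] theorem D.f_any {l : ∀ c, List (X c)} {p : ∀ c, X c → Bool} (hl : D l)
    (hp : D fun w : Σ c, X c => p w.1 w.2) : D fun c => (l c).any (p c) :=
  (hl.find? hp.pt).f_isSome.congr fun _ => List.isSome_find?.symm
@[fun_prop] theorem D.f_all {l : ∀ c, List (X c)} {p : ∀ c, X c → Bool} (hl : D l)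
    (hp : D fun w : Σ c, X c => p w.1 w.2) : D fun c => (l c).all (p c) :=
  D.of_pt ((D.f_any (p := fun c x => !p c x) hl (D.of_pt hp.pt.bnot)).pt.bnot.congr fun _ =>
    List.all_eq_not_any_not)
@[fun_prop] theorem D.f_flatten {l : ∀ c, List (List (X c))} (hl : D l) :
    D fun c => (l c).flatten :=
  (hl.flatMap (f := fun _ y => y) D.sigma_snd).congr fun _ => by simp
@[fun_prop] theorem D.f_length {l : ∀ c, List (X c)} (hl : D l) : D fun c => (l c).length :=
  D.of_pt hl.length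
@[fun_prop] theorem D.f_getD {l : ∀ c, List (X c)} {n : C → ℕ} {d : ∀ c, X c} (hl : D l)
    (hn : D n) (hd : D d) : D fun c => (l c).getD (n c) (d c) := hl.getD hn.pt hd
@[fun_prop] theorem D.f_getElem? {l : ∀ c, List (X c)} {n : C → ℕ} (hl : D l) (hn : D n) :
    D fun c => (l c)[n c]? := hl.getElem? hn.pt
@[fun_prop] theorem D.f_getElem {l : ∀ c, List (X c)} {n : C → ℕ} {e : ∀ c, n c < (l c).length}
    (hl : D l) (hn : D n) : D fun c => (l c)[n c]'(e c) := hl.getElem hn.pt e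
@[fun_prop] theorem D.f_take {l : ∀ c, List (X c)} {n : C → ℕ} (hl : D l) (hn : D n) :
    D fun c => (l c).take (n c) := hl.take hn.pt
@[fun_prop] theorem D.f_drop {l : ∀ c, List (X c)} {n : C → ℕ} (hl : D l) (hn : D n) :
    D fun c => (l c).drop (n c) := hl.drop hn.pt
@[fun_prop] theorem D.f_mem {l : ∀ c, List (X c)} {x : ∀ c, X c} (hl : D l) (hx : D x) :
    D fun c => x c ∈ l c := D.of_pt (hl.mem hx)
@[fun_prop] theorem D.f_idxOf [∀ c, BEq (X c)] [∀ c, LawfulBEq (X c)] {l : ∀ c, List (X c)}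
    {x : ∀ c, X c} (hl : D l) (hx : D x) : D fun c => (l c).idxOf (x c) :=
  D.of_pt ((hl.idxOf hx).congr fun c => by congr 1; exact lawful_beq_subsingleton _ _)
@[fun_prop] theorem D.f_ofFn {n : C → ℕ} {f : ∀ c, Fin (n c) → X c} (hf : D f) :
    D fun c => List.ofFn (f c) := hf

/-- Application of a tuple, with a head symbol for `fun_prop`. -/
def fap {n : ℕ} {A : Type} (f : Fin n → A) (i : Fin n) : A := f i

@[fun_prop] theorem D.f_fap {n : C → ℕ} {f : ∀ c, Fin (n c) → X c} {i : ∀ c, Fin (n c)} (hf : D f)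
    (hi : D i) : D fun c => fap (f c) (i c) := hf.fn_app hi

/-! Conversion of hypotheses to the form used by `fun_prop`: `have := h.fp`. -/

theorem D.fp {f : ∀ c, X c} (h : D f) : ∀ ⦃B : Type⦄ [Enc B] ⦃p : B → C⦄, D p →
    D fun b => f (p b) := fun _ _ _ hp => h.comp hp.pt
theorem D2.fp {f : ∀ c, X c → Y c} (h : D2 f) : ∀ ⦃B : Type⦄ [Enc B] ⦃p : B → C⦄
    ⦃x : ∀ b, X (p b)⦄, D p → D x → D fun b => f (p b) (x b) :=
  fun _ _ _ _ hp hx => h.app hp.pt hx
theorem D3.fp {f : ∀ c, X c → Y c → Z c} (h : D3 f) : ∀ ⦃B : Type⦄ [Enc B] ⦃p : B → C⦄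
    ⦃x : ∀ b, X (p b)⦄ ⦃y : ∀ b, Y (p b)⦄, D p → D x → D y → D fun b => f (p b) (x b) (y b) :=
  fun _ _ _ _ _ hp hx hy => h.app hp.pt hx hy
theorem pt_fp2 (f : ∀ c, X c → β) (h : PT fun z : Σ c, X c => f z.1 z.2) :
    ∀ ⦃B : Type⦄ [Enc B] ⦃p : B → C⦄ ⦃x : ∀ b, X (p b)⦄, D p → D x → D fun b => f (p b) (x b) :=
  D2.fp (Y := fun _ => β) (D.of_pt h)
theorem pt_fp3 (f : ∀ c, X c → Y c → β) (h : PT fun z : Σ c, X c × Y c => f z.1 z.2.1 z.2.2) :
    ∀ ⦃B : Type⦄ [Enc B] ⦃p : B → C⦄ ⦃x : ∀ b, X (p b)⦄ ⦃y : ∀ b, Y (p b)⦄,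
      D p → D x → D y → D fun b => f (p b) (x b) (y b) :=
  D3.fp (Z := fun _ => β) (D.of_pt h)

end Vale.Agent.P330
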