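import Vale.Agent.P330.Ifc
import Vale.Agent.Lib.PolyTime.Machine

/-! From coded types to Turing machines. -/

namespace Vale.Agent.P330

open Vale.Agent.Lib.PolyTime Vale.Agent.Lib.PolyTime.Q
open scoped Classical BigOperators

namespace Fn

variable {α : Type} [Enc α]

theorem pt_gateVal {w : α → List Bool} {g : α → ℕ × ℕ × ℕ} (hw : PT w) (hg : PT g) :
    PT fun a => gateVal (w a) (g a) := by
  unfold gateVal
  fun_prop

theorem pt_wires {c : α → BCirc} {x : α → List Bool} (hc : PT c) (hx : PT x) :
    PT fun a => wires (c a) (x a) :=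
  PT.foldl_add (f := fun _ (w : List Bool) g => w ++ [gateVal w g])
    (PT.append (by fun_prop) (PT.cons (pt_gateVal (by fun_prop) (by fun_prop)) (PT.const _)))
    hc.fst hx (PB.const 4) fun _ s _ _ => by simp [sz_append]

theorem pt_evalC {c : α → BCirc} {x : α → List Bool} (hc : PT c) (hx : PT x) :
    PT fun a => evalC (c a) (x a) := by
  have h : PT fun z : α × ℕ => wires (c z.1) (x z.1) := (pt_wires hc hx).comp (PT.fst PT.id)
  exact PT.map (f := fun a o => (wires (c a) (x a)).getD o false)
    (PT.lgetD h (PT.snd PT.id) (PT.const _)) hc.snd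

theorem circOK_iff (n : ℕ) (c : BCirc) : CircOK n c ↔ c.2.length = n ∧
    (c.2.all fun o => decide (o < n + c.1.length)) = true ∧
    ((List.range c.1.length).all fun i => decide ((c.1.getD i (0, 0, 0)).1 ≤ 2 ∧
      (c.1.getD i (0, 0, 0)).2.1 < n + i ∧ (c.1.getD i (0, 0, 0)).2.2 < n + i)) = true := by
  unfold CircOK
  simp only [List.all_eq_true, decide_eq_true_eq, List.mem_range]
  refine and_congr_right fun _ => and_congr_right fun _ => ⟨fun h i hi => ?_, fun h i => ?_⟩
  · rw [List.getD_eq_getElem _ _ hi]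
    exact h ⟨i, hi⟩
  · have := h i i.2
    rwa [List.getD_eq_getElem _ _ i.2] at this

theorem pt_circOK {n : α → ℕ} {c : α → BCirc} (hn : PT n) (hc : PT c) :
    PT fun a => CircOK (n a) (c a) := by
  simp only [circOK_iff]
  have h : PT fun a => List.range (c a).1.length := PT.range (by fun_prop) hc.fst.pb_length
  fun_prop

theorem pt_ok : PT EoLOK := by
  have z : PT fun I : EoL => I.2.1.2.map fun _ => false := by fun_prop
  have s : PT fun I : EoL => I.2.1 := by fun_prop
  have p : PT fun I : EoL => I.2.2 := by fun_prop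
  have n : PT fun I : EoL => I.1 := by fun_prop
  refine (((PT.const 1).le n).and ((pt_circOK n s).and ((pt_circOK n p).and
    (((pt_evalC p z).eq z).and (((pt_evalC s z).ne z).and
      ((pt_evalC p (pt_evalC s z)).eq z)))))).congr fun I => propext ?_
  unfold EoLOK
  refine and_congr_right fun _ => and_congr_right fun h => ?_
  rw [List.map_const', h.1]

/-- Reading a circuit. -/
def rdC (l : List ℕ) : BCirc × List ℕ :=
  ((((List.range l.tail.length).take (l.headD 0)).map fun i =>
      (l.tail.getD (3 * i) 0, l.tail.getD (3 * i + 1) 0, l.tail.getD (3 * i + 2) 0),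
    ((l.tail.drop (3 * l.headD 0)).tail.take ((l.tail.drop (3 * l.headD 0)).headD 0))),
    (l.tail.drop (3 * l.headD 0)).tail.drop ((l.tail.drop (3 * l.headD 0)).headD 0))

theorem pt_rdC : PT rdC := by
  have h : PT fun l : List ℕ => List.range l.tail.length :=
    PT.range (by fun_prop) (PT.tail PT.id).pb_length
  unfold rdC
  fun_prop

theorem length_flat (g : List (ℕ × ℕ × ℕ)) :
    (g.flatMap fun g => [g.1, g.2.1, g.2.2]).length = 3 * g.length := by
  induction g with
  | nil => rfl
  | cons a g ih => simp only [List.flatMap_cons, List.length_append, ih, List.length_cons,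
      List.length_nil]; omega

theorem getD_flat (g : List (ℕ × ℕ × ℕ)) (r : List ℕ) : ∀ i (hi : i < g.length),
    (((g.flatMap fun g => [g.1, g.2.1, g.2.2]) ++ r).getD (3 * i) 0,
      ((g.flatMap fun g => [g.1, g.2.1, g.2.2]) ++ r).getD (3 * i + 1) 0,
      ((g.flatMap fun g => [g.1, g.2.1, g.2.2]) ++ r).getD (3 * i + 2) 0) = g[i] := by
  induction g with
  | nil => intro i hi; simp at hi
  | cons a g ih =>
    intro i hi
    cases i with
    | zero => simp
    | succ i =>
      have := ih i (by simpa using hi)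
      simpa [Nat.mul_succ] using this

theorem rdC_nats (c : BCirc) (r : List ℕ) : rdC (natsC c ++ r) = (c, r) := by
  obtain ⟨g, o⟩ := c
  have e : natsC (g, o) ++ r =
      g.length :: ((g.flatMap fun g => [g.1, g.2.1, g.2.2]) ++ (o.length :: (o ++ r))) := by
    simp [natsC]
  have h := length_flat g
  rw [e]
  simp only [rdC, List.tail_cons, List.headD_cons, ← h, List.drop_left, List.take_left]
  refine Prod.ext (Prod.ext ?_ rfl) rfl
  refine List.ext_getElem (by simp [h]; omega) fun i h1 h2 => ?_
  simp only [List.getElem_map, List.getElem_take, List.getElem_range]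
  exact getD_flat g _ i h2

/-- Reading an instance. -/
def rdI (l : List ℕ) : EoL × List ℕ :=
  ((l.headD 0, (rdC l.tail).1, (rdC (rdC l.tail).2).1), (rdC (rdC l.tail).2).2)

theorem pt_rdI : PT rdI := by
  have h := pt_rdC
  unfold rdI
  fun_prop

theorem rdI_nats (I : EoL) (r : List ℕ) : rdI (natsI I ++ r) = (I, r) := by
  simp [rdI, natsI, rdC_nats, List.append_assoc]

/-- Reading an assignment. -/
def rdX (l : List ℕ) : List ℚ :=
  (List.range (l.length / 2)).map fun i => (l.getD (2 * i) 0 : ℚ) / (l.getD (2 * i + 1) 0 : ℚ)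

theorem pt_rdX : PT rdX := by
  have h : PT fun l : List ℕ => List.range (l.length / 2) :=
    PT.range (by fun_prop) ((PT.pb_length PT.id).of_le fun _ => Nat.div_le_self _ _)
  unfold rdX
  fun_prop

theorem rdX_nats (x : List ℚ) (hx : ∀ q ∈ x, 0 ≤ q) : rdX (natsX x) = x := by
  induction x with
  | nil => rfl
  | cons q x ih =>
    have e : natsX (q :: x) = q.num.toNat :: q.den :: natsX x := by simp [natsX]
    have h : (q.num.toNat :: q.den :: natsX x).length / 2 = (natsX x).length / 2 + 1 := by
      simp only [List.length_cons]; omega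
    rw [e, rdX, h, List.range_succ_eq_map, List.map_cons, List.map_map]
    congr 1
    · have h0 : ((q.num.toNat : ℕ) : ℚ) = (q.num : ℚ) := by
        rw [← Int.cast_natCast, Int.toNat_of_nonneg (Rat.num_nonneg.2 (hx q (by simp)))]
      simp [h0, Rat.num_div_den]
    · refine Eq.trans ?_ (ih fun a ha => hx a (by simp [ha]))
      refine List.map_congr_left fun i _ => ?_
      simp [Nat.mul_succ]

theorem pt_natsG : PT natsG := by
  unfold natsG
  fun_prop

end Fn

open _root_.Vale.Agent.P330.Fn in
theorem goal_of_core (h : CoreThm) : Goal := by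
  obtain ⟨ε, δ, p, R, Dc, e0, e1, e2, e3, dR, dD, h⟩ := h
  let R' : EoL → GCirc := fun I => if h : EoLOK I then R ⟨I, h⟩ else (0, [])
  let D' : EoL × List ℚ → List Bool := fun z => if h : EoLOK z.1 then Dc (⟨z.1, h⟩, z.2) else []
  have a1 : PT R' := (D.dite (X := fun _ => GCirc) (f := fun I h => R ⟨I, h⟩)
    (g := fun _ _ => (0, [])) pt_ok (D.of_pt dR) (D.const _)).pt
  have a2 : PT D' := by
    have b1 : PT fun z : {z : EoL × List ℚ // EoLOK z.1} => z.1 := pt_val
    have b2 : PT fun z : {z : EoL × List ℚ // EoLOK z.1} => (⟨z.1.1, z.2⟩ : VI) :=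
      (D.sub_mk (X := fun _ => EoL) (p := fun _ => EoLOK) (D.of_pt b1.fst) fun z => z.2).pt
    exact (D.dite (X := fun _ => List Bool) (p := fun z : EoL × List ℚ => EoLOK z.1)
      (f := fun z h => Dc (⟨z.1, h⟩, z.2)) (g := fun _ _ => []) (pt_ok.comp (PT.fst PT.id))
      (D.of_pt (dD.comp (b2.mk b1.snd))) (D.const _)).pt
  have a3 : PT fun l : List ℕ => natsG (R' (rdI l).1) := pt_natsG.comp (a1.comp pt_rdI.fst)
  have a4 : PT fun l : List ℕ => D' ((rdI l).1, rdX (rdI l).2) :=
    a2.comp (pt_rdI.fst.mk (pt_rdX.comp pt_rdI.snd))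
  have a5 : PT fun l : List ℕ => (D' ((rdI l).1, rdX (rdI l).2)).map Bool.toNat :=
    PT.map (f := fun _ => Bool.toNat) (P325.pt_toNat (PT.snd PT.id)) a4
  refine ⟨ε, δ, e0, e1, e2, e3, p, R', fun z => D' (z.1, rdX (natsX z.2)),
    a3.machine natsI natsG R' fun I => ?_,
    a5.machine (fun z : EoL × List ℚ => natsI z.1 ++ natsX z.2) (fun v : List Bool => v.map Bool.toNat)
      (fun z => D' (z.1, rdX (natsX z.2)))
      fun z => by rw [rdI_nats], fun I hI => ?_⟩
  · have := rdI_nats I []
    rw [List.append_nil] at this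
    rw [this]
  · simp only [R', D', dif_pos hI]
    refine ⟨(h ⟨I, hI⟩).1, (h ⟨I, hI⟩).2.1, fun x hx => ?_⟩
    rw [rdX_nats x fun q hq => (hx.2.1 q hq).1]
    exact (h ⟨I, hI⟩).2.2 x hx

end Vale.Agent.P330
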