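import Vale.Agent.P330.DT

/-! Mean-field local systems (gadgets): definitions. -/

namespace Vale.Agent.P330

open Vale.Agent.Lib.PolyTime Finset
open scoped Classical BigOperators

section Sem
variable {F X A : Type} [Fintype F]

/-- Every node carries a probability distribution on the alphabet. -/
def IsDist (p : X → F → ℝ) : Prop := ∀ x, (∀ b, 0 ≤ p x b) ∧ ∑ b, p x b = 1

/-- The law of `f` applied to independent samples. -/
noncomputable def law [Fintype A] (q : A → F → ℝ) (f : (A → F) → F) (b : F) : ℝ :=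
  ∑ s : A → F, if f s = b then ∏ i, q i (s i) else 0

/-- The probability of an event for independent samples. -/
noncomputable def prob [Fintype A] (q : A → F → ℝ) (E : (A → F) → Prop) : ℝ :=
  ∑ s : A → F, if E s then ∏ i, q i (s i) else 0

/-- Weighted distance of a random word from a word. -/
noncomputable def dw [Fintype X] (w : X → ℝ) (p : X → F → ℝ) (c : X → F) : ℝ :=
  ∑ x, w x * (1 - p x (c x))

/-- Weighted distance of two random words. -/
noncomputable def dd [Fintype X] (w : X → ℝ) (p q : X → F → ℝ) : ℝ :=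
  ∑ x, w x * ∑ b, |p x b - q x b|

/-- Distance of a random word from a word, uniform weights. -/
noncomputable def du [Fintype X] (p : X → F → ℝ) (c : X → F) : ℝ := 𝔼 x, (1 - p x (c x))

/-- The fraction of the points with a property. -/
noncomputable def fr (X : Type) [Fintype X] (E : X → Prop) : ℝ :=
  ((univ.filter E).card : ℝ) / Fintype.card X

/-- Relative Hamming distance. -/
noncomputable def hd [Fintype X] (c c' : X → F) : ℝ := fr X fun x => c x ≠ c' x

/-- `c` is a plurality word of `p`. -/
def Plur (p : X → F → ℝ) (c : X → F) : Prop := ∀ x b, p x b ≤ p x (c x)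

end Sem

variable {C : Type} [Enc C]

/-- Registers: families with weights. -/
structure Reg (C : Type) [Enc C] extends Fam C where
  w : ∀ c, T c → ℝ
  w0 : ∀ c x, 0 ≤ w c x

/-- Uniform registers. -/
@[reducible] noncomputable def Reg.of (U : Fam C) : Reg C :=
  ⟨U, fun c _ => (Fintype.card (U.T c) : ℝ)⁻¹, fun _ _ => by positivity⟩

/-- Union of registers. -/
@[reducible] def Reg.sum (I J : Reg C) : Reg C :=
  ⟨I.toFam.sum J.toFam, fun c => Sum.elim (I.w c) (J.w c),
    fun c x => by rcases x with x | x; exacts [I.w0 c x, J.w0 c x]⟩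

/-- The empty register. -/
@[reducible] def Reg.empty (C : Type) [Enc C] : Reg C :=
  ⟨Fam.const C Empty, fun _ _ => 0, fun _ _ => le_rfl⟩

/-- A fixed finite set of heavy nodes. -/
@[reducible] def Reg.nodes (C : Type) [Enc C] (A : Type) [Fintype A] [Enc A] : Reg C :=
  ⟨Fam.const C A, fun _ _ => 1, fun _ _ => zero_le_one⟩

/-- One heavy node. -/
@[reducible] def Reg.unit (C : Type) [Enc C] : Reg C := Reg.nodes C Unit

/-- Change of the base. -/
@[reducible] def Reg.comap {B : Type} [Enc B] (I : Reg C) (p : B → C) (hp : PT p) : Reg B :=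
  ⟨I.toFam.comap p hp, fun b => I.w (p b), fun b => I.w0 (p b)⟩

/-- Arrays of registers. -/
@[reducible] noncomputable def Reg.sigma (J : Fam C) (O : Reg (Σ c, J.T c)) : Reg C :=
  ⟨J.sigma O.toFam, fun c z => O.w ⟨c, z.1⟩ z.2 / Fintype.card (J.T c),
    fun c z => div_nonneg (O.w0 _ _) (Nat.cast_nonneg _)⟩

/-- A family of gadgets: terms `T`, inner nodes `V`; each term has an output node, reads one node
for each slot in `A` and applies a local function. -/
structure Gad (F A : Type) [Enc F] (I O : Reg C) : Type 1 where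
  T : Fam C
  V : Fam C
  ne : ∀ c, Nonempty (T.T c)
  out : ∀ c, T.T c → V.T c
  slot : ∀ c, T.T c → A → I.T c ⊕ V.T c
  fn : ∀ c, T.T c → (A → F) → F
  res : ∀ c, O.T c → V.T c
  d_out : D2 out
  d_slot : ∀ i, D2 fun c t => slot c t i
  d_fn : ∀ s, PT fun z : Σ c, T.T c => fn z.1 z.2 s
  d_res : D2 res

namespace Gad
variable {F A : Type} [Enc F] [Fintype F] [Fintype A] {I O : Reg C} (G : Gad F A I O)

/-- The weight of an inner node. -/
noncomputable def wt (c : C) (v : G.V.T c) : ℝ := fr (G.T.T c) fun t => G.out c t = v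

/-- The error of an assignment. -/
noncomputable def err (c : C) (x : I.T c → F → ℝ) (p : G.V.T c → F → ℝ) : ℝ :=
  (∑ v, ∑ b, |∑ t ∈ univ.filter fun t => G.out c t = v,
    (p v b - law (fun i => Sum.elim x p (G.slot c t i)) (G.fn c t) b)|) / Fintype.card (G.T.T c)

/-- Bounded density of reads and results. -/
def Dens (κ : ℝ) : Prop := ∀ c,
  (∀ i u, fr (G.T.T c) (fun t => G.slot c t i = u) ≤ κ * Sum.elim (I.w c) (G.wt c) u) ∧
  ∀ v, ∑ o ∈ univ.filter fun o => G.res c o = v, O.w c o ≤ κ * G.wt c v

end Gad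

/-- The specification `S` is implemented by a gadget. -/
def Impl (F : Type) [Enc F] [Fintype F] (I O : Reg C)
    (S : ∀ c, (I.T c → F → ℝ) → (O.T c → F → ℝ) → Prop) : Prop :=
  ∃ (A : Type) (_ : Fintype A) (G : Gad F A I O) (κ γ : ℝ), 0 < γ ∧ G.Dens κ ∧
    ∀ c x p, IsDist x → IsDist p → G.err c x p ≤ γ → S c x fun o => p (G.res c o)

/-- Implementation of a real number: the probability of the symbol `1` at one heavy node. -/
def ImplR (F : Type) [Enc F] [Fintype F] [One F] (I : Reg C)
    (S : ∀ c, (I.T c → F → ℝ) → ℝ → Prop) : Prop :=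
  Impl F I (Reg.unit C) fun c x y => S c x (y () 1)

end Vale.Agent.P330
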