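import Vale.Agent.P330.HDefs

/-! Block B3: assembly of the fixed point gadget. -/

namespace Vale.Agent.P330

open Vale.Agent.Lib.PolyTime Finset
open scoped Classical BigOperators

variable {C F : Type} [Enc C] [Enc F] [Fintype F] {I I' O O' : Reg C}

theorem asm_dens {X Y : Type} [Fintype X] {f : X → Y} (hf : Function.Injective f) {w : X → ℝ}
    {w' : Y → ℝ} (h0 : ∀ y, 0 ≤ w' y) (h : ∀ x, w x ≤ w' (f x)) (u : Y) :
    ∑ i ∈ univ.filter fun i => f i = u, w i ≤ 1 * w' u := by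
  rw [one_mul]
  by_cases hu : ∃ x, f x = u
  · obtain ⟨x, rfl⟩ := hu
    rw [show (univ.filter fun i => f i = f x) = {x} by ext; simp [hf.eq_iff], sum_singleton]
    exact h x
  · rw [show (univ.filter fun i => f i = u) = ∅ by
      ext i; simpa using fun h' => hu ⟨i, h'⟩, sum_empty]
    exact h0 u

theorem Impl.wireIn {S : ∀ c, (I.T c → F → ℝ) → (O.T c → F → ℝ) → Prop} (h : Impl F I O S)
    (f : ∀ c, I.T c → I'.T c) (df : D2 f) (hi : ∀ c, Function.Injective (f c))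
    (hw : ∀ c i, I.w c i ≤ I'.w c (f c i)) :
    Impl F I' O fun c x y => S c (fun i => x (f c i)) y := by
  refine (h.wire (O' := O) f (fun _ o => o) df D.sigma_snd 1
    (fun c u => asm_dens (hi c) (I'.w0 c) (hw c) u)
    (fun c u => asm_dens Function.injective_id (O.w0 c) (fun _ => le_rfl) u)).mono ?_
  rintro c x y - - ⟨y0, -, h1, rfl⟩
  exact h1

theorem Impl.wireOut {S : ∀ c, (I.T c → F → ℝ) → (O.T c → F → ℝ) → Prop} (h : Impl F I O S)
    (g : ∀ c, O'.T c → O.T c) (dg : D2 g) (hi : ∀ c, Function.Injective (g c))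
    (hw : ∀ c i, O'.w c i ≤ O.w c (g c i)) :
    Impl F I O' fun c x y => ∃ y0, IsDist y0 ∧ S c x y0 ∧ y = fun o => y0 (g c o) :=
  h.wire (I' := I) (fun _ o => o) g D.sigma_snd dg 1
    (fun c u => asm_dens Function.injective_id (I.w0 c) (fun _ => le_rfl) u)
    (fun c u => asm_dens (hi c) (O.w0 c) (hw c) u)

theorem Emb.id (U : Fam C) : Emb U (.of U) fun _ o => o :=
  ⟨D.sigma_snd, fun _ => ⟨Function.injective_id, fun _ => le_rfl⟩⟩

theorem Emb.inl {U : Fam C} {w : ∀ c, U.T c → I.T c} (h : Emb U I w) :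
    Emb U (I.sum I') fun c o => .inl (w c o) :=
  ⟨D.inl h.1, fun c => ⟨Sum.inl_injective.comp (h.2 c).1, (h.2 c).2⟩⟩

theorem Emb.inr {U : Fam C} {w : ∀ c, U.T c → I'.T c} (h : Emb U I' w) :
    Emb U (I.sum I') fun c o => .inr (w c o) :=
  ⟨D.inr h.1, fun c => ⟨Sum.inr_injective.comp (h.2 c).1, (h.2 c).2⟩⟩

/-- A heavy node. -/
def Hv (I : Reg C) (n : ∀ c, I.T c) : Prop := D n ∧ ∀ c, 1 ≤ I.w c (n c)

theorem Hv.unit : Hv (Reg.unit C) fun _ => () := ⟨D.const (), fun _ => le_rfl⟩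

theorem Hv.inl {n : ∀ c, I.T c} (h : Hv I n) : Hv (I.sum I') fun c => .inl (n c) :=
  ⟨D.inl h.1, h.2⟩

theorem Hv.inr {n : ∀ c, I'.T c} (h : Hv I' n) : Hv (I.sum I') fun c => .inr (n c) :=
  ⟨D.inr h.1, h.2⟩

theorem Impl.plug {U : Fam C} {S : ∀ c, ((I.sum (.of U)).T c → F → ℝ) → (O.T c → F → ℝ) → Prop}
    (h : Impl F (I.sum (.of U)) O S) {w : ∀ c, U.T c → I'.T c} (hw : Emb U I' w) :
    Impl F (I.sum I') O fun c x y => S c (fun i => x (Sum.map id (w c) i)) y := by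
  refine h.wireIn (I' := I.sum I') (fun c => Sum.map id (w c)) ?_
    (fun c => Sum.map_injective.2 ⟨Function.injective_id, (hw.2 c).1⟩) ?_
  · refine D.congr (D.sum_elim (f := fun z a => (Sum.inl a : I.T z.1 ⊕ I'.T z.1))
      (g := fun z a => Sum.inr (w z.1 a)) D.sigma_snd (D.inl D.sigma_snd)
      (D.inr (hw.1.app (pt_sigma_fst.comp pt_sigma_fst) D.sigma_snd))) ?_
    rintro ⟨c, a | a⟩ <;> rfl
  · rintro c (a | a)
    · exact le_rfl
    · exact (hw.2 c).2 a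

section
variable [Zero F] [One F]

theorem asm_bern2 (hb : BernThm) (h01 : (0 : F) ≠ 1) {n m : ∀ c, I.T c} (hn : Hv I n) (hm : Hv I m)
    {g : ℝ × ℝ → ℝ} (hg : U01 g) {η : ℝ} (hη : 0 < η) :
    Impl F I (.unit C) fun c x y => |y () 1 - g (x (n c) 1, x (m c) 1)| ≤ η :=
  hb C F h01 I Bool (fun c i => cond i (n c) (m c))
    (fun i => by cases i; exacts [hm.1, hn.1]) (fun c i => by cases i; exacts [hm.2 c, hn.2 c])
    (fun v => g (v true, v false)) ⟨hg.1.comp (by fun_prop), fun _ => hg.2 _⟩ η hη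

theorem asm_bern6 (hb : BernThm) (h01 : (0 : F) ≠ 1) {n0 n1 n2 n3 n4 n5 : ∀ c, I.T c} (h0 : Hv I n0)
    (h1 : Hv I n1) (h2 : Hv I n2) (h3 : Hv I n3) (h4 : Hv I n4) (h5 : Hv I n5)
    {G : (ℝ × ℝ) × ℝ × ℝ → ℝ} (hG : U01 G) {wX wY : ℝ × ℝ → ℝ} (hX : U01 wX) (hY : U01 wY)
    (η δ v0 v1 : ℝ) {e : ℝ} (he : 0 < e) :
    Impl F I (.unit C) fun c x y => |y () 1 - G ((x (n0 c) 1, x (n1 c) 1),
      psi η δ v0 v1 (wX (x (n0 c) 1, x (n1 c) 1)) (wY (x (n0 c) 1, x (n1 c) 1)) (x (n2 c) 1)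
        (x (n3 c) 1) (x (n5 c) 1), sig η (x (n4 c) 1))| ≤ e := by
  have hX1 := hX.1
  have hY1 := hY.1
  refine hb C F h01 I (Fin 6) (fun c => ![n0 c, n1 c, n2 c, n3 c, n4 c, n5 c])
    (fun i => by fin_cases i; exacts [h0.1, h1.1, h2.1, h3.1, h4.1, h5.1])
    (fun c i => by fin_cases i; exacts [h0.2 c, h1.2 c, h2.2 c, h3.2 c, h4.2 c, h5.2 c])
    (fun v => G ((v 0, v 1), psi η δ v0 v1 (wX (v 0, v 1)) (wY (v 0, v 1)) (v 2) (v 3) (v 5),
      sig η (v 4))) ⟨hG.1.comp ?_, fun _ => hG.2 _⟩ e he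
  unfold psi sig
  fun_prop

theorem asm_mix (hm : MixThm) (h01 : (0 : F) ≠ 1) {U : Fam C} (hU : ∀ c, Nonempty (U.T c))
    {src : ∀ c, U.T c → F} (hs : PT fun z : Σ c, U.T c => src z.1 z.2) {n0 n1 n2 : ∀ c, I.T c}
    (h0 : Hv I n0) (h1 : Hv I n1) (h2 : Hv I n2) {w0 w1 w2 w3 : ∀ c, U.T c → I.T c}
    (e0 : Emb U I w0) (e1 : Emb U I w1) (e2 : Emb U I w2) (e3 : Emb U I w3) {η : ℝ} (hη : 0 < η) :
    Impl F I (.of U) fun c x y => ∀ u, |du y u - mixv (x (n0 c) 1) (x (n1 c) 1) (x (n2 c) 1)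
      (hd (src c) u) (du (fun o => x (w0 c o)) u) (du (fun o => x (w1 c o)) u)
      (du (fun o => x (w2 c o)) u) (du (fun o => x (w3 c o)) u)| ≤ η :=
  (hm C F h01 I U hU src hs η hη).2 ![n0, n1, n2] ![w0, w1, w2, w3]
    (fun i => by fin_cases i; exacts [h0.1, h1.1, h2.1])
    (fun c i => by fin_cases i; exacts [h0.2 c, h1.2 c, h2.2 c])
    (fun j => by fin_cases j; exacts [e0, e1, e2, e3])

end

theorem psi_mem {η δ v0 v1 wX wY TX TY sY : ℝ} (h1 : 0 ≤ wX) (h2 : wX ≤ 1) (h4 : wY ≤ 1) :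
    0 ≤ psi η δ v0 v1 wX wY TX TY sY ∧ psi η δ v0 v1 wX wY TX TY sY ≤ 1 :=
  ⟨le_max_of_le_left (mul_nonneg h1 (cl_nonneg _)),
    max_le (mul_le_one₀ h2 (cl_nonneg _) (cl_le_one _))
      (max_le (mul_le_one₀ h4 (cl_nonneg _) (cl_le_one _))
        (mul_le_one₀ h4 (cl_nonneg _) (cl_le_one _)))⟩

theorem hpv_of (hc : ClockThm) (hr : RegThm) (hb : BernThm) (hm : MixThm) : HPVThm := by
  intro C F _ _ _ _ _ h01 I U hU src hs Pre L η δ Δ v0 v1 hη hδ hΔ hv hOK hstep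
  obtain ⟨ν, a, b, wX, wY, G1, G2, m, hm0, hν, ha, hb', hwX, hwY, hG1, hG2, hck⟩ := hc
  obtain ⟨e, he, he1, he2⟩ : ∃ e : ℝ, 0 < e ∧ e ≤ η / 20 ∧ e < m :=
    ⟨min (η / 20) (m / 2), by positivity, min_le_left _ _, (min_le_right _ _).trans_lt (by linarith)⟩
  let UU : Reg C := .of U
  let N : Reg C := .unit C
  let St : Reg C := UU.sum (UU.sum (UU.sum N))
  let M : Reg C := UU.sum (UU.sum (N.sum N))
  let J : Reg C := I.sum M
  let W : Reg C := St.sum (St.sum (N.sum (N.sum (N.sum (N.sum N)))))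
  have eX : Emb U M fun _ o => .inl o := (Emb.id U).inl
  have eY : Emb U M fun _ o => .inr (.inl o) := (Emb.id U).inl.inr
  have np : Hv J fun _ => .inr (.inr (.inr (.inl ()))) := Hv.unit.inl.inr.inr.inr
  have nq : Hv J fun _ => .inr (.inr (.inr (.inr ()))) := Hv.unit.inr.inr.inr.inr
  have s1 := (hstep.plug eX).par ((hstep.plug eY).par
    (Impl.par ((hm C F h01 J U hU src hs e he).1 _ eX.inr)
      (Impl.par ((hm C F h01 J U hU src hs e he).1 _ eY.inr)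
        ((asm_bern2 hb h01 np nq hν he).par
          ((asm_bern2 hb h01 np nq ha he).par (asm_bern2 hb h01 np nq hb' he))))))
  have nν : Hv (J.sum W) fun _ => .inr (.inr (.inr (.inr (.inr (.inl ()))))) :=
    Hv.unit.inl.inr.inr.inr.inr.inr
  have na : Hv (J.sum W) fun _ => .inr (.inr (.inr (.inr (.inr (.inr (.inl ())))))) :=
    Hv.unit.inl.inr.inr.inr.inr.inr.inr
  have nb : Hv (J.sum W) fun _ => .inr (.inr (.inr (.inr (.inr (.inr (.inr ())))))) :=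
    Hv.unit.inr.inr.inr.inr.inr.inr.inr
  have nTX : Hv (J.sum W) fun _ => .inr (.inl (.inr (.inr (.inr ())))) :=
    Hv.unit.inr.inr.inr.inl.inr
  have nTY : Hv (J.sum W) fun _ => .inr (.inr (.inl (.inr (.inr (.inr ()))))) :=
    Hv.unit.inr.inr.inr.inl.inr.inr
  have nsX : Hv (J.sum W) fun _ => .inr (.inr (.inr (.inl ()))) := Hv.unit.inl.inr.inr.inr
  have nsY : Hv (J.sum W) fun _ => .inr (.inr (.inr (.inr (.inl ())))) :=
    Hv.unit.inl.inr.inr.inr.inr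
  have eCX : Emb U (J.sum W) fun _ o => .inr (.inl (.inl o)) := (Emb.id U).inl.inl.inr
  have eSX : Emb U (J.sum W) fun _ o => .inr (.inl (.inr (.inl o))) := (Emb.id U).inl.inr.inl.inr
  have eCY : Emb U (J.sum W) fun _ o => .inr (.inr (.inl (.inl o))) := (Emb.id U).inl.inl.inr.inr
  have ePY : Emb U (J.sum W) fun _ o => .inr (.inr (.inl (.inr (.inr (.inl o))))) :=
    (Emb.id U).inl.inr.inr.inl.inr.inr
  have s2 := (asm_mix hm h01 hU hs nν na nb ePY eCY eCX eCX he).par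
    ((asm_mix hm h01 hU hs nν na nb eCY eCY eSX eCX he).par
      ((asm_bern6 hb h01 np.inl nq.inl nTX nTY nsX nsY hG1 hwX hwY η δ v0 v1 he).par
        (asm_bern6 hb h01 np.inl nq.inl nTX nTY nsX nsY hG2 hwX hwY η δ v0 v1 he)))
  have s3 := (Impl.seq (M := W) (O := M) s1 s2).wireOut (O' := (UU.sum UU).sum M)
    (fun c => Sum.map (Sum.map Sum.inl fun o => Sum.inl (Sum.inl o)) id) ?_ ?_ ?_
  · refine (Impl.loop s3).mono ?_
    rintro c x y hx hy ⟨z, hz, y0, h0, ⟨⟨k1, k2, k3, k4, k5, k6, k7⟩, k8, k9, k10, k11⟩, hE⟩ hP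
    have hy1 : ∀ o, y0 (.inl (.inl (.inl o))) = y (.inl o) := fun o =>
      (congrFun hE (.inl (.inl o))).symm
    have hy2 : ∀ o, y0 (.inl (.inr (.inl (.inl o)))) = y (.inr o) := fun o =>
      (congrFun hE (.inl (.inr o))).symm
    have hz1 : ∀ o, y0 (.inr o) = z o := fun o => (congrFun hE (.inr o)).symm
    have := hU c
    simp only [hz1] at k8 k9 k10 k11
    have key := hr (U.T c) F (L c x) η δ Δ v0 v1 e (src c) _ _ _ _ _ _ _ _ _ _ _ _ _ _ _ _ _ _ _ _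
      hη hδ hΔ hv he1 (hOK c x hx hP) (hz.comp _) (hz.comp _) (h0.comp _) (h0.comp _) (h0.comp _)
      (h0.comp _) (h0.comp _) (h0.comp _) (k1 hP) (k2 hP) k3 k4 (hν.2 _).1 (hν.2 _).2 (ha.2 _).1
      (ha.2 _).2 (hb'.2 _).1 (hb'.2 _).2 (h0.nonneg _ _) (h0.le_one _ _) (h0.nonneg _ _)
      (h0.le_one _ _) (h0.nonneg _ _) (h0.le_one _ _)
      (hwX.2 (z (.inr (.inr (.inl ()))) 1, z (.inr (.inr (.inr ()))) 1)).1 (hwX.2 _).2
      (hwY.2 (z (.inr (.inr (.inl ()))) 1, z (.inr (.inr (.inr ()))) 1)).1 (hwY.2 _).2 k5 k6 k7 k8 k9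
    rcases key with ⟨u, h1, h2, h3⟩ | ⟨u, h1, h2, h3, h4⟩ | h1
    · exact Or.inl ⟨u, h1, h2, by simpa only [hy1] using h3⟩
    · exact Or.inr ⟨u, h1, h2, h3, by simpa only [hy2] using h4⟩
    · exfalso
      have h2 := hck _ _ _ _ (hz.nonneg _ _) (hz.le_one _ _) (hz.nonneg _ _) (hz.le_one _ _)
        (psi_mem (hwX.2 _).1 (hwX.2 _).2 (hwY.2 _).2).1 (psi_mem (hwX.2 _).1 (hwX.2 _).2 (hwY.2 _).2).2
        (cl_nonneg _) (cl_le_one _) h1
      rw [abs_sub_comm] at k10 k11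
      rcases h2 with h2 | h2
      · exact absurd (h2.trans k10) (not_le.2 he2)
      · exact absurd (h2.trans k11) (not_le.2 he2)
  · refine D.congr (D.sum_elim (Z := fun z : Σ c, ((UU.sum UU).sum M).T c => (W.sum M).T z.1)
      (f := fun z a => Sum.inl (Sum.elim (fun o => Sum.inl (Sum.inl o))
        (fun o => Sum.inr (Sum.inl (Sum.inl o))) a))
      (g := fun z a => Sum.inr a) D.sigma_snd
      (D.inl (D.sum_elim D.sigma_snd (D.inl (D.inl D.sigma_snd)) (D.inr (D.inl (D.inl D.sigma_snd)))))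
      (D.inr D.sigma_snd)) ?_
    rintro ⟨c, (o | o) | o⟩ <;> rfl
  · intro c
    exact Sum.map_injective.2 ⟨Sum.map_injective.2 ⟨Sum.inl_injective,
      Sum.inl_injective.comp Sum.inl_injective⟩, Function.injective_id⟩
  · rintro c ((o | o) | o) <;> exact le_rfl

end Vale.Agent.P330
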