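import Vale.Agent.P330.HDefs

/-! Block B3: continuous functions of heavy nodes. -/

namespace Vale.Agent.P330

open Vale.Agent.Lib.PolyTime Finset
open scoped Classical BigOperators

theorem bern_count {J : ℕ} (hJ : 0 < J) {r : ℝ} (h0 : 0 ≤ r) (h1 : r ≤ 1) :
    |fr (Fin J) (fun t => ((t : ℕ) : ℝ) / J < r) - r| ≤ 1 / J := by
  have hJ' : (0 : ℝ) < J := by exact_mod_cast hJ
  have e : fr (Fin J) (fun t => ((t : ℕ) : ℝ) / J < r) = (⌈J * r⌉₊ : ℝ) / J := by
    have h2 : fr (Fin J) (fun t => ((t : ℕ) : ℝ) / J < r) =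
        fr (Fin J) (fun t => (t : ℕ) < ⌈J * r⌉₊) :=
      fr_congr fun t => by rw [Nat.lt_ceil, div_lt_iff₀ hJ', mul_comm]
    have h3 : ⌈J * r⌉₊ ≤ J := Nat.ceil_le.2 (by nlinarith)
    have h4 : (univ.filter fun t : Fin J => (t : ℕ) < ⌈J * r⌉₊).card = ⌈J * r⌉₊ := by
      rw [Fin.card_filter_val_lt, min_eq_right h3]
    rw [h2, fr, Fintype.card_fin]
    congr 2
    refine Eq.trans ?_ h4
    congr
  have h5 := Nat.le_ceil (J * r)
  have h6 := (Nat.ceil_lt_add_one (mul_nonneg hJ'.le h0)).le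
  have e2 : (⌈J * r⌉₊ : ℝ) / J - r = (⌈J * r⌉₊ - J * r) / J := by field_simp
  rw [e, e2, abs_div, abs_of_pos hJ', abs_of_nonneg (by linarith)]
  exact div_le_div_of_nonneg_right (by linarith) hJ'.le

section
variable {F A : Type} [Fintype F] [One F] [Fintype A] {K : ℕ}

/-- The empirical frequencies of the symbol `1`. -/
noncomputable def bern_emp (s : A × Fin K → F) (i : A) : ℝ :=
  ∑ k, if s (i, k) = 1 then (K : ℝ)⁻¹ else 0

omit [Fintype F] [Fintype A] in
theorem bern_emp_mem (hK : 0 < K) (s : A × Fin K → F) (i : A) :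
    0 ≤ bern_emp s i ∧ bern_emp s i ≤ 1 := by
  have hK' : (0 : ℝ) < K := by exact_mod_cast hK
  refine ⟨sum_nonneg fun k _ => by positivity, ?_⟩
  calc bern_emp s i ≤ ∑ _k : Fin K, (K : ℝ)⁻¹ := sum_le_sum fun k _ => by
        split_ifs
        · exact le_rfl
        · positivity
    _ = 1 := by simp [hK'.ne']

theorem bern_cheb (hK : 0 < K) {x : A → F → ℝ} (hx : IsDist x) {ρ : ℝ} (hρ : 0 < ρ) (i : A) :
    prob (fun j : A × Fin K => x j.1) (fun s => ρ ≤ |bern_emp s i - x i 1|) ≤ 1 / (K * ρ ^ 2) := by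
  have hK' : (0 : ℝ) < K := by exact_mod_cast hK
  have h := prob_cheb (hx.comp (Prod.fst : A × Fin K → A))
    (fun j b => if j.1 = i then (if b = 1 then (K : ℝ)⁻¹ else 0) else 0) hρ
  have e1 : ∀ s : A × Fin K → F,
      ∑ j : A × Fin K, (if j.1 = i then (if s j = 1 then (K : ℝ)⁻¹ else 0) else 0) =
        bern_emp s i := fun s => by
    rw [Fintype.sum_prod_type, sum_eq_single i]
    · simp [bern_emp]
    · intro j _ hj
      simp [hj]
    · simp
  have e2 : ∑ j : A × Fin K, ∑ b,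
      (if j.1 = i then (if b = 1 then (K : ℝ)⁻¹ else 0) else 0) * x j.1 b = x i 1 := by
    rw [Fintype.sum_prod_type, sum_eq_single i]
    · simp [hK'.ne']
    · intro j _ hj
      simp [hj]
    · simp
  have e3 : ∑ j : A × Fin K, ∑ b,
      (if j.1 = i then (if b = 1 then (K : ℝ)⁻¹ else 0) else 0) ^ 2 * x j.1 b = x i 1 / K := by
    rw [Fintype.sum_prod_type, sum_eq_single i]
    · simp only [if_true, ite_pow, ite_mul, sum_const, card_univ, Fintype.card_fin, nsmul_eq_mul]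
      simp only [ne_eq, OfNat.ofNat_ne_zero, not_false_eq_true, zero_pow, zero_mul, sum_ite_eq',
        mem_univ, if_true]
      field_simp
    · intro j _ hj
      simp [hj]
    · simp
  simp only [e1, e2, e3] at h
  refine h.trans ?_
  rw [div_div]
  exact div_le_div_of_nonneg_right (hx.le_one i 1) (by positivity)

theorem bern_ex (hK : 0 < K) {x : A → F → ℝ} (hx : IsDist x) {ρ ε : ℝ} (hρ : 0 < ρ) (hε : 0 ≤ ε)
    {g : (A → ℝ) → ℝ} (hg : U01 g)
    (hu : ∀ z z' : A → ℝ, (∀ i, 0 ≤ z i ∧ z i ≤ 1) → (∀ i, 0 ≤ z' i ∧ z' i ≤ 1) →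
      (∀ i, |z i - z' i| < ρ) → |g z - g z'| ≤ ε) :
    ex (fun j : A × Fin K => x j.1) (fun s => |g (bern_emp s) - g fun i => x i 1|) ≤
      ε + Fintype.card A / (K * ρ ^ 2) := by
  have hq : IsDist fun j : A × Fin K => x j.1 := hx.comp Prod.fst
  have h1 : prob (fun j : A × Fin K => x j.1) (fun s => ∃ i, ρ ≤ |bern_emp s i - x i 1|) ≤
      Fintype.card A / (K * ρ ^ 2) := by
    refine (prob_exists_le hq fun i s => ρ ≤ |bern_emp s i - x i 1|).trans ?_
    refine (sum_le_sum fun i _ => bern_cheb hK hx hρ i).trans (le_of_eq ?_)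
    rw [sum_const, card_univ, nsmul_eq_mul, mul_one_div]
  refine le_trans ?_ (add_le_add le_rfl h1)
  rw [prob_eq_ex, ← ex_const hq ε, ← ex_add]
  refine ex_mono hq fun s => ?_
  split_ifs with h
  · have a := hg.2 (bern_emp s)
    have b := hg.2 fun i => x i 1
    rw [abs_le]
    constructor <;> linarith [a.1, a.2, b.1, b.2]
  · push Not at h
    rw [add_zero]
    exact hu _ _ (bern_emp_mem hK s) (fun i => ⟨hx.nonneg i 1, hx.le_one i 1⟩) h

end

theorem bern_unif {A : Type} [Fintype A] {g : (A → ℝ) → ℝ} (hg : Continuous g) {ε : ℝ}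
    (hε : 0 < ε) : ∃ ρ : ℝ, 0 < ρ ∧ ∀ z z' : A → ℝ, (∀ i, 0 ≤ z i ∧ z i ≤ 1) →
      (∀ i, 0 ≤ z' i ∧ z' i ≤ 1) → (∀ i, |z i - z' i| < ρ) → |g z - g z'| ≤ ε := by
  have h := (isCompact_Icc (a := (0 : A → ℝ)) (b := 1)).uniformContinuousOn_of_continuous
    hg.continuousOn
  obtain ⟨ρ, hρ, h⟩ := Metric.uniformContinuousOn_iff.1 h ε hε
  refine ⟨ρ, hρ, fun z z' hz hz' hd => ?_⟩
  exact (h z ⟨fun i => (hz i).1, fun i => (hz i).2⟩ z' ⟨fun i => (hz' i).1, fun i => (hz' i).2⟩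
    ((dist_pi_lt_iff hρ).2 hd)).le

theorem bernThm : BernThm := by
  intro C F _ _ _ _ _ h01 I A _ nd dnd hw g hg η hη
  have : Nontrivial F := ⟨0, 1, h01⟩
  obtain ⟨ρ, hρ, hu⟩ := bern_unif hg.1 (ε := η / 4) (by positivity)
  obtain ⟨K, hK⟩ := exists_nat_gt (Fintype.card A / (ρ ^ 2 * (η / 4)))
  obtain ⟨J, hJ⟩ := exists_nat_gt (4 / η)
  have hK0 : (0 : ℝ) < K := lt_of_le_of_lt (by positivity) hK
  have hJ0 : (0 : ℝ) < J := lt_trans (by positivity) hJ
  have hK1 : 0 < K := by exact_mod_cast hK0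
  have hJ1 : 0 < J := by exact_mod_cast hJ0
  have hK2 : (Fintype.card A : ℝ) / (K * ρ ^ 2) ≤ η / 4 := by
    rw [div_lt_iff₀ (by positivity)] at hK
    rw [div_le_iff₀ (by positivity)]
    nlinarith
  have hJ2 : (1 : ℝ) / J ≤ η / 4 := by
    rw [div_lt_iff₀ hη] at hJ
    rw [div_le_iff₀ hJ0]
    nlinarith
  have : Nonempty (Fin J) := ⟨⟨0, hJ1⟩⟩
  have h := ImplR.rej (I := I) h01 (A := A × Fin K) (Fam.const C (Fin J)) (fun _ => ⟨⟨0, hJ1⟩⟩)
    (fun c _ j => nd c j.1) (fun _ t s => ¬ (((t : ℕ) : ℝ) / J < g (bern_emp s)))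
    (fun j => (dnd j.1).comp pt_sigma_fst)
    (fun s => Vale.Agent.P325.pt_finite (D.pt (D.sigma_snd (X := fun _ : C => Fin J)))
      fun t => ¬ (((t : ℕ) : ℝ) / J < g (bern_emp s))) 1
    (fun c j u => by
      rw [one_mul]
      by_cases hju : nd c j.1 = u
      · exact (fr_le_one _).trans (hju ▸ hw c j.1)
      · rw [fr_congr (E' := fun _ => False) fun _ => iff_false_intro hju, fr_false]
        exact I.w0 c u) (η := η / 4) (by positivity)
  refine h.mono fun c x r hx _ _ hS => ?_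
  have hx' : IsDist fun i => x (nd c i) := hx.comp (nd c)
  have hq : IsDist fun j : A × Fin K => x (nd c j.1) := hx'.comp Prod.fst
  have e : (𝔼 t : Fin J, prob (fun j : A × Fin K => x (nd c j.1))
      fun s => ¬¬ (((t : ℕ) : ℝ) / J < g (bern_emp s))) =
      ex (fun j : A × Fin K => x (nd c j.1))
        fun s => fr (Fin J) fun t => ((t : ℕ) : ℝ) / J < g (bern_emp s) := by
    simp only [fr_eq_expect, not_not, prob_eq_ex]
    rw [ex_expect]
  have hS' : |r - ex (fun j : A × Fin K => x (nd c j.1))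
      fun s => fr (Fin J) fun t => ((t : ℕ) : ℝ) / J < g (bern_emp s)| ≤ η / 4 := e ▸ hS
  have h2 := bern_ex hK1 hx' hρ (by positivity) hg hu
  have up : ex (fun j : A × Fin K => x (nd c j.1))
      (fun s => fr (Fin J) fun t => ((t : ℕ) : ℝ) / J < g (bern_emp s)) ≤
      ex (fun j : A × Fin K => x (nd c j.1)) (fun s => ((g fun i => x (nd c i) 1) + 1 / J) +
        |g (bern_emp s) - g fun i => x (nd c i) 1|) := ex_mono hq fun s => by
    have a := abs_le.1 (bern_count hJ1 (hg.2 (bern_emp s)).1 (hg.2 (bern_emp s)).2)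
    linarith [a.2, le_abs_self (g (bern_emp s) - g fun i => x (nd c i) 1)]
  have lo : ex (fun j : A × Fin K => x (nd c j.1)) (fun s => ((g fun i => x (nd c i) 1) - 1 / J) -
        |g (bern_emp s) - g fun i => x (nd c i) 1|) ≤ ex (fun j : A × Fin K => x (nd c j.1))
      (fun s => fr (Fin J) fun t => ((t : ℕ) : ℝ) / J < g (bern_emp s)) := ex_mono hq fun s => by
    have a := abs_le.1 (bern_count hJ1 (hg.2 (bern_emp s)).1 (hg.2 (bern_emp s)).2)
    linarith [a.1, neg_abs_le (g (bern_emp s) - g fun i => x (nd c i) 1)]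
  rw [ex_add, ex_const hq] at up
  rw [ex_sub, ex_const hq] at lo
  have a := abs_le.1 hS'
  rw [abs_le]
  constructor <;> linarith [a.1, a.2]

end Vale.Agent.P330
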