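import Vale.Agent.P330.HDefs

/-! Block B3: the clock. -/

namespace Vale.Agent.P330

open Vale.Agent.Lib.PolyTime Finset
open scoped Classical BigOperators

/-- First coordinate of the loop. -/
noncomputable def clk_gx (t : ℝ) : ℝ := 1 - 4 * |t - 1 / 2|

/-- Second coordinate of the loop. -/
noncomputable def clk_gy (t : ℝ) : ℝ := max (min (4 * t) (2 - 4 * t)) (4 * t - 4)

@[fun_prop] theorem clk_cont_gx : Continuous clk_gx := by unfold clk_gx; fun_prop

@[fun_prop] theorem clk_cont_gy : Continuous clk_gy := by unfold clk_gy; fun_prop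

theorem clk_g0 : clk_gx 0 = -1 ∧ clk_gy 0 = 0 := by
  constructor
  · rw [clk_gx, abs_of_nonpos (by norm_num)]; norm_num
  · rw [clk_gy, min_eq_left (by norm_num), max_eq_left (by norm_num)]; norm_num

theorem clk_g1 : clk_gx 1 = -1 ∧ clk_gy 1 = 0 := by
  constructor
  · rw [clk_gx, abs_of_nonneg (by norm_num)]; norm_num
  · rw [clk_gy, min_eq_right (by norm_num), max_eq_right (by norm_num)]; norm_num

theorem clk_g {t : ℝ} (h0 : 0 ≤ t) (h1 : t ≤ 1) :
    |clk_gx t| + |clk_gy t| = 1 ∧ (t ≤ 1 / 2 → 0 ≤ clk_gy t) ∧ (1 / 2 ≤ t → clk_gy t ≤ 0) := by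
  unfold clk_gx clk_gy
  rcases le_total t (1 / 2) with h2 | h2
  · rw [abs_of_nonpos (show t - 1 / 2 ≤ 0 by linarith)]
    rcases le_total t (1 / 4) with h3 | h3
    · rw [min_eq_left (by linarith), max_eq_left (by linarith), abs_of_nonpos (by linarith),
        abs_of_nonneg (by linarith)]
      exact ⟨by ring, fun _ => by linarith, fun _ => by linarith⟩
    · rw [min_eq_right (by linarith), max_eq_left (by linarith), abs_of_nonneg (by linarith),
        abs_of_nonneg (by linarith)]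
      exact ⟨by ring, fun _ => by linarith, fun _ => by linarith⟩
  · rw [abs_of_nonneg (show 0 ≤ t - 1 / 2 by linarith), min_eq_right (by linarith)]
    rcases le_total t (3 / 4) with h3 | h3
    · rw [max_eq_left (by linarith), abs_of_nonneg (by linarith), abs_of_nonpos (by linarith)]
      exact ⟨by ring, fun _ => by linarith, fun _ => by linarith⟩
    · rw [max_eq_right (by linarith), abs_of_nonpos (by linarith), abs_of_nonpos (by linarith)]
      exact ⟨by ring, fun _ => by linarith, fun _ => by linarith⟩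

/-- First coordinate of the field. -/
noncomputable def clk_Fx (x y ψ σ : ℝ) : ℝ :=
  (1 - cl (-1 - x)) * clk_gx (1 - ψ) + cl (-1 - x) * clk_gx (σ * cl (2 * y + 2))

/-- Second coordinate of the field. -/
noncomputable def clk_Fy (x y ψ σ : ℝ) : ℝ :=
  (1 - cl (-1 - x)) * clk_gy (1 - ψ) + cl (-1 - x) * clk_gy (σ * cl (2 * y + 2)) +
    cl (-3 - x) * (-3 / 4 - y)

theorem clk_move {p f : ℝ} (h0 : 0 ≤ p + f) (h1 : p + f ≤ 1) : |cl (p + f) - p| = |f| := by
  rw [cl_of_mem h0 h1, add_sub_cancel_left]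

theorem clk_lt_of_ne {t : ℝ} (h : cl t ≠ 1) : t < 1 := lt_of_not_ge fun h' => h (cl_of_ge h')

theorem clk_le_of_eq {t : ℝ} (h : cl t = 0) : t ≤ 0 := by
  by_contra h'
  have h1 : 0 < min 1 t := lt_min zero_lt_one (lt_of_not_ge h')
  have h2 : min 1 t ≤ cl t := le_max_right _ _
  linarith

theorem clk_one_sub (t : ℝ) : 1 - cl t = cl (1 - t) := by
  rcases le_total t 0 with h | h
  · rw [cl_of_le h, cl_of_ge (by linarith)]; ring
  · rcases le_total t 1 with h' | h'
    · rw [cl_of_mem h h', cl_of_mem (by linarith) (by linarith)]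
    · rw [cl_of_ge h', cl_of_le (by linarith)]; ring

theorem clk_max_l {s t : ℝ} (h : 1 ≤ s) : max (cl s) (cl t) = 1 := by
  rw [cl_of_ge h, max_eq_left (cl_le_one t)]

theorem clk_max_r {s t : ℝ} (h : 1 ≤ t) : max (cl s) (cl t) = 1 := by
  rw [cl_of_ge h, max_eq_right (cl_le_one s)]

theorem clk_b {y : ℝ} (h : 1 / 2 ≤ |y|) : cl (y + 1 / 2) = 1 ∨ cl (y + 1 / 2) = 0 := by
  rcases le_abs.1 h with h | h
  · exact Or.inl (cl_of_ge (by linarith))
  · exact Or.inr (cl_of_le (by linarith))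

theorem clk_w {y t : ℝ} (ht : t ≤ 0) :
    max (cl (2 * |y| - 1)) (cl t) = 0 ∨ cl (y + 1 / 2) = 1 ∨ cl (y + 1 / 2) = 0 := by
  rcases le_total |y| (1 / 2) with h | h
  · left
    rw [cl_of_le ht, cl_of_le (by linarith), max_self]
  · exact Or.inr (clk_b h)

theorem clk_zone {x y : ℝ} (h : 1 ≤ |y| ∨ 1 ≤ x ∨ x ≤ -1) :
    Zone (cl (x + 1 / 2)) (cl (y + 1 / 2)) (max (cl (2 * |y| - 1)) (cl (-x)))
      (max (cl (2 * |y| - 1)) (cl x)) := by
  rcases h with h | h | h
  · exact Or.inr (Or.inr ⟨clk_max_l (by linarith), clk_max_l (by linarith), clk_b (by linarith)⟩)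
  · exact Or.inr (Or.inl ⟨cl_of_ge (by linarith), clk_max_r h, clk_w (by linarith)⟩)
  · exact Or.inl ⟨cl_of_le (by linarith), clk_max_r (by linarith), clk_w (by linarith)⟩

theorem clk_g01 {ψ : ℝ} (h : ψ = 0 ∨ ψ = 1) : clk_gx (1 - ψ) = -1 ∧ clk_gy (1 - ψ) = 0 := by
  rcases h with rfl | rfl
  · rw [sub_zero]; exact clk_g1
  · rw [sub_self]; exact clk_g0

/-- The relation at the point `(x, y)`. -/
def clk_Rel (x y ψ σ : ℝ) : Prop :=
  SelRel (cl (-2 - x)) (cl (x + 1 / 2)) (cl (y + 1 / 2)) (max (cl (2 * |y| - 1)) (cl (-x)))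
    (max (cl (2 * |y| - 1)) (cl x)) ψ σ

theorem clk_right {p q x y ψ σ : ℝ} (hx : x = 6 * p - 4) (hy : y = 4 * q - 2) (hp1 : p ≤ 1)
    (h0 : 0 ≤ ψ) (h1 : ψ ≤ 1) (H : clk_Rel x y ψ σ) (hx1 : -1 ≤ x) :
    1 / 200 ≤ |cl (p + clk_Fx x y ψ σ / 6) - p| ∨ 1 / 200 ≤ |cl (q + clk_Fy x y ψ σ / 4) - q| := by
  have eX : clk_Fx x y ψ σ = clk_gx (1 - ψ) := by
    rw [clk_Fx, cl_of_le (show -1 - x ≤ 0 by linarith)]; ring
  have eY : clk_Fy x y ψ σ = clk_gy (1 - ψ) := by
    rw [clk_Fy, cl_of_le (show -1 - x ≤ 0 by linarith), cl_of_le (show -3 - x ≤ 0 by linarith)]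
    ring
  rw [eX, eY]
  by_cases hin : |y| ≤ 1 ∧ x ≤ 1
  · obtain ⟨hs, -, -⟩ := clk_g (t := 1 - ψ) (by linarith) (by linarith)
    have a1 := abs_nonneg (clk_gx (1 - ψ))
    have a2 := abs_nonneg (clk_gy (1 - ψ))
    have b1 := abs_le.1 (show |clk_gx (1 - ψ)| ≤ 1 by linarith)
    have b2 := abs_le.1 (show |clk_gy (1 - ψ)| ≤ 1 by linarith)
    have b3 := abs_le.1 hin.1
    rw [clk_move (by linarith [b1.1]) (by linarith [b1.2, hin.2]),
      clk_move (by linarith [b2.1, b3.1]) (by linarith [b2.2, b3.2]), abs_div, abs_div,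
      abs_of_pos (show (0 : ℝ) < 6 by norm_num), abs_of_pos (show (0 : ℝ) < 4 by norm_num)]
    rcases le_total (1 / 2) |clk_gx (1 - ψ)| with h | h
    · left; linarith
    · right; linarith
  · have hout : 1 < |y| ∨ 1 < x := by
      rcases lt_or_ge 1 |y| with h | h
      · exact Or.inl h
      · exact Or.inr (lt_of_not_ge fun h' => hin ⟨h, h'⟩)
    have hz := H.2.2.2 (cl_of_le (by linarith))
      (clk_zone (hout.imp le_of_lt fun h => Or.inl h.le))
    have hψ : ψ = 0 ∨ ψ = 1 := by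
      rcases hz with h | h | ⟨ha, hb, hs⟩
      · exact Or.inl h
      · exact Or.inr h
      · right
        have h2 := clk_le_of_eq ha
        have h3 : 1 < |y| := hout.resolve_right (by linarith)
        rw [H.2.2.1 ha hb hs, clk_max_l (by linarith)]
    left
    rw [(clk_g01 hψ).1, clk_move (by linarith) (by linarith), abs_of_neg (by norm_num)]
    norm_num

theorem clk_left_eq {x y ψ σ : ℝ} (H : clk_Rel x y ψ σ) (hx1 : x ≤ -1) :
    clk_Fx x y ψ σ = clk_gx (σ * cl (2 * y + 2)) ∧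
      clk_Fy x y ψ σ = clk_gy (σ * cl (2 * y + 2)) + cl (-3 - x) * (-3 / 4 - y) := by
  unfold clk_Fx clk_Fy
  rcases le_total x (-2) with h2 | h2
  · rw [cl_of_ge (show 1 ≤ -1 - x by linarith)]
    constructor <;> ring
  · have ha : cl (x + 1 / 2) = 0 := cl_of_le (by linarith)
    have hz := H.2.2.2 (cl_of_le (by linarith)) (clk_zone (Or.inr (Or.inr hx1)))
    have key : clk_gx (1 - ψ) = clk_gx (σ * cl (2 * y + 2)) ∧
        clk_gy (1 - ψ) = clk_gy (σ * cl (2 * y + 2)) := by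
      rcases H.2.1 ha with hs | hs
      · have hψ : ψ = 0 ∨ ψ = 1 := by
          rcases hz with h | h | ⟨-, -, h⟩
          · exact Or.inl h
          · exact Or.inr h
          · rw [hs] at h; exact absurd h zero_ne_one
        rw [hs, zero_mul, (clk_g01 hψ).1, (clk_g01 hψ).2, clk_g0.1, clk_g0.2]
        exact ⟨rfl, rfl⟩
      · rcases le_or_gt y (-1 / 2) with hy | hy
        · have hb : cl (y + 1 / 2) = 0 := cl_of_le (by linarith)
          have e : 1 - ψ = σ * cl (2 * y + 2) := by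
            rw [H.2.2.1 ha hb hs, hs, one_mul, cl_of_le (show x ≤ 0 by linarith),
              max_eq_left (cl_nonneg _), clk_one_sub, abs_of_nonpos (by linarith)]
            congr 1
            ring
          rw [e]
          exact ⟨rfl, rfl⟩
        · have hψ : ψ = 0 ∨ ψ = 1 := by
            rcases hz with h | h | ⟨-, h, -⟩
            · exact Or.inl h
            · exact Or.inr h
            · have := clk_le_of_eq h
              linarith
          rw [hs, one_mul, cl_of_ge (show 1 ≤ 2 * y + 2 by linarith), (clk_g01 hψ).1,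
            (clk_g01 hψ).2, clk_g1.1, clk_g1.2]
          exact ⟨rfl, rfl⟩
    rw [key.1, key.2]
    constructor <;> ring

theorem clk_far {y : ℝ} (h : clk_gx (cl (2 * y + 2)) ≤ -1 / 2) : 3 / 16 ≤ |-3 / 4 - y| := by
  by_contra h'
  have h1 := abs_lt.1 (lt_of_not_ge h')
  rw [cl_of_mem (by linarith [h1.2]) (by linarith [h1.1]), clk_gx] at h
  have h2 : |2 * y + 2 - 1 / 2| < 3 / 8 := abs_lt.2 ⟨by linarith [h1.2], by linarith [h1.1]⟩
  linarith

theorem clk_vert {q y g μ : ℝ} (hy : y = 4 * q - 2) (hq0 : 0 ≤ q) (hq1 : q ≤ 1) (h0 : 0 ≤ μ)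
    (h1 : μ ≤ 1) (hg : |g| ≤ 1) (ha : y ≤ -3 / 4 → 0 ≤ g) (hb : -3 / 4 ≤ y → g ≤ 0) :
    |cl (q + (g + μ * (-3 / 4 - y)) / 4) - q| = (|g| + μ * |-3 / 4 - y|) / 4 := by
  have hg' := abs_le.1 hg
  rcases le_total y (-3 / 4) with h | h
  · have e1 : 0 ≤ μ * (-3 / 4 - y) := mul_nonneg h0 (by linarith)
    have e2 : μ * (-3 / 4 - y) ≤ -3 / 4 - y := mul_le_of_le_one_left (by linarith) h1
    have e3 := ha h
    rw [clk_move (by linarith) (by linarith [hg'.2]), abs_of_nonneg (by linarith),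
      abs_of_nonneg e3, abs_of_nonneg (by linarith)]
  · have e1 : 0 ≤ μ * (y + 3 / 4) := mul_nonneg h0 (by linarith)
    have e2 : μ * (y + 3 / 4) ≤ y + 3 / 4 := mul_le_of_le_one_left (by linarith) h1
    have e3 := hb h
    have e4 : μ * (-3 / 4 - y) = -(μ * (y + 3 / 4)) := by ring
    rw [e4, clk_move (by linarith [hg'.1]) (by linarith), abs_of_nonpos (by linarith),
      abs_of_nonpos e3, abs_of_nonpos (by linarith)]
    ring

theorem clk_left {p q x y ψ σ : ℝ} (hx : x = 6 * p - 4) (hy : y = 4 * q - 2) (hp0 : 0 ≤ p)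
    (hq0 : 0 ≤ q) (hq1 : q ≤ 1) (H : clk_Rel x y ψ σ) (hx1 : x ≤ -1) :
    1 / 200 ≤ |cl (p + clk_Fx x y ψ σ / 6) - p| ∨ 1 / 200 ≤ |cl (q + clk_Fy x y ψ σ / 4) - q| := by
  rw [(clk_left_eq H hx1).1, (clk_left_eq H hx1).2]
  rcases H.2.1 (cl_of_le (by linarith)) with hs | hs
  · have h3 : -2 - x < 1 := clk_lt_of_ne fun h => by
      have := H.1 h
      rw [hs] at this
      exact zero_ne_one this
    left
    rw [hs, zero_mul, clk_g0.1, clk_move (by linarith) (by linarith), abs_of_neg (by norm_num)]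
    norm_num
  · rw [hs, one_mul]
    have hfar := clk_far (y := y)
    obtain ⟨hsum, hpos, hneg⟩ := clk_g (cl_nonneg (2 * y + 2)) (cl_le_one (2 * y + 2))
    have ha : y ≤ -3 / 4 → 0 ≤ clk_gy (cl (2 * y + 2)) := fun h => hpos
      (max_le (by norm_num) ((min_le_right _ _).trans (by linarith)))
    have hb : -3 / 4 ≤ y → clk_gy (cl (2 * y + 2)) ≤ 0 := fun h => hneg
      ((le_min (by norm_num) (by linarith)).trans (le_max_right _ _))
    generalize clk_gx (cl (2 * y + 2)) = f at *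
    generalize clk_gy (cl (2 * y + 2)) = g at *
    have a1 := abs_nonneg f
    have a2 := abs_nonneg g
    have hμ0 := cl_nonneg (-3 - x)
    have a3 : 0 ≤ cl (-3 - x) * |-3 / 4 - y| := mul_nonneg hμ0 (abs_nonneg _)
    rw [clk_vert hy hq0 hq1 hμ0 (cl_le_one _) (by linarith) ha hb]
    rcases le_total (1 / 2) |g| with h | h
    · right; linarith
    · have b1 := abs_le.1 (show |f| ≤ 1 by linarith)
      rcases le_abs.1 (show 1 / 2 ≤ |f| by linarith) with h' | h'
      · left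
        rw [clk_move (by linarith) (by linarith [b1.2]), abs_of_nonneg (by linarith)]
        linarith
      · rcases le_total x (-7 / 2) with hx2 | hx2
        · right
          have c1 : 1 / 2 ≤ cl (-3 - x) :=
            (le_min (by norm_num) (by linarith)).trans (le_max_right _ _)
          have c2 : 1 / 2 * (3 / 16) ≤ cl (-3 - x) * |-3 / 4 - y| :=
            mul_le_mul c1 (hfar (by linarith)) (by norm_num) hμ0
          linarith
        · left
          have c1 : cl (p + f / 6) ≤ p - 1 / 12 :=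
            max_le (by linarith) ((min_le_right _ _).trans (by linarith))
          rw [abs_of_nonpos (by linarith)]
          linarith

theorem clk_u {E : Type} [TopologicalSpace E] {f : E → ℝ} (hf : Continuous f) :
    U01 fun z => cl (f z) :=
  ⟨continuous_cl.comp hf, fun _ => ⟨cl_nonneg _, cl_le_one _⟩⟩

theorem clk_umax {E : Type} [TopologicalSpace E] {f g : E → ℝ} (hf : Continuous f)
    (hg : Continuous g) : U01 fun z => max (cl (f z)) (cl (g z)) :=
  ⟨(continuous_cl.comp hf).max (continuous_cl.comp hg),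
    fun _ => ⟨(cl_nonneg _).trans (le_max_left _ _), max_le (cl_le_one _) (cl_le_one _)⟩⟩

theorem clockThm : ClockThm := by
  refine ⟨fun z => cl (-2 - (6 * z.1 - 4)), fun z => cl (6 * z.1 - 4 + 1 / 2),
    fun z => cl (4 * z.2 - 2 + 1 / 2),
    fun z => max (cl (2 * |4 * z.2 - 2| - 1)) (cl (-(6 * z.1 - 4))),
    fun z => max (cl (2 * |4 * z.2 - 2| - 1)) (cl (6 * z.1 - 4)),
    fun z => cl (z.1.1 + clk_Fx (6 * z.1.1 - 4) (4 * z.1.2 - 2) z.2.1 z.2.2 / 6),
    fun z => cl (z.1.2 + clk_Fy (6 * z.1.1 - 4) (4 * z.1.2 - 2) z.2.1 z.2.2 / 4), 1 / 200,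
    by norm_num, clk_u (by fun_prop), clk_u (by fun_prop), clk_u (by fun_prop),
    clk_umax (by fun_prop) (by fun_prop), clk_umax (by fun_prop) (by fun_prop),
    clk_u (by unfold clk_Fx; fun_prop), clk_u (by unfold clk_Fy; fun_prop), ?_⟩
  intro p q ψ σ hp0 hp1 hq0 hq1 h0 h1 _ _ H
  rcases le_total (-1) (6 * p - 4) with h | h
  · exact clk_right rfl rfl hp1 h0 h1 H h
  · exact clk_left rfl rfl hp0 hq0 hq1 H h

end Vale.Agent.P330
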