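import Vale.Agent.P330.Ifc
import Vale.Agent.P330.Comb
import Vale.Agent.P330.Prob

/-! Block B3: definitions and statements of the parts. -/

namespace Vale.Agent.P330

open Vale.Agent.Lib.PolyTime Finset
open scoped Classical BigOperators

/-- Clamping to the unit interval. -/
noncomputable def cl (t : ℝ) : ℝ := max 0 (min 1 t)

theorem cl_nonneg (t : ℝ) : 0 ≤ cl t := le_max_left _ _

theorem cl_le_one (t : ℝ) : cl t ≤ 1 := max_le zero_le_one (min_le_left _ _)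

theorem cl_of_le {t : ℝ} (h : t ≤ 0) : cl t = 0 := max_eq_left ((min_le_right _ _).trans h)

theorem cl_of_ge {t : ℝ} (h : 1 ≤ t) : cl t = 1 := by
  rw [cl, min_eq_left h, max_eq_right zero_le_one]

theorem cl_of_mem {t : ℝ} (h0 : 0 ≤ t) (h1 : t ≤ 1) : cl t = t := by
  rw [cl, min_eq_right h1, max_eq_right h0]

@[fun_prop] theorem continuous_cl : Continuous cl := by unfold cl; fun_prop

/-- Settings of the selectors under which the alarm is two-valued. -/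
def Zone (a b wX wY : ℝ) : Prop :=
  (a = 0 ∧ wX = 1 ∧ (wY = 0 ∨ b = 1 ∨ b = 0)) ∨ (a = 1 ∧ wY = 1 ∧ (wX = 0 ∨ b = 1 ∨ b = 0)) ∨
    (wX = 1 ∧ wY = 1 ∧ (b = 1 ∨ b = 0))

/-- The relation between the selectors, the alarm `ψ` and the source flag `σ`. -/
def SelRel (ν a b wX wY ψ σ : ℝ) : Prop :=
  (ν = 1 → σ = 1) ∧ (a = 0 → σ = 0 ∨ σ = 1) ∧ (a = 0 → b = 0 → σ = 1 → ψ = wY) ∧
    (ν = 0 → Zone a b wX wY → ψ = 0 ∨ ψ = 1 ∨ (a = 0 ∧ b = 0 ∧ σ = 1))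

/-- Continuous functions with values in the unit interval. -/
def U01 {E : Type} [TopologicalSpace E] (f : E → ℝ) : Prop := Continuous f ∧ ∀ x, 0 ≤ f x ∧ f x ≤ 1

/-- The clock. -/
def ClockThm : Prop :=
  ∃ (ν a b wX wY : ℝ × ℝ → ℝ) (G1 G2 : (ℝ × ℝ) × ℝ × ℝ → ℝ) (m : ℝ), 0 < m ∧
    U01 ν ∧ U01 a ∧ U01 b ∧ U01 wX ∧ U01 wY ∧ U01 G1 ∧ U01 G2 ∧
    ∀ p q ψ σ : ℝ, 0 ≤ p → p ≤ 1 → 0 ≤ q → q ≤ 1 → 0 ≤ ψ → ψ ≤ 1 → 0 ≤ σ → σ ≤ 1 →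
      SelRel (ν (p, q)) (a (p, q)) (b (p, q)) (wX (p, q)) (wY (p, q)) ψ σ →
      m ≤ |G1 ((p, q), ψ, σ) - p| ∨ m ≤ |G2 ((p, q), ψ, σ) - q|

/-- The source flag. -/
noncomputable def sig (η s : ℝ) : ℝ := cl ((3 * η - s) / η)

/-- The alarm. -/
noncomputable def psi (η δ v0 v1 wX wY TX TY sY : ℝ) : ℝ :=
  max (wX * cl ((TX - v0) / (v1 - v0)))
    (max (wY * cl ((TY - v0) / (v1 - v0))) (wY * cl ((2 * δ - sY) / (δ - η))))

/-- Mixtures. -/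
def mixv (ν a b s d0 d1 d2 d3 : ℝ) : ℝ :=
  ν * s + (1 - ν) * (a * (b * d0 + (1 - b) * d1) + (1 - a) * (b * d2 + (1 - b) * d3))

/-- The analysis of the two registers. -/
def RegThm : Prop :=
  ∀ (X F : Type) [Fintype X] [Fintype F] [Nonempty X] (L : Line X F) (η δ Δ v0 v1 e : ℝ)
    (src : X → F) (x y cx sx px cy sy py : X → F → ℝ) (TX TY sX sY ν a b ν' a' b' wX wY : ℝ),
    0 < η → 4 * η ≤ δ → 8 * δ ≤ Δ → v0 < v1 → e ≤ η / 20 → L.OK Δ src →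
    IsDist x → IsDist y → IsDist cx → IsDist sx → IsDist px → IsDist cy → IsDist sy → IsDist py →
    L.Step η δ v0 v1 src x cx sx px TX → L.Step η δ v0 v1 src y cy sy py TY →
    |sX - du x src| ≤ e → |sY - du y src| ≤ e →
    0 ≤ ν → ν ≤ 1 → 0 ≤ a → a ≤ 1 → 0 ≤ b → b ≤ 1 → 0 ≤ ν' → ν' ≤ 1 → 0 ≤ a' → a' ≤ 1 →
    0 ≤ b' → b' ≤ 1 → 0 ≤ wX → wX ≤ 1 → 0 ≤ wY → wY ≤ 1 →
    |ν' - ν| ≤ e → |a' - a| ≤ e → |b' - b| ≤ e →
    (∀ u, |du x u - mixv ν' a' b' (hd src u) (du py u) (du cy u) (du cx u) (du cx u)| ≤ e) →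
    (∀ u, |du y u - mixv ν' a' b' (hd src u) (du cy u) (du cy u) (du sx u) (du cx u)| ≤ e) →
    (∃ u ∈ L.Val, u ∈ L.EndS ∧ du cx u ≤ η) ∨ (∃ v ∈ L.Val, v ≠ src ∧ v ∈ L.EndP ∧ du cy v ≤ η) ∨
      SelRel ν a b wX wY (psi η δ v0 v1 wX wY TX TY sY) (sig η sX)

/-- A continuous function of heavy nodes. -/
def BernThm : Prop :=
  ∀ (C F : Type) [Enc C] [Enc F] [Fintype F] [Zero F] [One F], (0 : F) ≠ 1 →
    ∀ (I : Reg C) (A : Type) [Fintype A] (nd : ∀ c, A → I.T c), (∀ i, D fun c => nd c i) →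
    (∀ c i, 1 ≤ I.w c (nd c i)) → ∀ g : (A → ℝ) → ℝ, U01 g → ∀ η : ℝ, 0 < η →
    ImplR F I fun c x r => |r - g fun i => x (nd c i) 1| ≤ η

/-- A copy of the uniform register inside `I`. -/
def Emb {C : Type} [Enc C] (U : Fam C) (I : Reg C) (w : ∀ c, U.T c → I.T c) : Prop :=
  D2 w ∧ ∀ c, Function.Injective (w c) ∧ ∀ o, (Fintype.card (U.T c) : ℝ)⁻¹ ≤ I.w c (w c o)

/-- The multiplexer and the distance from a fixed word. -/
def MixThm : Prop :=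
  ∀ (C F : Type) [Enc C] [Enc F] [Fintype F] [Zero F] [One F], (0 : F) ≠ 1 →
    ∀ (I : Reg C) (U : Fam C), (∀ c, Nonempty (U.T c)) → ∀ (src : ∀ c, U.T c → F),
    PT (fun z : Σ c, U.T c => src z.1 z.2) → ∀ η : ℝ, 0 < η →
    (∀ w, Emb U I w → ImplR F I fun c x r => |r - du (fun o => x (w c o)) (src c)| ≤ η) ∧
    ∀ (nd : Fin 3 → ∀ c, I.T c) (w : Fin 4 → ∀ c, U.T c → I.T c), (∀ i, D (nd i)) →
      (∀ c i, 1 ≤ I.w c (nd i c)) → (∀ j, Emb U I (w j)) →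
      Impl F I (.of U) fun c x y => ∀ u, |du y u - mixv (x (nd 0 c) 1) (x (nd 1 c) 1) (x (nd 2 c) 1)
        (hd (src c) u) (du (fun o => x (w 0 c o)) u) (du (fun o => x (w 1 c o)) u)
        (du (fun o => x (w 2 c o)) u) (du (fun o => x (w 3 c o)) u)| ≤ η

end Vale.Agent.P330
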