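import Vale.Agent.P330.HDefs

/-! Block B3: the multiplexer and the distance from a fixed word. -/

namespace Vale.Agent.P330

open Vale.Agent.Lib.PolyTime Finset
open scoped Classical BigOperators

section Law
variable {F : Type} [Fintype F] [One F]

/-- The multiplexer. -/
noncomputable def mix_fn (a : F) (s : Fin 3 ⊕ Fin 4 → F) : F :=
  if s (.inl 0) = 1 then a else if s (.inl 1) = 1 then
    (if s (.inl 2) = 1 then s (.inr 0) else s (.inr 1))
  else (if s (.inl 2) = 1 then s (.inr 2) else s (.inr 3))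

omit [One F] in
theorem mix_ex4 {q : Fin 3 ⊕ Fin 4 → F → ℝ} (hq : IsDist q) (j : Fin 4) (g0 g1 g2 g3 : F → ℝ) :
    ex q (fun s => g0 (s (.inl 0)) * g1 (s (.inl 1)) * g2 (s (.inl 2)) * g3 (s (.inr j))) =
      (∑ b, g0 b * q (.inl 0) b) * (∑ b, g1 b * q (.inl 1) b) * (∑ b, g2 b * q (.inl 2) b) *
        ∑ b, g3 b * q (.inr j) b := by
  have he : Function.Injective (![.inl 0, .inl 1, .inl 2, .inr j] : Fin 4 → Fin 3 ⊕ Fin 4) := by
    intro a b h
    fin_cases a <;> fin_cases b <;> simp_all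
  have h := ex_comp hq he fun t => ∏ i, (![g0, g1, g2, g3] : Fin 4 → F → ℝ) i (t i)
  rw [ex_prod] at h
  simpa [Fin.prod_univ_four] using h

theorem mix_law {q : Fin 3 ⊕ Fin 4 → F → ℝ} (hq : IsDist q) (a b : F) :
    law q (mix_fn a) b = mixv (q (.inl 0) 1) (q (.inl 1) 1) (q (.inl 2) 1)
      (if a = b then 1 else 0) (q (.inr 0) b) (q (.inr 1) b) (q (.inr 2) b) (q (.inr 3) b) := by
  let χ : F → F → ℝ := fun c d => if d = c then 1 else 0
  let ω : F → ℝ := fun d => 1 - χ 1 d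
  have e1 : ∀ i c, ∑ d, χ c d * q i d = q i c := fun i c => by simp [χ]
  have e2 : ∀ i, ∑ d, ω d * q i d = 1 - q i 1 := fun i => by
    simp only [ω, sub_mul, one_mul, sum_sub_distrib, e1, (hq i).2]
  have e3 : ∀ i (r : ℝ), ∑ d, r * q i d = r := fun i r => by rw [← mul_sum, (hq i).2, mul_one]
  have e : (fun s => if mix_fn a s = b then (1 : ℝ) else 0) = fun s =>
      χ 1 (s (.inl 0)) * 1 * 1 * (if a = b then 1 else 0) +
      ω (s (.inl 0)) * χ 1 (s (.inl 1)) * χ 1 (s (.inl 2)) * χ b (s (.inr 0)) +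
      ω (s (.inl 0)) * χ 1 (s (.inl 1)) * ω (s (.inl 2)) * χ b (s (.inr 1)) +
      ω (s (.inl 0)) * ω (s (.inl 1)) * χ 1 (s (.inl 2)) * χ b (s (.inr 2)) +
      ω (s (.inl 0)) * ω (s (.inl 1)) * ω (s (.inl 2)) * χ b (s (.inr 3)) := by
    funext s
    by_cases h0 : s (.inl 0) = 1 <;> by_cases h1 : s (.inl 1) = 1 <;>
      by_cases h2 : s (.inl 2) = 1 <;> simp [mix_fn, χ, ω, h0, h1, h2]
  rw [law_eq_prob, prob_eq_ex]
  refine (congrArg (ex q) (by convert e)).trans ?_
  rw [ex_add, ex_add, ex_add, ex_add,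
    mix_ex4 hq 0 (χ 1) (fun _ => 1) (fun _ => 1) fun _ => if a = b then 1 else 0,
    mix_ex4 hq 0 ω (χ 1) (χ 1) (χ b), mix_ex4 hq 1 ω (χ 1) ω (χ b), mix_ex4 hq 2 ω ω (χ 1) (χ b),
    mix_ex4 hq 3 ω ω ω (χ b)]
  simp only [e1, e2, e3, mixv]
  ring

end Law

theorem mix_expect {X : Type} [Fintype X] [Nonempty X] (ν a b : ℝ) (s d0 d1 d2 d3 : X → ℝ) :
    𝔼 x, (1 - mixv ν a b (s x) (d0 x) (d1 x) (d2 x) (d3 x)) =
      mixv ν a b (𝔼 x, (1 - s x)) (𝔼 x, (1 - d0 x)) (𝔼 x, (1 - d1 x)) (𝔼 x, (1 - d2 x))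
        (𝔼 x, (1 - d3 x)) := by
  simp only [mixv, mul_expect, ← expect_add_distrib]
  exact expect_congr rfl fun x _ => by ring

theorem mix_fr {X Y : Type} [Fintype X] {w : X → Y} {W : Y → ℝ} (hw : Function.Injective w)
    (h : ∀ o, (Fintype.card X : ℝ)⁻¹ ≤ W (w o)) (h0 : ∀ u, 0 ≤ W u) (u : Y) :
    fr X (fun t => w t = u) ≤ 1 * W u := by
  rw [one_mul]
  by_cases hu : ∃ o, w o = u
  · obtain ⟨o, rfl⟩ := hu
    rw [fr_congr (E' := fun t => t = o) fun t => hw.eq_iff, fr_single]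
    exact h o
  · rw [fr_congr (E' := fun _ => False) fun t => iff_false_intro fun e => hu ⟨t, e⟩, fr_false]
    exact h0 u

theorem mixThm : MixThm := by
  intro C F _ _ _ _ _ h01 I U hU src hsrc η hη
  have : Nontrivial F := ⟨0, 1, h01⟩
  refine ⟨fun w hw => ?_, fun nd w hnd hI hw => ?_⟩
  · refine (ImplR.rej h01 (A := Unit) U hU (fun c t _ => w c t) (fun c t s => s () = src c t)
      (fun _ => hw.1) (fun s => D.eq (X := fun _ => F) (D.const _) (D.of_pt hsrc)) 1
      (fun c _ u => mix_fr (hw.2 c).1 (hw.2 c).2 (I.w0 c) u) hη).mono fun c x r hx _ _ h => ?_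
    have e : ∀ t, prob (fun _ : Unit => x (w c t)) (fun s => ¬ s () = src c t) =
        1 - x (w c t) (src c t) := fun t => prob_slot_ne (hx.comp _) () _
    simpa only [e, du] using h
  · refine (Impl.layer (O := .of U) (A := Fin 3 ⊕ Fin 4) (Fam.const C Unit) (fun _ => ⟨()⟩) hU
      (fun c o _ => Sum.elim (fun i => nd i c) fun j => w j c o) (fun c o _ => mix_fn (src c o))
      (fun i => ?_) (fun s => ?_) 1 (fun c o => (one_div _).ge) (fun c i u => ?_) hη).mono
      fun c x y hx hy h u => ?_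
    · rcases i with i | j
      · exact (hnd i).comp pt_sigma_fst
      · exact (hw j).1.app pt_sigma_fst (D.fst D.sigma_snd)
    · have h1 : PT fun z : Σ c, U.T c × Unit => src z.1 z.2.1 :=
        hsrc.comp (pt_sigma_mk pt_sigma_fst (D.fst D.sigma_snd))
      unfold mix_fn
      split_ifs
      exacts [h1, PT.const _, PT.const _, PT.const _, PT.const _]
    · rcases i with i | j
      · by_cases e : nd i c = u
        · exact (fr_le_one _).trans (by rw [one_mul, ← e]; exact hI c i)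
        · refine (fr_mono (E' := fun _ => False) fun _ h => e h).trans ?_
          rw [fr_false, one_mul]
          exact I.w0 c u
      · exact (fr_fst (Y := Unit) fun t => w j c t = u).trans_le
          (mix_fr ((hw j).2 c).1 ((hw j).2 c).2 (I.w0 c) u)
    · have := hU c
      have h2 : 𝔼 o, ∑ b, |y o b - mixv (x (nd 0 c) 1) (x (nd 1 c) 1) (x (nd 2 c) 1)
          (if src c o = b then 1 else 0) (x (w 0 c o) b) (x (w 1 c o) b) (x (w 2 c o) b)
          (x (w 3 c o) b)| ≤ η := by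
        refine le_trans (le_of_eq ?_) ((dd_unif _ _).symm.trans_le h)
        refine expect_congr rfl fun o _ => sum_congr rfl fun b _ => ?_
        rw [Fintype.expect_const, mix_law (hx.comp _)]
        rfl
      have h3 := du_le_add y (fun o b => mixv (x (nd 0 c) 1) (x (nd 1 c) 1) (x (nd 2 c) 1)
          (if src c o = b then 1 else 0) (x (w 0 c o) b) (x (w 1 c o) b) (x (w 2 c o) b)
          (x (w 3 c o) b)) u
      have h4 := du_le_add (fun o b => mixv (x (nd 0 c) 1) (x (nd 1 c) 1) (x (nd 2 c) 1)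
          (if src c o = b then 1 else 0) (x (w 0 c o) b) (x (w 1 c o) b) (x (w 2 c o) b)
          (x (w 3 c o) b)) y u
      simp only [abs_sub_comm _ (y _ _)] at h4
      rw [← du_pure]
      have h5 := mix_expect (x (nd 0 c) 1) (x (nd 1 c) 1) (x (nd 2 c) 1)
        (fun o => if src c o = u o then 1 else 0) (fun o => x (w 0 c o) (u o))
        (fun o => x (w 1 c o) (u o)) (fun o => x (w 2 c o) (u o)) fun o => x (w 3 c o) (u o)
      simp only [du] at h3 h4 ⊢
      rw [← h5, abs_le]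
      constructor <;> linarith

end Vale.Agent.P330
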