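import Vale.Agent.P330.HDefs

/-! Block B3: the analysis of the two registers. -/

namespace Vale.Agent.P330

open Vale.Agent.Lib.PolyTime Finset
open scoped Classical BigOperators

theorem reg_cvx {t t' p p' q q' e f : ℝ} (h0 : 0 ≤ t) (h1 : t ≤ 1) (hp : p' ∈ Set.Icc (0 : ℝ) 1)
    (hq : q' ∈ Set.Icc (0 : ℝ) 1) (ht : |t' - t| ≤ e) (h2 : |p' - p| ≤ f) (h3 : |q' - q| ≤ f) :
    |t' * p' + (1 - t') * q' - (t * p + (1 - t) * q)| ≤ e + f := by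
  have k : |p' - q'| ≤ 1 := abs_le.2 ⟨by linarith [hp.1, hq.2], by linarith [hp.2, hq.1]⟩
  have k1 : |(t' - t) * (p' - q')| ≤ e := by
    rw [abs_mul]
    exact (mul_le_of_le_one_right (abs_nonneg _) k).trans ht
  have k2 : |t * (p' - p)| ≤ t * f := by
    rw [abs_mul, abs_of_nonneg h0]
    exact mul_le_mul_of_nonneg_left h2 h0
  have k3 : |(1 - t) * (q' - q)| ≤ (1 - t) * f := by
    rw [abs_mul, abs_of_nonneg (sub_nonneg.2 h1)]
    exact mul_le_mul_of_nonneg_left h3 (sub_nonneg.2 h1)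
  rw [abs_le] at *
  constructor <;> linarith [k1.1, k1.2, k2.1, k2.2, k3.1, k3.2]

theorem reg_le {t p q c : ℝ} (h0 : 0 ≤ t) (h1 : t ≤ 1) (hp : p ≤ c) (hq : q ≤ c) :
    t * p + (1 - t) * q ≤ c := by
  nlinarith [mul_le_mul_of_nonneg_left hp h0, mul_le_mul_of_nonneg_left hq (sub_nonneg.2 h1)]

theorem reg_mem {t p q : ℝ} (h0 : 0 ≤ t) (h1 : t ≤ 1) (hp : p ∈ Set.Icc (0 : ℝ) 1)
    (hq : q ∈ Set.Icc (0 : ℝ) 1) : t * p + (1 - t) * q ∈ Set.Icc (0 : ℝ) 1 :=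
  ⟨add_nonneg (mul_nonneg h0 hp.1) (mul_nonneg (sub_nonneg.2 h1) hq.1), reg_le h0 h1 hp.2 hq.2⟩

theorem reg_mix {ν a b ν' a' b' s d0 d1 d2 d3 e z : ℝ} (n0 : 0 ≤ ν) (n1 : ν ≤ 1) (a0 : 0 ≤ a)
    (a1 : a ≤ 1) (b0 : 0 ≤ b) (b1 : b ≤ 1) (a0' : 0 ≤ a') (a1' : a' ≤ 1) (b0' : 0 ≤ b')
    (b1' : b' ≤ 1) (hn : |ν' - ν| ≤ e) (ha : |a' - a| ≤ e) (hb : |b' - b| ≤ e)
    (hs : s ∈ Set.Icc (0 : ℝ) 1) (h0 : d0 ∈ Set.Icc (0 : ℝ) 1) (h1 : d1 ∈ Set.Icc (0 : ℝ) 1)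
    (h2 : d2 ∈ Set.Icc (0 : ℝ) 1) (h3 : d3 ∈ Set.Icc (0 : ℝ) 1)
    (hz : |z - mixv ν' a' b' s d0 d1 d2 d3| ≤ e) :
    z ≤ mixv ν a b s d0 d1 d2 d3 + 4 * e ∧ mixv ν a b s d0 d1 d2 d3 ≤ z + 4 * e := by
  have e0 : 0 ≤ e := (abs_nonneg _).trans hn
  have z0 : ∀ t : ℝ, |t - t| ≤ 0 := fun t => by simp
  have k := reg_cvx n0 n1 hs (reg_mem a0' a1' (reg_mem b0' b1' h0 h1) (reg_mem b0' b1' h2 h3)) hn
    ((z0 s).trans (by linarith))
    (reg_cvx a0 a1 (reg_mem b0' b1' h0 h1) (reg_mem b0' b1' h2 h3) ha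
      (reg_cvx b0 b1 h0 h1 hb (z0 _) (z0 _)) (reg_cvx b0 b1 h2 h3 hb (z0 _) (z0 _)))
  unfold mixv at hz ⊢
  rw [abs_le] at k hz
  constructor <;> linarith [k.1, k.2, hz.1, hz.2]

theorem reg_du {X F : Type} [Fintype X] [Fintype F] [Nonempty X] {p : X → F → ℝ} (hp : IsDist p)
    (u : X → F) : du p u ∈ Set.Icc (0 : ℝ) 1 :=
  ⟨du_nonneg hp u, expect_le univ_nonempty fun x _ => sub_le_self _ (hp.nonneg x _)⟩

theorem reg_psi0 {η δ v0 v1 wX wY TX TY sY : ℝ} (hv : v0 < v1) (hδ : η < δ)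
    (h1 : wX = 0 ∨ TX ≤ v0) (h2 : wY = 0 ∨ (TY ≤ v0 ∧ 2 * δ ≤ sY)) :
    psi η δ v0 v1 wX wY TX TY sY = 0 := by
  have c : ∀ T, T ≤ v0 → cl ((T - v0) / (v1 - v0)) = 0 := fun T h =>
    cl_of_le (div_nonpos_of_nonpos_of_nonneg (by linarith) (by linarith))
  have k1 : wX * cl ((TX - v0) / (v1 - v0)) = 0 := mul_eq_zero.2 (h1.imp id (c _))
  have k2 : wY * cl ((TY - v0) / (v1 - v0)) = 0 := mul_eq_zero.2 (h2.imp id fun h => c _ h.1)
  have k3 : wY * cl ((2 * δ - sY) / (δ - η)) = 0 := mul_eq_zero.2 (h2.imp id fun h =>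
    cl_of_le (div_nonpos_of_nonpos_of_nonneg (by linarith [h.2]) (by linarith)))
  rw [psi, k1, k2, k3, max_self, max_self]

theorem reg_psi1 {η δ v0 v1 wX wY TX TY sY : ℝ} (hv : v0 < v1) (hδ : η < δ) (x1 : wX ≤ 1)
    (y1 : wY ≤ 1) (h : psi η δ v0 v1 wX wY TX TY sY ≠ 1) :
    (wX = 1 → TX < v1) ∧ (wY = 1 → TY < v1 ∧ δ + η < sY) := by
  have m : ∀ w t : ℝ, w ≤ 1 → w * cl t ≤ 1 := fun w t hw =>
    (mul_le_of_le_one_left (cl_nonneg t) hw).trans (cl_le_one t)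
  have k : psi η δ v0 v1 wX wY TX TY sY < 1 :=
    lt_of_le_of_ne (max_le (m _ _ x1) (max_le (m _ _ y1) (m _ _ y1))) h
  simp only [psi, max_lt_iff] at k
  have c : ∀ T, cl ((T - v0) / (v1 - v0)) < 1 → T < v1 := fun T h => not_le.1 fun h' =>
    h.ne (cl_of_ge ((one_le_div (by linarith)).2 (by linarith)))
  refine ⟨fun e => c _ (by simpa [e] using k.1), fun e => ⟨c _ (by simpa [e] using k.2.1), ?_⟩⟩
  refine not_le.1 fun h' => k.2.2.ne ?_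
  rw [e, one_mul, cl_of_ge ((one_le_div (by linarith)).2 (by linarith))]

theorem reg_two {a p q p' q' D δ f : ℝ} (a0 : 0 ≤ a) (a1 : a ≤ 1) (hp : D ≤ p) (hq : 0 ≤ q)
    (hp' : 0 ≤ p') (hq' : D ≤ q') (h : a * p + (1 - a) * q ≤ δ + f)
    (h' : a * p' + (1 - a) * q' ≤ δ + f) : D ≤ 2 * (δ + f) := by
  nlinarith [mul_le_mul_of_nonneg_left hp a0, mul_le_mul_of_nonneg_left hq' (sub_nonneg.2 a1),
    mul_nonneg a0 hp', mul_nonneg (sub_nonneg.2 a1) hq]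

theorem regThm : RegThm := by
  intro X F _ _ _ L η δ Δ v0 v1 e src x y cx sx px cy sy py TX TY sX sY ν a b ν' a' b' wX wY hη hδ
    hΔ hv he ⟨o1, o2, o3, o4⟩ dx dy dcx dsx _ dcy _ dpy ⟨x1, x2, x3⟩ ⟨y1, y2, y3⟩ hsX hsY n0 n1
    a0 a1 b0 b1 _ _ a0' a1' b0' b1' _ wx1 wy0 wy1 hn ha hb hx hy
  have hh : ∀ u, hd src u ∈ Set.Icc (0 : ℝ) 1 := fun u => ⟨hd_nonneg _ _, fr_le_one _⟩
  have mx := fun u => reg_mix n0 n1 a0 a1 b0 b1 a0' a1' b0' b1' hn ha hb (hh u) (reg_du dpy u)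
    (reg_du dcy u) (reg_du dcx u) (reg_du dcx u) (hx u)
  have my := fun u => reg_mix n0 n1 a0 a1 b0 b1 a0' a1' b0' b1' hn ha hb (hh u) (reg_du dcy u)
    (reg_du dcy u) (reg_du dsx u) (reg_du dcx u) (hy u)
  have h0 : hd src src = 0 := by simp [hd, fr]
  have e0 : 0 ≤ e := (abs_nonneg _).trans hn
  have hδ' : η < δ := by linarith
  rw [abs_le] at hsX hsY
  refine or_iff_not_imp_left.2 fun n1' => or_iff_not_imp_left.2 fun n2' => ?_
  have hS : ∀ u ∈ L.Val, du x u ≤ δ → u ∉ L.EndS := fun u hu h k => n1' ⟨u, hu, k, (x1 u hu h).1⟩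
  have hP : ∀ v ∈ L.Val, v ≠ src → du y v ≤ δ → v ∉ L.EndP := fun v hv h h' k =>
    n2' ⟨v, hv, h, k, (y1 v hv h').1⟩
  have s1 : du x src ≤ η + 4 * e → sig η sX = 1 := fun h =>
    cl_of_ge ((one_le_div hη).2 (by linarith [hsX.2]))
  have r2 : a = 0 → sig η sX ≠ 0 → du cx src ≤ η ∧ du x src ≤ η + 4 * e := fun ea h => by
    have k : sX < 3 * η := not_le.1 fun h' =>
      h (cl_of_le (div_nonpos_of_nonpos_of_nonneg (by linarith) hη.le))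
    have k1 := (x1 src o1 (by linarith [hsX.1])).1
    have k2 := (mx src).1
    have k3 := reg_le n0 n1 hη.le k1
    simp only [mixv, ea, h0] at k2
    exact ⟨k1, by nlinarith⟩
  have zX : ∀ u ∈ L.Val, du x u ≤ η + 4 * e → TX ≤ v0 := fun u hu h => x3 u hu (by linarith)
  have zY : ∀ v ∈ L.Val, v ≠ src → du y v ≤ η + 4 * e → TY ≤ v0 ∧ 2 * δ ≤ sY := fun v hv h h' =>
    ⟨y3 v hv (by linarith), by linarith [o2 v hv src o1 h, hd_le_du dy v src, hsY.1]⟩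
  refine ⟨fun en => s1 ?_, fun ea => or_iff_not_imp_left.2 fun h => s1 (r2 ea h).2,
    fun ea eb h => ?_, fun en hz => ?_⟩
  · have k := (mx src).1
    simp only [mixv, en, h0] at k
    linarith
  · obtain ⟨k1, k2⟩ := r2 ea (h ▸ one_ne_zero)
    have k3 := (my src).1
    have k4 := reg_le n0 n1 hη.le k1
    simp only [mixv, ea, eb, h0] at k3
    have k5 : du y src ≤ η + 4 * e := by nlinarith
    have c : ∀ T, T ≤ v0 → cl ((T - v0) / (v1 - v0)) = 0 := fun T h =>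
      cl_of_le (div_nonpos_of_nonpos_of_nonneg (by linarith) (by linarith))
    rw [psi, c _ (zX src o1 k2), c _ (y3 src o1 (by linarith)),
      cl_of_ge ((one_le_div (by linarith)).2 (by linarith [hsY.2])), mul_zero, mul_zero, mul_one,
      max_eq_right wy0, max_eq_right wy0]
  by_cases hψ : psi η δ v0 v1 wX wY TX TY sY = 1
  · exact Or.inr (Or.inl hψ)
  obtain ⟨kX, kY⟩ := reg_psi1 hv hδ' wx1 wy1 hψ
  have KX : wX = 1 → ∃ u ∈ L.Val, du x u ≤ δ ∧ du cx u ≤ η ∧ du sx (L.S u) ≤ η ∧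
      L.S u ∈ L.Val ∧ L.S u ≠ src ∧ L.P (L.S u) = u := fun h =>
    let ⟨u, hu, k⟩ := x2 (kX h)
    ⟨u, hu, k, (x1 u hu k).1, (x1 u hu k).2.1 (hS u hu k), o3 u hu (hS u hu k)⟩
  have KY : wY = 1 → ∃ v ∈ L.Val, v ≠ src ∧ du y v ≤ δ ∧ du cy v ≤ η ∧ du py (L.P v) ≤ η ∧
      L.P v ∈ L.Val ∧ L.S (L.P v) = v := fun h => by
    obtain ⟨v, hv, k⟩ := y2 (kY h).1
    have q : v ≠ src := fun q => by
      rw [q] at k
      linarith [(kY h).2, hsY.2]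
    exact ⟨v, hv, q, k, (y1 v hv k).1, (y1 v hv k).2.2 q (hP v hv q k), o4 v hv q (hP v hv q k)⟩
  simp only [mixv, en, zero_mul, zero_add, sub_zero, one_mul] at mx my
  have far : ∀ {p : X → F → ℝ} {u v}, IsDist p → u ∈ L.Val → v ∈ L.Val → u ≠ v → du p u ≤ η →
      Δ - η ≤ du p v := fun {p u v} d hu hv h k => by linarith [o2 u hu v hv h, hd_le_du d u v]
  rcases hz with ⟨ea, ex, hz⟩ | ⟨ea, ey, hz⟩ | ⟨ex, ey, hz⟩
  · obtain ⟨u, hu, -, u2, u3, u4, u5, -⟩ := KX ex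
    simp only [ea, zero_mul, zero_add, sub_zero, one_mul] at mx my
    have q : du x u ≤ η + 4 * e := by linarith [(mx u).1]
    have p0 := fun h => reg_psi0 (wY := wY) (TY := TY) (sY := sY) hv hδ' (wX := wX)
      (Or.inr (zX u hu q)) h
    rcases hz with h | h | h
    · exact Or.inl (p0 (Or.inl h))
    · have k := (my (L.S u)).1
      rw [h] at k
      exact Or.inl (p0 (Or.inr (zY _ u4 u5 (by linarith))))
    · have k := (my u).1
      rw [h] at k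
      by_cases hu' : u = src
      · exact Or.inr (Or.inr ⟨ea, h, s1 (hu' ▸ q)⟩)
      · exact Or.inl (p0 (Or.inr (zY _ hu hu' (by linarith))))
  · obtain ⟨v, hv', v1', -, v3, v4, v5, -⟩ := KY ey
    simp only [ea, zero_mul, add_zero, sub_self, one_mul] at mx my
    have q : du y v ≤ η + 4 * e := by linarith [(my v).1]
    refine Or.inl (reg_psi0 hv hδ' ?_ (Or.inr (zY v hv' v1' q)))
    rcases hz with h | h | h
    · exact Or.inl h
    · have k := (mx (L.P v)).1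
      rw [h] at k
      exact Or.inr (zX _ v5 (by linarith))
    · have k := (mx v).1
      rw [h] at k
      exact Or.inr (zX _ hv' (by linarith))
  · obtain ⟨u, hu, u1, u2, u3, u4, -, u6⟩ := KX ex
    obtain ⟨v, hv', v1', v2, v3, v4, v5, v6⟩ := KY ey
    suffices k : du x u ≤ η + 4 * e ∧ du y v ≤ η + 4 * e from
      Or.inl (reg_psi0 hv hδ' (Or.inr (zX u hu k.1)) (Or.inr (zY v hv' v1' k.2)))
    obtain ⟨p1, p2⟩ := mx u
    obtain ⟨p3, p4⟩ := my v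
    rcases hz with h | h <;>
      simp only [h, zero_mul, add_zero, zero_add, sub_self, sub_zero, one_mul] at p1 p2 p3 p4
    · by_cases q : L.P v = u
      · have q' : L.S u = v := q ▸ v6
        exact ⟨by linarith [reg_le a0 a1 (q ▸ v4) u2], by linarith [reg_le a0 a1 v3 (q' ▸ u3)]⟩
      · have q' : L.S u ≠ v := fun k => q (k ▸ u6)
        linarith [reg_two (δ := δ) (f := 4 * e) a0 a1 (far dpy v5 hu q v4) (du_nonneg dcx u)
          (du_nonneg dcy v) (far dsx u4 hv' q' u3) (by linarith) (by linarith)]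
    · by_cases q : u = v
      · exact ⟨by linarith [reg_le a0 a1 (q ▸ v3 : du cy u ≤ η) u2],
          by linarith [reg_le a0 a1 v3 (q ▸ u2 : du cx v ≤ η)]⟩
      · linarith [reg_two (δ := δ) (f := 4 * e) a0 a1 (far dcy hv' hu (Ne.symm q) v3)
          (du_nonneg dcx u) (du_nonneg dcy v) (far dcx hu hv' q u2) (by linarith) (by linarith)]

end Vale.Agent.P330
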