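import Vale.Agent.P330.HAsm
import Vale.Agent.P330.HClock
import Vale.Agent.P330.HReg
import Vale.Agent.P330.HBern
import Vale.Agent.P330.HMix

/-! Block B3: approximate fixed points find the end of a line. -/

namespace Vale.Agent.P330

theorem hpvThm : HPVThm := hpv_of clockThm regThm bernThm mixThm

end Vale.Agent.P330
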