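import Vale.Agent.P330.HeisD

/-! P330 block B6: an invariant Tanner code with Heisenberg cells. -/

open Finset

namespace Vale.Agent.P330

open Vale.Agent.Lib.PolyTime Exp

namespace Exp

variable {B : Type} [Enc B] {r : B → ℕ} {l : ℕ} [Fact l.Prime] {S : Type} [Fintype S] [Enc S]

theorem exists_cells (hr : Sm r) :
    ∃ κ : ∀ b, Fin (2 ^ r b) ≃ RR (r b), D2 fun b i => κ b i := by
  obtain ⟨e, -, h⟩ := (pfam_RR hr).equiv
  exact ⟨fun b => (finCongr (card_RR (r b)).symm).trans (e b).symm,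
    D2.app h pt_sigma_fst (x := fun z : Σ b, Fin (2 ^ r b) => finCongr (card_RR _).symm z.2)
      (D.fin_iff.2 (pt_idx (r := fun b => 2 ^ r b)))⟩

omit [Fintype S] in
theorem pt_v {v : ∀ b, SL3 (RR (r b)) × S → ZMod l}
    (hv : PT fun z : Σ b, SL3 (RR (r b)) × S => v z.1 z.2) {B' : Type} [Enc B'] {p : B' → B}
    (hp : PT p) {x : ∀ b, SL3 (RR (r (p b))) × S} (hx : D x) : PT fun b => v (p b) (x b) :=
  hv.comp (pt_sigma_mk (X := fun b => SL3 (RR (r b)) × S) hp hx)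

omit [Fintype S] in
theorem pt_rdf (hr : Sm r) {v : ∀ b, SL3 (RR (r b)) × S → ZMod l} {p x : ∀ b, SL3 (RR (r b)) × S}
    {a : ∀ b, RR (r b)} (hv : PT fun b => v b (p b)) (hp : D p) (ha : D a) (hx : D x) :
    PT fun b => rdf (v b) (p b) (a b) (x b) := by
  classical
  have h1 := hr.sig fun b => RR (r b)
  have t : D fun z : Σ b, RR (r b) => z.2 := D.sigma_snd
  have hp' := hp.comp (pt_sigma_fst (X := fun b => RR (r b)))
  have ha' := ha.comp (pt_sigma_fst (X := fun b => RR (r b)))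
  have hx' := hx.comp (pt_sigma_fst (X := fun b => RR (r b)))
  exact pt_mulZ (pt_mulZ (pt_invZ ((pfam_RR hr).pt_sumZ (PT.const 1))) (pt_invZ hv))
    ((pfam_RR hr).pt_sumZ (PT.ite (D.eq hx' (D.pair (d_gmul h1 (d_el h1 n01 t)
      (d_gmul h1 (d_el h1 n12 ha') hp'.fst)) hp'.snd)) (pt_psi h1 (d_mul h1 t ha')) (PT.const 0)))

omit [Fintype S] in
theorem pt_big (hr : Sm r) {v : ∀ b, SL3 (RR (r b)) × S → ZMod l}
    (hv : PT fun z : Σ b, SL3 (RR (r b)) × S => v z.1 z.2) {t : ∀ b, SL3 (RR (r b))} (ht : D t) :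
    PT fun z : Σ b, SL3 (RR (r b)) × S => ∑ a, v z.1 (el n12 a * (t z.1 * z.2.1), z.2.2) := by
  have h1 := hr.sig fun b => SL3 (RR (r b)) × S
  have h2 := h1.sig fun z => RR (r z.1)
  have p : PT fun w : Σ z : Σ b, SL3 (RR (r b)) × S, RR (r z.1) => w.1.1 :=
    pt_sigma_fst.comp pt_sigma_fst
  have x : D fun w : Σ z : Σ b, SL3 (RR (r b)) × S, RR (r z.1) => w.1.2 :=
    D.sigma_snd.comp pt_sigma_fst
  exact (pfam_RR h1).pt_sumZ (pt_v hv p (D.pair (d_gmul h2 (d_el h2 n12 D.sigma_snd)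
    (d_gmul h2 (ht.comp p) x.fst)) x.snd))

open Classical in
theorem heis_alg {r : ℕ} {F S : Type} [Field F] [Fintype S] (hr : 0 < r) (two : (2 : F) ≠ 0)
    (C0 : Submodule F (S → F)) (w : S → SL3 (RR r)) {τ : SL3 (RR r)} (hτ : Tau τ)
    {v : SL3 (RR r) × S → F} (hv : v ≠ 0 ∧ (∀ g, (fun s => v (g, s)) ∈ C0) ∧
      (∀ g, (fun s => v (g * (w s)⁻¹, s)) ∈ C0) ∧ Eqv v) (κ : Fin (2 ^ r) ≃ RR r)
    {p : SL3 (RR r) × S} (hp : v p ≠ 0) :
    (∀ s g, Equiv.mulLeft τ (Equiv.mulRight (w s) g) = Equiv.mulRight (w s) (Equiv.mulLeft τ g) ∧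
      Equiv.mulLeft (el n01 1) (Equiv.mulRight (w s) g) =
        Equiv.mulRight (w s) (Equiv.mulLeft (el n01 1) g) ∧
      Equiv.mulLeft (el n12 1) (Equiv.mulRight (w s) g) =
        Equiv.mulRight (w s) (Equiv.mulLeft (el n12 1) g)) ∧
    (∀ i, (fun x : SL3 (RR r) × S => v (el n12 (κ i) * x.1, x.2)) ∈
      tcode C0 fun s => Equiv.mulRight (w s)) ∧
    (∀ j < r, ∀ i g s, v (el n12 (κ i) * (Equiv.mulLeft τ ^ j) (Equiv.mulLeft (el n01 1) g), s) =
      psi F (xx r ^ j * κ i) * v (el n12 (κ i) * (Equiv.mulLeft τ ^ j) g, s)) ∧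
    (∀ j i, psi F (xx r ^ j * κ i) = 1 ∨ psi F (xx r ^ j * κ i) = -1) ∧
    (∀ i i', (∀ j < r, psi F (xx r ^ j * κ i) = psi F (xx r ^ j * κ i')) → i = i') ∧
    (∀ i, (stp (fun b : Bool => if b then Equiv.mulLeft (el n12 1) * Equiv.mulLeft τ
        else Equiv.mulLeft τ) fun _ => 1)^[r]
      (fun x : SL3 (RR r) × S => v (el n12 (κ i) * (Equiv.mulLeft τ ^ r) x.1, x.2)) =
      fun x => ∑ a, v (el n12 a * (τ ^ r * τ ^ r * x.1), x.2)) ∧
    (fun x : SL3 (RR r) × S => ∑ a, v (el n12 a * (τ ^ r * τ ^ r * x.1), x.2)) ≠ 0 ∧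
    ∀ i i', ∑ x, rdf v p (κ i) x * v (el n12 (κ i') * x.1, x.2) = if i = i' then 1 else 0 := by
  obtain ⟨v0, v1, v2, v3⟩ := hv
  have pw : ∀ (j : ℕ) g, (Equiv.mulLeft τ ^ j) g = τ ^ j * g := fun j g => by
    rw [Equiv.pow_mulLeft]; rfl
  refine ⟨fun s g => ⟨(mul_assoc _ _ _).symm, (mul_assoc _ _ _).symm, (mul_assoc _ _ _).symm⟩,
    fun i => ⟨fun g => v1 (el n12 (κ i) * g), fun g => ?_⟩, fun j _ i g s => ?_, fun j i => psi_cases _,
    fun i i' h => κ.injective (psi_inj hr two h), fun i => ?_, big_ne two v3 v0 _,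
    fun i i' => ?_⟩
  · refine (congrArg (· ∈ C0) (funext fun s => ?_)).mp (v2 (el n12 (κ i) * g))
    exact congrArg (fun x => v (x, s)) (mul_assoc _ _ _)
  · simp only [pw]
    exact v3.chi hτ j _ g s
  · funext x
    simp only [pw]
    refine (iter_cell hr hτ _ (fun y g s => ?_) v (κ i) x.1 x.2).trans ?_
    · simp [stp]
    · simp only [mul_assoc]
  · refine (rdf_spec two v3 hp _ _).trans ?_
    simp only [EmbeddingLike.apply_eq_iff_eq]

end Exp

theorem heisThm : HeisThm := by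
  intro lam n0 hlam
  obtain ⟨m, l, hl, h1, h2, h3⟩ := exists_par n0 hlam
  have : Fact l.Prime := ⟨hl⟩
  have hc : Fintype.card (Fin m → JJ) = 18 ^ m := by simp
  obtain ⟨pt⟩ : Nonempty ((Fin m → JJ) ↪ ZMod l) :=
    Function.Embedding.nonempty_of_card_le (by rw [hc, ZMod.card]; exact h3)
  obtain ⟨C0, hd, hk⟩ := exists_rs pt pt.injective (by omega)
  have two : (2 : ZMod l) ≠ 0 := fun h => by
    have := Nat.le_of_dvd two_pos ((ZMod.natCast_eq_zero_iff 2 l).1 (by exact_mod_cast h))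
    omega
  refine ⟨l, this, Fin m → JJ, inferInstance, inferInstance, C0, by omega, by omega, hd,
    fun C _ r hr hr' hr1 => ?_⟩
  have H : Sm r := ⟨hr, hr'⟩
  have HG := H.sig fun c => SL3 (RR (r c))
  have HP := H.sig fun c => Fin (2 ^ r c) × SL3 (RR (r c)) × (Fin m → JJ)
  obtain ⟨τ, dτ, hτ⟩ := d_tau H
  obtain ⟨v, dv, hv⟩ := exists_v H C0 hk (fun c s => word (gen (r c)) s) fun s => d_word H s
  obtain ⟨κ, dκ⟩ := exists_cells H
  obtain ⟨p, dp, hp⟩ := ((pfam_SL H).prod (PFam.const (Fin m → JJ))).choose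
    (p := fun c x => v c x ≠ 0) (dv.ne (PT.const 0)) fun c => Function.ne_iff.1 (hv c).1
  have z := D.sigma_snd (X := fun c => Fin (2 ^ r c) × SL3 (RR (r c)) × (Fin m → JJ))
  have b := D2.app dκ pt_sigma_fst z.fst
  have dq := d_gpow H dτ hr H.pb'
  refine ⟨⟨⟨fun c => SL3 (RR (r c)), fun _ => inferInstance, fun _ => inferInstance, pfam_SL H⟩,
      fun _ => ⟨1⟩, fun c s => Equiv.mulRight (word (gen (r c)) s),
      fun s => d_gmul HG D.sigma_snd (d_word HG s),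
      fun c => ((gap_gen (hr1 c)).powR m).mono (by positivity) h1⟩,
    fun c => Equiv.mulLeft (τ c), fun c => Equiv.mulLeft (el n01 1),
    fun c => Equiv.mulLeft (el n12 1), fun c i x => v c (el n12 (κ c i) * x.1, x.2),
    fun c i x => rdf (v c) (p c) (κ c i) x,
    fun c x => ∑ a, v c (el n12 a * (τ c ^ r c * τ c ^ r c * x.1), x.2),
    fun c j i => psi _ (xx (r c) ^ j * κ c i),
    ?_, ?_, ?_, ?_, ?_, ?_, fun c => ?_⟩
  · exact d_gmul HG (dτ.comp pt_sigma_fst) D.sigma_snd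
  · exact d_gmul HG (d_el HG n01 (d_one HG)) D.sigma_snd
  · exact d_gmul HG (d_el HG n12 (d_one HG)) D.sigma_snd
  · exact pt_v dv pt_sigma_fst (D.pair (d_gmul HP (d_el HP n12 b) z.snd.fst) z.snd.snd)
  · exact pt_rdf HP (v := fun z => v z.1) (p := fun z => p z.1) (a := fun z => κ z.1 z.2.1)
      (x := fun z => z.2.2) (pt_v dv pt_sigma_fst (dp.comp pt_sigma_fst))
      (dp.comp pt_sigma_fst) b z.snd
  · have k := pt_big H dv (d_gmul H dq dq)
    dsimp only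
    exact k
  exact heis_alg (hr1 c) two C0 _ (hτ c) (hv c) (κ c) (hp c)

end Vale.Agent.P330
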