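import Vale.Agent.P330.Exp.Ring

/-! P330 block B6: the Heisenberg relations. -/

open Finset

namespace Vale.Agent.P330.Exp

variable {r : ℕ} {F : Type} [Field F]

/-- The additive character given by the top coefficient. -/
noncomputable def psi (F : Type) [Field F] (a : RR r) : F := if co a (r - 1) = 0 then 1 else -1

theorem psi_cases (a : RR r) : psi F a = 1 ∨ psi F a = -1 := by
  unfold psi; split_ifs <;> simp

theorem psi_zero : psi F (0 : RR r) = 1 := if_pos (co_zero _)

theorem psi_add (a b : RR r) : psi F (a + b) = psi F a * psi F b := by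
  have h : (1 : ZMod 2) + 1 = 0 := by decide
  have h' : ¬ (1 : ZMod 2) = 0 := by decide
  unfold psi
  rw [co_add]
  rcases z2 (co a (r - 1)) with h1 | h1 <;> rcases z2 (co b (r - 1)) with h2 | h2 <;>
    simp [h1, h2, h, h']

theorem psi_eq_one (h2 : (2 : F) ≠ 0) {a : RR r} (h : psi F a = 1) : co a (r - 1) = 0 := by
  by_contra hn
  rw [psi, if_neg hn] at h
  exact h2 (by linear_combination -h)

theorem psi_sq (a : RR r) : psi F a * psi F a = 1 := by rw [← psi_add, add_self, psi_zero]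

theorem sum_psi (h2 : (2 : F) ≠ 0) {b : RR r} (hb : b ≠ 0) : ∑ a, psi F (a * b) = 0 := by
  obtain ⟨a₀, h0⟩ : ∃ a₀, co (a₀ * b) (r - 1) ≠ 0 := by
    by_contra hn
    exact hb (top_nondeg fun a => by
      by_contra h1
      exact hn ⟨a, h1⟩)
  have h1 : psi F (a₀ * b) = -1 := if_neg h0
  have h3 := Equiv.sum_comp (Equiv.addRight a₀) fun a => psi F (a * b)
  simp only [Equiv.coe_addRight, add_mul, psi_add, h1, mul_neg, mul_one, sum_neg_distrib] at h3
  exact (mul_eq_zero.1 (show 2 * ∑ a, psi F (a * b) = 0 by linear_combination -h3)).resolve_left h2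

theorem psi_inj (hr : 0 < r) (h2 : (2 : F) ≠ 0) {b b' : RR r}
    (h : ∀ j < r, psi F (xx r ^ j * b) = psi F (xx r ^ j * b')) : b = b' := by
  have h1 := gen_xx hr ((coH r (r - 1)).comp (AddMonoidHom.mulRight (b + b'))) fun j hj =>
    psi_eq_one h2 (a := xx r ^ j * (b + b')) (by rw [mul_add, psi_add, h j hj, psi_sq])
  have h3 : b + b' = 0 := top_nondeg fun a => DFunLike.congr_fun h1 a
  rw [← neg_RR b']
  exact eq_neg_of_add_eq_zero_left h3

theorem n01 : (0 : Fin 3) ≠ 1 := by decide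
theorem n12 : (1 : Fin 3) ≠ 2 := by decide
theorem n02 : (0 : Fin 3) ≠ 2 := by decide

/-- The conjugation rules of the torus element. -/
def Tau (τ : SL3 (RR r)) : Prop :=
  ∀ a, τ * el n01 a = el n01 (xx r * a) * τ ∧ τ * el n12 a = el n12 (xx r * a) * τ

theorem exists_tau (r : ℕ) : ∃ τ : SL3 (RR r), Tau τ := by
  obtain ⟨u, hu⟩ := (unit_xx r).exists_right_inv
  refine ⟨⟨Matrix.diagonal ![xx r, 1, u], by simp [Fin.prod_univ_three, hu]⟩, fun a => ⟨?_, ?_⟩⟩
  · apply Subtype.ext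
    change Matrix.diagonal _ * (1 + Matrix.single 0 1 a) =
      (1 + Matrix.single 0 1 (xx r * a)) * Matrix.diagonal _
    ext i j
    fin_cases i <;> fin_cases j <;> simp
  · apply Subtype.ext
    change Matrix.diagonal _ * (1 + Matrix.single 1 2 a) =
      (1 + Matrix.single 1 2 (xx r * a)) * Matrix.diagonal _
    ext i j
    fin_cases i <;> fin_cases j <;> simp
    linear_combination (-a) * hu

theorem Tau.pow {τ : SL3 (RR r)} (h : Tau τ) (j : ℕ) (a : RR r) :
    τ ^ j * el n01 a = el n01 (xx r ^ j * a) * τ ^ j ∧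
      τ ^ j * el n12 a = el n12 (xx r ^ j * a) * τ ^ j := by
  induction j with
  | zero => simp
  | succ j ih =>
    constructor
    · rw [pow_succ', mul_assoc, ih.1, ← mul_assoc, (h _).1, pow_succ', mul_assoc, mul_assoc]
    · rw [pow_succ', mul_assoc, ih.2, ← mul_assoc, (h _).2, pow_succ', mul_assoc, mul_assoc]

theorem el_self {i j : Fin 3} (h : i ≠ j) (a : RR r) : el h a * el h a = 1 := by
  rw [← el_add, add_self, el_zero]

variable {S : Type}

/-- Equivariance under the abelian group of the first row. -/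
def Eqv (v : SL3 (RR r) × S → F) : Prop :=
  ∀ a c g s, v (el n01 a * el n02 c * g, s) = psi F c * v (g, s)

theorem Eqv.cell {v : SL3 (RR r) × S → F} (h : Eqv v) (a b : RR r) (g : SL3 (RR r)) (s : S) :
    v (el n12 b * (el n01 a * g), s) = psi F (a * b) * v (el n12 b * g, s) := by
  have h1 : el n12 b * el n01 a = el n01 a * el n02 (a * b) * el n12 b := by
    rw [el_comm n01 n02 n01.symm n02.symm, mul_assoc, el_st n01 n12 n02, ← mul_assoc, ← mul_assoc,
      el_self, one_mul]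
  rw [← mul_assoc, h1, mul_assoc _ _ g, h]

theorem Eqv.chi {v : SL3 (RR r) × S → F} (h : Eqv v) {τ : SL3 (RR r)} (hτ : Tau τ) (j : ℕ)
    (b : RR r) (g : SL3 (RR r)) (s : S) :
    v (el n12 b * (τ ^ j * (el n01 1 * g)), s) =
      psi F (xx r ^ j * b) * v (el n12 b * (τ ^ j * g), s) := by
  rw [← mul_assoc (τ ^ j), (hτ.pow j 1).1, mul_one, mul_assoc, h.cell]

theorem iter_step {τ : SL3 (RR r)} (hτ : Tau τ)
    (st : (SL3 (RR r) × S → F) → SL3 (RR r) × S → F)
    (hst : ∀ y g s, st y (g, s) = y (el n12 1 * (τ * g), s) + y (τ * g, s)) (k : ℕ) :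
    ∀ y g s, st^[k] y (g, s) = ∑ ε : Fin k → ZMod 2, y (el n12 (Phi r ε) * (τ ^ k * g), s) := by
  induction k with
  | zero => intro y g s; simp [Phi]
  | succ k ih =>
    intro y g s
    rw [Function.iterate_succ_apply, ih, ← (Fin.consEquiv fun _ => ZMod 2).sum_comp,
      Fintype.sum_prod_type_right]
    refine sum_congr rfl fun ε _ => ?_
    have h1 : τ * (el n12 (Phi r ε) * (τ ^ k * g)) =
        el n12 (xx r * Phi r ε) * (τ ^ (k + 1) * g) := by
      rw [← mul_assoc, (hτ _).2, pow_succ', mul_assoc, mul_assoc]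
    have h2 : ∀ f : ZMod 2 → F, ∑ b, f b = f 1 + f 0 := fun f =>
      (Fin.sum_univ_two (f := f)).trans (add_comm _ _)
    rw [hst, h1, h2, ← mul_assoc (el n12 1), ← el_add]
    have h3 : ∀ b, Phi r ((Fin.consEquiv fun _ => ZMod 2) (b, ε)) = b • 1 + xx r * Phi r ε :=
      fun b => Phi_cons b ε
    rw [h3, h3, one_smul, zero_smul, zero_add]

theorem iter_cell (hr : 0 < r) {τ : SL3 (RR r)} (hτ : Tau τ)
    (st : (SL3 (RR r) × S → F) → SL3 (RR r) × S → F)
    (hst : ∀ y g s, st y (g, s) = y (el n12 1 * (τ * g), s) + y (τ * g, s))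
    (v : SL3 (RR r) × S → F) (b : RR r) (g : SL3 (RR r)) (s : S) :
    st^[r] (fun x => v (el n12 b * (τ ^ r * x.1), x.2)) (g, s) =
      ∑ a, v (el n12 a * (τ ^ r * (τ ^ r * g)), s) := by
  rw [iter_step hτ st hst]
  have hb : Function.Bijective fun ε : Fin r → ZMod 2 => b + xx r ^ r * Phi r ε :=
    (AddGroup.addLeft_bijective b).comp
      ((IsUnit.isUnit_iff_mulLeft_bijective.1 ((unit_xx r).pow r)).comp (Phi_bij hr))
  rw [← hb.sum_comp]
  refine sum_congr rfl fun ε _ => ?_
  rw [← mul_assoc (τ ^ r), (hτ.pow r _).2, el_add]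
  simp only [mul_assoc]

open Classical in
/-- The reading functional. -/
noncomputable def rdf (v : SL3 (RR r) × S → F) (p : SL3 (RR r) × S) (b : RR r)
    (x : SL3 (RR r) × S) : F :=
  (∑ _a : RR r, (1 : F))⁻¹ * (v p)⁻¹ *
    ∑ a, if x = (el n01 a * (el n12 b * p.1), p.2) then psi F (a * b) else 0

open Classical in
theorem rdf_spec [Fintype S] (h2 : (2 : F) ≠ 0) {v : SL3 (RR r) × S → F} (h : Eqv v)
    {p : SL3 (RR r) × S} (hp : v p ≠ 0) (b b' : RR r) :
    ∑ x, rdf v p b x * v (el n12 b' * x.1, x.2) = if b = b' then 1 else 0 := by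
  have hq : (∑ _a : RR r, (1 : F)) ≠ 0 := by
    rw [sum_const, card_univ, card_RR, nsmul_eq_mul, mul_one, Nat.cast_pow, Nat.cast_ofNat]
    exact pow_ne_zero _ h2
  simp only [rdf, mul_assoc, ← mul_sum, sum_mul, ite_mul, zero_mul]
  rw [sum_comm]
  simp only [sum_ite_eq', mem_univ, if_true, h.cell, ← mul_assoc (psi F _), ← psi_add, ← mul_add,
    ← sum_mul]
  split_ifs with hb
  · subst hb
    simp only [add_self, mul_zero, psi_zero, ← mul_assoc (el n12 b), el_self, one_mul]
    field_simp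
  · rw [sum_psi h2 fun h0 => hb (by rw [← neg_RR b']; exact eq_neg_of_add_eq_zero_left h0)]
    simp

theorem big_ne [Fintype S] (h2 : (2 : F) ≠ 0) {v : SL3 (RR r) × S → F} (h : Eqv v) (hv : v ≠ 0)
    (t : SL3 (RR r)) : (fun x : SL3 (RR r) × S => ∑ a, v (el n12 a * (t * x.1), x.2)) ≠ 0 := by
  classical
  intro h0
  obtain ⟨p, hp⟩ := Function.ne_iff.1 hv
  have h1 : ∀ x : SL3 (RR r) × S, ∑ a, v (el n12 a * x.1, x.2) = 0 := fun x => by
    simpa using congrFun h0 (t⁻¹ * x.1, x.2)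
  have h3 : ∑ b', ∑ x, rdf v p 0 x * v (el n12 b' * x.1, x.2) = 1 := by
    simp only [rdf_spec h2 h hp, sum_ite_eq, mem_univ, if_true]
  rw [sum_comm] at h3
  simp only [← mul_sum, h1, mul_zero, sum_const_zero] at h3
  exact zero_ne_one h3

end Vale.Agent.P330.Exp
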