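import Vale.Agent.P330.Ifc

/-! P330 block B6: the inner code and equivariant codewords. -/

open Finset Polynomial Module

namespace Vale.Agent.P330.Exp

theorem exists_rs {F S : Type} [Field F] [Fintype S] (pt : S → F) (hpt : Function.Injective pt)
    (hS : 3 ≤ Fintype.card S) : ∃ C0 : Submodule F (S → F), Dist0 C0 (1 / 3) ∧
      Fintype.card S < 2 * finrank F C0 := by
  classical
  set n := Fintype.card S with hn
  let ev : F[X] →ₗ[F] (S → F) := LinearMap.pi fun s => leval (pt s)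
  have key : ∀ p ∈ degreeLT F (n / 2 + 1), p ≠ 0 →
      #(univ.filter fun s => p.eval (pt s) = 0) ≤ n / 2 := by
    intro p hp h0
    have h1 : p.natDegree ≤ n / 2 := by
      have := (natDegree_lt_iff_degree_lt h0).2 (mem_degreeLT.1 hp)
      omega
    refine le_trans ?_ ((card_roots' p).trans h1)
    refine le_trans ?_ (Multiset.toFinset_card_le _)
    refine card_le_card_of_injOn pt (fun s hs => ?_) hpt.injOn
    simpa [h0] using hs
  refine ⟨(degreeLT F (n / 2 + 1)).map ev, ?_, ?_⟩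
  · rintro c ⟨p, hp, rfl⟩ hc
    have h0 : p ≠ 0 := fun h => hc (by rw [h, map_zero])
    have h1 := key p hp h0
    have h2 := card_filter_add_card_filter_not (s := (univ : Finset S)) fun s => p.eval (pt s) = 0
    rw [card_univ, ← hn] at h2
    have h3 : n ≤ 3 * #(univ.filter fun s => ¬ p.eval (pt s) = 0) := by omega
    have h4 : (0 : ℝ) < n := by exact_mod_cast (by omega : 0 < n)
    have h5 : (n : ℝ) ≤ 3 * #(univ.filter fun s => ¬ p.eval (pt s) = 0) := by exact_mod_cast h3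
    have h6 : fr S (fun s => ev p s ≠ 0) =
        (#(univ.filter fun s => ¬ p.eval (pt s) = 0) : ℝ) / n := by
      unfold fr
      rw [filter_congr_decidable]
      rfl
    rw [h6, le_div_iff₀ h4]
    linarith
  · have hi : Function.Injective (ev.domRestrict (degreeLT F (n / 2 + 1))) := by
      refine (injective_iff_map_eq_zero _).2 fun p hp => Subtype.ext ?_
      by_contra h0
      have h1 := key p.1 p.2 h0
      rw [filter_true_of_mem (p := fun s => p.1.eval (pt s) = 0) fun s _ => congrFun hp s,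
        card_univ, ← hn] at h1
      omega
    rw [← LinearMap.range_domRestrict, LinearMap.finrank_range_of_inj hi,
      (degreeLTEquiv F (n / 2 + 1)).finrank_eq, finrank_fin_fun]
    omega

theorem exists_eqv {G S F : Type} [Group G] [Fintype G] [Fintype S] [Field F] (H : Subgroup G)
    (ψ : G → F) (h1 : ψ 1 = 1) (hm : ∀ u ∈ H, ∀ u' ∈ H, ψ (u * u') = ψ u * ψ u')
    (C0 : Submodule F (S → F)) (hk : Fintype.card S < 2 * finrank F C0) (w : S → G) :
    ∃ v : G × S → F, v ≠ 0 ∧ (∀ g, (fun s => v (g, s)) ∈ C0) ∧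
      (∀ g, (fun s => v (g * (w s)⁻¹, s)) ∈ C0) ∧ ∀ u ∈ H, ∀ g s, v (u * g, s) = ψ u * v (g, s) := by
  classical
  obtain ⟨T, hT, hT1⟩ := H.exists_isComplement_right 1
  have : Nonempty T := ⟨⟨1, hT1⟩⟩
  let ex : (T → S → F) →ₗ[F] (G × S → F) :=
    { toFun := fun f x => ψ (hT.equiv x.1).1 * f (hT.equiv x.1).2 x.2
      map_add' := fun f f' => funext fun x => mul_add _ _ _
      map_smul' := fun c f => funext fun x => mul_left_comm _ _ _ }
  have heq : ∀ f, ∀ u ∈ H, ∀ g s, ex f (u * g, s) = ψ u * ex f (g, s) := by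
    intro f u hu g s
    change ψ (hT.equiv (u * g)).1 * f (hT.equiv (u * g)).2 s = ψ u * (ψ _ * f _ s)
    rw [hT.equiv_mul_left_of_mem hu, ← mul_assoc, ← hm u hu _ (hT.equiv g).1.2]
    rfl
  have ht : ∀ f (t : T) s, ex f (t, s) = f t s := by
    intro f t s
    change ψ (hT.equiv t).1 * f (hT.equiv t).2 s = _
    have e1 : (hT.equiv t).1 = ⟨1, one_mem _⟩ := hT.equiv_fst_eq_one_of_mem_of_one_mem (one_mem _) t.2
    have e2 : (hT.equiv t).2 = t := hT.equiv_snd_eq_self_of_mem_of_one_mem (one_mem _) t.2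
    rw [e1, e2, h1, one_mul]
  let L : (T → S → F) →ₗ[F] (T → ((S → F) ⧸ C0) × ((S → F) ⧸ C0)) :=
    LinearMap.pi fun t => LinearMap.prod
      (C0.mkQ ∘ₗ LinearMap.funLeft F F (fun s => ((t : G), s)) ∘ₗ ex)
      (C0.mkQ ∘ₗ LinearMap.funLeft F F (fun s => ((t : G) * (w s)⁻¹, s)) ∘ₗ ex)
  have hd : finrank F (T → ((S → F) ⧸ C0) × ((S → F) ⧸ C0)) < finrank F (T → S → F) := by
    have h2 := C0.finrank_quotient_add_finrank
    rw [finrank_fintype_fun_eq_card] at h2
    rw [finrank_pi_fintype, finrank_pi_fintype, finrank_prod, finrank_fintype_fun_eq_card,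
      sum_const, sum_const, smul_eq_mul, smul_eq_mul]
    exact Nat.mul_lt_mul_of_pos_left (by omega) (card_pos.2 univ_nonempty)
  obtain ⟨f, hf, hf0⟩ := Submodule.exists_mem_ne_zero_of_ne_bot
    (LinearMap.ker_ne_bot_of_finrank_lt hd (f := L))
  have k1 : ∀ t : T, (fun s => ex f (t, s)) ∈ C0 := fun t =>
    (Submodule.Quotient.mk_eq_zero C0).1 (congrArg Prod.fst (congrFun hf t))
  have k2 : ∀ t : T, (fun s => ex f (t * (w s)⁻¹, s)) ∈ C0 := fun t =>
    (Submodule.Quotient.mk_eq_zero C0).1 (congrArg Prod.snd (congrFun hf t))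
  refine ⟨ex f, fun h0 => hf0 (funext fun t => funext fun s => ?_), fun g => ?_, fun g => ?_,
    heq f⟩
  · rw [← ht f t s, h0]; rfl
  · have h2 := C0.smul_mem (ψ (hT.equiv g).1) (k1 (hT.equiv g).2)
    refine (congrArg (· ∈ C0) (funext fun s => ?_)).mp h2
    rw [Pi.smul_apply, smul_eq_mul, ← heq f _ (hT.equiv g).1.2, hT.equiv_fst_mul_equiv_snd]
  · have h2 := C0.smul_mem (ψ (hT.equiv g).1) (k2 (hT.equiv g).2)
    refine (congrArg (· ∈ C0) (funext fun s => ?_)).mp h2
    rw [Pi.smul_apply, smul_eq_mul, ← heq f _ (hT.equiv g).1.2, ← mul_assoc,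
      hT.equiv_fst_mul_equiv_snd]

/-- Parity checks. -/
theorem exists_checks {F S : Type} [Field F] [Fintype F] [Fintype S] (C0 : Submodule F (S → F)) :
    ∃ (K : Type) (_ : Fintype K) (_ : Nonempty K) (h : K → S → F),
      ∀ c, c ∈ C0 ↔ ∀ k, ∑ s, h k s * c s = 0 := by
  classical
  refine ⟨{h : S → F // ∀ c ∈ C0, ∑ s, h s * c s = 0}, inferInstance,
    ⟨⟨0, fun _ _ => by simp⟩⟩, fun k => k.1, fun c =>
    ⟨fun hc k => k.2 c hc, fun hc => ?_⟩⟩
  by_contra hn
  obtain ⟨φ, h1, h2⟩ := Submodule.exists_dual_map_eq_bot_of_notMem hn inferInstance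
  have h3 : ∀ x : S → F, ∑ s, φ (fun j => if s = j then 1 else 0) * x s = φ x := fun x => by
    rw [LinearMap.pi_apply_eq_sum_univ φ x]
    exact sum_congr rfl fun s _ => mul_comm _ _
  refine h1 ((h3 c).symm.trans (hc ⟨fun s => φ fun j => if s = j then 1 else 0, fun x hx => ?_⟩))
  rw [h3]
  exact (Submodule.eq_bot_iff _).1 h2 _ ⟨x, hx, rfl⟩

end Vale.Agent.P330.Exp
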