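import Vale.Agent.P330.HeisA
import Vale.Agent.P330.DT

/-! P330 block B6: the ring and the group in polynomial time. -/

open Finset

namespace Vale.Agent.P330.Exp

open Vale.Agent.Lib.PolyTime

noncomputable instance encRR (r : ℕ) : Enc (RR r) := Enc.pull (coEquiv r) (coEquiv r).injective

noncomputable instance encSL (r : ℕ) : Enc (SL3 (RR r)) :=
  Enc.pull (Y := Fin 3 → Fin 3 → RR r) (fun g => g.1) Subtype.val_injective

variable {B B' : Type} [Enc B] [Enc B'] {r : B → ℕ}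

/-- Parameters of logarithmic size. -/
structure Sm (r : B → ℕ) : Prop where
  pt : PT r
  pb : PB fun b => 2 ^ r b

theorem Sm.pb' (h : Sm r) : PB r := h.pb.of_le fun _ => Nat.lt_two_pow_self.le

theorem Sm.comp (h : Sm r) {p : B' → B} (hp : PT p) : Sm fun b => r (p b) :=
  ⟨h.pt.comp hp, h.pb.comp hp⟩

theorem Sm.sig (h : Sm r) (X : B → Type) [∀ b, Enc (X b)] : Sm fun z : Σ b, X b => r z.1 :=
  h.comp pt_sigma_fst

theorem pfam_equiv {X Y : B → Type} [∀ b, Enc (X b)] [∀ b, Enc (Y b)] (hX : PFam X)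
    (e : ∀ b, X b ≃ Y b) (he : D2 fun b x => e b x) : PFam Y := by
  obtain ⟨l, hl, h⟩ := hX
  exact ⟨fun b => (l b).map (e b), D.map hl he, fun b => ⟨(h b).1.map (e b).injective, fun y =>
    List.mem_map.2 ⟨(e b).symm y, (h b).2 _, (e b).apply_symm_apply y⟩⟩⟩

theorem d_fn {X : B → Type} [∀ b, Enc (X b)] {n : ℕ} {f : ∀ b, Fin n → X b}
    (h : ∀ i, D fun b => f b i) : D f :=
  D.fn_mk (n := fun _ => n) (PT.const n) (PB.const n)
    (D.cases (g := fun z : Σ _ : B, Fin n => z.2) (D.pt D.sigma_snd) (fun i z => f z.1 i)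
      fun i => (h i).comp pt_sigma_fst)

theorem pt_co {x : ∀ b, RR (r b)} {i : B → ℕ} (hx : D x) (hi : PT i) :
    PT fun b => co (x b) (i b) := by
  have h1 : PT fun b => List.ofFn (coEquiv _ (x b)) := D.pt hx
  refine (PT.lgetD h1 hi (PT.const 0)).congr fun b => ?_
  by_cases h : i b < r b
  · rw [List.getD_eq_getElem _ _ (by simpa using h), List.getElem_ofFn]
    rfl
  · rw [List.getD_eq_default _ _ (by simpa using h), co_ge _ (not_lt.1 h)]

theorem d_of_co (hr : Sm r) {x : ∀ b, RR (r b)}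
    (h : PT fun z : Σ b, Fin (r b) => co (x z.1) z.2) : D x :=
  D.fn_mk (X := fun _ => ZMod 2) (f := fun b => coEquiv _ (x b)) hr.pt hr.pb' (D.of_pt h)

theorem pt_idx : PT fun z : Σ b, Fin (r b) => (z.2 : ℕ) := D.fin_iff.1 D.sigma_snd

theorem d_add (hr : Sm r) {x y : ∀ b, RR (r b)} (hx : D x) (hy : D y) : D fun b => x b + y b :=
  d_of_co hr ((pt_addZ (pt_co (hx.comp pt_sigma_fst) pt_idx)
    (pt_co (hy.comp pt_sigma_fst) pt_idx)).congr fun _ => co_add _ _ _)

theorem d_sub (hr : Sm r) {x y : ∀ b, RR (r b)} (hx : D x) (hy : D y) : D fun b => x b - y b :=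
  (d_add hr hx hy).congr fun _ => by rw [sub_eq_add_neg, neg_RR]

theorem d_mul (hr : Sm r) {x y : ∀ b, RR (r b)} (hx : D x) (hy : D y) : D fun b => x b * y b := by
  refine d_of_co hr ?_
  have h1 := hr.sig fun b => Fin (r b)
  have p1 : PT fun w : Σ z : Σ b, Fin (r b), Fin (r z.1) => w.1.1 := pt_sigma_fst.comp pt_sigma_fst
  have p2 : PT fun w : Σ z : Σ b, Fin (r b), Fin (r z.1) => (w.1.2 : ℕ) := pt_idx.comp pt_sigma_fst
  have p3 : PT fun w : Σ z : Σ b, Fin (r b), Fin (r z.1) => (w.2 : ℕ) := pt_idx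
  refine (PFam.pt_sumZ (PFam.fin h1.pt h1.pb')
    (f := fun z i => if (i : ℕ) ≤ z.2 then co (x z.1) i * co (y z.1) (z.2 - i) else 0)
    (PT.ite (p3.le p2) (pt_mulZ (pt_co (hx.comp p1) p3) (pt_co (hy.comp p1) (p2.sub p3)))
      (PT.const 0))).congr fun z => ?_
  rw [co_mul _ _ z.2.2, Fin.sum_univ_eq_sum_range
    (fun i => if i ≤ z.2 then co (x z.1) i * co (y z.1) (z.2 - i) else 0), ← sum_filter]
  refine sum_congr ?_ fun _ _ => rfl
  ext i
  have := z.2.2
  simp only [mem_range, mem_filter]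
  omega

theorem d_ypow (hr : Sm r) (n : ℕ) : D fun b => yy (r b) ^ n :=
  d_of_co hr ((PT.ite (pt_idx.eq (PT.const n)) (PT.const 1) (PT.const 0)).congr fun z =>
    co_pow n z.2.2)

theorem d_one (hr : Sm r) : D fun b => (1 : RR (r b)) := (d_ypow hr 0).congr fun _ => (pow_zero _).symm

theorem d_yy (hr : Sm r) : D fun b => yy (r b) := (d_ypow hr 1).congr fun _ => (pow_one _).symm

theorem d_zero (hr : Sm r) : D fun b => (0 : RR (r b)) :=
  (d_add hr (d_one hr) (d_one hr)).congr fun _ => (add_self _).symm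

theorem d_xx (hr : Sm r) : D fun b => xx (r b) := d_add hr (d_one hr) (d_yy hr)

theorem pt_psi {l : ℕ} [Fact l.Prime] (hr : Sm r) {x : ∀ b, RR (r b)} (hx : D x) :
    PT fun b => psi (ZMod l) (x b) :=
  PT.ite ((pt_co hx (hr.pt.sub (PT.const 1))).eq (PT.const 0)) (PT.const 1) (PT.const (-1))

theorem pfam_RR (hr : Sm r) : PFam fun b => RR (r b) :=
  pfam_equiv (PFam.fn (PFam.const (ZMod 2)) hr.pt hr.pb' (hr.pb.of_le fun _ => by simp))
    (fun b => (coEquiv (r b)).toEquiv.symm)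
    (D.congr (X := fun z : Σ b, Fin (r b) → ZMod 2 => Fin (r z.1) → ZMod 2) D.sigma_snd
      fun z => (coEquiv _).apply_symm_apply z.2)

theorem d_ent {M : ∀ b, Fin 3 → Fin 3 → RR (r b)} (h : D M) (i j : Fin 3) : D fun b => M b i j :=
  D.fn_app (n := fun _ => 3) (D.fn_app (n := fun _ => 3) h (D.const i)) (D.const j)

theorem d_entry {g : ∀ b, SL3 (RR (r b))} (h : D g) (i j : Fin 3) : D fun b => g b i j :=
  d_ent (M := fun b => (g b).1) h i j

theorem d_grp {g : ∀ b, SL3 (RR (r b))} (h : ∀ i j, D fun b => g b i j) : D g :=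
  d_fn (X := fun b => Fin 3 → RR (r b)) (f := fun b => (g b).1) fun i => d_fn fun j => h i j

theorem pfam_SL (hr : Sm r) : PFam fun b => SL3 (RR (r b)) := by
  have h1 : PFam fun b => Fin 3 → RR (r b) :=
    PFam.fn (n := fun _ => 3) (pfam_RR hr) (PT.const 3) (PB.const 3)
      ((hr.pb.pow 3).of_le fun b => by rw [card_RR])
  have h2 : PFam fun b => Fin 3 → Fin 3 → RR (r b) :=
    PFam.fn (n := fun _ => 3) h1 (PT.const 3) (PB.const 3)
      (((hr.pb.pow 3).pow 3).of_le fun b => by rw [Fintype.card_fun, card_RR, Fintype.card_fin])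
  have h3 := hr.sig fun b => Fin 3 → Fin 3 → RR (r b)
  have e := d_ent (r := fun z : Σ b, Fin 3 → Fin 3 → RR (r b) => r z.1) D.sigma_snd
  have m := fun a b c d f g => d_mul h3 (d_mul h3 (e a b) (e c d)) (e f g)
  exact PFam.sub (X := fun b => Fin 3 → Fin 3 → RR (r b))
    (p := fun b M => Matrix.det (Matrix.of M) = 1) h2
    ((D.eq (d_sub h3 (d_add h3 (d_add h3 (d_sub h3 (d_sub h3 (m 0 0 1 1 2 2) (m 0 0 1 2 2 1))
      (m 0 1 1 0 2 2)) (m 0 1 1 2 2 0)) (m 0 2 1 0 2 1)) (m 0 2 1 1 2 0)) (d_one h3)).congr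
      fun z => by rw [Matrix.det_fin_three]; rfl)

theorem d_gmul (hr : Sm r) {g h : ∀ b, SL3 (RR (r b))} (hg : D g) (hh : D h) :
    D fun b => g b * h b :=
  d_grp fun i j => (d_add hr (d_add hr (d_mul hr (d_entry hg i 0) (d_entry hh 0 j))
    (d_mul hr (d_entry hg i 1) (d_entry hh 1 j)))
    (d_mul hr (d_entry hg i 2) (d_entry hh 2 j))).congr fun b =>
      (Matrix.mul_apply (M := (g b).1) (N := (h b).1)).trans (Fin.sum_univ_three _)

theorem d_el (hr : Sm r) {i j : Fin 3} (h : i ≠ j) {a : ∀ b, RR (r b)} (ha : D a) :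
    D fun b => el h (a b) := by
  refine d_grp fun k m => ?_
  have h1 : D fun b => if k = m then (1 : RR (r b)) else 0 :=
    D.ite (PT.const _) (d_one hr) (d_zero hr)
  have h2 : D fun b => if i = k ∧ j = m then a b else 0 := D.ite (PT.const _) ha (d_zero hr)
  exact (d_add hr h1 h2).congr fun b => rfl

theorem d_gone (hr : Sm r) : D fun b => (1 : SL3 (RR (r b))) :=
  (d_el hr n01 (d_zero hr)).congr fun _ => (el_zero _).symm

theorem d_gpow (hr : Sm r) {g : ∀ b, SL3 (RR (r b))} (hg : D g) {n : B → ℕ} (hn : PT n)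
    (hn' : PB n) : D fun b => g b ^ n b := by
  obtain ⟨s, hs, h⟩ := (pfam_SL hr).pb_sz
  exact (D.iterate (f := fun b x => g b * x)
    (d_gmul (hr.sig _) (hg.comp pt_sigma_fst) D.sigma_snd) (d_gone hr) hn hn' hs
    fun b _ _ => h b _).congr fun b => by rw [mul_left_iterate]; exact (mul_one _).symm

theorem d_tau (hr : Sm r) : ∃ τ : ∀ b, SL3 (RR (r b)), D τ ∧ ∀ b, Tau (τ b) := by
  have h1 := hr.sig fun b => SL3 (RR (r b))
  have h2 := h1.sig fun z => RR (r z.1)
  have t : D fun w : Σ z : Σ b, SL3 (RR (r b)), RR (r z.1) => w.1.2 :=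
    D.sigma_snd.comp pt_sigma_fst
  have a : D fun w : Σ z : Σ b, SL3 (RR (r b)), RR (r z.1) => w.2 := D.sigma_snd
  have k := fun {i j : Fin 3} (h : i ≠ j) => D.eq (d_gmul h2 t (d_el h2 h a))
    (d_gmul h2 (d_el h2 h (d_mul h2 (d_xx h2) a)) t)
  exact (pfam_SL hr).choose ((pfam_RR h1).pt_forall ((k n01).and (k n12))) fun b => exists_tau _

end Vale.Agent.P330.Exp
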