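import Vale.Agent.P330.HeisB
import Vale.Agent.P330.HeisC

/-! P330 block B6: the equivariant codeword in polynomial time. -/

open Finset

namespace Vale.Agent.P330.Exp

open Vale.Agent.Lib.PolyTime

theorem uu_mul {r : ℕ} (a c a' c' : RR r) :
    el n01 a * el n02 c * (el n01 a' * el n02 c') = el n01 (a + a') * el n02 (c + c') := by
  rw [el_add, el_add, mul_assoc, mul_assoc, ← mul_assoc (el n02 c),
    ← el_comm n01 n02 n01.symm n02.symm a' c, mul_assoc]

theorem uu_02 {r : ℕ} (a c : RR r) : (el n01 a * el n02 c) 0 2 = c := by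
  rw [el_same]
  change (1 + Matrix.single 0 2 c : Matrix (Fin 3) (Fin 3) (RR r)) 0 2 +
    a * (1 + Matrix.single 0 2 c : Matrix (Fin 3) (Fin 3) (RR r)) 1 2 = c
  simp

theorem exists_eqv_SL {r : ℕ} {S F : Type} [Fintype S] [Field F] (C0 : Submodule F (S → F))
    (hk : Fintype.card S < 2 * Module.finrank F C0) (w : S → SL3 (RR r)) :
    ∃ v : SL3 (RR r) × S → F, v ≠ 0 ∧ (∀ g, (fun s => v (g, s)) ∈ C0) ∧
      (∀ g, (fun s => v (g * (w s)⁻¹, s)) ∈ C0) ∧ Eqv v := by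
  have h0 : (1 : SL3 (RR r)) = el n01 0 * el n02 0 := by rw [el_zero, el_zero, one_mul]
  let H : Subgroup (SL3 (RR r)) :=
    { carrier := {g | ∃ a c, g = el n01 a * el n02 c}
      mul_mem' := by
        rintro _ _ ⟨a, c, rfl⟩ ⟨a', c', rfl⟩
        exact ⟨_, _, uu_mul a c a' c'⟩
      one_mem' := ⟨0, 0, h0⟩
      inv_mem' := by
        rintro _ ⟨a, c, rfl⟩
        exact ⟨a, c, inv_eq_of_mul_eq_one_left (by rw [uu_mul, add_self, add_self, h0])⟩ }
  obtain ⟨v, h1, h2, h3, h4⟩ := exists_eqv H (fun g => psi F (g 0 2))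
    (by rw [h0, uu_02, psi_zero]) (by
      rintro _ ⟨a, c, rfl⟩ _ ⟨a', c', rfl⟩
      rw [uu_mul, uu_02, uu_02, uu_02, psi_add]) C0 hk w
  exact ⟨v, h1, h2, h3, fun a c g s => (h4 _ ⟨a, c, rfl⟩ g s).trans (by rw [uu_02])⟩

open Classical in
/-- The linear system for the codeword. -/
noncomputable def sys {r : ℕ} {S K F : Type} [Field F] (h : K → S → F) (w : S → SL3 (RR r))
    (y : (Fin 3 × K × S) × RR r × RR r × SL3 (RR r)) (x : SL3 (RR r) × S) : F :=
  if y.1.1 = 0 then (if x.1 = y.2.2.2 then h y.1.2.1 x.2 else 0)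
  else if y.1.1 = 1 then (if x.1 * w x.2 = y.2.2.2 then h y.1.2.1 x.2 else 0)
  else (if x = (el n01 y.2.1 * el n02 y.2.2.1 * y.2.2.2, y.1.2.2) then 1 else 0) -
    psi F y.2.2.1 * if x = (y.2.2.2, y.1.2.2) then 1 else 0

theorem sys_iff {r : ℕ} {S K F : Type} [Field F] [Fintype S] [Nonempty S] [Nonempty K]
    (h : K → S → F) (w : S → SL3 (RR r)) (v : SL3 (RR r) × S → F) :
    (∀ y, ∑ x, sys h w y x * v x = 0) ↔ (∀ g k, ∑ s, h k s * v (g, s) = 0) ∧
      (∀ g k, ∑ s, h k s * v (g * (w s)⁻¹, s) = 0) ∧ Eqv v := by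
  classical
  have e0 : ∀ k s a c g, ∑ x, sys h w ((0, k, s), a, c, g) x * v x = ∑ s, h k s * v (g, s) := by
    intro k s a c g
    simp [sys, Fintype.sum_prod_type_right]
  have e1 : ∀ k s a c g, ∑ x, sys h w ((1, k, s), a, c, g) x * v x =
      ∑ s, h k s * v (g * (w s)⁻¹, s) := by
    intro k s a c g
    simp [sys, Fintype.sum_prod_type_right, ← eq_mul_inv_iff_mul_eq]
  have e2 : ∀ k s a c g, ∑ x, sys h w ((2, k, s), a, c, g) x * v x =
      v (el n01 a * el n02 c * g, s) - psi F c * v (g, s) := by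
    intro k s a c g
    have t0 : ¬ (2 : Fin 3) = 0 := by decide
    have t1 : ¬ (2 : Fin 3) = 1 := by decide
    simp only [sys, t0, t1, if_false, sub_mul, sum_sub_distrib, mul_assoc, ← mul_sum, ite_mul,
      one_mul, zero_mul, sum_ite_eq', mem_univ, if_true]
  constructor
  · intro H
    obtain ⟨s₀⟩ := ‹Nonempty S›
    obtain ⟨k₀⟩ := ‹Nonempty K›
    exact ⟨fun g k => (e0 k s₀ 0 0 g).symm.trans (H _), fun g k => (e1 k s₀ 0 0 g).symm.trans (H _),
      fun a c g s => sub_eq_zero.1 ((e2 k₀ s a c g).symm.trans (H _))⟩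
  · rintro ⟨h0, h1, h2⟩ ⟨⟨t, k, s⟩, a, c, g⟩
    fin_cases t
    · exact (e0 k s a c g).trans (h0 g k)
    · exact (e1 k s a c g).trans (h1 g k)
    · exact (e2 k s a c g).trans (sub_eq_zero.2 (h2 a c g s))

variable {B : Type} [Enc B] {r : B → ℕ} {l : ℕ} [Fact l.Prime] {S : Type} [Fintype S] [Enc S]

open Classical in
theorem pt_sys (hr : Sm r) {K : Type} [Fintype K] [Enc K] (h : K → S → ZMod l)
    (w : ∀ b, S → SL3 (RR (r b))) (hw : ∀ s, D fun b => w b s) :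
    PT fun z : Σ b, ((Fin 3 × K × S) × RR (r b) × RR (r b) × SL3 (RR (r b))) ×
      (SL3 (RR (r b)) × S) => sys h (w z.1) z.2.1 z.2.2 := by
  have h1 := hr.sig fun b => ((Fin 3 × K × S) × RR (r b) × RR (r b) × SL3 (RR (r b))) ×
    (SL3 (RR (r b)) × S)
  have z := D.sigma_snd (X := fun b => ((Fin 3 × K × S) × RR (r b) × RR (r b) × SL3 (RR (r b))) ×
    (SL3 (RR (r b)) × S))
  have f := D.pt z.fst.fst
  have a := z.fst.snd.fst
  have c := z.fst.snd.snd.fst
  have g := z.fst.snd.snd.snd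
  have x := z.snd
  have s := D.pt x.snd
  have k := P325.pt_finite (f.snd.fst.mk s) fun p => h p.1 p.2
  have ws := D.cases s (fun s z => w z.1 s) fun s => (hw s).comp pt_sigma_fst
  exact PT.ite (f.fst.eq (PT.const 0)) (PT.ite (D.eq x.fst g) k (PT.const 0))
    (PT.ite (f.fst.eq (PT.const 1)) (PT.ite (D.eq (d_gmul h1 x.fst ws) g) k (PT.const 0))
      (pt_subZ (PT.ite (D.eq x (D.pair (d_gmul h1 (d_gmul h1 (d_el h1 n01 a) (d_el h1 n02 c)) g)
        (D.of_pt f.snd.snd))) (PT.const 1) (PT.const 0))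
        (pt_mulZ (pt_psi h1 c) (PT.ite (D.eq x (D.pair g (D.of_pt f.snd.snd))) (PT.const 1)
          (PT.const 0)))))

theorem exists_v (hr : Sm r) [Nonempty S] (C0 : Submodule (ZMod l) (S → ZMod l))
    (hk : Fintype.card S < 2 * Module.finrank (ZMod l) C0) (w : ∀ b, S → SL3 (RR (r b)))
    (hw : ∀ s, D fun b => w b s) : ∃ v : ∀ b, SL3 (RR (r b)) × S → ZMod l,
      (PT fun z : Σ b, SL3 (RR (r b)) × S => v z.1 z.2) ∧ ∀ b, v b ≠ 0 ∧
        (∀ g, (fun s => v b (g, s)) ∈ C0) ∧ (∀ g, (fun s => v b (g * (w b s)⁻¹, s)) ∈ C0) ∧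
        Eqv (v b) := by
  obtain ⟨K, _, _, h, hK⟩ := exists_checks C0
  let _ : Enc K := Enc.fin K
  obtain ⟨v, h1, h2⟩ := PFam.kernel ((pfam_SL hr).prod (PFam.const S))
    ((PFam.const (Fin 3 × K × S)).prod ((pfam_RR hr).prod ((pfam_RR hr).prod (pfam_SL hr))))
    (pt_sys hr h w hw) fun b => by
      obtain ⟨v, h0, h1, h2, h3⟩ := exists_eqv_SL C0 hk (w b)
      exact ⟨v, h0, (sys_iff h (w b) v).2
        ⟨fun g => (hK _).1 (h1 g), fun g => (hK _).1 (h2 g), h3⟩⟩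
  refine ⟨v, h1, fun b => ?_⟩
  obtain ⟨h3, h4, h5⟩ := (sys_iff h (w b) (v b)).1 (h2 b).2
  exact ⟨(h2 b).1, fun g => (hK _).2 (h3 g), fun g => (hK _).2 (h4 g), h5⟩

/-- Indices of the generators. -/
abbrev JJ : Type := Fin 3 × Fin 3 × Bool

/-- The generators. -/
noncomputable def gen (r : ℕ) (p : JJ) : SL3 (RR r) :=
  if h : p.1 ≠ p.2.1 then el h (if p.2.2 then yy r else 1) else 1

theorem gap_gen {r : ℕ} (hr : 0 < r) :
    Gap (fun p x => x * gen r p) (1 - 1 / 115600 / 18) := by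
  have h := gapR (good_RR hr) (gen r) (0, 0, true) (dif_neg (by simp)) fun i j h =>
    ⟨⟨(i, j, false), dif_pos h⟩, (i, j, true), dif_pos h⟩
  simpa using h

theorem d_gen (hr : Sm r) (p : JJ) : D fun b => gen (r b) p := by
  by_cases h : p.1 ≠ p.2.1
  · exact (d_el hr h (D.ite (PT.const _) (d_yy hr) (d_one hr))).congr fun _ => dif_pos h
  · exact (d_gone hr).congr fun _ => dif_neg h

theorem d_word (hr : Sm r) {m : ℕ} (w : Fin m → JJ) : D fun b => word (gen (r b)) w := by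
  induction m with
  | zero => exact (d_gone hr).congr fun _ => by simp [word]
  | succ m ih =>
    exact (d_gmul hr (d_gen hr (w 0)) (ih (Fin.tail w))).congr fun _ => by
      rw [← word_cons, Fin.cons_self_tail]

theorem exists_par {lam : ℝ} (n0 : ℕ) (h : 0 < lam) : ∃ m l : ℕ, l.Prime ∧
    (1 - 1 / 115600 / 18 : ℝ) ^ m ≤ lam ∧ n0 + 3 ≤ 18 ^ m ∧ 18 ^ m ≤ l := by
  obtain ⟨m, hm⟩ := exists_pow_lt_of_lt_one h (show (1 - 1 / 115600 / 18 : ℝ) < 1 by norm_num)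
  obtain ⟨l, h1, h2⟩ := Nat.exists_infinite_primes (18 ^ (m + (n0 + 3)))
  refine ⟨m + (n0 + 3), l, h2, le_trans ?_ hm.le, ?_, h1⟩
  · exact pow_le_pow_of_le_one (by norm_num) (by norm_num) (by omega)
  · have := Nat.lt_pow_self (n := m + (n0 + 3)) (show 1 < 18 by norm_num)
    omega

end Vale.Agent.P330.Exp
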