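import Vale.Agent.P330.St
import Vale.Agent.P330.Gad
import Vale.Agent.P325.DefsA

/-! Interfaces between the blocks of the proof. -/

namespace Vale.Agent.P330

open Vale.Agent.Lib.PolyTime Finset
open scoped Classical BigOperators

/-- Block B2: closed gadgets are realised by generalized circuits. -/
def RealThm : Prop :=
  ∀ (C F : Type) [Enc C] [Enc F] [Fintype F] [Nonempty F] (O : Reg C)
    (S : ∀ c, (O.T c → F → ℝ) → Prop), Impl F (Reg.empty C) O (fun c _ y => S c y) →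
    ∃ (ε δ : ℝ) (p : Polynomial ℕ) (R : C → GCirc) (rd : ∀ z : C × List ℚ, O.T z.1 → F),
      0 < ε ∧ ε < 1 ∧ 0 < δ ∧ δ < 1 ∧ PT R ∧
      PT (fun z : Σ z : C × List ℚ, O.T z.1 => rd z.1 z.2) ∧
      ∀ c, GCircOK (R c) ∧ (∃ x, Acceptable ε δ p (R c) x) ∧
        ∀ x, Acceptable ε δ p (R c) x → ∃ y, IsDist y ∧ S c y ∧ Plur y (rd (c, x))

/-- A line of words: valid words, ends, successor and predecessor. -/
structure Line (X F : Type) where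
  Val : Set (X → F)
  EndS : Set (X → F)
  EndP : Set (X → F)
  S : (X → F) → X → F
  P : (X → F) → X → F

/-- The combinatorial promises on a line. -/
def Line.OK {X F : Type} [Fintype X] (L : Line X F) (Δ : ℝ) (src : X → F) : Prop :=
  src ∈ L.Val ∧ (∀ u ∈ L.Val, ∀ v ∈ L.Val, u ≠ v → Δ ≤ hd u v) ∧
    (∀ u ∈ L.Val, u ∉ L.EndS → L.S u ∈ L.Val ∧ L.S u ≠ src ∧ L.P (L.S u) = u) ∧
    ∀ v ∈ L.Val, v ≠ src → v ∉ L.EndP → L.P v ∈ L.Val ∧ L.S (L.P v) = v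

/-- The behaviour of a step gadget: corrector `c`, successor `s`, predecessor `p`, alarm `T`. -/
def Line.Step {X F : Type} [Fintype X] (L : Line X F) (η δ v0 v1 : ℝ) (src : X → F)
    (x c s p : X → F → ℝ) (T : ℝ) : Prop :=
  (∀ u ∈ L.Val, du x u ≤ δ → du c u ≤ η ∧ (u ∉ L.EndS → du s (L.S u) ≤ η) ∧
    (u ≠ src → u ∉ L.EndP → du p (L.P u) ≤ η)) ∧
  (T < v1 → ∃ u ∈ L.Val, du x u ≤ δ) ∧ ∀ u ∈ L.Val, du x u ≤ 2 * η → T ≤ v0

/-- Block B3: approximate fixed points find the end of a line. -/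
def HPVThm : Prop :=
  ∀ (C F : Type) [Enc C] [Enc F] [Fintype F] [Zero F] [One F], (0 : F) ≠ 1 →
  ∀ (I : Reg C) (U : Fam C), (∀ c, Nonempty (U.T c)) → ∀ (src : ∀ c, U.T c → F),
    PT (fun z : Σ c, U.T c => src z.1 z.2) →
  ∀ (Pre : ∀ c, (I.T c → F → ℝ) → Prop) (L : ∀ c, (I.T c → F → ℝ) → Line (U.T c) F)
    (η δ Δ v0 v1 : ℝ), 0 < η → 4 * η ≤ δ → 8 * δ ≤ Δ → v0 < v1 →
    (∀ c x, IsDist x → Pre c x → (L c x).OK Δ (src c)) →
    Impl F (I.sum (.of U)) ((Reg.of U).sum ((Reg.of U).sum ((Reg.of U).sum (.unit C))))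
      (fun c z y => Pre c (fun i => z (.inl i)) →
        (L c fun i => z (.inl i)).Step η δ v0 v1 (src c) (fun i => z (.inr i))
          (fun i => y (.inl i)) (fun i => y (.inr (.inl i))) (fun i => y (.inr (.inr (.inl i))))
          (y (.inr (.inr (.inr ()))) 1)) →
    Impl F I ((Reg.of U).sum (.of U)) fun c x y => Pre c x →
      (∃ u ∈ (L c x).Val, u ∈ (L c x).EndS ∧ du (fun i => y (.inl i)) u ≤ η) ∨
      ∃ v ∈ (L c x).Val, v ≠ src c ∧ v ∈ (L c x).EndP ∧ du (fun i => y (.inr i)) v ≤ η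

/-- Tanner codes on the bipartite double cover. -/
def tcode {F S G : Type} [Field F] (C0 : Submodule F (S → F)) (nb : S → Equiv.Perm G) :
    Set (G × S → F) :=
  {y | (∀ g, (fun s => y (g, s)) ∈ C0) ∧ ∀ h, (fun s => y ((nb s)⁻¹ h, s)) ∈ C0}

/-- Relative distance of the inner code. -/
def Dist0 {F S : Type} [Field F] [Fintype S] (C0 : Submodule F (S → F)) (δ0 : ℝ) : Prop :=
  ∀ c ∈ C0, c ≠ 0 → δ0 ≤ fr S fun s => c s ≠ 0

/-- Good parameters. -/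
def TanGood (δ0 lam : ℝ) (S : Type) [Fintype S] : Prop :=
  0 < δ0 ∧ δ0 ≤ 1 ∧ 0 ≤ lam ∧ 2048 * lam ^ 2 ≤ δ0 ^ 3 ∧ 512 ≤ δ0 ^ 3 * Fintype.card S

/-- A computable family of expanders with ports `S`. -/
structure TSys (C : Type) [Enc C] (S : Type) [Fintype S] (lam : ℝ) : Type 1 where
  G : Fam C
  ne : ∀ c, Nonempty (G.T c)
  nb : ∀ c, S → Equiv.Perm (G.T c)
  d_nb : ∀ s, D2 fun c g => nb c s g
  gap : ∀ c, P325.Gap (fun s g => nb c s g) lam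

/-- The positions of the Tanner code. -/
@[reducible] def TSys.Pos {C : Type} [Enc C] {S : Type} [Fintype S] [Enc S] {lam : ℝ}
    (Y : TSys C S lam) : Fam C := Y.G.prod (Fam.const C S)

/-- Block B4a: small-set soundness for vector valued words. -/
def SSSThm : Prop :=
  ∀ (F S G K : Type) [Field F] [Fintype S] [Fintype G] [Nonempty G] (C0 : Submodule F (S → F))
    (nb : S → Equiv.Perm G) (δ0 lam β : ℝ), TanGood δ0 lam S → Dist0 C0 δ0 →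
    P325.Gap (fun s g => nb s g) lam → ∀ y : G × S → K → F,
      fr G (fun g => ∃ k, (fun s => y (g, s) k) ∉ C0) ≤ β →
      fr G (fun h => ∃ k, (fun s => y ((nb s)⁻¹ h, s) k) ∉ C0) ≤ β → β ≤ δ0 / 8 →
      fr (G × S) (fun x => y x ≠ 0) ≤ δ0 ^ 2 / 8 → fr (G × S) (fun x => y x ≠ 0) ≤ β

/-- Block B4b: error reduction by a gadget. -/
def ZemThm : Prop :=
  ∀ (C F S : Type) [Enc C] [Field F] [Fintype F] [Enc F] [Fintype S] [Enc S]
    (C0 : Submodule F (S → F)) (δ0 lam : ℝ), TanGood δ0 lam S → Dist0 C0 δ0 →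
    ∀ (Y : TSys C S lam) (η : ℝ), 0 < η → Impl F (.of Y.Pos) (.of Y.Pos) fun c x y =>
      ∀ u ∈ tcode C0 (Y.nb c), du x u ≤ δ0 ^ 2 / 32 → du y u ≤ η

/-- Block B4c: decoding in polynomial time. -/
def DecThm : Prop :=
  ∀ (C F S : Type) [Enc C] [Field F] [Fintype F] [Enc F] [Fintype S] [Enc S]
    (C0 : Submodule F (S → F)) (δ0 lam : ℝ), TanGood δ0 lam S → Dist0 C0 δ0 →
    ∀ (Y : TSys C S lam) (B : Type) [Enc B] (p : B → C) (w : ∀ b, Y.Pos.T (p b) → F), PT p →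
      PT (fun z : Σ b, Y.Pos.T (p b) => w z.1 z.2) →
      ∃ v : ∀ b, Y.Pos.T (p b) → F, PT (fun z : Σ b, Y.Pos.T (p b) => v z.1 z.2) ∧
        ∀ b, ∀ u ∈ tcode C0 (Y.nb (p b)), hd (w b) u ≤ δ0 ^ 2 / 32 → v b = u

/-- A local linear step. -/
def stp {F S G B : Type} [Field F] [Fintype B] (π : B → Equiv.Perm G) (co : B → F)
    (y : G × S → F) : G × S → F := fun x => ∑ i, co i * y (π i x.1, x.2)

/-- Block B5: logarithmically many uniform linear steps. -/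
def ChainThm : Prop :=
  ∀ (C S B : Type) [Enc C] (l : ℕ) [Fact l.Prime] [Fintype S] [Enc S] [Fintype B]
    (C0 : Submodule (ZMod l) (S → ZMod l)) (δ0 lam : ℝ), TanGood δ0 lam S → Dist0 C0 δ0 →
    ∀ (Y : TSys C S lam) (π : ∀ c, B → Equiv.Perm (Y.G.T c)) (co : B → ZMod l) (r : C → ℕ),
      (∀ i, D2 fun c g => π c i g) → (∀ c i s g, π c i (Y.nb c s g) = Y.nb c s (π c i g)) →
      PT r → PB (fun c => l ^ r c) → ∀ η : ℝ, 0 < η →
      Impl (ZMod l) (.of Y.Pos) (.of Y.Pos) fun c x y =>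
        ∀ u ∈ tcode C0 (Y.nb c), du x u ≤ δ0 ^ 2 / 32 → du y ((stp (π c) co)^[r c] u) ≤ η

/-- Block B6: an invariant Tanner code with Heisenberg cells. -/
def HeisThm : Prop :=
  ∀ (lam : ℝ) (n0 : ℕ), 0 < lam → ∃ (l : ℕ) (_ : Fact l.Prime) (S : Type) (_ : Fintype S)
    (_ : Enc S) (C0 : Submodule (ZMod l) (S → ZMod l)), 3 ≤ l ∧ n0 ≤ Fintype.card S ∧
    Dist0 C0 (1 / 3) ∧ ∀ (C : Type) [Enc C] (r : C → ℕ), PT r → PB (fun c => 2 ^ r c) →
      (∀ c, 1 ≤ r c) → ∃ (Y : TSys C S lam) (τ σ₁ σ₂ : ∀ c, Equiv.Perm (Y.G.T c))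
        (e rd : ∀ c, Fin (2 ^ r c) → Y.Pos.T c → ZMod l) (E : ∀ c, Y.Pos.T c → ZMod l)
        (χ : ∀ c, ℕ → Fin (2 ^ r c) → ZMod l),
        D2 (fun c g => τ c g) ∧ D2 (fun c g => σ₁ c g) ∧ D2 (fun c g => σ₂ c g) ∧
        PT (fun z : Σ c, Fin (2 ^ r c) × Y.Pos.T c => e z.1 z.2.1 z.2.2) ∧
        PT (fun z : Σ c, Fin (2 ^ r c) × Y.Pos.T c => rd z.1 z.2.1 z.2.2) ∧
        PT (fun z : Σ c, Y.Pos.T c => E z.1 z.2) ∧ ∀ c,
          (∀ s g, τ c (Y.nb c s g) = Y.nb c s (τ c g) ∧ σ₁ c (Y.nb c s g) = Y.nb c s (σ₁ c g) ∧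
            σ₂ c (Y.nb c s g) = Y.nb c s (σ₂ c g)) ∧
          (∀ b, e c b ∈ tcode C0 (Y.nb c)) ∧
          (∀ j < r c, ∀ b g s, e c b ((τ c ^ j) (σ₁ c g), s) = χ c j b * e c b ((τ c ^ j) g, s)) ∧
          (∀ j b, χ c j b = 1 ∨ χ c j b = -1) ∧
          (∀ b b', (∀ j < r c, χ c j b = χ c j b') → b = b') ∧
          (∀ b, (stp (fun i : Bool => if i then σ₂ c * τ c else τ c) fun _ => 1)^[r c]
            (fun x => e c b ((τ c ^ r c) x.1, x.2)) = E c) ∧ E c ≠ 0 ∧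
          ∀ b b', ∑ x, rd c b x * e c b' x = if b = b' then 1 else 0

/-- Variables together with the constant one. -/
def ev {V F : Type} [One F] (w : V → F) (o : Option V) : F := o.elim 1 w

/-- Computable families of polynomials of degree at most `d`. -/
def Pol {C : Type} [Enc C] {l : ℕ} [NeZero l] (d : ℕ) (V J : Fam C)
    (f : ∀ c, J.T c → (V.T c → ZMod l) → ZMod l) : Prop :=
  ∃ φ : ∀ c, J.T c → (Fin d → Option (V.T c)) → ZMod l,
    PT (fun z : Σ c, J.T c × (Fin d → Option (V.T c)) => φ z.1 z.2.1 z.2.2) ∧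
    ∀ c j w, f c j w = ∑ m, φ c j m * ∏ i, ev w (m i)

/-- The codeword of a message. -/
def cw {X V F : Type} [Fintype V] [CommRing F] (gen : X → V → F) (w : V → F) (x : X) : F :=
  ∑ v, gen x v * w v

/-- Block B7: a code on which cubic functionals of the message are implemented. -/
def CodeThm : Prop :=
  ∃ (l : ℕ) (_ : Fact l.Prime) (δ Δ : ℝ), 3 ≤ l ∧ 0 < δ ∧ 0 < Δ ∧
    ∀ (C : Type) [Enc C] (V : Fam C), ∃ (X : Fam C) (gen : ∀ c, X.T c → V.T c → ZMod l),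
      (∀ c, Nonempty (X.T c)) ∧ PT (fun z : Σ c, X.T c × V.T c => gen z.1 z.2.1 z.2.2) ∧
      (∀ c w w', w ≠ w' → Δ ≤ hd (cw (gen c) w) (cw (gen c) w')) ∧
      (∀ (J : Fam C) (f : ∀ c, J.T c → (V.T c → ZMod l) → ZMod l), (∀ c, Nonempty (J.T c)) →
        Pol 3 V J f → ∀ η : ℝ, 0 < η → Impl (ZMod l) (.of X) (.of J) fun c x y =>
          ∀ w, du x (cw (gen c) w) ≤ δ → du y (fun j => f c j w) ≤ η) ∧
      ∀ (B : Type) [Enc B] (p : B → C) (u : ∀ b, X.T (p b) → ZMod l), PT p →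
        PT (fun z : Σ b, X.T (p b) => u z.1 z.2) →
        ∃ v : ∀ b, V.T (p b) → ZMod l, PT (fun z : Σ b, V.T (p b) => v z.1 z.2) ∧
          ∀ b w, hd (u b) (cw (gen (p b)) w) ≤ δ → v b = w

/-- Block B8: a linear proof of proximity to a linear code. -/
def PCPPThm : Prop :=
  ∀ (l : ℕ) [Fact l.Prime], ∃ α K κ : ℝ, 0 < α ∧ 0 < K ∧
    ∀ (C : Type) [Enc C] (X V : Fam C) (gen : ∀ c, X.T c → V.T c → ZMod l),
      (∀ c, Nonempty (X.T c)) → PT (fun z : Σ c, X.T c × V.T c => gen z.1 z.2.1 z.2.2) →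
      ∃ (Pf Q : Fam C) (prf : ∀ c, Pf.T c → V.T c → ZMod l)
        (var : ∀ c, Q.T c → Fin 4 → X.T c ⊕ Pf.T c) (co : ∀ c, Q.T c → Fin 4 → ZMod l),
        (∀ c, Nonempty (Pf.T c)) ∧ (∀ c, Nonempty (Q.T c)) ∧
        PT (fun z : Σ c, Pf.T c × V.T c => prf z.1 z.2.1 z.2.2) ∧
        (∀ i, D2 fun c t => var c t i) ∧ (∀ i, PT fun z : Σ c, Q.T c => co z.1 z.2 i) ∧ ∀ c,
          (∀ i u, fr (Q.T c) (fun t => var c t i = u) ≤
            κ * ((Reg.of X).sum (Reg.of Pf)).w c u) ∧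
          (∀ w t, ∑ i, co c t i * Sum.elim (cw (gen c) w) (cw (prf c) w) (var c t i) = 0) ∧
          ∀ (x : X.T c → ZMod l) (y : Pf.T c → ZMod l),
            fr (Q.T c) (fun t => ∑ i, co c t i * Sum.elim x y (var c t i) ≠ 0) ≤ α →
            ∃ w, hd x (cw (gen c) w) ≤
              K * fr (Q.T c) fun t => ∑ i, co c t i * Sum.elim x y (var c t i) ≠ 0

/-- Valid End-of-Line instances. -/
abbrev VI : Type := {I : EoL // EoLOK I}

/-- Block B9a: End-of-Line as a reversible machine with cubic steps. -/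
def MachThm : Prop :=
  ∀ (l : ℕ) [Fact l.Prime], 3 ≤ l → ∃ (V E : Fam VI)
    (Sm Pm : ∀ c, V.T c → (V.T c → ZMod l) → ZMod l)
    (Rs : ∀ c, E.T c → (V.T c → ZMod l) → ZMod l) (w0 : ∀ c, V.T c → ZMod l)
    (sol : ∀ c, (V.T c → ZMod l) → List Bool),
    Pol 3 V V Sm ∧ Pol 3 V V Pm ∧ Pol 3 V E Rs ∧ PT (fun z : Σ c, V.T c => w0 z.1 z.2) ∧
    (∀ (B : Type) [Enc B] (p : B → VI) (v : ∀ b, V.T (p b) → ZMod l), PT p →
      PT (fun z : Σ b, V.T (p b) => v z.1 z.2) → PT fun b => sol (p b) (v b)) ∧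
    PT (fun z : VI × List Bool => EoLSol z.1.1 z.2) ∧ ∀ c,
      (∀ e, Rs c e (w0 c) = 0) ∧
      (∀ u, (∀ e, Rs c e u = 0) → EoLSol c.1 (sol c u) ∨
        ((∀ e, Rs c e (fun i => Sm c i u) = 0) ∧ (fun i => Sm c i u) ≠ w0 c ∧
          (fun j => Pm c j fun i => Sm c i u) = u)) ∧
      ∀ v, (∀ e, Rs c e v = 0) → v ≠ w0 c → EoLSol c.1 (sol c v) ∨
        ((∀ e, Rs c e (fun i => Pm c i v) = 0) ∧ (fun j => Sm c j fun i => Pm c i v) = v)

/-- The theorem on valid instances, at the level of coded types. -/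
def CoreThm : Prop :=
  ∃ (ε δ : ℝ) (p : Polynomial ℕ) (R : VI → GCirc) (Dc : VI × List ℚ → List Bool),
    0 < ε ∧ ε < 1 ∧ 0 < δ ∧ δ < 1 ∧ PT R ∧ PT Dc ∧
    ∀ c, GCircOK (R c) ∧ (∃ x, Acceptable ε δ p (R c) x) ∧
      ∀ x, Acceptable ε δ p (R c) x → EoLSol c.1 (Dc (c, x))

/-- The final statement. -/
def Goal : Prop :=
  ∃ ε δ : ℝ, 0 < ε ∧ ε < 1 ∧ 0 < δ ∧ δ < 1 ∧
    ∃ (p : Polynomial ℕ) (R : EoL → GCirc) (Dc : EoL × List ℚ → List Bool),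
      (∃ M : Turing.TM2ComputableInPolyTime (fun I => bitsOf (natsI I))
        (fun G => bitsOf (natsG G)) R, ∀ k, Finite (M.tm.Γ k)) ∧
      (∃ M : Turing.TM2ComputableInPolyTime (fun z : EoL × List ℚ => bitsOf (natsI z.1 ++ natsX z.2))
        (fun v : List Bool => bitsOf (v.map Bool.toNat)) Dc, ∀ k, Finite (M.tm.Γ k)) ∧
      ∀ I, EoLOK I → GCircOK (R I) ∧ (∃ x, Acceptable ε δ p (R I) x) ∧
        ∀ x, Acceptable ε δ p (R I) x → EoLSol I (Dc (I, x))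

end Vale.Agent.P330
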