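import Vale.Agent.P330.MachS

/-! End-of-Line as a reversible machine with cubic steps (block B9). -/

namespace Vale.Agent.P330

open Vale.Agent.Lib.PolyTime Finset
open scoped Classical BigOperators

namespace Mach

variable {l : ℕ} {c : VI} {t : ℕ} {f : Bool → List Bool}

theorem nxt_t : nxt c true t = if t = 2 * mm c + 1 then 0 else t + 1 := rfl
theorem nxt_f : nxt c false t = if t = 0 then 2 * mm c + 1 else t - 1 := rfl
theorem lst_t : lst c true = 2 * mm c + 1 := rfl
theorem lst_f : lst c false = 0 := rfl
theorem ph_t : ph c true t ↔ t ≤ mm c := by simp [ph]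
theorem ph_f : ph c false t ↔ mm c < t := by simp [ph]

theorem move (d : Bool) (h : Good c t f)
    (hx : ph c d t → ph c (!d) (nxt c d t) → f (!d) = fn c (!d) (f d)) :
    ∃ f', Good c (nxt c d t) f' ∧ (t ≠ lst c d → f' = f) ∧
      (fun i => Stp d c i (st c t f)) = (st c (nxt c d t) f' : FV.T c → ZMod l) ∧
      (fun i => Stp (!d) c i (st c (nxt c d t) f')) = (st c t f : FV.T c → ZMod l) := by
  obtain ⟨ht, hf, hp⟩ := h
  have h1 : nxt c d t < 2 * mm c + 2 := by unfold nxt; split_ifs <;> omega
  have h2 : nxt c (!d) (nxt c d t) = t := by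
    cases d <;> simp only [nxt_t, nxt_f, Bool.not_true, Bool.not_false] <;> split_ifs <;>
      first | contradiction | omega
  have h3 : nxt c d t = lst c (!d) ↔ t = lst c d := by
    cases d <;> simp only [nxt_t, nxt_f, lst_t, lst_f, Bool.not_true, Bool.not_false] <;>
      split_ifs <;> first | omega | simp_all
  have hw : ∀ r, ((if t = lst c d then wrap c d f else f) r).length = nn c := fun r => by
    split_ifs
    · unfold wrap
      split_ifs
      exacts [fn_len _ _, hf _]
    · exact hf r
  refine ⟨_, ⟨h1, hw, fun r hr => ?_⟩, fun e => if_neg e, stp_st d ht hf, ?_⟩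
  · by_cases e : t = lst c d
    · obtain rfl : r = d := by
        revert hr
        rw [h3.2 e]
        cases d <;> cases r <;> simp [ph, lst] <;> omega
      simp [e, wrap]
    · rw [if_neg e]
      by_cases h4 : ph c r t
      · exact hp r h4
      · obtain rfl : r = !d := by
          revert hr h4 e
          cases d <;> cases r <;> simp only [nxt_t, nxt_f, lst_t, lst_f, ph_t, ph_f] <;>
            split_ifs <;> intros <;> first | rfl | omega
        rw [Bool.not_not]
        exact hx (by revert h4; cases d <;> simp [ph]) hr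
  · rw [stp_st _ h1 hw, h2]
    congr 1
    by_cases e : t = lst c d
    · rw [if_pos (h3.2 e), if_pos e]
      funext r
      have h5 := hp (!d) (by rw [e]; cases d <;> simp [ph, lst]; omega)
      cases d <;> cases r <;> simp_all [wrap]
    · rw [if_neg fun e' => e (h3.1 e'), if_neg e]

theorem good_w0 (c : VI) : Good c (mm c + 1) fun _ => zz c :=
  ⟨by omega, fun _ => by simp [zz], fun r hr => by
    obtain rfl : r = false := by revert hr; cases r <;> simp [ph]
    exact c.2.2.2.2.1.symm⟩

variable [Fact l.Prime]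

theorem sol_st (h : Good c t f) (r : Bool) (hs : EoLSol c.1 (f r)) :
    EoLSol c.1 (sol c (st c t f : FV.T c → ZMod l)) := by
  unfold sol
  rw [inp_st h.2.1, inp_st h.2.1]
  split_ifs with h1
  · exact h1
  · cases r
    exacts [absurd hs h1, hs]

theorem fwd {u : FV.T c → ZMod l} (hu : ∀ e, Rs c e u = 0) : EoLSol c.1 (sol c u) ∨
    ((∀ e, Rs c e (fun i => Stp true c i u) = 0) ∧
      (fun i => Stp true c i u) ≠ st c (mm c + 1) (fun _ => zz c) ∧
      (fun j => Stp false c j fun i => Stp true c i u) = u) := by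
  obtain ⟨t, f, h, rfl⟩ := of_valid hu
  by_cases hx : ph c true t → ph c (!true) (nxt c true t) → f (!true) = fn c (!true) (f true)
  · obtain ⟨f', h1, h2, h3, h4⟩ := move (l := l) true h hx
    rw [h3]
    refine .inr ⟨valid_st h1, fun e => ?_, h4⟩
    obtain ⟨e1, e2⟩ := st_inj h1 (good_w0 c) e
    have e3 : t = mm c := by revert e1; simp only [nxt]; split_ifs <;> simp_all
    have e4 := h.2.2 true (by simp [ph, e3])
    rw [← h2 (by simp [lst, e3]; omega), e2] at e4
    exact c.2.2.2.2.2.1 e4.symm
  · push Not at hx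
    have e4 : f true = evalC c.1.2.1 (f false) := h.2.2 true hx.1
    have e5 : f false ≠ evalC c.1.2.2 (f true) := hx.2.2
    rw [e4] at e5
    refine .inl (sol_st h false ⟨h.2.1 _, fun e => e5 ?_, .inl e5.symm⟩)
    rw [e]
    exact c.2.2.2.2.2.2.symm

theorem bwd {v : FV.T c → ZMod l} (hv : ∀ e, Rs c e v = 0)
    (h0 : v ≠ st c (mm c + 1) fun _ => zz c) : EoLSol c.1 (sol c v) ∨
    ((∀ e, Rs c e (fun i => Stp false c i v) = 0) ∧
      (fun j => Stp true c j fun i => Stp false c i v) = v) := by
  obtain ⟨t, f, h, rfl⟩ := of_valid hv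
  by_cases hx : ph c false t → ph c (!false) (nxt c false t) → f (!false) = fn c (!false) (f false)
  · obtain ⟨f', h1, -, h3, h4⟩ := move (l := l) false h hx
    rw [h3]
    exact .inr ⟨valid_st h1, h4⟩
  · push Not at hx
    have e4 : f false = evalC c.1.2.2 (f true) := h.2.2 false hx.1
    have e5 : f true ≠ evalC c.1.2.1 (f false) := hx.2.2
    refine .inl (sol_st h true ⟨h.2.1 _, fun e => h0 ?_, .inr (e4 ▸ e5.symm)⟩)
    have e3 : t = mm c + 1 := by
      have a := hx.1
      have b := hx.2.1
      revert a b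
      simp only [nxt_f, ph_t, ph_f, Bool.not_false]
      split_ifs <;> omega
    rw [e, c.2.2.2.2.1] at e4
    rw [e3]
    congr 1
    funext r
    cases r
    exacts [e4, e]

end Mach

open Mach in
theorem machThm : MachThm := fun l _ _ =>
  ⟨FV, FE, Stp true, Stp false, Rs, fun c => st c (mm c + 1) fun _ => zz c, sol, pol_Stp true,
    pol_Stp false, pol_Rs, pt_w0, fun _ _ _ _ hp hv => pt_solv hp hv,
    pt_sol (c := fun z : VI × List Bool => z.1) (by fun_prop) (by fun_prop),
    fun c => ⟨valid_st (good_w0 c), fun _ => fwd, fun _ => bwd⟩⟩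

end Vale.Agent.P330
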