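import Vale.Agent.P330.PolT

/-! Evaluation of Boolean circuits (block B9). -/

namespace Vale.Agent.P330.Mach

open Vale.Agent.Lib.PolyTime Finset
open scoped Classical BigOperators

/-- The Boolean function of a gate. -/
def gv (k : ℕ) (a b : Bool) : Bool := if k = 0 then a && b else if k = 1 then a || b else !a

theorem gateVal_eq (w : List Bool) (g : ℕ × ℕ × ℕ) :
    gateVal w g = gv g.1 (w.getD g.2.1 false) (w.getD g.2.2 false) := rfl

theorem getD_left {x y : List Bool} {i : ℕ} (h : i < x.length) :
    (x ++ y).getD i false = x.getD i false := by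
  simp [List.getD_eq_getElem?_getD, List.getElem?_append_left h]

theorem wires_spec (gs : List (ℕ × ℕ × ℕ)) (o : List ℕ) (x : List Bool) :
    (wires (gs, o) x).length = x.length + gs.length ∧
    (∀ i < x.length, (wires (gs, o) x).getD i false = x.getD i false) ∧
    ∀ i < gs.length, (gs.getD i 0).2.1 < x.length + i → (gs.getD i 0).2.2 < x.length + i →
      (wires (gs, o) x).getD (x.length + i) false = gateVal (wires (gs, o) x) (gs.getD i 0) := by
  induction gs using List.reverseRecOn with
  | nil => simp [wires]
  | append_singleton gs g ih =>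
    obtain ⟨h1, h2, h3⟩ := ih
    have e : wires (gs ++ [g], o) x = wires (gs, o) x ++ [gateVal (wires (gs, o) x) g] := by
      simp [wires]
    rw [e]
    refine ⟨by simp [h1, add_assoc], fun i hi => ?_, fun i hi ha hb => ?_⟩
    · rw [getD_left (by omega), h2 i hi]
    · rw [gateVal_eq (_ ++ _), getD_left (i := ((gs ++ [g]).getD i 0).2.1) ?_,
        getD_left (i := ((gs ++ [g]).getD i 0).2.2) ?_, ← gateVal_eq]
      · rcases Nat.lt_succ_iff_lt_or_eq.1 (by simpa using hi : i < gs.length + 1) with h | h
        · have e1 : (gs ++ [g]).getD i 0 = gs.getD i 0 := by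
            simp [List.getD_eq_getElem?_getD, List.getElem?_append_left h]
          rw [e1] at ha hb ⊢
          rw [getD_left (by omega), h3 i h ha hb]
        · subst h
          simp [List.getD_eq_getElem?_getD, ← h1]
      all_goals simp at hi; omega

theorem wires_in (C : BCirc) (x : List Bool) {i : ℕ} (h : i < x.length) :
    (wires C x).getD i false = x.getD i false := (wires_spec C.1 C.2 x).2.1 i h

theorem ok_gate {n : ℕ} {C : BCirc} (hC : CircOK n C) {i : ℕ} (h : i < C.1.length) :
    (C.1.getD i 0).2.1 < n + i ∧ (C.1.getD i 0).2.2 < n + i := by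
  have h1 := (hC.2.2 ⟨i, h⟩).2
  simpa [List.getD_eq_getElem?_getD, h] using h1

theorem ok_out {n : ℕ} {C : BCirc} (hC : CircOK n C) {i : ℕ} (h : i < n) :
    C.2.getD i 0 < n + C.1.length := by
  have h1 : i < C.2.length := hC.1 ▸ h
  simpa [List.getD_eq_getElem?_getD, h1] using hC.2.1 _ (List.getElem_mem h1)

theorem wires_gate {n : ℕ} {C : BCirc} (hC : CircOK n C) {x : List Bool} (hx : x.length = n)
    {i : ℕ} (h : i < C.1.length) :
    (wires C x).getD (n + i) false = gateVal (wires C x) (C.1.getD i 0) := by
  subst hx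
  exact (wires_spec C.1 C.2 x).2.2 i h (ok_gate hC h).1 (ok_gate hC h).2

theorem evalC_getD {n : ℕ} {C : BCirc} (hC : CircOK n C) (x : List Bool) {i : ℕ} (h : i < n) :
    (evalC C x).getD i false = (wires C x).getD (C.2.getD i 0) false := by
  have h1 : i < C.2.length := hC.1 ▸ h
  simp [evalC, List.getD_eq_getElem?_getD, h1]

section PT
variable {α : Type} [Enc α]

@[fun_prop] theorem pt_wires {C : α → BCirc} {x : α → List Bool} (hC : PT C) (hx : PT x) :
    PT fun a => wires (C a) (x a) :=
  PT.foldl_add (f := fun _ w g => w ++ [gateVal w g]) (by unfold gateVal; fun_prop)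
    (by fun_prop) hx (PB.const 4) fun _ s g _ => by simp [sz_append]

@[fun_prop] theorem pt_evalC {C : α → BCirc} {x : α → List Bool} (hC : PT C) (hx : PT x) :
    PT fun a => evalC (C a) (x a) := by
  unfold evalC
  fun_prop

@[fun_prop] theorem pt_vi {c : α → VI} (hc : PT c) : PT fun a => (c a).1 := pt_val.comp hc

end PT

/-- The number of inputs. -/
def nn (c : VI) : ℕ := c.1.1
/-- The number of gates of the successor circuit. -/
def mS (c : VI) : ℕ := c.1.2.1.1.length
/-- The number of all gates. -/
def mm (c : VI) : ℕ := mS c + c.1.2.2.1.length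
/-- Wires of the predecessor circuit inside the joint circuit. -/
def sh (c : VI) (p : ℕ) : ℕ := if p < nn c then p else p + mS c
/-- The gate at a wire of the joint circuit. -/
def gate (c : VI) (w : ℕ) : ℕ × ℕ × ℕ :=
  if w < nn c + mS c then c.1.2.1.1.getD (w - nn c) 0
  else ((c.1.2.2.1.getD (w - nn c - mS c) 0).1, sh c (c.1.2.2.1.getD (w - nn c - mS c) 0).2.1,
    sh c (c.1.2.2.1.getD (w - nn c - mS c) 0).2.2)
/-- Output wires: successor for `true`, predecessor for `false`. -/
def outw (c : VI) (r : Bool) (i : ℕ) : ℕ :=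
  if r = true then c.1.2.1.2.getD i 0 else sh c (c.1.2.2.2.getD i 0)
/-- The value of a wire of the joint circuit. -/
def val (c : VI) (x : List Bool) (w : ℕ) : Bool :=
  if w < nn c + mS c then (wires c.1.2.1 x).getD w false
  else (wires c.1.2.2 x).getD (w - mS c) false
/-- Successor for `true`, predecessor for `false`. -/
def fn (c : VI) (r : Bool) (x : List Bool) : List Bool :=
  if r = true then evalC c.1.2.1 x else evalC c.1.2.2 x
/-- The zero string. -/
def zz (c : VI) : List Bool := List.replicate (nn c) false

variable {c : VI} {x : List Bool} {w : ℕ}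

theorem okS (c : VI) : CircOK (nn c) c.1.2.1 := c.2.2.1
theorem okP (c : VI) : CircOK (nn c) c.1.2.2 := c.2.2.2.1

theorem val_in (hx : x.length = nn c) (h : w < nn c) : val c x w = x.getD w false := by
  rw [val, if_pos (by omega), wires_in _ _ (by omega)]

theorem val_sh (hx : x.length = nn c) (p : ℕ) :
    val c x (sh c p) = (wires c.1.2.2 x).getD p false := by
  unfold sh
  split_ifs with h
  · rw [val_in hx h, wires_in _ _ (by omega)]
  · rw [val, if_neg (by omega), Nat.add_sub_cancel]

theorem gate_lt (h : nn c ≤ w) (h' : w < nn c + mm c) :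
    (gate c w).2.1 < w ∧ (gate c w).2.2 < w := by
  unfold gate
  split_ifs with h1
  · have := ok_gate (okS c) (i := w - nn c) (by unfold mS at h1; omega)
    omega
  · have := ok_gate (okP c) (i := w - nn c - mS c) (by unfold mm at h'; omega)
    simp only [sh]
    split_ifs <;> omega

theorem val_gate (hx : x.length = nn c) (h : nn c ≤ w) (h' : w < nn c + mm c) :
    val c x w = gv (gate c w).1 (val c x (gate c w).2.1) (val c x (gate c w).2.2) := by
  have h0 := gate_lt h h'
  by_cases h1 : w < nn c + mS c
  · rw [val, val, val, if_pos h1, if_pos (by omega), if_pos (by omega), ← gateVal_eq, gate,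
      if_pos h1, ← wires_gate (okS c) hx (by unfold mS at h1; omega), Nat.add_sub_cancel' h]
  · rw [gate, if_neg h1, val_sh hx, val_sh hx]
    dsimp only
    rw [← gateVal_eq,
      ← wires_gate (okP c) hx (by unfold mm at h'; omega), val, if_neg h1]
    congr 1
    omega

theorem outw_lt (r : Bool) (h : w < nn c) : outw c r w < nn c + mm c := by
  have h1 := ok_out (okS c) h
  have h2 := ok_out (okP c) h
  unfold outw sh mm mS
  split_ifs <;> omega

theorem fn_len (r : Bool) (x : List Bool) : (fn c r x).length = nn c := by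
  unfold fn evalC
  split_ifs <;> simp [(okS c).1, (okP c).1]

theorem fn_getD (hx : x.length = nn c) (r : Bool) (h : w < nn c) :
    (fn c r x).getD w false = val c x (outw c r w) := by
  unfold fn outw
  split_ifs
  · rw [evalC_getD (okS c) x h, val, if_pos (show _ < nn c + mS c from ok_out (okS c) h)]
  · rw [evalC_getD (okP c) x h, val_sh hx]

section PT
variable {α : Type} [Enc α] {c : α → VI} {w : α → ℕ}

@[fun_prop] theorem pt_nn (hc : PT c) : PT fun a => nn (c a) := by unfold nn; fun_prop
@[fun_prop] theorem pt_mS (hc : PT c) : PT fun a => mS (c a) := by unfold mS; fun_prop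
@[fun_prop] theorem pt_mm (hc : PT c) : PT fun a => mm (c a) := by unfold mm; fun_prop
@[fun_prop] theorem pt_sh (hc : PT c) (hw : PT w) : PT fun a => sh (c a) (w a) := by
  unfold sh; fun_prop
@[fun_prop] theorem pt_gate (hc : PT c) (hw : PT w) : PT fun a => gate (c a) (w a) := by
  unfold gate; fun_prop
@[fun_prop] theorem pt_outw {r : α → Bool} (hc : PT c) (hr : PT r) (hw : PT w) :
    PT fun a => outw (c a) (r a) (w a) := by
  unfold outw; fun_prop
@[fun_prop] theorem pt_valw {x : α → List Bool} (hc : PT c) (hx : PT x) (hw : PT w) :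
    PT fun a => val (c a) (x a) (w a) := by
  unfold val; fun_prop

theorem pb_nn : PB nn :=
  (PT.pb_length (l := fun c : VI => c.1.2.1.2) (by fun_prop)).of_le fun c => (okS c).1.ge

theorem pb_mm : PB mm :=
  (PT.pb_length (l := fun c : VI => c.1.2.1.1) (by fun_prop)).add
    (PT.pb_length (l := fun c : VI => c.1.2.2.1) (by fun_prop))

@[fun_prop] theorem pt_zz (hc : PT c) : PT fun a => zz (c a) :=
  PT.replicate (pt_nn hc) (pb_nn.comp hc) (PT.const _)

theorem pt_sol {x : α → List Bool} (hc : PT c) (hx : PT x) : PT fun a => EoLSol (c a).1 (x a) := by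
  have h : PT fun a => (x a).length = nn (c a) ∧ x a ≠ zz (c a) ∧
      (evalC (c a).1.2.2 (evalC (c a).1.2.1 (x a)) ≠ x a ∨
        evalC (c a).1.2.1 (evalC (c a).1.2.2 (x a)) ≠ x a) := by fun_prop
  exact h

end PT

end Vale.Agent.P330.Mach
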