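import Vale.Agent.P330.MachC

/-! The reversible machine: definitions and computability (block B9). -/

namespace Vale.Agent.P330.Mach

open Vale.Agent.Lib.PolyTime Finset
open scoped Classical BigOperators

/-- Wires of the two registers. -/
@[reducible] def FW : Fam VI := (Fam.const VI Bool).prod
  (Fam.ofFin (fun c => nn c + mm c) (by fun_prop) (pb_nn.add pb_mm))
/-- Times. -/
@[reducible] def FN : Fam VI := Fam.ofFin (fun c => 2 * mm c + 2) (by fun_prop) (pb_mm.lin 2 2)
/-- Variables. -/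
@[reducible] def FV : Fam VI := FW.sum FN
/-- Constraints. -/
@[reducible] def FE : Fam VI := FW.sum (FW.sum (FW.sum ((FN.prod FN).sum (Fam.const VI Unit))))

/-- The number of gates present in a register at a time. -/
def lev (c : VI) (r : Bool) (t : ℕ) : ℕ :=
  if r = true then min (mm c) t else min (mm c) (2 * mm c + 1 - t)
/-- The last time in a direction. -/
def lst (c : VI) (d : Bool) : ℕ := if d = true then 2 * mm c + 1 else 0
/-- The next time in a direction. -/
def nxt (c : VI) (d : Bool) (t : ℕ) : ℕ :=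
  if d = true then (if t = 2 * mm c + 1 then 0 else t + 1)
  else if t = 0 then 2 * mm c + 1 else t - 1
/-- The phase. -/
def ph (c : VI) (r : Bool) (t : ℕ) : Prop := r = true ↔ t ≤ mm c

variable {l : ℕ}

/-- Bits in the field. -/
def bt (b : Bool) : ZMod l := if b = true then 1 else 0
/-- Arithmetised gates. -/
def ar (k : ℕ) (a b : ZMod l) : ZMod l :=
  if k = 0 then a * b else if k = 1 then a + b - a * b else 1 - a

/-- Reading a wire. -/
noncomputable def rd (c : VI) (u : FV.T c → ZMod l) (r : Bool) (w : ℕ) : ZMod l :=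
  ∑ k : FW.T c, (if k.1 = r ∧ (k.2 : ℕ) = w then 1 else 0) * u (.inl k)
/-- The indicator of a set of times. -/
noncomputable def th (c : VI) (u : FV.T c → ZMod l) (p : ℕ → Prop) : ZMod l :=
  ∑ s : FN.T c, (if p s then 1 else 0) * u (.inr s)
/-- The recomputed value of a wire. -/
noncomputable def gt (c : VI) (u : FV.T c → ZMod l) (r : Bool) (w : ℕ) : ZMod l :=
  if w < nn c then rd c u r w
  else ar (gate c w).1 (rd c u r (gate c w).2.1) (rd c u r (gate c w).2.2)
/-- A step, on wires. -/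
noncomputable def stW (d : Bool) (c : VI) (u : FV.T c → ZMod l) (r : Bool) (w : ℕ) : ZMod l :=
  th c u (fun t => t ≠ lst c d ∧ w < nn c + lev c r (nxt c d t)) * gt c u r w +
    th c u (fun t => t = lst c d) *
      if r = d then (if w < nn c then rd c u d (outw c d w) else 0) else rd c u d w
/-- A step. -/
noncomputable def Stp (d : Bool) (c : VI) (i : FV.T c) : (FV.T c → ZMod l) → ZMod l :=
  Sum.elim (fun (j : FW.T c) u => stW d c u j.1 j.2)
    (fun (s : FN.T c) u => th c u fun t => nxt c d t = s) i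
/-- The constraints. -/
noncomputable def Rs (c : VI) (e : FE.T c) : (FV.T c → ZMod l) → ZMod l :=
  Sum.elim (fun (j : FW.T c) u => rd c u j.1 j.2 -
      th c u (fun t => j.2 < nn c + lev c j.1 t) * gt c u j.1 j.2)
    (Sum.elim (fun (j : FW.T c) u => rd c u j.1 j.2 * (rd c u j.1 j.2 - 1))
      (Sum.elim (fun (j : FW.T c) u => th c u (fun t => j.2 < nn c ∧ ph c j.1 t) *
          (rd c u j.1 j.2 - rd c u (!j.1) (outw c j.1 j.2)))
        (Sum.elim (fun (s : FN.T c × FN.T c) u =>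
          th c u (fun t => t = s.1 ∧ (s.1 : ℕ) ≠ s.2) * th c u fun t => t = s.2)
          fun (_ : Unit) u => th c u (fun _ => True) - 1))) e
/-- The states. -/
def st (c : VI) (t : ℕ) (f : Bool → List Bool) : FV.T c → ZMod l :=
  Sum.elim (fun j : FW.T c => if j.2 < nn c + lev c j.1 t then bt (val c (f j.1) j.2) else 0)
    fun s : FN.T c => if (s : ℕ) = t then 1 else 0
/-- The string in a register. -/
noncomputable def inp (c : VI) (u : FV.T c → ZMod l) (r : Bool) : List Bool :=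
  (List.range (nn c)).map fun i => decide (rd c u r i = 1)
/-- The solution read from a state. -/
noncomputable def sol (c : VI) (u : FV.T c → ZMod l) : List Bool :=
  if EoLSol c.1 (inp c u false) then inp c u false else inp c u true

section PT
variable {α : Type} [Enc α] {c : α → VI} {r : α → Bool} {t : α → ℕ}

@[fun_prop] theorem pt_lev (hc : PT c) (hr : PT r) (ht : PT t) :
    PT fun a => lev (c a) (r a) (t a) := by unfold lev; fun_prop
@[fun_prop] theorem pt_lst (hc : PT c) (hr : PT r) : PT fun a => lst (c a) (r a) := by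
  unfold lst; fun_prop
@[fun_prop] theorem pt_nxt (hc : PT c) (hr : PT r) (ht : PT t) :
    PT fun a => nxt (c a) (r a) (t a) := by unfold nxt; fun_prop
@[fun_prop] theorem pt_ph (hc : PT c) (hr : PT r) (ht : PT t) :
    PT fun a => ph (c a) (r a) (t a) := by unfold ph; fun_prop

end PT

variable [NeZero l] {κ : Type} [Enc κ] {J : Fam VI} {k : ∀ c, J.T c → κ}

/-- Computable keys of indices. -/
def Key (J : Fam VI) (k : ∀ c, J.T c → κ) : Prop := PT fun z : Σ c, J.T c => k z.1 z.2

theorem keyW : Key FW fun _ j => (j.1, (j.2 : ℕ)) := PT.mk (D.pt D.s1) (D.fin_iff.1 D.s2)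

theorem keyN : Key FN fun _ s => (s : ℕ) := D.fin_iff.1 D.sigma_snd

theorem keyNN : Key (FN.prod FN) fun _ s => ((s.1 : ℕ), (s.2 : ℕ)) :=
  PT.mk (D.fin_iff.1 D.s1) (D.fin_iff.1 D.s2)

theorem pol_rd (hk : Key J k) {r : VI × κ → Bool} {w : VI × κ → ℕ}
    (hr : PT r) (hw : PT w) :
    Pol (l := l) 1 FV J fun c j u => rd c u (r (c, k c j)) (w (c, k c j)) := by
  have h1 : PT fun z : Σ c, J.T c × FW.T c => (z.1, k z.1 z.2.1) :=
    PT.mk pt_sigma_fst (pt_app hk pt_sigma_fst D.s1)
  have h2 : PT fun z : Σ c, J.T c × FW.T c => (z.2.2.1, (z.2.2.2 : ℕ)) :=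
    pt_app (f := fun c (j : FW.T c) => (j.1, (j.2 : ℕ))) keyW pt_sigma_fst D.s2
  exact Pol.comb (V := FV) (K := FW) (g := fun c j u => u (.inl j))
    (a := fun c j i => if i.1 = r (c, k c j) ∧ (i.2 : ℕ) = w (c, k c j) then 1 else 0)
    (PT.ite (PT.and (PT.eq h2.fst (hr.comp h1)) (PT.eq h2.snd (hw.comp h1))) (PT.const _)
      (PT.const _)) (Pol.var (D.inl D.sigma_snd))

theorem pol_th (hk : Key J k) {p : (VI × κ) × ℕ → Prop} (hp : PT p) :
    Pol (l := l) 1 FV J fun c j u => th c u fun t => p ((c, k c j), t) := by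
  have h1 : PT fun z : Σ c, J.T c × FN.T c => ((z.1, k z.1 z.2.1), (z.2.2 : ℕ)) :=
    PT.mk (PT.mk pt_sigma_fst (pt_app hk pt_sigma_fst D.s1)) (D.fin_iff.1 D.s2)
  exact Pol.comb (V := FV) (K := FN) (g := fun c s u => u (.inr s))
    (a := fun c j s => if p ((c, k c j), s) then 1 else 0)
    (PT.ite (hp.comp h1) (PT.const _) (PT.const _)) (Pol.var (D.inr D.sigma_snd))

theorem pol_ite (hk : Key J k) {p : VI × κ → Prop} [DecidablePred p]
    (hp : PT p) {d : ℕ} {f g : ∀ c, J.T c → (FV.T c → ZMod l) → ZMod l} (h : Pol d FV J f)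
    (h' : Pol d FV J g) : Pol d FV J fun c j u => if p (c, k c j) then f c j u else g c j u :=
  Pol.ite (p := fun c j => p (c, k c j)) (hp.comp (PT.mk pt_sigma_fst hk)) h h'

theorem pol_rd0 : Pol (l := l) 1 FV FW fun c j u => rd c u j.1 j.2 :=
  pol_rd keyW (r := fun y => y.2.1) (w := fun y => y.2.2) (by fun_prop) (by fun_prop)

theorem pol_gt : Pol (l := l) 2 FV FW fun c j u => gt c u j.1 j.2 := by
  have ha := pol_rd (l := l) keyW (r := fun y => y.2.1) (w := fun y => (gate y.1 y.2.2).2.1)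
    (by fun_prop) (by fun_prop)
  have hb := pol_rd (l := l) keyW (r := fun y => y.2.1) (w := fun y => (gate y.1 y.2.2).2.2)
    (by fun_prop) (by fun_prop)
  exact pol_ite keyW (p := fun y => y.2.2 < nn y.1) (by fun_prop) (pol_rd0.mono one_le_two)
    (pol_ite keyW (p := fun y => (gate y.1 y.2.2).1 = 0) (by fun_prop) (ha.mul hb)
      (pol_ite keyW (p := fun y => (gate y.1 y.2.2).1 = 1) (by fun_prop)
        (((ha.add hb).mono one_le_two).sub (ha.mul hb)) (Pol.one.sub (ha.mono one_le_two))))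

theorem pol_Stp (d : Bool) : Pol (l := l) 3 FV FV (Stp d) := by
  refine Pol.sum_elim (Pol.add (Pol.mul (d := 1) (d' := 2) ?_ pol_gt)
    (Pol.mono (Pol.mul (d := 1) (d' := 1) ?_ ?_) (by norm_num))) (Pol.mono (d := 1) ?_ (by norm_num))
  · exact pol_th keyW (p := fun y => y.2 ≠ lst y.1.1 d ∧
      y.1.2.2 < nn y.1.1 + lev y.1.1 y.1.2.1 (nxt y.1.1 d y.2)) (by fun_prop)
  · exact pol_th keyW (p := fun y => y.2 = lst y.1.1 d) (by fun_prop)
  · exact pol_ite keyW (p := fun y => y.2.1 = d) (by fun_prop)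
      (pol_ite keyW (p := fun y => y.2.2 < nn y.1) (by fun_prop)
        (pol_rd keyW (r := fun _ => d) (w := fun y => outw y.1 d y.2.2) (by fun_prop) (by fun_prop))
        Pol.zero)
      (pol_rd keyW (r := fun _ => d) (w := fun y => y.2.2) (by fun_prop) (by fun_prop))
  · exact pol_th keyN (p := fun y => nxt y.1.1 d y.2 = y.1.2) (by fun_prop)

theorem pol_Rs : Pol (l := l) 3 FV FE Rs := by
  refine Pol.sum_elim ((pol_rd0.mono (by norm_num)).sub (Pol.mul (d := 1) (d' := 2) ?_ pol_gt))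
    (Pol.sum_elim ((pol_rd0.mul (pol_rd0.sub Pol.one)).mono (by norm_num))
      (Pol.sum_elim (Pol.mono (Pol.mul (d := 1) (d' := 1) ?_ (pol_rd0.sub ?_)) (by norm_num))
        (Pol.sum_elim (Pol.mono (Pol.mul (d := 1) (d' := 1) ?_ ?_) (by norm_num))
          (Pol.sub (Pol.mono (d := 1) ?_ (by norm_num)) Pol.one))))
  · exact pol_th keyW (p := fun y => y.1.2.2 < nn y.1.1 + lev y.1.1 y.1.2.1 y.2) (by fun_prop)
  · exact pol_th keyW (p := fun y => y.1.2.2 < nn y.1.1 ∧ ph y.1.1 y.1.2.1 y.2) (by fun_prop)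
  · exact pol_rd keyW (r := fun y => !y.2.1) (w := fun y => outw y.1 y.2.1 y.2.2) (by fun_prop)
      (by fun_prop)
  · exact pol_th keyNN (p := fun y => y.2 = y.1.2.1 ∧ y.1.2.1 ≠ y.1.2.2) (by fun_prop)
  · exact pol_th keyNN (p := fun y => y.2 = y.1.2.2) (by fun_prop)
  · exact pol_th (k := fun _ _ => ()) (PT.const _) (p := fun _ => True) (PT.const _)

theorem pt_w0 : PT fun z : Σ c, FV.T c => st (l := l) z.1 (mm z.1 + 1) (fun _ => zz z.1) z.2 := by
  refine D.pt (D.sum_elim (Z := fun _ => ZMod l) (X := fun z : Σ c, FV.T c => FW.T z.1)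
    (Y := fun z => FN.T z.1) D.sigma_snd (D.of_pt ?_) (D.of_pt ?_))
  · have h : PT fun y : VI × Bool × ℕ => if y.2.2 < nn y.1 + lev y.1 y.2.1 (mm y.1 + 1) then
        (bt (val y.1 (zz y.1) y.2.2) : ZMod l) else 0 := by unfold bt; fun_prop
    exact h.comp (PT.mk (pt_sigma_fst.comp pt_sigma_fst)
      (pt_app (f := fun c (j : FW.T c) => (j.1, (j.2 : ℕ))) keyW (pt_sigma_fst.comp pt_sigma_fst)
        D.sigma_snd))
  · have h : PT fun y : VI × ℕ => if y.2 = mm y.1 + 1 then (1 : ZMod l) else 0 := by fun_prop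
    exact h.comp (PT.mk (pt_sigma_fst.comp pt_sigma_fst) (D.fin_iff.1 D.sigma_snd))

section Oracle
variable {B : Type} [Enc B] {p : B → VI} {v : ∀ b, FV.T (p b) → ZMod l}

theorem pt_inp (hp : PT p) (hv : PT fun z : Σ b, FV.T (p b) => v z.1 z.2) (r : Bool) :
    PT fun b => inp (p b) (v b) r := by
  refine PT.map (f := fun b i => decide (rd (p b) (v b) r i = 1)) (PT.decide (PT.eq ?_ (PT.const _)))
    (PT.range (pt_nn hp) (pb_nn.comp hp))
  have hq : PT fun q : B × ℕ => p q.1 := by fun_prop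
  refine (FW.pf.comap hq).pt_sumZ
    (f := fun q i => (if i.1 = r ∧ (i.2 : ℕ) = q.2 then 1 else 0) * v q.1 (.inl i)) ?_
  have h2 : PT fun z : Σ q : B × ℕ, FW.T (p q.1) => (z.2.1, (z.2.2 : ℕ)) :=
    pt_app (f := fun c (j : FW.T c) => (j.1, (j.2 : ℕ))) keyW (hq.comp pt_sigma_fst) D.sigma_snd
  exact pt_mulZ (PT.ite (PT.and (PT.eq h2.fst (PT.const _)) (PT.eq h2.snd pt_sigma_fst.snd))
    (PT.const _) (PT.const _)) (pt_app hv pt_sigma_fst.fst (D.inl D.sigma_snd))

theorem pt_solv (hp : PT p) (hv : PT fun z : Σ b, FV.T (p b) => v z.1 z.2) :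
    PT fun b => sol (p b) (v b) :=
  PT.ite (pt_sol hp (pt_inp hp hv false)) (pt_inp hp hv false) (pt_inp hp hv true)

end Oracle

end Vale.Agent.P330.Mach
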