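import Vale.Agent.P330.MachD

/-! The reversible machine: states and steps (block B9). -/

namespace Vale.Agent.P330.Mach

open Finset
open scoped Classical BigOperators

variable {l : ℕ} {c : VI} {t w : ℕ} {f : Bool → List Bool} {u : FV.T c → ZMod l}

theorem ar_bt (k : ℕ) (a b : Bool) : ar k (bt a) (bt b) = (bt (gv k a b) : ZMod l) := by
  unfold ar gv
  split_ifs <;> cases a <;> cases b <;> simp [bt]

theorem rd_fin (u : FV.T c → ZMod l) (j : FW.T c) : rd c u j.1 j.2 = u (.inl j) := by
  unfold rd
  rw [sum_eq_single j (fun k _ hk => ?_) (by simp)]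
  · simp
  · rw [if_neg fun h => hk (Prod.ext h.1 (Fin.ext h.2)), zero_mul]

theorem rd_lt (u : FV.T c → ZMod l) (r : Bool) (h : w < nn c + mm c) :
    rd c u r w = u (.inl (r, ⟨w, h⟩)) := rd_fin u (r, ⟨w, h⟩)

theorem lev_le (c : VI) (r : Bool) (t : ℕ) : lev c r t ≤ mm c := by
  unfold lev
  split_ifs <;> omega

theorem rd_st (r : Bool) (h : w < nn c + lev c r t) :
    rd c (st c t f) r w = (bt (val c (f r) w) : ZMod l) := by
  rw [rd_lt _ r (by have := lev_le c r t; omega)]
  simp [st, h]

theorem st_inl (j : FW.T c) : st c t f (.inl j) =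
    (if j.2 < nn c + lev c j.1 t then bt (val c (f j.1) j.2) else 0 : ZMod l) := rfl

theorem st_inr (s : FN.T c) : st c t f (.inr s) = (if (s : ℕ) = t then 1 else 0 : ZMod l) := rfl

theorem th_hot (ht : t < 2 * mm c + 2) (h : ∀ s : FN.T c, u (.inr s) = if (s : ℕ) = t then 1 else 0)
    (p : ℕ → Prop) : th c u p = if p t then 1 else 0 := by
  unfold th
  rw [sum_eq_single (⟨t, ht⟩ : FN.T c) (fun k _ hk => ?_) (by simp)]
  · simp [h]
  · rw [h, if_neg (c := (k : ℕ) = t) fun e => hk (Fin.ext e), mul_zero]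

theorem th_st (ht : t < 2 * mm c + 2) (p : ℕ → Prop) :
    th c (st c t f) p = (if p t then 1 else 0 : ZMod l) := th_hot ht (fun _ => rfl) p

theorem gt_of {r : Bool} {x : List Bool} (hx : x.length = nn c) (hw : w < nn c + mm c)
    (h : ∀ p, p < w ∨ p < nn c → rd c u r p = bt (val c x p)) :
    gt c u r w = bt (val c x w) := by
  unfold gt
  split_ifs with h1
  · exact h w (.inr h1)
  · have h2 := gate_lt (not_lt.1 h1) hw
    rw [h _ (.inl h2.1), h _ (.inl h2.2), ar_bt, ← val_gate hx (not_lt.1 h1) hw]

theorem gt_st {r : Bool} (hx : (f r).length = nn c) (hw : w < nn c + mm c)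
    (h : w ≤ nn c + lev c r t) : gt c (st c t f) r w = (bt (val c (f r) w) : ZMod l) :=
  gt_of hx hw fun _ hp => rd_st r (by omega)

/-- The strings after the wrap-around step. -/
def wrap (c : VI) (d : Bool) (f : Bool → List Bool) (r : Bool) : List Bool :=
  if r = d then fn c d (f d) else f d

theorem stp_st (d : Bool) (ht : t < 2 * mm c + 2) (hf : ∀ r, (f r).length = nn c) :
    (fun i => Stp d c i (st c t f)) =
      (st c (nxt c d t) (if t = lst c d then wrap c d f else f) : FV.T c → ZMod l) := by
  funext i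
  rcases i with ⟨r, w, hw⟩ | s
  · rw [st_inl]
    simp only [Stp, stW, Sum.elim_inl, th_st ht]
    by_cases h : t = lst c d
    · have e1 : lev c d t = mm c := by cases d <;> simp [h, lev, lst] <;> omega
      have e2 : lev c d (nxt c d t) = 0 := by cases d <;> simp [h, lev, lst, nxt]
      have e3 : lev c (!d) (nxt c d t) = mm c := by
        cases d <;> simp [h, lev, lst, nxt] <;> omega
      rw [if_neg (by simp [h]), if_pos h, if_pos h, zero_mul, zero_add, one_mul, wrap]
      by_cases hr : r = d
      · subst hr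
        rw [if_pos rfl, if_pos rfl, e2, add_zero]
        split_ifs with h1
        · rw [rd_st r (e1 ▸ outw_lt r h1), val_in (fn_len r _) h1, fn_getD (hf r) r h1]
        · rfl
      · obtain rfl : r = !d := by cases r <;> cases d <;> simp_all
        rw [if_neg hr, if_neg hr, e3, if_pos hw, rd_st d (e1 ▸ hw)]
    · rw [if_neg h, if_neg h, zero_mul, add_zero]
      by_cases h1 : w < nn c + lev c r (nxt c d t)
      · rw [if_pos ⟨h, h1⟩, if_pos h1, one_mul]
        refine gt_st (hf r) hw ?_
        revert h1 h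
        cases d <;> cases r <;> simp [lev, lst, nxt] <;> split_ifs <;> omega
      · rw [if_neg fun e => h1 e.2, if_neg h1, zero_mul]
  · rw [st_inr]
    simp only [Stp, Sum.elim_inr, th_st ht, eq_comm]
    congr

/-- Data of valid states. -/
def Good (c : VI) (t : ℕ) (f : Bool → List Bool) : Prop :=
  t < 2 * mm c + 2 ∧ (∀ r, (f r).length = nn c) ∧ ∀ r, ph c r t → f r = fn c r (f (!r))

theorem lev_ph {r : Bool} (h : ph c r t) : lev c (!r) t = mm c := by
  revert h
  cases r <;> simp [lev, ph] <;> omega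

theorem valid_st (h : Good c t f) (e : FE.T c) : Rs c e (st c t f) = (0 : ZMod l) := by
  obtain ⟨ht, hf, hp⟩ := h
  rcases e with j | j | j | s | _ <;> simp only [Rs, Sum.elim_inl, Sum.elim_inr, th_st ht]
  · split_ifs with h1
    · rw [rd_st _ h1, gt_st (hf _) j.2.2 h1.le, one_mul, sub_self]
    · simp [rd_fin, st, h1]
  · simp only [rd_fin, st, Sum.elim_inl, bt]
    split_ifs <;> simp
  · split_ifs with h1
    · rw [rd_st _ (by omega), rd_st _ (by rw [lev_ph h1.2]; exact outw_lt _ h1.1), val_in (hf _) h1.1,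
        ← fn_getD (hf _) _ h1.1, ← hp _ h1.2, sub_self, mul_zero]
    · rw [zero_mul]
  · split_ifs with h1 h2
    · exact absurd (h1.1.symm.trans h2) h1.2
    all_goals simp
  · simp

theorem inp_len (u : FV.T c → ZMod l) (r : Bool) : (inp c u r).length = nn c := by simp [inp]

theorem inp_getD (u : FV.T c → ZMod l) (r : Bool) (h : w < nn c) :
    (inp c u r).getD w false = decide (rd c u r w = 1) := by
  simp [inp, List.getD_eq_getElem?_getD, h]

theorem ext_getD {x y : List Bool} {n : ℕ} (hx : x.length = n) (hy : y.length = n)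
    (h : ∀ i < n, x.getD i false = y.getD i false) : x = y := by
  refine List.ext_getElem (hx.trans hy.symm) fun i h1 h2 => ?_
  simpa [List.getD_eq_getElem?_getD, h1, h2] using h i (hx ▸ h1)

variable [Fact l.Prime]

theorem bt_inj {a b : Bool} (h : (bt a : ZMod l) = bt b) : a = b := by
  cases a <;> cases b <;> simp_all [bt]

theorem inp_st (hf : ∀ r, (f r).length = nn c) (r : Bool) :
    inp c (st c t f : FV.T c → ZMod l) r = f r := by
  refine ext_getD (inp_len _ r) (hf r) fun i hi => ?_
  rw [inp_getD _ r hi, rd_st r (by omega), val_in (hf r) hi]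
  cases (f r).getD i false <;> simp [bt]

theorem th_eq (u : FV.T c → ZMod l) (s : FN.T c) (q : Prop) (hq : q) :
    th c u (fun t => t = s ∧ q) = u (.inr s) := by
  unfold th
  rw [sum_eq_single s (fun k _ hk => ?_) (by simp)]
  · simp [hq]
  · rw [if_neg fun e => hk (Fin.ext e.1), zero_mul]

theorem exists_hot (h : ∀ e, Rs c e u = 0) :
    ∃ t < 2 * mm c + 2, ∀ s : FN.T c, u (.inr s) = if (s : ℕ) = t then 1 else 0 := by
  have h1 : ∑ s : FN.T c, u (.inr s) = 1 := by
    have := h (.inr (.inr (.inr (.inr ()))))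
    simpa [Rs, th, sub_eq_zero] using this
  have h2 : ∀ s s' : FN.T c, s ≠ s' → u (.inr s) * u (.inr s') = 0 := fun s s' hs => by
    have := h (.inr (.inr (.inr (.inl (s, s')))))
    simp only [Rs, Sum.elim_inl, Sum.elim_inr] at this
    rw [th_eq u s _ fun e => hs (Fin.ext e)] at this
    have e := th_eq u s' True trivial
    simp only [and_true] at e
    rwa [e] at this
  obtain ⟨s, -, hs⟩ := exists_ne_zero_of_sum_ne_zero (h1.trans_ne one_ne_zero)
  have h3 : ∀ s' : FN.T c, s' ≠ s → u (.inr s') = 0 := fun s' h' =>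
    (mul_eq_zero.1 (h2 s' s h')).resolve_right hs
  rw [sum_eq_single s (fun k _ hk => h3 k hk) (by simp)] at h1
  refine ⟨s, s.2, fun s' => ?_⟩
  split_ifs with e
  · rw [Fin.ext e, h1]
  · exact h3 s' fun e' => e (by rw [e'])

theorem of_valid (h : ∀ e, Rs c e u = 0) : ∃ t f, Good c t f ∧ u = st c t f := by
  obtain ⟨t, ht, hh⟩ := exists_hot h
  have h0 : ∀ r w, w < nn c → rd c u r w = bt (val c (inp c u r) w) := fun r w hw => by
    have := h (.inr (.inl (r, ⟨w, Nat.lt_add_right _ hw⟩)))
    simp only [Rs, Sum.elim_inl, Sum.elim_inr, mul_eq_zero, sub_eq_zero] at this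
    rw [val_in (inp_len u r) hw, inp_getD u r hw]
    rcases this with e | e <;> simp [e, bt]
  have h1 : ∀ r w, w < nn c + mm c → rd c u r w = if w < nn c + lev c r t then gt c u r w else 0 :=
    fun r w hw => by
      have := h (.inl (r, ⟨w, hw⟩))
      simpa [Rs, th_hot ht hh, sub_eq_zero] using this
  have h2 : ∀ r w, w < nn c + lev c r t → rd c u r w = bt (val c (inp c u r) w) := fun r w => by
    induction w using Nat.strong_induction_on with
    | _ w ih =>
      intro hw
      have hw' : w < nn c + mm c := by have := lev_le c r t; omega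
      rw [h1 r w hw', if_pos hw]
      exact gt_of (inp_len u r) hw' fun p hp => hp.elim (fun a => ih p a (by omega)) (h0 r p)
  refine ⟨t, inp c u, ⟨ht, inp_len u, fun r hr => ?_⟩, funext fun i => ?_⟩
  · refine ext_getD (inp_len u r) (fn_len r _) fun i hi => bt_inj (l := l) ?_
    have := h (.inr (.inr (.inl (r, ⟨i, Nat.lt_add_right _ hi⟩))))
    simp only [Rs, Sum.elim_inl, Sum.elim_inr, th_hot ht hh, hi, hr, and_self, if_true, one_mul,
      sub_eq_zero] at this
    rw [fn_getD (inp_len u _) r hi, ← h2 _ _ (by rw [lev_ph hr]; exact outw_lt r hi), ← this, h0 r i hi,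
      val_in (inp_len u r) hi]
  · rcases i with j | s
    · rw [← rd_fin u j]
      simp only [st, Sum.elim_inl]
      split_ifs with e
      · exact h2 _ _ e
      · rw [h1 _ _ j.2.2, if_neg e]
    · exact hh s

theorem st_inj {t' : ℕ} {f' : Bool → List Bool} (h : Good c t f) (h' : Good c t' f')
    (e : (st c t f : FV.T c → ZMod l) = st c t' f') : t = t' ∧ f = f' := by
  refine ⟨?_, funext fun r => by rw [← inp_st (l := l) (t := t) h.2.1 r, e, inp_st h'.2.1]⟩
  have := congrFun e (.inr ⟨t, h.1⟩)
  simpa [st] using this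

end Vale.Agent.P330.Mach
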