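import Vale.Agent.P330.PcDefs

/-! Block B8: the first system. -/

namespace Vale.Agent.P330.Pc

open Vale.Agent.Lib.PolyTime Finset Vale.Agent.P325 Vale.Agent.P325.PCP Vale.Agent.P325.Pow
open scoped Classical BigOperators

variable {l : ℕ} [Fact l.Prime]

namespace PcBase

theorem len (n : ℕ) (a : Nm l) (b : ℕ) (c : ZMod l) : (pre n a b c).length = n := by simp [pre]

theorem get {n k : ℕ} (hk : k < n) (a : Nm l) (b : ℕ) (c : ZMod l) :
    (pre n a b c).getD k 0 = if k < b then a.getD k 0 else if k = b then c else 0 := by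
  rw [List.getD_eq_getElem _ _ (by rwa [len])]
  simp only [pre, List.getElem_map, List.getElem_range]

theorem pt_pre {C : Type} [Enc C] {n b : C → ℕ} {a : C → Nm l} (c : ZMod l) (hn : PT n)
    (hn' : PB n) (ha : PT a) (hb : PT b) : PT fun x => pre (n x) (a x) (b x) c := by
  have h := PT.range hn hn'
  unfold pre
  fun_prop

theorem mem1 {n : ℕ} {G : List (Nm l)} {c : ℕ × Eqn l} : c ∈ (base n G).1 ↔
    ∃ i < G.length, (i, G.getD i [], pre n [] 0 0, G.getD i []) = c := by
  simp only [base, List.mem_flatMap, List.mem_range, List.mem_map]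
  exact exists_congr fun i => and_congr_right fun _ =>
    ⟨fun ⟨_, _, h⟩ => h, fun h => ⟨0, Nat.succ_pos _, h⟩⟩

theorem mem2 {n : ℕ} {G : List (Nm l)} {c : Eqn l} : c ∈ (base n G).2 ↔
    ∃ a ∈ G, ∃ b < n, ∃ d, (pre n a b d, pre n [] b 1, pre n a b (d + 1)) = c := by
  simp only [base, List.mem_flatMap, List.mem_range, List.mem_map, mem_toList, mem_univ, true_and]

theorem all_sys {n : ℕ} {G : List (Nm l)} {P : Eqn l → Prop} : (∀ c ∈ sys (base n G), P c) ↔
    (∀ a ∈ G, P (a, pre n [] 0 0, a)) ∧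
      ∀ a ∈ G, ∀ b < n, ∀ d, P (pre n a b d, pre n [] b 1, pre n a b (d + 1)) := by
  simp only [sys, List.mem_append, List.mem_map, mem1, mem2]
  constructor
  · refine fun h => ⟨fun a ha => ?_, fun a ha b hb d => h _ (Or.inr ⟨a, ha, b, hb, d, rfl⟩)⟩
    obtain ⟨i, hi, rfl⟩ := List.getElem_of_mem ha
    rw [← List.getD_eq_getElem G [] hi]
    exact h _ (Or.inl ⟨_, ⟨i, hi, rfl⟩, rfl⟩)
  · rintro ⟨h1, h2⟩ c (⟨_, ⟨i, hi, rfl⟩, rfl⟩ | ⟨a, ha, b, hb, d, rfl⟩)
    · exact h1 _ (by rw [List.getD_eq_getElem G [] hi]; exact List.getElem_mem hi)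
    · exact h2 a ha b hb d

omit [Fact l.Prime] in
theorem neq_mem (a b : ZMod l) : 0 ≤ neq a b ∧ neq a b ≤ 1 := by
  unfold neq
  split_ifs <;> norm_num

theorem lin {n : ℕ} {a : Nm l} (ha : a.length = n) {f : Nm l → ZMod l} (h0 : f (pre n [] 0 0) = 0)
    (h : ∀ b < n, ∀ d, f (pre n a b d) + f (pre n [] b 1) = f (pre n a b (d + 1))) :
    f a = gw n (fun b => f (pre n [] b 1)) a := by
  have h1 : ∀ b < n, ∀ d : ℕ, f (pre n a b d) = f (pre n a b 0) + d * f (pre n [] b 1) := by
    intro b hb d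
    induction d with
    | zero => simp
    | succ d ih => rw [Nat.cast_succ, ← h b hb, ih]; ring
  have h2 : ∀ b, pre n a b (a.getD b 0) = pre n a (b + 1) 0 := fun b =>
    List.map_congr_left fun k _ => by
      rcases lt_trichotomy k b with hk | rfl | hk
      · rw [if_pos hk, if_pos (by omega)]
      · simp
      · rw [if_neg (by omega), if_neg (by omega), if_neg (by omega), ite_self]
  have h3 : ∀ b ≤ n, f (pre n a b 0) = ∑ k ∈ range b, a.getD k 0 * f (pre n [] k 1) := by
    intro b hb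
    induction b with
    | zero => exact h0
    | succ b ih =>
      rw [sum_range_succ, ← ih (by omega), ← h2]
      simpa only [ZMod.natCast_zmod_val] using h1 b hb (a.getD b 0).val
  have h4 : pre n a n 0 = a := List.ext_getElem (by rw [len, ha]) fun k h1 h2 => by
    rw [← List.getD_eq_getElem _ 0, ← List.getD_eq_getElem _ 0, get (ha ▸ h2), if_pos (ha ▸ h2)]
  rw [gw, ← h3 n le_rfl, h4]

end PcBase

open PcBase in
theorem s_base : S_base l := by
  refine ⟨fun C _ n G hn hn' hG => PT.mk ?_ ?_, fun n G hG hl => ?_⟩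
  · have h1 : PT fun c => List.range (n c * l + 1) :=
      PT.range (by fun_prop) ((hn'.mul (PB.const l)).add (PB.const 1))
    have h2 : PT fun c => pre (n c) ([] : Nm l) 0 0 := pt_pre 0 hn hn' (PT.const _) (PT.const _)
    have h3 : PT fun z : (C × ℕ) × ℕ => z.1.1 := by fun_prop
    have h4 : PT fun z : (C × ℕ) × ℕ => z.1.2 := by fun_prop
    have h5 := (hG.comp h3).lgetD h4 (PT.const [])
    exact PT.flatMap (PT.map (f := fun (z : C × ℕ) (_ : ℕ) =>
      (z.2, (G z.1).getD z.2 [], pre (n z.1) ([] : Nm l) 0 0, (G z.1).getD z.2 []))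
      (h4.mk (h5.mk ((h2.comp h3).mk h5))) (h1.comp PT.id.fst)) (pt_range_length hG)
  · have h1 := PT.range hn hn'
    refine PT.flatMap (PT.flatMap (pt_map_const _
      (fun (z : (C × Nm l) × ℕ) c => (pre (n z.1.1) z.1.2 z.2 c, pre (n z.1.1) [] z.2 1,
        pre (n z.1.1) z.1.2 z.2 (c + 1))) fun c _ => ?_) (h1.comp PT.id.fst)) hG
    have h2 : PT fun z : (C × Nm l) × ℕ => z.1.1 := by fun_prop
    exact PT.mk (pt_pre _ (hn.comp h2) (hn'.comp h2) (by fun_prop) (by fun_prop))
      (PT.mk (pt_pre _ (hn.comp h2) (hn'.comp h2) (by fun_prop) (by fun_prop))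
        (pt_pre _ (hn.comp h2) (hn'.comp h2) (by fun_prop) (by fun_prop)))
  have L1 : (base n G).1.length = G.length * (n * l + 1) := by simp [base, List.length_flatMap]
  have L2 : (base n G).2.length = G.length * (n * l) := by simp [base, List.length_flatMap]
  have hp := List.length_pos_of_ne_nil hG
  refine ⟨List.ne_nil_of_length_pos (by rw [L1]; positivity),
    by rw [L1, L2]; exact Nat.mul_le_mul_left _ (Nat.le_succ _),
    all_sys.2 ⟨fun a ha => by simp [len, hl a ha], fun a _ b _ d => by simp [len]⟩,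
    ⟨n * l + 1, fun F => ?_⟩, fun c hc => ?_, fun w => all_sys.2 ⟨fun a _ => ?_, fun a _ b _ d => ?_⟩,
    fun f => ?_⟩
  · rw [base, sum_flatMap_eq, mul_sum]
    change ∑ i ∈ range G.length, _ = _
    exact sum_congr rfl fun i _ => by simp
  · obtain ⟨i, hi, rfl⟩ := mem1.1 hc
    exact hi.le
  · refine add_eq_left.2 (sum_eq_zero fun k hk => ?_)
    rw [get (mem_range.1 hk)]
    simp
  · simp only [gw, ← sum_add_distrib, ← add_mul]
    refine sum_congr rfl fun k hk => ?_
    simp only [get (mem_range.1 hk)]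
    split_ifs <;> simp
  have hv : ∀ c, 0 ≤ bad f c := fun c => (neq_mem _ _).1
  by_cases hf : Holds (sys (base n G)) f
  · obtain ⟨h1, h2⟩ := all_sys.1 hf
    obtain ⟨a, ha⟩ := List.exists_mem_of_ne_nil G hG
    have h0 : f (pre n [] 0 0) = 0 := add_eq_left.1 (h1 a ha)
    refine ⟨fun b => f (pre n [] b 1), le_trans (le_of_eq (List.sum_eq_zero fun x hx => ?_))
      (mul_nonneg (Nat.cast_nonneg _) (List.sum_nonneg fun x hx => ?_))⟩
    · obtain ⟨c, hc, rfl⟩ := List.mem_map.1 hx
      obtain ⟨i, hi, rfl⟩ := mem1.1 hc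
      have hm : G.getD i [] ∈ G := by rw [List.getD_eq_getElem G [] hi]; exact List.getElem_mem hi
      exact if_pos (lin (hl _ hm) h0 (h2 _ hm))
    · obtain ⟨c, -, rfl⟩ := List.mem_map.1 hx
      exact hv c
  · simp only [Holds, not_forall] at hf
    obtain ⟨c, hc, hb⟩ := hf
    have h1 : 1 ≤ viol (sys (base n G)) f :=
      List.single_le_sum (fun x hx => by obtain ⟨c, -, rfl⟩ := List.mem_map.1 hx; exact hv c) 1
        (List.mem_map.2 ⟨c, hc, if_neg hb⟩)
    refine ⟨0, le_trans ?_ (le_mul_of_one_le_right (Nat.cast_nonneg _) h1)⟩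
    have h2 := List.sum_le_card_nsmul ((base n G).1.map fun c => neq (f c.2.1) (gw n 0 c.2.1)) 1
      fun x hx => by obtain ⟨c, -, rfl⟩ := List.mem_map.1 hx; exact (neq_mem _ _).2
    simpa [dis] using h2

end Vale.Agent.P330.Pc
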