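import Vale.Agent.P330.PcDefs

namespace Vale.Agent.P330.Pc

open Vale.Agent.Lib.PolyTime Finset Vale.Agent.P325 Vale.Agent.P325.PCP Vale.Agent.P325.Pow
open scoped Classical BigOperators

variable {l : ℕ} [Fact l.Prime]

namespace PcBlr

theorem neq_nonneg (a b : ZMod l) : 0 ≤ neq a b := by
  unfold neq
  split_ifs <;> norm_num

theorem neq_le_one (a b : ZMod l) : neq a b ≤ 1 := by
  unfold neq
  split_ifs <;> norm_num

theorem neq_le {a b c d e f : ZMod l} (h : c = d → e = f → a = b) :
    neq a b ≤ neq c d + neq e f := by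
  by_cases h1 : c = d
  · by_cases h2 : e = f
    · simp [neq, h h1 h2, h1, h2]
    · have := neq_le_one a b
      simp only [neq, if_pos h1, if_neg h2] at this ⊢
      linarith
  · have := neq_le_one a b
    have h3 := neq_nonneg e f
    have h4 : neq c d = 1 := if_neg h1
    linarith

variable {G : Type} [Fintype G] [AddCommGroup G]

theorem shift (F : G → ℝ) (r : G) : 𝔼 s, F (r + s) = 𝔼 s, F s :=
  Fintype.expect_equiv (Equiv.addLeft r) _ _ fun _ => rfl

theorem pair (A : G → ZMod l) (r : G) :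
    𝔼 s', 𝔼 s, neq (A (r + s) - A s) (A (r + s') - A s') ≤
      2 * 𝔼 r, 𝔼 s, neq (A r + A s) (A (r + s)) := by
  have h1 : 𝔼 s', 𝔼 s, neq (A (r + s) + A s') (A (r + s + s')) =
      𝔼 r, 𝔼 s, neq (A r + A s) (A (r + s)) := by
    rw [expect_comm]
    exact shift (fun x => 𝔼 s, neq (A x + A s) (A (x + s))) r
  have h2 : 𝔼 s', 𝔼 s, neq (A s + A (r + s')) (A (s + (r + s'))) =
      𝔼 r, 𝔼 s, neq (A r + A s) (A (r + s)) := by
    rw [expect_comm]
    exact expect_congr rfl fun x _ => shift (fun y => neq (A x + A y) (A (x + y))) r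
  rw [two_mul]
  nth_rewrite 1 [← h1]
  rw [← h2, ← expect_add_distrib]
  refine expect_le_expect fun s' _ => ?_
  rw [← expect_add_distrib]
  refine expect_le_expect fun s _ => neq_le fun k k' => ?_
  have e : s + (r + s') = r + s + s' := by abel
  rw [e, ← k] at k'
  linear_combination -k'

theorem additive (A g : G → ZMod l) {e : ℝ} (he : e < 1 / 3)
    (hg : ∀ r, 𝔼 s, neq (A (r + s) - A s) (g r) ≤ e) (r r' : G) : g (r + r') = g r + g r' := by
  by_contra hne
  have h1 := hg r
  have h2 := hg r'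
  have h3 := hg (r + r')
  rw [← shift (fun s => neq (A (r' + s) - A s) (g r')) r] at h2
  have h4 : (1 : ℝ) ≤ 𝔼 s, (neq (A (r + s) - A s) (g r) +
      neq (A (r' + (r + s)) - A (r + s)) (g r') + neq (A (r + r' + s) - A s) (g (r + r'))) := by
    refine le_expect univ_nonempty fun s _ => ?_
    have a1 := neq_nonneg (A (r + s) - A s) (g r)
    have a2 := neq_nonneg (A (r' + (r + s)) - A (r + s)) (g r')
    have a3 := neq_nonneg (A (r + r' + s) - A s) (g (r + r'))
    by_contra hc
    have b : ∀ a b : ZMod l, neq a b < 1 → a = b := fun a b h => by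
      by_contra k
      exact absurd (if_neg k : neq a b = 1) h.ne
    have b1 := b _ _ (show neq (A (r + s) - A s) (g r) < 1 by linarith)
    have b2 := b _ _ (show neq (A (r' + (r + s)) - A (r + s)) (g r') < 1 by linarith)
    have b3 := b _ _ (show neq (A (r + r' + s) - A s) (g (r + r')) < 1 by linarith)
    have e : r' + (r + s) = r + r' + s := by abel
    rw [e] at b2
    exact hne (by linear_combination b1 + b2 - b3)
  rw [expect_add_distrib, expect_add_distrib] at h4
  linarith

theorem dist (A g : G → ZMod l) {e : ℝ} (hg : ∀ r, 𝔼 s, neq (A (r + s) - A s) (g r) ≤ e) :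
    𝔼 r, neq (A r) (g r) ≤ 𝔼 r, 𝔼 s, neq (A r + A s) (A (r + s)) + e := by
  rw [← Fintype.expect_const (ι := G) e, ← expect_add_distrib]
  refine expect_le_expect fun r _ => le_trans ?_ (add_le_add le_rfl (hg r))
  rw [← expect_add_distrib]
  refine le_expect univ_nonempty fun s _ => neq_le fun k k' => ?_
  linear_combination k + k'

end PcBlr

open PcBlr in
theorem s_blr : S_blr l := by
  intro ι _ _ A
  have h0 : 0 ≤ 𝔼 r, 𝔼 s, neq (A r + A s) (A (r + s)) :=
    expect_nonneg fun _ _ => expect_nonneg fun _ _ => neq_nonneg _ _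
  by_cases he : 1 / 6 ≤ 𝔼 r, 𝔼 s, neq (A r + A s) (A (r + s))
  · refine ⟨0, le_trans (expect_le univ_nonempty fun r _ => neq_le_one _ _) (by linarith)⟩
  have h1 : ∀ r, ∃ s', 𝔼 s, neq (A (r + s) - A s) (A (r + s') - A s') ≤
      2 * 𝔼 r, 𝔼 s, neq (A r + A s) (A (r + s)) := fun r => by
    obtain ⟨s', -, h⟩ := exists_le_of_expect_le univ_nonempty (pair A r)
    exact ⟨s', h⟩
  choose w hw using h1
  have h2 := additive A (fun r => A (r + w r) - A (w r)) (by linarith) hw
  let φ := (AddMonoidHom.mk' (fun r => A (r + w r) - A (w r)) h2).toZModLinearMap l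
  refine ⟨fun i => φ (Pi.single i 1), ?_⟩
  have h3 : ∀ r : ι → ZMod l, r ⬝ᵥ (fun i => φ (Pi.single i 1)) = A (r + w r) - A (w r) := by
    intro r
    have := LinearMap.pi_apply_eq_sum_univ φ r
    change A (r + w r) - A (w r) = _ at this
    rw [this, dotProduct]
    refine sum_congr rfl fun i _ => ?_
    rw [smul_eq_mul]
    congr 2
    funext j
    simp [Pi.single_apply, eq_comm]
  simp only [h3]
  have h4 := dist A (fun r => A (r + w r) - A (w r)) hw
  linarith

end Vale.Agent.P330.Pc
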