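import Vale.Agent.P330.PcDefs

/-! Block B8, linear proofs of proximity: iteration of the rounds. -/

namespace Vale.Agent.P330.Pc

open Vale.Agent.Lib.PolyTime Finset Vale.Agent.P325 Vale.Agent.P325.PCP Vale.Agent.P325.Pow
open scoped Classical BigOperators

variable {l : ℕ} [Fact l.Prime]

namespace PcCore

theorem viol_nonneg (L : List (Eqn l)) (f : Nm l → ZMod l) : 0 ≤ viol L f := by
  refine List.sum_nonneg fun x hx => ?_
  obtain ⟨c, -, rfl⟩ := List.mem_map.1 hx
  unfold bad neq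
  split_ifs
  exacts [le_rfl, zero_le_one]

theorem snd_mono {n : ℕ} {a b : ℝ} {s : St l} (h : Snd n a s) (hab : a ≤ b) : Snd n b s :=
  fun f => (h f).imp fun _ hw => hw.trans (mul_le_mul_of_nonneg_right hab (viol_nonneg _ f))

theorem sz_nm {n : ℕ} {a : Nm l} (h : a.length ≤ n) : sz a ≤ n * (2 * l + 2) :=
  (sz_le_of_forall (b := l) fun x _ => (sz_nat_le x.val).trans (ZMod.val_lt x).le).trans
    (Nat.mul_le_mul_right _ h)

theorem sz_eqn {n : ℕ} {c : Eqn l} (h : c.1.length ≤ n ∧ c.2.1.length ≤ n ∧ c.2.2.length ≤ n) :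
    sz c ≤ 5 * (n * (2 * l + 2)) + 2 := by
  have h1 := sz_nm h.1
  have h2 := sz_nm h.2.1
  have h3 := sz_nm h.2.2
  rw [sz_prod, sz_prod]
  omega

theorem sz_st {n B M : ℕ} {s : St l} (h : Short n s) (hB : ∀ c ∈ s.1, c.1 ≤ B)
    (h1 : s.2.length ≤ s.1.length) (h2 : s.1.length ≤ M) :
    sz s ≤ 3 * (M * (2 * (2 * B + (5 * (n * (2 * l + 2)) + 2) + 1) + 2)) + 1 := by
  have k1 : sz s.1 ≤ M * (2 * (2 * B + (5 * (n * (2 * l + 2)) + 2) + 1) + 2) := by
    refine (sz_le_of_forall fun c hc => ?_).trans (Nat.mul_le_mul_right _ h2)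
    have a1 := sz_eqn (h c.2 (List.mem_append_left _ (List.mem_map_of_mem hc)))
    have a2 := (sz_nat_le c.1).trans (hB c hc)
    rw [sz_prod]
    omega
  have k2 : sz s.2 ≤ M * (2 * (2 * B + (5 * (n * (2 * l + 2)) + 2) + 1) + 2) := by
    refine (sz_le_of_forall fun c hc => ?_).trans (Nat.mul_le_mul_right _ (h1.trans h2))
    have a1 := sz_eqn (h c (List.mem_append_right _ hc))
    omega
  rw [sz_prod]
  omega

/-- The invariant of the iteration. -/
structure Inv (n : ℕ) (G : List (Nm l)) (m : ℕ) (κ : ℝ) (s : St l) : Prop where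
  ne : s.1 ≠ []
  le : s.2.length ≤ s.1.length
  len : s.1.length = m
  short : Short n s
  unif : Unif G s
  bd : ∀ c ∈ s.1, c.1 ≤ G.length
  holds : ∀ w, Holds (sys s) (gw n w)
  snd : Snd n κ s

theorem card_pos {t : ℕ} (ht : 0 < t) : 0 < Fintype.card (OE l t × OT l t) :=
  Fintype.card_pos_iff.2 ⟨⟨⟨⟨⟨0, by omega⟩, fun _ => default⟩, 0, 0, 0, 0⟩,
    ⟨0, ht⟩, fun _ => default, 0⟩⟩

theorem iter (hrc : S_rc l) (hsz : S_sz l) {t n m : ℕ} {K : ℝ} (ht : 0 < t) (hK : 0 < K)
    (hrs : ∀ (s : St l) (κ : ℝ), s.1 ≠ [] → s.2.length ≤ s.1.length → 0 ≤ κ → Snd n κ s →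
      Snd n (K + κ / 2) (amp t n s))
    {G : List (Nm l)} {s : St l} (h : Inv n G m m s) (k : ℕ) :
    Inv n G ((96 * Fintype.card (OE l t × OT l t)) ^ k * m) (2 * K + m / 2 ^ k)
      ((amp t n)^[k] s) := by
  induction k with
  | zero =>
    rw [pow_zero, one_mul, Function.iterate_zero, id]
    exact ⟨h.ne, h.le, h.len, h.short, h.unif, h.bd, h.holds, snd_mono h.snd (by simp [hK.le])⟩
  | succ k ih =>
    rw [Function.iterate_succ_apply']
    obtain ⟨-, -, a1, a2, a3, a4, a5⟩ := hsz t n ((amp t n)^[k] s)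
    refine ⟨?_, a2 ih.ne ih.le, ?_, a3 ih.short, a4 G ih.unif, a5 _ ih.bd,
      fun w => hrc t n _ w ih.ne (ih.holds w),
      snd_mono (hrs _ _ ih.ne ih.le (by positivity) ih.snd) (le_of_eq ?_)⟩
    · rw [← List.length_pos_iff, a1]
      exact Nat.mul_pos (Nat.mul_pos (by norm_num) (card_pos ht)) (List.length_pos_iff.2 ih.ne)
    · rw [a1, ih.len, pow_succ', mul_assoc (96 * _)]
    · rw [pow_succ]
      field_simp
      ring

end PcCore

theorem s_core (hrc : S_rc l) (hsz : S_sz l) (hrs : S_rs l) (hpt : S_pt l) (hb : S_base l) :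
    S_core l := by
  obtain ⟨t, K, ht, hK, hrs⟩ := hrs
  refine ⟨2 * K + 1, by positivity, fun C _ n G hn hn' hG h0 h1 => ?_⟩
  have key : ∀ c k, PcCore.Inv (n c) (G c)
      ((96 * Fintype.card (OE l t × OT l t)) ^ k * (base (n c) (G c)).1.length)
      (2 * K + (base (n c) (G c)).1.length / 2 ^ k) ((amp t (n c))^[k] (base (n c) (G c))) := by
    intro c k
    obtain ⟨a1, a2, a3, a4, a5, a6, a7⟩ := hb.2 (n c) (G c) (h0 c) (h1 c)
    exact PcCore.iter hrc hsz ht hK (hrs (n c)) ⟨a1, a2, rfl, a3, a4, a5, a6, a7⟩ k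
  have hB : PT fun c => base (n c) (G c) := hb.1 C n G hn hn' hG
  have hl : PB fun c => (base (n c) (G c)).1.length := hB.fst.pb_length
  refine ⟨fun c => (amp t (n c))^[Nat.size (base (n c) (G c)).1.length] (base (n c) (G c)), ?_,
    fun c => ?_⟩
  · generalize 96 * Fintype.card (OE l t × OT l t) = q at key
    have hM : PB fun c => (base (n c) (G c)).1.length ^ q * 2 ^ q * (base (n c) (G c)).1.length :=
      ((hl.pow q).mul (PB.const _)).mul hl
    have hE : PB fun c => 2 * (2 * (G c).length + (5 * (n c * (2 * l + 2)) + 2) + 1) + 2 :=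
      (((((PB.const 2).mul hG.pb_length).add ((hn'.mul (PB.const _)).lin 5 2))).add
        (PB.const 1)).lin 2 2
    refine PT.iterate (f := fun c s => amp t (n c) s)
      (hpt t (C × St l) (fun p => n p.1) (fun p => p.2) (hn.comp (PT.fst PT.id))
        (hn'.comp (PT.fst PT.id)) (PT.snd PT.id)) (pt_size hB.fst.length)
      (hl.of_le fun c => sz_nat_le _) hB ((hM.mul hE).lin 3 1) fun c k hk => ?_
    have a := key c k
    refine PcCore.sz_st a.short a.bd a.le (a.len.le.trans (Nat.mul_le_mul_right _ ?_))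
    have a0 : 0 < (base (n c) (G c)).1.length :=
      List.length_pos_iff.2 (hb.2 (n c) (G c) (h0 c) (h1 c)).1
    have a1 : 2 ^ k ≤ (base (n c) (G c)).1.length * 2 := by
      cases k with
      | zero => omega
      | succ k => exact Nat.mul_le_mul_right 2 (Nat.lt_size.1 hk)
    calc q ^ k ≤ (2 ^ q) ^ k := Nat.pow_le_pow_left Nat.lt_two_pow_self.le k
      _ = (2 ^ k) ^ q := by rw [← pow_mul, ← pow_mul, mul_comm]
      _ ≤ _ := (Nat.pow_le_pow_left a1 q).trans (le_of_eq (mul_pow _ _ _))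
  · have a := key c (Nat.size (base (n c) (G c)).1.length)
    refine ⟨a.ne, a.le, a.unif, a.holds, PcCore.snd_mono a.snd (add_le_add le_rfl ?_)⟩
    rw [div_le_one (by positivity)]
    exact_mod_cast (Nat.lt_size_self _).le

end Vale.Agent.P330.Pc
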