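import Vale.Agent.P330.PcDefs
import Vale.Agent.P325.Marg

/-! Block B8: density of the last system. -/

namespace Vale.Agent.P330.Pc

open Vale.Agent.Lib.PolyTime Finset Vale.Agent.P325 Vale.Agent.P325.PCP Vale.Agent.P325.Pow
open scoped Classical BigOperators

variable {l : ℕ} [Fact l.Prime]

namespace PcDen

/-- The points with a property. -/
noncomputable def fl (A : Type) [Fintype A] (P : A → Prop) : Finset A := univ.filter P

theorem mem_fl {A : Type} [Fintype A] {P : A → Prop} {a : A} : a ∈ fl A P ↔ P a := by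
  simp only [fl, mem_filter, mem_univ, true_and]

theorem fr_eq (A : Type) [Fintype A] (P : A → Prop) :
    fr A P = ((fl A P).card : ℝ) / Fintype.card A := rfl

theorem card_sum {A B : Type} [Fintype A] [Fintype B] (P : A ⊕ B → Prop) :
    (fl (A ⊕ B) P).card = (fl A fun a => P (Sum.inl a)).card +
      (fl B fun b => P (Sum.inr b)).card := by
  simp only [fl, card_filter, Fintype.sum_sum_type]

theorem vx_inj (s : St l) {a b : ℕ} (ha : a < nv (shape (sys s))) (hb : b < nv (shape (sys s)))
    (h : vx s a = vx s b) : a = b := by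
  have := congrArg Fin.val h
  simpa only [vx, Nat.mod_eq_of_lt ha, Nat.mod_eq_of_lt hb] using this

theorem three_lt (s : St l) (j : Fin s.1.length) : 3 * (j : ℕ) < nv (shape (sys s)) := by
  have h1 := lt_nv (shape (sys s))
  have h2 := j.2
  simp only [shape, sys, List.length_map, List.length_append] at h1 ⊢
  omega

theorem left_le {X : Type} (s : St l) (lX : List X) (d : X) (i : Fin 4) (u : X ⊕ (Vx s × Fin 3)) :
    (fl (Vx s × Port × Fin 4) fun z => fvar s lX d (Sum.inl z) i = u).card ≤ 96 := by
  obtain ⟨lam, -, -, hM⟩ := margThm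
  change MargOK lam at hM
  refine (card_le_card_of_injOn (t := univ) (fun z => z.2) (fun _ _ => mem_coe.2 (mem_univ _))
    fun z hz z' hz' e => ?_).trans (by simp)
  rw [mem_coe, mem_fl] at hz hz'
  have k := hz.trans hz'.symm
  obtain ⟨x, p⟩ := z
  obtain ⟨x', p'⟩ := z'
  obtain rfl : p = p' := e
  simp only [fvar, Sum.elim_inl, Sum.inr.injEq] at k
  split_ifs at k with h3
  · have a := step_lt hM p.1 x.2
    have b := step_lt hM p.1 x'.2
    have c := vx_inj s a.1 b.1 (Prod.mk.inj k).1
    rw [Fin.ext (a.2.symm.trans (c ▸ b.2) : (x : ℕ) = x')]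
  · rw [(Prod.mk.inj k).1]

theorem right_le {X : Type} (s : St l) (lX : List X) (d : X) (i : Fin 4) (y : Vx s × Fin 3) :
    (fl (Fin s.1.length) fun j => fvar s lX d (Sum.inr j) i = Sum.inr y).card ≤ 1 := by
  refine card_le_one.2 fun j hj j' hj' => ?_
  simp only [mem_fl, fvar, Sum.elim_inr] at hj hj'
  by_cases h3 : i = 3
  · simp only [h3, if_true, reduceCtorEq] at hj
  · simp only [h3, if_false, Sum.inr.injEq] at hj hj'
    have := vx_inj s (three_lt s j) (three_lt s j') (Prod.mk.inj (hj.trans hj'.symm)).1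
    exact Fin.ext (by omega)

theorem idx_le {X : Type} {lX : List X} (hn : lX.Nodup) (d x : X) :
    ∑ i ∈ range lX.length, (if lX.getD i d = x then (1 : ℝ) else 0) ≤ 1 := by
  rw [sum_boole]
  have : ((range lX.length).filter fun i => lX.getD i d = x).card ≤ 1 := by
    refine card_le_one.2 fun i hi j hj => ?_
    simp only [mem_filter, mem_range] at hi hj
    have e := hi.2.trans hj.2.symm
    rw [List.getD_eq_getElem _ _ hi.1, List.getD_eq_getElem _ _ hj.1] at e
    exact (hn.getElem_inj_iff).1 e
  exact_mod_cast this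

end PcDen

open PcDen in
theorem s_den : S_den l := by
  intro X _ lX d G s hn ha hG hs ⟨M, hU⟩ i u
  have hN : (0 : ℝ) < nv (shape (sys s)) := by
    exact_mod_cast (Nat.zero_le _).trans_lt (lt_nv (shape (sys s)))
  have hT : (0 : ℝ) < s.1.length := by exact_mod_cast List.length_pos_iff.2 hs
  have hQ : (Fintype.card (Qs s) : ℝ) = nv (shape (sys s)) * 96 + s.1.length := by simp
  rw [fr_eq, hQ, div_le_iff₀ (by positivity), card_sum]
  rcases u with x | y
  · have hX : lX.length = Fintype.card X := by
      rw [← List.toFinset_card_of_nodup hn, ← card_univ]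
      congr 1
      exact eq_univ_of_forall fun x => List.mem_toFinset.2 (ha x)
    have h1 := hU fun _ _ => 1
    have h2 := hU fun i _ => if lX.getD i d = x then 1 else 0
    simp only [List.map_const', List.sum_replicate, sum_const, card_range, nsmul_eq_mul, mul_one,
      hG, hX] at h1
    rw [← Fin.sum_univ_fun_getElem, hG, sum_boole] at h2
    have e0 : (fl (Vx s × Port × Fin 4) fun z =>
        fvar s lX d (Sum.inl z) i = Sum.inl x).card = 0 := by
      simp [fl, fvar]
    have e1 : (fl (Fin s.1.length) fun j => fvar s lX d (Sum.inr j) i = Sum.inl x).card ≤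
        (univ.filter fun j : Fin s.1.length => lX.getD s.1[j.1].1 d = x).card := by
      refine card_le_card fun j hj => ?_
      simp only [mem_fl, fvar, Sum.elim_inr] at hj
      simp only [mem_filter, mem_univ, true_and]
      split_ifs at hj with h3
      rw [List.getD_eq_getElem _ _ j.2] at hj
      exact Sum.inl.inj hj
    have e2 : (((fl (Fin s.1.length) fun j =>
        fvar s lX d (Sum.inr j) i = Sum.inl x).card : ℕ) : ℝ) ≤ M :=
      (Nat.cast_le.2 e1).trans (h2.le.trans (mul_le_of_le_one_right (Nat.cast_nonneg _)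
        (idx_le hn d x)))
    have hc : (0 : ℝ) < Fintype.card X := by
      have : Nonempty X := ⟨x⟩
      exact_mod_cast Fintype.card_pos
    have e3 : (M : ℝ) = (Fintype.card X : ℝ)⁻¹ * s.1.length := by
      rw [h1]; field_simp
    have e4 : (0 : ℝ) ≤ (Fintype.card X : ℝ)⁻¹ * nv (shape (sys s)) := by positivity
    have e5 : (0 : ℝ) ≤ M := Nat.cast_nonneg _
    rw [e0, zero_add, Sum.elim_inl]
    linarith
  · have e : (((fl (Vx s × Port × Fin 4) fun z =>
        fvar s lX d (Sum.inl z) i = Sum.inr y).card + (fl (Fin s.1.length) fun j =>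
          fvar s lX d (Sum.inr j) i = Sum.inr y).card : ℕ) : ℝ) ≤ 97 := by
      exact_mod_cast add_le_add (left_le s lX d i (Sum.inr y)) (right_le s lX d i y)
    have e1 : (Fintype.card (Vx s × Fin 3) : ℝ) = nv (shape (sys s)) * 3 := by simp
    rw [Sum.elim_inr, e1]
    refine e.trans ?_
    have e2 : ((nv (shape (sys s)) : ℝ) * 3)⁻¹ * (nv (shape (sys s)) * 96) = 32 := by
      field_simp; norm_num
    have e3 : (0 : ℝ) ≤ ((nv (shape (sys s)) : ℝ) * 3)⁻¹ * s.1.length := by positivity
    linarith

end Vale.Agent.P330.Pc
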