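import Vale.Agent.P330.PcDefs
import Vale.Agent.P325.Marg

/-! Block B8: completeness and soundness of the last system. -/

namespace Vale.Agent.P330.Pc

open Vale.Agent.Lib.PolyTime Finset Vale.Agent.P325 Vale.Agent.P325.PCP Vale.Agent.P325.Pow
open scoped Classical BigOperators

variable {l : ℕ} [Fact l.Prime]

namespace PcFin

theorem sum_idx {V M : Type} [Fintype V] [AddCommMonoid M] {lV : List V} (h1 : lV.Nodup)
    (h2 : ∀ v, v ∈ lV) (F : ℕ → M) : ∑ k ∈ range lV.length, F k = ∑ v, F (lV.idxOf v) := by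
  symm
  refine sum_bij (fun v _ => lV.idxOf v)
    (fun v _ => mem_range.2 (List.idxOf_lt_length_of_mem (h2 v)))
    (fun a _ b _ h => (List.idxOf_inj (h2 a)).1 h) (fun k hk => ?_) fun _ _ => rfl
  exact ⟨lV[k]'(mem_range.1 hk), mem_univ _, h1.idxOf_getElem _ _⟩

theorem getD_idx {V M : Type} {lV : List V} (h2 : ∀ v, v ∈ lV) (g : V → M) (d : M) (v : V) :
    (lV.map g).getD (lV.idxOf v) d = g v := by
  have h := List.idxOf_lt_length_of_mem (h2 v)
  rw [List.getD_eq_getElem _ _ (by rwa [List.length_map]), List.getElem_map, List.getElem_idxOf]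

theorem gw_eq {V : Type} [Fintype V] {lV : List V} (h1 : lV.Nodup) (h2 : ∀ v, v ∈ lV)
    (w : ℕ → ZMod l) (a : Nm l) :
    gw lV.length w a = ∑ v, a.getD (lV.idxOf v) 0 * w (lV.idxOf v) :=
  sum_idx h1 h2 fun k => a.getD k 0 * w k

theorem sum_fin {α : Type} (T : List α) (d : α) (F : α → ℝ) :
    (T.map F).sum = ∑ j : Fin T.length, F (T.getD j d) := by
  rw [← Fin.sum_univ_fun_getElem]
  exact sum_congr rfl fun j _ => by rw [List.getD_eq_getElem _ _ j.2]

theorem neq_nonneg (a b : ZMod l) : 0 ≤ neq a b := by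
  unfold neq
  split_ifs <;> norm_num

theorem neq_tri (a b c e : ZMod l) : neq a e ≤ neq a b + neq b c + neq c e := by
  have h1 := neq_nonneg a b
  have h2 := neq_nonneg b c
  have h3 := neq_nonneg c e
  by_cases h : a = e
  · rw [show neq a e = 0 from if_pos h]
    linarith
  · rw [show neq a e = 1 from if_neg h]
    by_cases k1 : a = b
    · by_cases k2 : b = c
      · linarith [show neq c e = 1 from if_neg fun k3 => h (k1.trans (k2.trans k3))]
      · linarith [show neq b c = 1 from if_neg k2]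
    · linarith [show neq a b = 1 from if_neg k1]

theorem fr_neq {X : Type} [Fintype X] (a b : X → ZMod l) :
    (fr X fun x => a x ≠ b x) = (∑ x, neq (a x) (b x)) / Fintype.card X := by
  rw [fr, card_filter, Nat.cast_sum]
  refine congrArg (· / _) (sum_congr rfl fun x _ => ?_)
  by_cases h : a x = b x <;> simp [neq, h]

theorem arith {C K A B T M Q N g v e u z : ℝ} (hC : 0 < C) (hK : 0 < K) (hA : 0 ≤ A) (hB : 0 ≤ B)
    (hT : 0 < T) (hM : 0 < M) (hQ : 0 < Q) (h1 : Q ≤ 9217 * T) (h2 : T = M * N) (h3 : g ≤ A)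
    (h4 : v ≤ C * g) (h5 : e ≤ K * v) (h6 : u ≤ C * g) (h7 : M * z ≤ B + u + e) :
    z / N ≤ 9217 * (1 + C + K * C) * ((A + B) / Q) := by
  have q1 := mul_le_mul_of_nonneg_left h3 hC.le
  have q2 := mul_le_mul_of_nonneg_left (h4.trans q1) hK.le
  have q3 : M * z ≤ (1 + C + K * C) * (A + B) := by
    nlinarith [mul_nonneg hC.le hB, mul_nonneg (mul_pos hK hC).le hB]
  rw [← mul_div_mul_left _ _ hM.ne', ← h2, ← mul_div_assoc, div_le_div_iff₀ hT hQ]
  calc _ ≤ (1 + C + K * C) * (A + B) * (9217 * T) := mul_le_mul q3 h1 hQ.le (by positivity)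
    _ = _ := by ring

theorem len_sys (s : St l) : (sys s).length = s.1.length + s.2.length := by
  rw [sys, List.length_append, List.length_map]

theorem len_shape (L : List (Eqn l)) : (shape L).length = L.length := List.length_map _

theorem vx_val (s : St l) {x : ℕ} (h : x < nv (shape (sys s))) : (vx s x : ℕ) = x :=
  Nat.mod_eq_of_lt h

theorem vx_fin (s : St l) (x : Vx s) : vx s x = x := Fin.ext (vx_val s x.2)

theorem sys_getD (s : St l) (j : Fin s.1.length) :
    (sys s).getD j ([], [], []) = (s.1.getD j (0, [], [], [])).2 := by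
  rw [sys, List.getD_append _ _ _ _ (by rw [List.length_map]; exact j.2),
    List.getD_eq_getElem _ _ (by rw [List.length_map]; exact j.2), List.getElem_map,
    List.getD_eq_getElem _ _ j.2]

theorem nm3_vx (s : St l) (j : Fin s.1.length) :
    nm3 (sys s) (vx s (3 * j)) 0 = (s.1.getD j (0, [], [], [])).2.1 := by
  have h1 := lt_nv (shape (sys s))
  have h2 := j.2
  rw [len_shape, len_sys] at h1
  rw [vx_val s (by omega), nm3, Nat.mod_eq_of_lt (by rw [len_sys]; omega),
    Nat.mul_div_cancel_left _ (by norm_num), sys_getD]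
  rfl

theorem test_inl {X : Type} (s : St l) (lX : List X) (d : X) (x : X → ZMod l)
    (y : Vx s × Fin 3 → ZMod l) (z : Vx s × Port × Fin 4) :
    ∑ i, fco s (.inl z) i * Sum.elim x y (fvar s lX d (.inl z) i) =
      ∑ i : Fin 4, fc (sys s) z.1 z.2.1 z.2.2 i * (if i = 3 then
        y (vx s (step (shape (sys s)) z.2.1 z.1), fb (sys s) z.1 z.2.1 z.2.2)
        else y (vx s z.1, m3 i)) :=
  sum_congr rfl fun i _ => by
    simp only [fco, fvar, Sum.elim_inl, Sum.elim_inr, apply_ite y, vx_fin]

theorem test_inr {X : Type} (s : St l) (lX : List X) (d : X) (x : X → ZMod l)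
    (y : Vx s × Fin 3 → ZMod l) (j : Fin s.1.length) :
    ∑ i, fco s (.inr j) i * Sum.elim x y (fvar s lX d (.inr j) i) =
      y (vx s (3 * j), 0) - x (lX.getD (s.1.getD j (0, [], [], [])).1 d) := by
  have e : m3 ((0 : Fin 4) : ℕ) = 0 := rfl
  simp only [fco, fvar, Sum.elim_inr, Fin.sum_univ_four, Fin.reduceEq, if_false, if_true,
    Sum.elim_inl, e]
  ring

end PcFin

open PcFin

theorem s_fin (hgs : S_gs l) (hgc : S_gc l) (hfc : S_fc l) : S_fin l := by
  intro K hK
  obtain ⟨lam, l0, l1, hM⟩ := margThm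
  change MargOK lam at hM
  obtain ⟨C, hC, hgs⟩ := hgs lam hM l0 l1
  refine ⟨9217 * (1 + C + K * C), by positivity, ?_⟩
  intro X V _ _ lX lV d gen s x1 x2 v1 v2 hs hl ⟨M, hU⟩ hH hS
  have hT : 0 < s.1.length := List.length_pos_iff.2 hs
  have hL : sys s ≠ [] := List.length_pos_iff.1 (by rw [len_sys]; omega)
  have hU' : ∀ F : X → Nm l → ℝ, ∑ j : Fin s.1.length,
      F (lX.getD (s.1.getD j (0, [], [], [])).1 d) (s.1.getD j (0, [], [], [])).2.1 =
      M * ∑ x, F x (lV.map (gen x)) := fun F => by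
    have := hU fun i a => F (lX.getD i d) a
    rw [sum_fin _ (0, [], [], []), List.length_map, sum_idx x1 x2] at this
    rw [this]
    refine congrArg _ (sum_congr rfl fun x _ => ?_)
    have e := getD_idx x2 id d x
    rw [List.map_id] at e
    rw [getD_idx x2, e]
    rfl
  have hcw : ∀ (w : ℕ → ZMod l) (x : X),
      gw lV.length w (lV.map (gen x)) = cw gen (fun v => w (lV.idxOf v)) x := fun w x => by
    rw [gw_eq v1 v2]
    exact sum_congr rfl fun v _ => by rw [getD_idx v2]
  refine ⟨fun w q => ?_, fun x y => ?_⟩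
  · have hy : ∀ u, cw (fprf s lV) w u =
        gw lV.length (fun k => (lV.map w).getD k 0) (nm3 (sys s) u.1 u.2) := fun u => by
      rw [gw_eq v1 v2]
      exact sum_congr rfl fun v _ => by rw [getD_idx v2]; rfl
    rcases q with z | j
    · rw [test_inl]
      simp only [hy, vx_fin, vx_val s (step_lt hM z.2.1 z.1.2).1]
      exact (hfc _ _ _ _ _).1 (hgc lam hM _ _ hL (hH _) z.1 z.2.1) z.2.2
    · have h1 := hU' fun x a => if a = lV.map (gen x) then 0 else 1
      simp only [if_true, sum_const_zero, mul_zero] at h1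
      have h2 := (sum_eq_zero_iff_of_nonneg fun j _ => by split_ifs <;> norm_num).1 h1 j
        (mem_univ _)
      rw [test_inr, hy, nm3_vx, by_contra fun k => one_ne_zero (ite_eq_left_iff.1 h2 k), hcw,
        sub_eq_zero]
      exact congrArg (fun u => cw gen u _) (funext fun v => getD_idx v2 w 0 v)
  · obtain ⟨τ, t1, t2⟩ := hgs (sys s) fun u b => y (vx s u, b)
    obtain ⟨w, hw⟩ := hS τ
    refine ⟨fun v => w (lV.idxOf v), ?_⟩
    obtain ⟨bd, hbd⟩ : ∃ bd : Qs s → ℝ, ∀ q, bd q =
        neq (∑ i, fco s q i * Sum.elim x y (fvar s lX d q i)) 0 := ⟨_, fun _ => rfl⟩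
    have b0 : ∀ q, 0 ≤ bd q := fun q => hbd q ▸ neq_nonneg _ _
    have a1 : gv (sys s) (fun u b => y (vx s u, b)) ≤ ∑ z, bd (.inl z) := by
      rw [gv, sum_range, Fintype.sum_prod_type]
      refine sum_le_sum fun u _ => ?_
      rw [Fintype.sum_prod_type (f := fun z : Port × Fin 4 => bd (.inl (u, z)))]
      refine sum_le_sum fun p _ => ?_
      split_ifs with h
      · exact sum_nonneg fun k _ => b0 _
      · obtain ⟨k, hk⟩ := not_forall.1 (mt (hfc _ _ _ _ _).2 h)
        refine le_trans (le_of_eq ?_) (single_le_sum (f := fun k => bd (.inl (u, p, k)))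
          (fun k _ => b0 _) (mem_univ k))
        simp only [hbd, test_inl]
        exact (if_neg hk).symm
    have a2 : ∑ j : Fin s.1.length, neq (x (lX.getD (s.1.getD j (0, [], [], [])).1 d))
        (y (vx s (3 * j), 0)) = ∑ j, bd (.inr j) := sum_congr rfl fun j _ => by
      rw [hbd, test_inr, neq, neq]
      exact if_congr (eq_comm.trans sub_eq_zero.symm) rfl rfl
    have a3 : ∑ j : Fin s.1.length, neq (y (vx s (3 * j), 0))
        (τ (s.1.getD j (0, [], [], [])).2.1) ≤ C * gv (sys s) fun u b => y (vx s u, b) := by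
      refine le_trans ?_ t2
      simp only [← sys_getD]
      rw [← sum_range fun j => neq (y (vx s (3 * j), 0)) (τ ((sys s).getD j ([], [], [])).1)]
      exact sum_le_sum_of_subset_of_nonneg (range_subset_range.2 (by rw [len_sys]; omega))
        fun _ _ _ => neq_nonneg _ _
    rw [dis, sum_fin _ (0, [], [], [])] at hw
    have a4 := hU' fun x0 a => neq (x x0) (gw lV.length w a)
    have a5 := sum_le_sum (s := (univ : Finset (Fin s.1.length))) fun j _ =>
      neq_tri (x (lX.getD (s.1.getD j (0, [], [], [])).1 d)) (y (vx s (3 * j), 0))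
        (τ (s.1.getD j (0, [], [], [])).2.1) (gw lV.length w (s.1.getD j (0, [], [], [])).2.1)
    rw [a4, sum_add_distrib, sum_add_distrib, a2] at a5
    have a6 := hU' fun _ _ => 1
    simp only [sum_const, card_univ, Fintype.card_fin, nsmul_eq_mul, mul_one] at a6
    have hT' : (0 : ℝ) < s.1.length := by exact_mod_cast hT
    have hX : (0 : ℝ) < Fintype.card X :=
      Nat.cast_pos.2 (Fintype.card_pos_iff.2 ⟨d⟩)
    have hM' : (0 : ℝ) < M := (mul_pos_iff_of_pos_right hX).1 (a6 ▸ hT')
    have c1 : Fintype.card (Qs s) ≤ 9217 * s.1.length ∧ 0 < Fintype.card (Qs s) := by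
      have h1 := nv_le (φ := shape (sys s)) (by
        rw [← List.length_pos_iff, len_shape, List.length_pos_iff]; exact hL)
      rw [len_shape, len_sys] at h1
      simp only [Fintype.card_sum, Fintype.card_prod, Fintype.card_fin]
      omega
    have c2 : (Fintype.card (Qs s) : ℝ) ≤ 9217 * s.1.length := by exact_mod_cast c1.1
    have c3 : (0 : ℝ) < Fintype.card (Qs s) := by exact_mod_cast c1.2
    have e1 : hd x (cw gen fun v => w (lV.idxOf v)) =
        (∑ x0, neq (x x0) (gw lV.length w (lV.map (gen x0)))) / Fintype.card X := by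
      simp only [hcw]
      exact fr_neq _ _
    have e2 : (fr (Qs s) fun q => ∑ i, fco s q i * Sum.elim x y (fvar s lX d q i) ≠ 0) =
        (∑ z, bd (.inl z) + ∑ j, bd (.inr j)) / Fintype.card (Qs s) := by
      rw [← Fintype.sum_sum_type bd]
      simp only [hbd]
      exact fr_neq _ _
    rw [e1, e2]
    exact arith hC hK (sum_nonneg fun _ _ => b0 _) (sum_nonneg fun _ _ => b0 _) hT' hM' c3 c2 a6
      a1 t1 hw a3 a5

end Vale.Agent.P330.Pc
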