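import Vale.Agent.P330.PcDefs

/-! Block B8: soundness and completeness of the graph. -/

namespace Vale.Agent.P330.Pc

open Vale.Agent.Lib.PolyTime Finset Vale.Agent.P325 Vale.Agent.P325.PCP Vale.Agent.P325.Pow
open scoped Classical BigOperators

variable {l : ℕ} [Fact l.Prime]

namespace PcGs

theorem len (L : List (Eqn l)) : (shape L).length = L.length := List.length_map _

theorem var_eq {L : List (Eqn l)} (hL : L ≠ []) (x : ℕ) :
    var (shape L) x = enc (nm3 L x (m3 x)) := by
  have h0 : 0 < L.length := List.length_pos_iff.2 hL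
  have h1 : x % (3 * L.length) / 3 < L.length := by
    have := Nat.mod_lt x (show 0 < 3 * L.length by omega)
    omega
  have h2 : x % (3 * L.length) / 3 < (shape L).length := by rwa [len]
  rw [var, len, clauseAt, List.getD_eq_getElem _ _ h2, nm3, List.getD_eq_getElem _ _ h1]
  simp only [shape, List.getElem_map, sel, cn, m3, Fin.ext_iff, Fin.val_zero, Fin.val_one]
  split_ifs <;> rfl

theorem nn (p : Prop) [Decidable p] : 0 ≤ (if p then (0 : ℝ) else 1) := by
  split_ifs <;> norm_num

theorem neq_nn (a b : ZMod l) : 0 ≤ neq a b := nn _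

theorem neq_le (a b : ZMod l) : neq a b ≤ 1 := by
  unfold neq
  split_ifs <;> norm_num

theorem viol_eq (L : List (Eqn l)) (f : Nm l → ZMod l) :
    viol L f = ∑ j ∈ range L.length, bad f (L.getD j ([], [], [])) := by
  induction L with
  | nil => simp [viol]
  | cons c L ih =>
    rw [List.length_cons, sum_range_succ', viol, List.map_cons, List.sum_cons, add_comm]
    congr 1

theorem point (s : ZMod l) (T : ZMod l → Bool) :
    neq s (if h : ∃ a, T a = true then h.choose else 0) ≤
      ∑ a : ZMod l, if decide (s = a) = T a then (0 : ℝ) else 1 := by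
  by_cases hc : ∀ a, decide (s = a) = T a
  · have h : ∃ a, T a = true := ⟨s, by rw [← hc]; simp⟩
    have h1 := h.choose_spec
    rw [← hc, decide_eq_true_eq] at h1
    rw [dif_pos h, ← h1, neq, if_pos rfl]
    exact sum_nonneg fun _ _ => nn _
  · push Not at hc
    obtain ⟨a, ha⟩ := hc
    refine (neq_le _ _).trans (le_trans ?_ (single_le_sum
      (f := fun a => if decide (s = a) = T a then (0 : ℝ) else 1) (fun _ _ => nn _) (mem_univ a)))
    simp only [if_neg ha, le_refl]

theorem edge (L : List (Eqn l)) (σ : ℕ → Lb l) (a : ZMod l) :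
    ∑ x ∈ range (nv (shape L)), ∑ q : Fin 8,
      (if decide (σ x (m3 x) = a) =
        decide (σ (step (shape L) (1, q) x) (m3 (step (shape L) (1, q) x)) = a)
        then (0 : ℝ) else 1) ≤ gv L σ := by
  refine sum_le_sum fun x _ => ?_
  rw [Fintype.sum_prod_type]
  refine le_trans (sum_le_sum fun q _ => ?_) (single_le_sum (f := fun b : Fin 3 => ∑ q : Fin 8,
    if lcon L x (b, q) (σ x) (σ (step (shape L) (b, q) x)) = true then (0 : ℝ) else 1)
    (fun _ _ => sum_nonneg fun _ _ => nn _) (mem_univ 1))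
  by_cases h : σ x (m3 x) = σ (step (shape L) (1, q) x) (m3 (step (shape L) (1, q) x))
  · rw [if_pos (by rw [h])]
    exact nn _
  · have : ¬ lcon L x (1, q) (σ x) (σ (step (shape L) (1, q) x)) = true := by
      simp [lcon, h]
    rw [if_neg this]
    split_ifs <;> norm_num

theorem zero_le (L : List (Eqn l)) (σ : ℕ → Lb l) :
    ∑ x ∈ range (3 * L.length),
      (if lcon L x (0, 0) (σ x) (σ (step (shape L) (0, 0) x)) = true then (0 : ℝ) else 1) ≤
      gv L σ := by
  have hl := lt_nv (shape L)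
  rw [len] at hl
  refine (sum_le_sum_of_subset_of_nonneg (range_subset_range.2 (by omega))
    fun _ _ _ => nn _).trans (sum_le_sum fun x _ => ?_)
  exact single_le_sum (f := fun p : Port =>
    if lcon L x p (σ x) (σ (step (shape L) p x)) = true then (0 : ℝ) else 1) (fun _ _ => nn _)
    (mem_univ (0, 0))

theorem nm3_eq (L : List (Eqn l)) {j r : ℕ} (hj : j < L.length) (hr : r < 3) :
    nm3 L (3 * j + r) = cn (L.getD j ([], [], [])) := by
  rw [nm3, Nat.mod_eq_of_lt (by omega), show (3 * j + r) / 3 = j by omega]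

theorem clause (L : List (Eqn l)) (σ : ℕ → Lb l) (τ : Nm l → ZMod l) :
    viol L τ ≤ ∑ x ∈ range (3 * L.length), neq (σ x (m3 x)) (τ (nm3 L x (m3 x))) +
      ∑ x ∈ range (3 * L.length),
        (if lcon L x (0, 0) (σ x) (σ (step (shape L) (0, 0) x)) = true then (0 : ℝ) else 1) := by
  rw [viol_eq, sum_range_three, sum_range_three, ← sum_add_distrib]
  refine sum_le_sum fun j hj => ?_
  have hj' := mem_range.1 hj
  have l0 : 3 * j < 3 * L.length := by omega
  have l1 : 3 * j + 1 < 3 * L.length := by omega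
  have s0 : step (shape L) (0, 0) (3 * j) = 3 * j + 1 := by simp [step, len, l0]; omega
  have s1 : step (shape L) (0, 0) (3 * j + 1) = 3 * j + 2 := by simp [step, len, l1]; omega
  have m0 : m3 (3 * j) = 0 := Fin.ext (by simp [m3])
  have m1 : m3 (3 * j + 1) = 1 := Fin.ext (by simp [m3])
  have m2 : m3 (3 * j + 2) = 2 := Fin.ext (by simp [m3])
  have n0 : nm3 L (3 * j) = _ := nm3_eq L (r := 0) hj' (by norm_num)
  rw [s0, s1, m0, m1, m2, n0, nm3_eq L hj' (by norm_num), nm3_eq L hj' (by norm_num)]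
  set c := L.getD j ([], [], [])
  have a0 := neq_nn (σ (3 * j) 0) (τ (cn c 0))
  have a1 := neq_nn (σ (3 * j + 1) 1) (τ (cn c 1))
  have a2 := neq_nn (σ (3 * j + 2) 2) (τ (cn c 2))
  have a3 := nn (lcon L (3 * j) (0, 0) (σ (3 * j)) (σ (3 * j + 1)) = true)
  have a4 := nn (lcon L (3 * j + 1) (0, 0) (σ (3 * j + 1)) (σ (3 * j + 2)) = true)
  have a5 := nn (lcon L (3 * j + 2) (0, 0) (σ (3 * j + 2))
    (σ (step (shape L) (0, 0) (3 * j + 2))) = true)
  have a6 : bad τ c ≤ 1 := neq_le _ _
  by_cases b0 : σ (3 * j) 0 = τ (cn c 0)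
  swap
  · rw [neq.eq_1 (σ (3 * j) 0), if_neg b0]; linarith
  by_cases b1 : σ (3 * j + 1) 1 = τ (cn c 1)
  swap
  · rw [neq.eq_1 (σ (3 * j + 1) 1), if_neg b1]; linarith
  by_cases b2 : σ (3 * j + 2) 2 = τ (cn c 2)
  swap
  · rw [neq.eq_1 (σ (3 * j + 2) 2), if_neg b2]; linarith
  by_cases b3 : lcon L (3 * j) (0, 0) (σ (3 * j)) (σ (3 * j + 1)) = true
  swap
  · rw [if_neg b3]; linarith
  by_cases b4 : lcon L (3 * j + 1) (0, 0) (σ (3 * j + 1)) (σ (3 * j + 2)) = true
  swap
  · rw [if_neg b4]; linarith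
  simp only [lcon, if_true, l0, l1, decide_eq_true_eq] at b3 b4
  have e : τ c.1 + τ c.2.1 = τ c.2.2 := by
    have e0 : τ c.1 = σ (3 * j) 0 := b0.symm
    have e1 : τ c.2.1 = σ (3 * j) 1 := by rw [b3.1]; exact b1.symm
    have e2 : τ c.2.2 = σ (3 * j) 2 := by rw [b3.1, b4.1]; exact b2.symm
    rw [e0, e1, e2]
    exact b3.2
  have : bad τ c = 0 := if_pos e
  linarith

end PcGs

theorem s_gs : S_gs l := by
  intro lam hM h0 h1
  have hp : 0 < 8 * (1 - lam) := by linarith
  refine ⟨l / (8 * (1 - lam)) + 1, by positivity, fun L σ => ?_⟩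
  choose T hT using fun a : ZMod l => minority hM h0 h1.le (shape L)
    fun x => decide (σ x (m3 x) = a)
  let τ0 : ℕ → ZMod l := fun v => if h : ∃ a, T a v = true then h.choose else 0
  have g0 : 0 ≤ gv L σ := sum_nonneg fun _ _ => sum_nonneg fun _ _ => PcGs.nn _
  have key : ∑ x ∈ range (3 * L.length), neq (σ x (m3 x)) (τ0 (enc (nm3 L x (m3 x)))) ≤
      l / (8 * (1 - lam)) * gv L σ := by
    have a1 : ∑ x ∈ range (3 * L.length), neq (σ x (m3 x)) (τ0 (enc (nm3 L x (m3 x)))) ≤
        ∑ a : ZMod l, ∑ x ∈ range (3 * (shape L).length),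
          if decide (σ x (m3 x) = a) = T a (var (shape L) x) then (0 : ℝ) else 1 := by
      rw [sum_comm, PcGs.len]
      refine sum_le_sum fun x hx => ?_
      have hL : L ≠ [] := by
        rintro rfl
        simp at hx
      rw [← PcGs.var_eq hL]
      exact PcGs.point _ fun a => T a (var (shape L) x)
    have a2 : 8 * (1 - lam) * ∑ a : ZMod l, ∑ x ∈ range (3 * (shape L).length),
          (if decide (σ x (m3 x) = a) = T a (var (shape L) x) then (0 : ℝ) else 1) ≤
        l * gv L σ := by
      rw [mul_sum]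
      refine (sum_le_sum fun a _ => (hT a).trans (PcGs.edge L σ a)).trans_eq ?_
      rw [sum_const, card_univ, ZMod.card, nsmul_eq_mul]
    rw [div_mul_eq_mul_div, le_div_iff₀ hp]
    nlinarith
  refine ⟨fun a => τ0 (enc a), ?_, ?_⟩
  · have := PcGs.clause L σ fun a => τ0 (enc a)
    have := PcGs.zero_le L σ
    linarith
  · refine le_trans ?_ (key.trans (by linarith))
    rw [sum_range_three]
    refine sum_le_sum fun j hj => ?_
    have m0 : m3 (3 * j) = 0 := Fin.ext (by simp [m3])
    have n0 : nm3 L (3 * j) = _ := PcGs.nm3_eq L (r := 0) (mem_range.1 hj) (by norm_num)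
    rw [m0, n0, add_assoc]
    exact le_add_of_nonneg_right (add_nonneg (PcGs.neq_nn _ _) (PcGs.neq_nn _ _))

theorem s_gc : S_gc l := by
  intro lam hM L g hL hg x ⟨a, q⟩
  fin_cases a
  · by_cases hx : x < 3 * L.length
    · obtain ⟨e1, e2, -⟩ := step_zero (φ := shape L) q (x := x) (by rwa [PcGs.len])
      rw [PcGs.len] at e1
      have e3 : nm3 L (step (shape L) (0, q) x) = nm3 L x := by
        simp only [nm3, Nat.mod_eq_of_lt e1, Nat.mod_eq_of_lt hx, e2]
      have e4 : L.getD (x / 3) ([], [], []) ∈ L := by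
        have : x / 3 < L.length := by omega
        rw [List.getD_eq_getElem _ _ this]
        exact List.getElem_mem this
      have e5 := hg _ e4
      simp only [lcon, Fin.zero_eta, if_true, hx, e3, true_and, decide_eq_true_eq]
      simp only [nm3, Nat.mod_eq_of_lt hx]
      exact e5
    · simp [lcon, hx]
  · have h1 := (step_one (φ := shape L) hM q x).1
    rw [PcGs.var_eq hL, PcGs.var_eq hL] at h1
    have h2 := Enc.inj h1
    simp [lcon, h2]
  · simp [lcon]

end Vale.Agent.P330.Pc
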