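import Vale.Agent.P330.PcDefs

/-! Block B8: powering with the plurality labelling. -/

namespace Vale.Agent.P330.Pc

open Vale.Agent.Lib.PolyTime Finset Vale.Agent.P325 Vale.Agent.P325.PCP Vale.Agent.P325.Pow
open scoped Classical BigOperators

variable {l : ℕ} [Fact l.Prime]

namespace PcPow

theorem core {P S X : Type} [Fintype P] [Nonempty P] [Fintype S] [Nonempty S] [Fintype X]
    [Nonempty X] {ι : P → P} {lam : ℝ} (hι : ∀ p, ι (ι p) = p) (h0 : 0 ≤ lam) (h1 : lam < 1)
    {t : ℕ} (ht : 0 < t) {π : P → X → X} (con : X → P → S → S → Bool)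
    (h : ∀ p x, π (ι p) (π p x) = x) (hg : Gap π lam)
    (τ : X → {s : List P // s.length < t} → S) (σ : X → S)
    (hσ : ∀ v, (t : ℝ) / Fintype.card S ≤ ∑ x ∈ range t, pop ι π (fun x => op (τ x)) x v (σ v)) :
    (4 * (Fintype.card S : ℝ) ^ 4 * (6 + 4 * (1 - (1 + lam) / 2)⁻¹))⁻¹ *
      min (t * 𝔼 x, 𝔼 p, if con x p (σ x) (σ (π p x)) = true then (0 : ℝ) else 1) 1 ≤
      𝔼 x, 𝔼 w : Fin (2 * t) × (Fin (2 * t) → P), if rel ι w (consAlong π con x (path w)) (τ x)
        (τ (walk π x (path w))) = true then (0 : ℝ) else 1 := by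
  have l0 : 0 < (1 + lam) / 2 := by linarith
  have l1 : (1 + lam) / 2 < 1 := by linarith
  have κ0 : 0 < (1 - (1 + lam) / 2)⁻¹ := inv_pos.2 (by linarith)
  have k0 : (0 : ℝ) < Fintype.card S := by exact_mod_cast Fintype.card_pos
  have : Nonempty (Fin (2 * t)) := ⟨⟨0, by omega⟩⟩
  have t0 : (0 : ℝ) < t := by exact_mod_cast ht
  obtain ⟨f, hf⟩ : ∃ f : X → P → ℝ, f = fun x p =>
    if con x p (σ x) (σ (π p x)) = true then 0 else 1 := ⟨_, rfl⟩
  have f0 : ∀ x p, 0 ≤ f x p := fun x p => by rw [hf]; dsimp only; split_ifs <;> norm_num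
  have f1 : ∀ x p, f x p ≤ 1 := fun x p => by rw [hf]; dsimp only; split_ifs <;> norm_num
  obtain ⟨φ, hφ⟩ : ∃ φ, 𝔼 x, 𝔼 p, f x p = φ := ⟨_, rfl⟩
  have φ0 : 0 ≤ φ := hφ ▸ expect_nonneg fun x _ => expect_nonneg fun p _ => f0 x p
  have hφ' : (𝔼 x, 𝔼 p, if con x p (σ x) (σ (π p x)) = true then (0 : ℝ) else 1) = φ := by
    rw [← hφ, hf]
  have m1 := first_moment hι h f0 (by positivity) hσ
  rw [hφ] at m1
  have m2 : 𝔼 e : X × (Fin (2 * t) × (Fin (2 * t) → P)),
      num ι π f (fun x => op (τ x)) σ t e.1 (path e.2) ^ 2 ≤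
        2 * (1 + 2 * (1 - (1 + lam) / 2)⁻¹) * (t * φ) + 4 * (t * φ) ^ 2 := by
    rw [expect_path t fun a l => num ι π f (fun x => op (τ x)) σ t a l ^ 2,
      div_le_iff₀ (by positivity)]
    refine (sum_le_card_nsmul _ _ (2 * (1 + 2 * (1 - (1 + lam) / 2)⁻¹) * (t * φ) +
      4 * (t * φ) ^ 2) fun L hL => ?_).trans (le_of_eq (by simp; ring))
    refine le_trans (expect_le_expect fun a _ => avg_mono fun l _ =>
      pow_le_pow_left₀ (num_nonneg f0 a l) (num_le f0 a l) 2) ?_
    refine (second_moment h l0 l1 (gap_mono h0 (by linarith) hg) f0 f1 hφ (L + 1)).trans ?_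
    have h2 : ((L + 1 : ℕ) : ℝ) ≤ 2 * t := by exact_mod_cast Nat.succ_le_of_lt (mem_range.1 hL)
    calc _ ≤ 2 * t * (1 + 2 * (1 - (1 + lam) / 2)⁻¹) * φ + (2 * t * φ) ^ 2 := by gcongr
      _ = _ := by ring
  have m3 := expect_mul_sq_le_sq_mul_sq univ
    (fun e : X × (Fin (2 * t) × (Fin (2 * t) → P)) =>
      num ι π f (fun x => op (τ x)) σ t e.1 (path e.2))
    (fun e => if rel ι e.2 (consAlong π con e.1 (path e.2)) (τ e.1)
      (τ (walk π e.1 (path e.2))) = true then (0 : ℝ) else 1)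
  have e1 : ∀ e : X × (Fin (2 * t) × (Fin (2 * t) → P)),
      num ι π f (fun x => op (τ x)) σ t e.1 (path e.2) *
        (if rel ι e.2 (consAlong π con e.1 (path e.2)) (τ e.1)
          (τ (walk π e.1 (path e.2))) = true then (0 : ℝ) else 1) =
        num ι π f (fun x => op (τ x)) σ t e.1 (path e.2) := fun e => by
    by_cases hn : num ι π f (fun x => op (τ x)) σ t e.1 (path e.2) = 0
    · rw [hn, zero_mul]
    obtain ⟨s, p, s', e2, h2, h3, h4, h5, h6⟩ := num_ne hn
    rw [if_neg, mul_one]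
    refine fun hc => h4 ?_
    have h7 := of_decide_eq_true hc s p s' e2 h2 h3
    rw [h5, h6, e2, consAlong_getD] at h7
    rw [hf]
    simp [h7]
  simp only [e1, ite_pow, one_pow, ne_eq, OfNat.ofNat_ne_zero, not_false_eq_true, zero_pow] at m3
  rw [hφ', ← expect_product', univ_product_univ]
  refine final_ineq k0 κ0 (z := t * φ) (by positivity) (min_le_left _ _) (min_le_right _ _)
    (expect_nonneg fun e _ => by split_ifs <;> norm_num) ?_ m2 m3
  rw [expect_path t (num ι π f (fun x => op (τ x)) σ t), le_div_iff₀ (by positivity)]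
  refine le_trans (le_of_eq ?_) m1
  field_simp

theorem expect_wd (t : ℕ) (G : List Port → ℝ) :
    𝔼 k : OT l t, G (wd k) = (∑ x ∈ range t, avg x G) / t := by
  rw [← univ_product_univ, expect_product, Fintype.expect_eq_sum_div_card,
    ← Fin.sum_univ_eq_sum_range fun x => avg x G, Fintype.card_fin]
  congr 1
  refine sum_congr rfl fun x _ => ?_
  rw [← univ_product_univ, expect_product, ← avg_take x.2.le G]
  exact expect_congr rfl fun a _ => Fintype.expect_const (G ((List.ofFn a).take x))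

theorem cons_coe' {C : Type} {lam : ℝ} (hM : MargOK lam) (φ : CNF3) (con : ℕ → Port → C)
    (s : List Port) : ∀ x : Fin (nv φ),
    consAlong (step φ) con x s = consAlong (stepF hM φ) (fun y => con y) x s := by
  induction s with
  | nil => exact fun _ => rfl
  | cons p s ih => exact fun x => congrArg (con x p :: ·) (ih (stepF hM φ p x))

end PcPow

open PcPow in
theorem s_pow : S_pow l := by
  intro lam hM l0 l1
  have g0 : 0 ≤ √((2 + lam ^ 2) / 3) := Real.sqrt_nonneg _
  have g1 : √((2 + lam ^ 2) / 3) < 1 := by rw [Real.sqrt_lt' one_pos]; nlinarith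
  have κ0 : 0 < (1 - (1 + √((2 + lam ^ 2) / 3)) / 2)⁻¹ := inv_pos.2 (by linarith)
  have k0 : (0 : ℝ) < Fintype.card (Lb l) := by exact_mod_cast Fintype.card_pos
  refine ⟨(4 * (Fintype.card (Lb l) : ℝ) ^ 4 *
    (6 + 4 * (1 - (1 + √((2 + lam ^ 2) / 3)) / 2)⁻¹))⁻¹ / 24, by positivity, fun t ht L τ => ?_⟩
  have t0 : (0 : ℝ) < t := by exact_mod_cast ht
  choose σ hσ using exists_pop PCP.inv (step (shape L)) (fun x => op (τ x)) t
  refine ⟨σ, fun v _ => ?_, ?_⟩
  · have a := hσ v
    have b := expect_wd (l := l) t fun s =>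
      ind (op (τ (walk (step (shape L)) v s)) (rev PCP.inv s)) (σ v)
    have c : (Fintype.card (Lb l) : ℝ) = l ^ 3 := by simp
    rw [c] at a
    refine le_trans ?_ (le_of_eq (b.symm.trans (expect_congr rfl fun k _ => ?_)))
    · rw [le_div_iff₀ t0, div_mul_eq_mul_div, one_mul]
      exact a
    · rw [op, dif_pos (by rw [length_rev, wd, List.length_take]; omega), ind]
      congr
  · have : Nonempty (Fin (nv (shape L))) := ⟨⟨0, (Nat.zero_le _).trans_lt (lt_nv _)⟩⟩
    have n0 : (0 : ℝ) < nv (shape L) := by exact_mod_cast (Nat.zero_le _).trans_lt (lt_nv _)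
    have a := core PCP.inv_inv g0 g1 ht (fun y : Fin (nv (shape L)) => lcon L y)
      (stepF_inv hM _) (gap hM _) (fun x => τ x) (fun x => σ x) fun v => by
        simpa only [pop, walk_coe hM] using hσ v
    have e1 : gv L σ = 24 * nv (shape L) * 𝔼 x : Fin (nv (shape L)), 𝔼 p,
        if lcon L x p (σ x) (σ (stepF hM _ p x)) = true then (0 : ℝ) else 1 := by
      simp only [Fintype.expect_eq_sum_div_card, Fintype.card_fin, Fintype.card_prod]
      rw [gv, ← Fin.sum_univ_eq_sum_range _ (nv (shape L)), ← sum_div]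
      push_cast
      field_simp
      rfl
    rw [Fintype.expect_eq_sum_div_card (fun x : Fin (nv (shape L)) => 𝔼 w : WW t, _), Fintype.card_fin,
      le_div_iff₀ n0] at a
    rw [← Fin.sum_univ_eq_sum_range _ (nv (shape L)), e1]
    simp only [prel, walk_coe hM, cons_coe' hM]
    refine le_trans ?_ a
    generalize (𝔼 x : Fin (nv (shape L)), 𝔼 p,
      if lcon L x p (σ x) (σ (stepF hM _ p x)) = true then (0 : ℝ) else 1) = φ
    rw [div_mul_eq_mul_div, mul_div_assoc, mul_assoc _ (min _ _)]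
    refine mul_le_mul_of_nonneg_left ?_ (by positivity)
    rw [div_le_iff₀ (by norm_num), mul_assoc (min _ _), min_mul_of_nonneg _ _ (by positivity)]
    exact min_le_min (le_of_eq (by ring)) (by linarith)

end Vale.Agent.P330.Pc
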