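import Vale.Agent.P330.PcDefs

/-! Block B8: a round is computable in polynomial time. -/

namespace Vale.Agent.P330.Pc

open Vale.Agent.Lib.PolyTime Finset Vale.Agent.P325 Vale.Agent.P325.PCP Vale.Agent.P325.Pow
open scoped Classical BigOperators

variable {l : ℕ} [Fact l.Prime]

namespace PcPt

variable {α γ : Type} [Enc α] [Enc γ] {L : α → List (Eqn l)} {n x y : α → ℕ} {t : ℕ}

theorem pt_shape (hL : PT L) : PT fun a => shape (L a) := by
  unfold shape
  refine PT.map (f := fun _ (c : Eqn l) => ((enc c.1, true), (enc c.2.1, true), (enc c.2.2, true)))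
    ?_ hL
  exact PT.mk (PT.mk (pt_enc PT.id.snd.fst) (PT.const _))
    (PT.mk (PT.mk (pt_enc PT.id.snd.snd.fst) (PT.const _))
      (PT.mk (pt_enc PT.id.snd.snd.snd) (PT.const _)))

theorem pt_sys {s : α → St l} (hs : PT s) : PT fun a => sys (s a) :=
  PT.append (PT.map (f := fun _ (c : ℕ × Eqn l) => c.2) PT.id.snd.snd hs.fst) hs.snd

theorem pt_nm3 (hL : PT L) (hx : PT x) (b : Fin 3) : PT fun a => nm3 (L a) (x a) b := by
  have h : PT fun a => (L a).getD (x a % (3 * (L a).length) / 3) ([], [], []) :=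
    PT.lgetD hL (pt_div (hx.mod ((PT.const 3).mul hL.length)) (PT.const 3)) (PT.const _)
  unfold nm3 cn
  exact PT.ite (PT.const _) h.fst (PT.ite (PT.const _) h.snd.fst h.snd.snd)

theorem pt_m3 (hx : PT x) : PT fun a => m3 (x a) :=
  D.pt (D.fin_iff.2 (hx.mod (PT.const 3)))

theorem pt_lcon (hL : PT L) (hx : PT x) (p : Port) (s s' : Lb l) :
    PT fun a => lcon (L a) (x a) p s s' := by
  unfold lcon
  exact PT.ite (PT.const _)
    (PT.ite (hx.lt ((PT.const 3).mul hL.length)) (PT.const _) (PT.const _))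
    (PT.ite (PT.const _) (PT.decide (PT.eq (pt_finite (pt_m3 hx) s)
      (pt_finite (pt_m3 (pt_step (pt_shape hL) hx p)) s'))) (PT.const _))

theorem pt_sumZ {ι : Type} (s : Finset ι) (f : α → ι → ZMod l) (hf : ∀ i, PT fun a => f a i) :
    PT fun a => ∑ i ∈ s, f a i := by
  induction s using Finset.induction_on with
  | empty => exact (PT.const (0 : ZMod l)).congr fun a => sum_empty
  | insert j s hj ih => exact (pt_addZ (hf j) ih).congr fun a => sum_insert hj

theorem pt_lc {ι : Type} [Fintype ι] (hn : PT n) (hn' : PB n) (r : ι → ZMod l)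
    (f : α → ι → Nm l) (hf : ∀ i, PT fun a => f a i) : PT fun a => lc (n a) r (f a) :=
  PT.map (f := fun a k => ∑ i, r i * (f a i).getD k 0)
    (pt_sumZ _ (fun (z : α × ℕ) i => r i * (f z.1 i).getD z.2 0) fun i =>
      pt_mulZ (PT.const _) (PT.lgetD ((hf i).comp PT.id.fst) PT.id.snd (PT.const _)))
    (PT.range hn hn')

theorem pt_tn (hn : PT n) (hn' : PB n) (hL : PT L) (hx : PT x) (r : Tb l t) :
    PT fun a => tn (n a) (L a) (x a) r :=
  pt_lc hn hn' r (fun a i => nm3 (L a) (walk (step (shape (L a))) (x a) i.1.1) i.2) fun i =>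
    pt_nm3 hL (pt_walk (pt_shape hL) _ hx) i.2

theorem pt_mkE (hn : PT n) (hn' : PB n) (hL : PT L) (hx : PT x) (hy : PT y)
    (p : Tb l t × Tb l t) (i : Fin 3) (r s : Tb l t) :
    PT fun a => mkE (n a) (L a) (x a) (y a) p i r s := by
  have h1 := fun r : Tb l t => pt_tn hn hn' hL hx r
  have h2 := fun r : Tb l t => pt_tn hn hn' hL hy r
  unfold mkE
  exact PT.ite (PT.const _) (PT.mk (h1 _) (PT.mk (h1 _) (h1 _)))
    (PT.ite (PT.const _) (PT.mk (h1 _) (PT.mk (h1 _) (h1 _))) (PT.mk (h1 _) (PT.mk (h2 _) (h2 _))))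

theorem pt_lcons (hL : PT L) (s : List Port) : ∀ {x : α → ℕ}, PT x →
    ∀ F : List (Lb l → Lb l → Bool) → α → γ, (∀ b, PT (F b)) →
      PT fun a => F (consAlong (step (shape (L a))) (lcon (L a)) (x a) s) a := by
  induction s with
  | nil => exact fun _ F hF => hF []
  | cons p s ih =>
    intro x hx F hF
    exact pt_finite_fun (fun a (k : Lb l × Lb l) => lcon (L a) (x a) p k.1 k.2)
      (fun k => pt_lcon hL hx p k.1 k.2)
      (fun b a => F (Function.curry b :: consAlong (step (shape (L a))) (lcon (L a))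
        (step (shape (L a)) p (x a)) s) a)
      fun b => ih (pt_step (pt_shape hL) hx p) (fun l a => F (Function.curry b :: l) a)
        fun _ => hF _

theorem pt_eTest (hn : PT n) (hn' : PB n) (hL : PT L) (hx : PT x) (k : OE l t) :
    PT fun a => eTest (n a) (L a) (x a) k :=
  pt_lcons hL (path k.1) hx
    (fun b a => mkE (n a) (L a) (x a) (walk (step (shape (L a))) (x a) (path k.1))
      (rho (rel inv k.1 b) k.2.2.2.2) k.2.1 k.2.2.1 k.2.2.2.1)
    fun _ => pt_mkE hn hn' hL hx (pt_walk (pt_shape hL) _ hx) _ _ _ _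

theorem pt_tTest {b : α → Nm l} (hn : PT n) (hn' : PB n) (hL : PT L) (hx : PT x) (hb : PT b)
    (k : OT l t) : PT fun a => tTest (n a) (L a) (x a) (b a) k := by
  have h := fun r : Tb l t => pt_tn hn hn' hL
    (pt_walk (pt_shape hL) (wd k) ((PT.const 3).mul hx)) r
  exact PT.mk hb (PT.mk (h _) (h _))

theorem pt_nv {φ : α → CNF3} (hφ : PT φ) : PT fun a => List.range (nv (φ a)) :=
  PT.range ((pt_gs hφ).mul (pt_gs hφ))
    ((((pb_len hφ 12).add (PB.const 1)).pow 2).of_le fun a => by
      rw [nv, pow_two]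
      have : gs (φ a) ≤ 12 * (φ a).length + 1 := Nat.succ_le_succ (Nat.sqrt_le_self _)
      exact Nat.mul_le_mul this this)

theorem pt_left {τ : Type} {s : α → St l} (hn : PT n) (hn' : PB n) (hs : PT s) (c : List τ)
    (g : τ → OT l t) : PT fun a => (List.range (s a).1.length).flatMap fun j => c.map
      fun k => (((s a).1.getD j (0, [], [], [])).1,
        tTest (n a) (sys (s a)) j ((s a).1.getD j (0, [], [], [])).2.1 (g k)) := by
  have g1 : PT fun z : α × ℕ => z.1 := PT.id.fst
  have g2 : PT fun z : α × ℕ => z.2 := PT.id.snd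
  have hg : PT fun z : α × ℕ => (s z.1).1.getD z.2 (0, [], [], []) :=
    PT.lgetD (hs.comp g1).fst g2 (PT.const _)
  have h := pt_map_const c (fun (z : α × ℕ) (k : τ) =>
    (((s z.1).1.getD z.2 (0, [], [], [])).1, tTest (n z.1) (sys (s z.1)) z.2
      ((s z.1).1.getD z.2 (0, [], [], [])).2.1 (g k))) fun k _ =>
    PT.mk hg.fst (pt_tTest (hn.comp g1) (hn'.comp g1) ((pt_sys hs).comp g1) g2 hg.snd.fst _)
  exact PT.flatMap h (pt_range_length hs.fst)

theorem pt_right {τ : Type} (hn : PT n) (hn' : PB n) (hL : PT L) (c : List τ)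
    (g : τ → OE l t) : PT fun a => (List.range (nv (shape (L a)))).flatMap fun x => c.map
      fun k => eTest (n a) (L a) x (g k) := by
  have g1 : PT fun z : α × ℕ => z.1 := PT.id.fst
  have g2 : PT fun z : α × ℕ => z.2 := PT.id.snd
  have h := pt_map_const c (fun (z : α × ℕ) (k : τ) => eTest (n z.1) (L z.1) z.2 (g k))
    fun k _ => pt_eTest (hn.comp g1) (hn'.comp g1) (hL.comp g1) g2 _
  exact PT.flatMap h (pt_nv (pt_shape hL))

end PcPt

open PcPt in
theorem s_pt : S_pt l := by
  intro t C _ n s hn hn' hs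
  have h1 := pt_left hn hn' hs (univ : Finset (Fin 96 × OE l t × OT l t)).toList fun k => k.2.2
  have h2 := pt_right hn hn' (pt_sys hs) (univ : Finset (OE l t × OT l t)).toList fun k => k.1
  unfold amp
  exact PT.mk h1 h2

end Vale.Agent.P330.Pc
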