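import Vale.Agent.P330.PcDefs
import Vale.Agent.P325.Marg

/-! Block B8: completeness and sizes of a round. -/

namespace Vale.Agent.P330.Pc

open Vale.Agent.Lib.PolyTime Finset Vale.Agent.P325 Vale.Agent.P325.PCP Vale.Agent.P325.Pow
open scoped Classical BigOperators

variable {l : ℕ} [Fact l.Prime]

namespace PcRc

variable {t n : ℕ}

theorem gw_lc {ι : Type} [Fintype ι] (w : ℕ → ZMod l) (r : ι → ZMod l) (a : ι → Nm l) :
    gw n w (lc n r a) = ∑ i, r i * gw n w (a i) := by
  simp only [gw, mul_sum]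
  rw [sum_comm]
  refine sum_congr rfl fun k hk => ?_
  have : (lc n r a).getD k 0 = ∑ i, r i * (a i).getD k 0 := by
    simp [lc, List.getD_eq_getElem?_getD, mem_range.1 hk]
  simp only [this, sum_mul, mul_assoc]

/-- The vector of the table of a vertex. -/
noncomputable def zz (t : ℕ) (g : Nm l → ZMod l) (L : List (Eqn l)) (x : ℕ) : Tb l t :=
  fun i => g (nm3 L (walk (step (shape L)) x i.1.1) i.2)

theorem gw_tn (w : ℕ → ZMod l) (L : List (Eqn l)) (x : ℕ) (r : Tb l t) :
    gw n w (tn n L x r) = r ⬝ᵥ zz t (gw n w) L x := gw_lc w r _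

theorem walk_lt {lam : ℝ} (hM : MargOK lam) {φ : CNF3} {x : ℕ} (h : x < nv φ) (s : List Port) :
    walk (step φ) x s < nv φ ∧ walk (step φ) (walk (step φ) x s) (rev inv s) = x := by
  have e := walk_coe hM φ s ⟨x, h⟩
  rw [e, walk_coe hM φ, walk_rev (stepF_inv hM φ)]
  exact ⟨Fin.is_lt _, rfl⟩

theorem mem1 {s : St l} {c : ℕ × Eqn l} (h : c ∈ (amp t n s).1) : ∃ j < s.1.length, ∃ k : OT l t,
    c = ((s.1.getD j (0, [], [], [])).1, tTest n (sys s) j (s.1.getD j (0, [], [], [])).2.1 k) := by
  obtain ⟨j, hj, h⟩ := List.mem_flatMap.1 h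
  obtain ⟨k, -, rfl⟩ := List.mem_map.1 h
  exact ⟨j, List.mem_range.1 hj, _, rfl⟩

theorem mem2 {s : St l} {c : Eqn l} (h : c ∈ (amp t n s).2) : ∃ x < nv (shape (sys s)),
    ∃ k : OE l t, c = eTest n (sys s) x k := by
  obtain ⟨j, hj, h⟩ := List.mem_flatMap.1 h
  obtain ⟨k, -, rfl⟩ := List.mem_map.1 h
  exact ⟨j, List.mem_range.1 hj, _, rfl⟩

theorem sum_range' {M : Type} [AddCommMonoid M] (m : ℕ) (f : ℕ → M) :
    ((List.range m).map f).sum = ∑ j ∈ range m, f j := (Multiset.sum_coe _).symm

theorem sum_getD {α M : Type} [AddCommMonoid M] (L : List α) (d : α) (f : α → M) :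
    ∑ j ∈ range L.length, f (L.getD j d) = (L.map f).sum := by
  induction L with
  | nil => simp
  | cons a L ih =>
    rw [List.length_cons, sum_range_succ', List.map_cons, List.sum_cons, ← ih, add_comm]
    rfl

theorem sum1 {M : Type} [AddCommMonoid M] (s : St l) (F : ℕ × Eqn l → M) :
    ((amp t n s).1.map F).sum = ∑ j ∈ range s.1.length, ∑ k : Fin 96 × OE l t × OT l t,
      F ((s.1.getD j (0, [], [], [])).1,
        tTest n (sys s) j (s.1.getD j (0, [], [], [])).2.1 k.2.2) := by
  rw [amp, sum_flatMap_eq, sum_range']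
  exact sum_congr rfl fun j _ => by rw [List.map_map, sum_toList_univ]; rfl

theorem sum2 {M : Type} [AddCommMonoid M] (s : St l) (F : Eqn l → M) :
    ((amp t n s).2.map F).sum = ∑ x ∈ range (nv (shape (sys s))), ∑ k : OE l t × OT l t,
      F (eTest n (sys s) x k.1) := by
  rw [amp, sum_flatMap_eq, sum_range']
  exact sum_congr rfl fun j _ => by rw [List.map_map, sum_toList_univ]; rfl

theorem getD_mem {α : Type} {L : List α} {j : ℕ} (h : j < L.length) (d : α) : L.getD j d ∈ L := by
  rw [List.getD_eq_getElem _ _ h]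
  exact List.getElem_mem h

theorem len_tn (L : List (Eqn l)) (x : ℕ) (r : Tb l t) : (tn n L x r).length = n := by
  simp [tn, lc]

end PcRc

open PcRc in
theorem s_rc (hgc : S_gc l) (hrho : S_rho l) : S_rc l := by
  intro t n s w hs hH c hc
  obtain ⟨lam, -, -, hM⟩ := margThm
  change MargOK lam at hM
  have hlen : (shape (sys s)).length = s.1.length + s.2.length := by simp [shape, sys]
  have hL : sys s ≠ [] := fun e => hs (by simpa [sys] using (List.append_eq_nil_iff.1 e).1)
  rcases List.mem_append.1 hc with hc | hc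
  · obtain ⟨c', hc', rfl⟩ := List.mem_map.1 hc
    obtain ⟨j, hj, k, rfl⟩ := mem1 hc'
    have h1 := lt_nv (shape (sys s))
    have h2 : (sys s).length = s.1.length + s.2.length := by simp [sys]
    have h3 : nm3 (sys s) (3 * j) 0 = (s.1.getD j (0, [], [], [])).2.1 := by
      rw [nm3, Nat.mod_eq_of_lt (by omega), Nat.mul_div_cancel_left _ (by norm_num), cn, if_pos rfl,
        sys, List.getD_append _ _ _ _ (by simpa using hj)]
      exact congrArg Prod.fst (List.getD_map s.1 (0, [], [], []) Prod.snd)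
    simp only [tTest, gw_tn, add_dotProduct, back, single_dotProduct, one_mul, zz]
    rw [(walk_lt hM (by omega) _).2, h3, add_comm]
  · obtain ⟨x, hx, k, rfl⟩ := mem2 hc
    have h1 : prel (sys s) x k.1 (cur (zz t (gw n w) (sys s) x))
        (cur (zz t (gw n w) (sys s) (walk (step (shape (sys s))) x (path k.1)))) = true := by
      refine decide_eq_true fun u p u' e h2 h3 => ?_
      rw [e, consAlong_getD, op, op, dif_pos h2, dif_pos (by rwa [length_rev]), walk_append,
        walk_cons]
      have h4 := hgc lam hM _ _ hL hH (walk (step (shape (sys s))) x u) p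
      rwa [← (walk_lt hM (step_lt hM p (walk_lt hM hx u).1).1 u').2] at h4
    have h2 := (hrho t _ x k.1 _ _).1 h1 k.2.2.2.2
    rw [eTest, mkE]
    split_ifs <;> simp only [gw_tn, add_dotProduct]
    · rw [add_comm]
    · rw [h2, add_comm]

open PcRc in
theorem s_sz : S_sz l := by
  intro t n s
  have e1 : (amp t n s).1.length = 96 * Fintype.card (OE l t × OT l t) * s.1.length := by
    have := sum1 (t := t) (n := n) s fun _ => (1 : ℕ)
    rw [List.map_const', List.sum_replicate, smul_eq_mul, mul_one] at this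
    rw [this, sum_const, sum_const, card_univ, Fintype.card_prod, Fintype.card_fin, card_range,
      smul_eq_mul, smul_eq_mul, mul_one, mul_comm]
  refine ⟨fun F => ?_, fun F => ?_, e1, fun h1 h2 => ?_, fun h c hc => ?_, ?_, fun B h c hc => ?_⟩
  · rw [sum1, mul_sum]
    refine sum_congr rfl fun j _ => ?_
    rw [Fintype.card_prod, Nat.cast_mul, mul_assoc, mul_assoc, Fintype.card_mul_expect]
    simp only [Fintype.sum_prod_type (α₁ := Fin 96), Fintype.sum_prod_type (α₁ := OE l t),
      sum_const, card_univ, Fintype.card_fin, nsmul_eq_mul, Nat.cast_ofNat]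
  · rw [sum2, mul_sum]
    refine sum_congr rfl fun j _ => ?_
    rw [Fintype.card_prod, mul_comm (Fintype.card _), Nat.cast_mul, mul_assoc,
      Fintype.card_mul_expect, Fintype.sum_prod_type, mul_sum]
    simp only [sum_const, card_univ, nsmul_eq_mul]
  · have := sum2 (t := t) (n := n) s fun _ => (1 : ℕ)
    rw [List.map_const', List.sum_replicate, smul_eq_mul, mul_one] at this
    have hlen : (shape (sys s)).length = s.1.length + s.2.length := by simp [shape, sys]
    have h3 := List.length_pos_iff.2 h1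
    have h4 := nv_le (φ := shape (sys s)) (List.length_pos_iff.1 (by omega))
    rw [this, e1, sum_const, sum_const, card_univ, card_range, smul_eq_mul, smul_eq_mul, mul_one,
      mul_right_comm]
    exact Nat.mul_le_mul_right _ (by omega)
  · rcases List.mem_append.1 hc with hc | hc
    · obtain ⟨c', hc', rfl⟩ := List.mem_map.1 hc
      obtain ⟨j, hj, k, rfl⟩ := mem1 hc'
      exact ⟨(h _ (List.mem_append_left _ (List.mem_map_of_mem (getD_mem hj _)))).1,
        (len_tn _ _ _).le, (len_tn _ _ _).le⟩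
    · obtain ⟨x, -, k, rfl⟩ := mem2 hc
      rw [eTest, mkE]
      split_ifs <;> exact ⟨(len_tn _ _ _).le, (len_tn _ _ _).le, (len_tn _ _ _).le⟩
  · rintro G ⟨M, hM⟩
    refine ⟨Fintype.card (Fin 96 × OE l t × OT l t) * M, fun F => ?_⟩
    rw [sum1, Nat.cast_mul, mul_assoc, ← hM, ← sum_getD _ (0, [], [], []), mul_sum]
    simp only [tTest, sum_const, card_univ, nsmul_eq_mul]
  · obtain ⟨j, hj, k, rfl⟩ := mem1 hc
    exact h (s.1.getD j _) (getD_mem hj _)

end Vale.Agent.P330.Pc
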