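import Vale.Agent.P330.PcDefs

/-! Block B8: random linear relations and the tests of the graph. -/

namespace Vale.Agent.P330.Pc

open Vale.Agent.Lib.PolyTime Finset Vale.Agent.P325 Vale.Agent.P325.PCP Vale.Agent.P325.Pow
open scoped Classical BigOperators

variable {l : ℕ} [Fact l.Prime]

theorem s_fc : S_fc l := by
  intro L x p s s'
  unfold lcon fc fb
  by_cases h0 : p.1 = 0
  · by_cases h1 : x < 3 * L.length
    · simp only [if_pos h0, if_pos h1, decide_eq_true_eq, Fin.forall_fin_succ, funext_iff,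
        Fin.sum_univ_four, m3]
      simp [← sub_eq_add_neg, sub_eq_zero, and_assoc]
    · simp [h0, h1]
  · by_cases h1 : p.1 = 1
    · simp only [if_neg h0, if_pos h1, decide_eq_true_eq, forall_const, Fin.sum_univ_four]
      have h3 : x % 3 = 0 ∨ x % 3 = 1 ∨ x % 3 = 2 := by omega
      have e : ∀ a b : ℕ, a % 3 = b % 3 → m3 a = m3 b := fun a b h => Fin.ext h
      rcases h3 with h | h | h
      · rw [e x 0 h]; simp [h, ← sub_eq_add_neg, sub_eq_zero]
      · rw [e x 1 h]; simp [h, ← sub_eq_add_neg, sub_eq_zero]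
      · rw [e x 2 h]; simp [h, ← sub_eq_add_neg, sub_eq_zero]
    · simp [h0, h1]

namespace PcRho

theorem sep {L : List (Eqn l)} {y : ℕ} {p : Port} {u u' : Lb l} (h : lcon L y p u u' ≠ true) :
    ∃ c c' : Lb l, (∀ v v', lcon L y p v v' = true → c ⬝ᵥ v = c' ⬝ᵥ v') ∧ c ⬝ᵥ u ≠ c' ⬝ᵥ u' := by
  have key : ∀ (k : Fin 4) (v v' : Lb l),
      ∑ i : Fin 4, fc L y p k i * (if i = 3 then v' (fb L y p k) else v (m3 i)) =
        (fun b : Fin 3 => fc L y p k b.castSucc) ⬝ᵥ v -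
          Pi.single (fb L y p k) (-fc L y p k 3) ⬝ᵥ v' := fun k v v' => by
    rw [single_dotProduct, dotProduct, Fin.sum_univ_four, Fin.sum_univ_three]
    simp [m3]
  obtain ⟨k, hk⟩ := not_forall.1 (mt (s_fc L y p u u').2 h)
  exact ⟨_, _, fun v v' hv => sub_eq_zero.1 ((key k v v').symm.trans ((s_fc L y p v v').1 hv k)),
    fun e => hk ((key k u u').trans (sub_eq_zero.2 e))⟩

variable {t : ℕ}

/-- A functional on one label as a functional on tables. -/
noncomputable def lift (s : Wd t) (c : Lb l) : Tb l t := fun i => if i.1 = s then c i.2 else 0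

theorem lift_dot (s : Wd t) (c : Lb l) (a : Tb l t) : lift s c ⬝ᵥ a = c ⬝ᵥ cur a s := by
  simp only [dotProduct, lift, cur, Fintype.sum_prod_type, ite_mul, zero_mul]
  rw [sum_comm]
  simp

theorem exists_ann {L : List (Eqn l)} {x : ℕ} {w : WW t} {a b : Tb l t}
    (h : prel L x w (cur a) (cur b) ≠ true) : ∃ p ∈ ann (prel L x w), p.1 ⬝ᵥ a ≠ p.2 ⬝ᵥ b := by
  have h1 := mt decide_eq_true h
  push Not at h1
  obtain ⟨s, p, s', e, h2, h3, h4⟩ := h1
  have h5 : (rev inv s').length < t := by rwa [length_rev]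
  rw [e, consAlong_getD, op, op, dif_pos h2, dif_pos h5] at h4
  obtain ⟨c, c', h6, h7⟩ := sep h4
  refine ⟨(lift ⟨s, h2⟩ c, lift ⟨_, h5⟩ c'), mem_filter.2 ⟨mem_univ _, fun v v' hv => ?_⟩,
    by rwa [lift_dot, lift_dot]⟩
  have h8 := of_decide_eq_true hv s p s' e h2 h3
  rw [e, consAlong_getD, op, op, dif_pos h2, dif_pos h5] at h8
  rw [lift_dot, lift_dot]
  exact h6 _ _ h8

theorem rho_sub (R : (Wd t → Lb l) → (Wd t → Lb l) → Bool) (ω : Tb l t × Tb l t → ZMod l)
    (a b : Tb l t) : (rho R ω).1 ⬝ᵥ a - (rho R ω).2 ⬝ᵥ b =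
      ∑ p ∈ ann R, ω p * (p.1 ⬝ᵥ a - p.2 ⬝ᵥ b) := by
  simp only [rho, Prod.fst_sum, Prod.snd_sum, sum_dotProduct, Prod.smul_fst, Prod.smul_snd,
    smul_dotProduct, smul_eq_mul, mul_sub, sum_sub_distrib]

theorem half {ι : Type} [Fintype ι] [DecidableEq ι] (A : Finset ι) (g : ι → ZMod l) {p : ι}
    (hp : p ∈ A) (h : g p ≠ 0) : 1 / 2 ≤ 𝔼 ω : ι → ZMod l, neq (∑ q ∈ A, ω q * g q) 0 := by
  set f : (ι → ZMod l) → ℝ := fun ω => neq (∑ q ∈ A, ω q * g q) 0 with hf
  have h2 : 𝔼 ω, f (ω + Pi.single p 1) = 𝔼 ω, f ω :=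
    Fintype.expect_equiv (Equiv.addRight _) _ _ fun _ => rfl
  have h3 : ∀ ω, 1 ≤ f ω + f (ω + Pi.single p 1) := fun ω => by
    simp only [hf, neq]
    split_ifs with h4 h5
    · simp only [Pi.add_apply, add_mul, sum_add_distrib, h4, zero_add] at h5
      rw [sum_eq_single p (fun q _ hq => by simp [hq]) (fun hq => absurd hp hq)] at h5
      exact absurd (by simpa using h5) h
    all_goals norm_num
  have h4 := le_expect univ_nonempty fun ω (_ : ω ∈ univ) => h3 ω
  rw [expect_add_distrib, h2] at h4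
  linarith

end PcRho

open PcRho in
theorem s_rho : S_rho l := by
  intro t L x w a b
  refine ⟨fun h ω => ?_, fun h => ?_⟩
  · rw [← sub_eq_zero, rho_sub]
    exact sum_eq_zero fun p hp => by rw [(mem_filter.1 hp).2 a b h, sub_self, mul_zero]
  obtain ⟨p, hp, h1⟩ := exists_ann h
  refine (half _ (fun q => q.1 ⬝ᵥ a - q.2 ⬝ᵥ b) hp (sub_ne_zero.2 h1)).trans_eq
    (expect_congr rfl fun ω _ => ?_)
  simp only [neq, ← rho_sub, sub_eq_zero]

end Vale.Agent.P330.Pc
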