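import Vale.Agent.P330.PcDefs
import Vale.Agent.P325.Marg
import Vale.Agent.P325.Fourier

/-! Block B8: soundness of one round. -/

namespace Vale.Agent.P330.Pc

open Vale.Agent.Lib.PolyTime Finset Vale.Agent.P325 Vale.Agent.P325.PCP Vale.Agent.P325.Pow
open scoped Classical BigOperators

set_option linter.unusedSectionVars false

variable {l : ℕ} [Fact l.Prime]

namespace PcRs

theorem neq_nonneg (a b : ZMod l) : 0 ≤ neq a b := by unfold neq; split_ifs <;> norm_num

theorem neq_le (a b : ZMod l) : neq a b ≤ 1 := by unfold neq; split_ifs <;> norm_num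

theorem neq_tri (a b c : ZMod l) : neq a c ≤ neq a b + neq b c := by
  by_cases h1 : a = b
  · subst h1
    linarith [neq_nonneg a a]
  · have : neq a b = 1 := if_neg h1
    linarith [neq_le a c, neq_nonneg b c]

theorem neq_comm (a b : ZMod l) : neq a b = neq b a := by simp only [neq, eq_comm]

theorem neq_add (a b c : ZMod l) : neq (a + c) (b + c) = neq a b := by simp only [neq, add_left_inj]

theorem sum_getD {β : Type} (T : List β) (d : β) (F : β → ℝ) :
    (T.map F).sum = ∑ j ∈ range T.length, F (T.getD j d) := by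
  induction T with
  | nil => simp
  | cons c T ih => rw [List.length_cons, sum_range_succ', List.map_cons, List.sum_cons, ih, add_comm]; rfl

variable {t : ℕ}

/-- Self-correction. -/
theorem corr (A : Tb l t → ZMod l) (z φ : Tb l t) (v : ZMod l) :
    neq v (φ ⬝ᵥ z) ≤ 𝔼 r, neq (v + A r) (A (r + φ)) + 2 * 𝔼 r, neq (A r) (r ⬝ᵥ z) := by
  rw [two_mul]
  nth_rewrite 2 [← Fou.expect_add_right (fun r => neq (A r) (r ⬝ᵥ z)) φ]
  rw [← expect_add_distrib, ← expect_add_distrib]
  refine le_expect univ_nonempty fun r _ => ?_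
  have h1 := neq_tri (v + r ⬝ᵥ z) (v + A r) (φ ⬝ᵥ z + r ⬝ᵥ z)
  have h2 := neq_tri (v + A r) (A (r + φ)) (φ ⬝ᵥ z + r ⬝ᵥ z)
  rw [neq_add, add_comm v, add_comm v, neq_add, neq_comm (r ⬝ᵥ z), add_comm _ v] at h1
  rw [add_dotProduct, add_comm (r ⬝ᵥ z)]
  linarith

theorem sum_walk {lam : ℝ} (hM : MargOK lam) (φ : CNF3) (δ : ℕ → ℝ) (h0 : ∀ x, 0 ≤ δ x)
    (a b : ℕ) (hb : 0 < b) (h : ∀ j < a, b * j < nv φ) (s : List Port) :
    ∑ j ∈ range a, δ (walk (step φ) (b * j) s) ≤ ∑ x ∈ range (nv φ), δ x := by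
  have e : ∀ j (hj : j < a), walk (step φ) (b * j) s = (walk (stepF hM φ) ⟨b * j, h j hj⟩ s).1 :=
    fun j hj => walk_coe hM φ s ⟨b * j, h j hj⟩
  rw [← sum_image (s := range a) (g := fun j => walk (step φ) (b * j) s) (f := δ)
    fun i hi j hj hij => ?_]
  · refine sum_le_sum_of_subset_of_nonneg (fun y hy => ?_) fun _ _ _ => h0 _
    obtain ⟨j, hj, rfl⟩ := mem_image.1 hy
    rw [e j (mem_range.1 hj)]
    exact mem_range.2 (Fin.is_lt _)
  · dsimp only at hij
    rw [e i (mem_range.1 hi), e j (mem_range.1 hj)] at hij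
    have h1 := congrArg (fun y => walk (stepF hM φ) y (rev inv s)) (Fin.ext hij)
    simp only [walk_rev (stepF_inv hM φ), Fin.mk.injEq] at h1
    exact Nat.eq_of_mul_eq_mul_left hb h1

theorem exp_prod {A B : Type} [Fintype A] [Fintype B] (F : A × B → ℝ) :
    𝔼 z, F z = 𝔼 a, 𝔼 b, F (a, b) := Fou.expect_prod_type F

variable (n : ℕ) (L : List (Eqn l)) (f : Nm l → ZMod l)

theorem exp_e (x : ℕ) : 3 * 𝔼 k : OE l t, bad f (eTest n L x k) = 𝔼 w : WW t,
    ((𝔼 r : Tb l t, 𝔼 s, neq (f (tn n L x r) + f (tn n L x s)) (f (tn n L x (r + s)))) +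
    (𝔼 ω, 𝔼 r, neq (f (tn n L x (rho (prel L x w) ω).1) + f (tn n L x r))
      (f (tn n L x (r + (rho (prel L x w) ω).1)))) +
    𝔼 ω, 𝔼 s, neq (f (tn n L x (rho (prel L x w) ω).1) +
      f (tn n L (walk (step (shape L)) x (path w)) s))
      (f (tn n L (walk (step (shape L)) x (path w)) (s + (rho (prel L x w) ω).2)))) := by
  rw [exp_prod, mul_expect]
  refine expect_congr rfl fun w _ => ?_
  rw [exp_prod, Fintype.expect_eq_sum_div_card, Fin.sum_univ_three, Fintype.card_fin,
    Nat.cast_ofNat, mul_div_cancel₀ _ three_ne_zero]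
  simp only [exp_prod, eTest, mkE, bad, if_true, one_ne_zero, if_false, Fin.reduceEq,
    Fintype.expect_const]
  congr 1
  · congr 1
    exact expect_comm _ _ _
  · exact expect_comm _ _ _

theorem nn {A B : Type} [Fintype A] [Fintype B] (u v : A → B → ZMod l) :
    0 ≤ 𝔼 a, 𝔼 b, neq (u a b) (v a b) :=
  expect_nonneg fun _ _ => expect_nonneg fun _ _ => neq_nonneg _ _

variable (z : ℕ → Tb l t)

/-- Distance of a table from its decoding. -/
noncomputable def dl (x : ℕ) : ℝ := 𝔼 r : Tb l t, neq (f (tn n L x r)) (r ⬝ᵥ z x)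

/-- Rejection probability of the inner tests. -/
noncomputable def rj (t x : ℕ) : ℝ := 𝔼 k : OE l t, bad f (eTest n L x k)

theorem dl_nonneg (x : ℕ) : 0 ≤ dl n L f z x := expect_nonneg fun _ _ => neq_nonneg _ _

theorem co (x : ℕ) (φ : Tb l t) (v : ZMod l) : neq v (φ ⬝ᵥ z x) ≤
    𝔼 r, neq (v + f (tn n L x r)) (f (tn n L x (r + φ))) + 2 * dl n L f z x :=
  corr (fun r => f (tn n L x r)) (z x) φ v

theorem blr_le [Nonempty (Fin (2 * t))] (x : ℕ) :
    𝔼 r : Tb l t, 𝔼 s, neq (f (tn n L x r) + f (tn n L x s)) (f (tn n L x (r + s))) ≤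
      3 * rj n L f t x := by
  rw [rj, exp_e]
  exact le_expect univ_nonempty fun w _ =>
    le_add_of_le_of_nonneg (le_add_of_nonneg_right (nn _ _)) (nn _ _)

theorem edge [Nonempty (Fin (2 * t))] (hrho : S_rho l) (x : ℕ) :
    𝔼 w : WW t, (if prel L x w (cur (z x)) (cur (z (walk (step (shape L)) x
      (path w)))) = true then (0 : ℝ) else 1) ≤ 6 * rj n L f t x + 4 * dl n L f z x +
        4 * 𝔼 w : WW t, dl n L f z (walk (step (shape L)) x (path w)) := by
  rw [show 6 * rj n L f t x = 2 * (3 * rj n L f t x) by ring, rj, exp_e, mul_expect, mul_expect,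
    ← Fintype.expect_const (ι := WW t) (4 * dl n L f z x), ← expect_add_distrib,
    ← expect_add_distrib]
  refine expect_le_expect fun w _ => ?_
  have b0 := nn (fun (r s : Tb l t) => f (tn n L x r) + f (tn n L x s))
    fun r s => f (tn n L x (r + s))
  have b1 := dl_nonneg n L f z x
  have b2 := dl_nonneg n L f z (walk (step (shape L)) x (path w))
  split_ifs with h
  · exact add_nonneg (add_nonneg (mul_nonneg zero_le_two
      (add_nonneg (add_nonneg b0 (nn _ _)) (nn _ _))) (by linarith)) (by linarith)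
  · have b3 := (hrho t L x w _ _).2 h
    have b4 := b3.trans (expect_le_expect fun ω _ => (neq_tri _
      (f (tn n L x (rho (prel L x w) ω).1)) _).trans (add_le_add
        ((neq_comm _ _).trans_le (co n L f z x _ _)) (co n L f z _ _ _)))
    simp only [expect_add_distrib, Fintype.expect_const] at b4
    linarith

theorem tie (j : ℕ) (a : Nm l) (u : Lb l) :
    (𝔼 k : OT l t, if cur (z (walk (step (shape L)) (3 * j) (wd k))) ⟨rev inv (wd k), by
        rw [length_rev, wd, List.length_take]; omega⟩ = u then (1 : ℝ) else 0) * neq (f a) (u 0) ≤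
      𝔼 k : OT l t, bad f (tTest n L j a k) +
        2 * 𝔼 k : OT l t, dl n L f z (walk (step (shape L)) (3 * j) (wd k)) := by
  rw [expect_mul, mul_expect, exp_prod, exp_prod, exp_prod, ← expect_add_distrib]
  refine expect_le_expect fun i _ => ?_
  rw [exp_prod, exp_prod, exp_prod, ← expect_add_distrib]
  refine expect_le_expect fun v _ => expect_le univ_nonempty fun r _ => ?_
  have h1 := co n L f z (walk (step (shape L)) (3 * j) (wd (i, v, r))) (back (i, v, r)) (f a)
  rw [← Fintype.expect_const (ι := Tb l t) (2 * dl n L f z _), back, single_dotProduct,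
    one_mul] at h1
  refine le_trans ?_ h1
  split_ifs with h
  · rw [one_mul, ← h]; rfl
  · rw [zero_mul]; exact neq_nonneg _ _

theorem fin1 {q C κ k g A B D v VT VE S : ℝ} (q0 : 0 ≤ q) (κ0 : 0 ≤ κ) (k0 : 0 ≤ k) (T0 : 0 ≤ VT)
    (E0 : 0 ≤ VE) (h1 : S ≤ A + (B + D)) (h2 : A ≤ q * (VT + 36 * VE)) (h3 : B ≤ C * g)
    (h4 : D ≤ κ * v) (h5 : v ≤ C * g) (h6 : 192 * (C * g) ≤ VE) :
    96 * S ≤ (3456 * q + 1 + k + κ / 2) * (96 * VT + VE) := by
  have a10 := mul_le_mul_of_nonneg_left h5 κ0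
  have a11 := mul_le_mul_of_nonneg_left h6 κ0
  have a12 := mul_nonneg κ0 T0
  have a13 := mul_nonneg k0 T0
  have a14 := mul_nonneg k0 E0
  have a15 := mul_nonneg q0 T0
  nlinarith

end PcRs

open PcRs

theorem s_rs (hblr : S_blr l) (hgs : S_gs l) (hpow : S_pow l) (hrho : S_rho l) (hsz : S_sz l) :
    S_rs l := by
  obtain ⟨lam, l0, l1, hM⟩ := margThm
  change MargOK lam at hM
  obtain ⟨C, C0, hC⟩ := hgs lam hM l0 l1
  obtain ⟨c, c0, hc⟩ := hpow lam hM l0 l1
  obtain ⟨t, ht⟩ := exists_nat_ge (28800 * C / c)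
  have t0 : 0 < t := Nat.cast_pos.1 (lt_of_lt_of_le (by positivity) ht)
  rw [div_le_iff₀ c0] at ht
  have lp : (0 : ℝ) < (l : ℝ) ^ 3 := pow_pos (Nat.cast_pos.2 (Fact.out : l.Prime).pos) 3
  refine ⟨t, 3456 * l ^ 3 + 1 + 1200 / c, t0, by positivity, fun n s κ h1 h2 κ0 hs f => ?_⟩
  have : Nonempty (Fin t) := ⟨⟨0, t0⟩⟩
  have : Nonempty (Fin (2 * t)) := ⟨⟨0, by omega⟩⟩
  obtain ⟨z1, z2, -⟩ := hsz t n s
  obtain ⟨L, hL⟩ : ∃ L, L = sys s := ⟨_, rfl⟩
  rw [Snd, ← hL] at hs
  rw [← hL] at z1 z2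
  choose z hz using fun x => hblr (Wd t × Fin 3) fun r => f (tn n L x r)
  obtain ⟨σ, p1, p2⟩ := hc t t0 L fun x => cur (z x)
  obtain ⟨τ, g1, g2⟩ := hC L σ
  obtain ⟨w, hw⟩ := hs τ
  refine ⟨w, ?_⟩
  have δ0 := dl_nonneg n L f z
  have a1 : ∀ x, dl n L f z x ≤ 18 * rj n L f t x := fun x =>
    (hz x).trans (by linarith [blr_le (t := t) n L f x])
  have l1 : s.1.length ≤ L.length := by rw [hL, sys, List.length_append, List.length_map]; omega
  have l2 : 12 * L.length < nv (shape L) := by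
    have := lt_nv (shape L)
    rwa [shape, List.length_map] at this
  obtain ⟨VE, hE⟩ : ∃ VE, VE = ∑ x ∈ range (nv (shape L)), rj n L f t x := ⟨_, rfl⟩
  have E0 : 0 ≤ VE := hE ▸ sum_nonneg fun x _ => expect_nonneg fun _ _ => neq_nonneg _ _
  have a3 : ∑ x ∈ range (nv (shape L)), dl n L f z x ≤ 18 * VE := by
    rw [hE, mul_sum]; exact sum_le_sum fun x _ => a1 x
  have a4 : c * min (t * gv L σ) (nv (shape L)) ≤ 150 * VE := by
    refine p2.trans ((sum_le_sum fun x _ => edge n L f z hrho x).trans ?_)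
    rw [sum_add_distrib, sum_add_distrib, ← mul_sum, ← mul_sum, ← mul_sum, ← expect_sum_comm, ← hE]
    have : 𝔼 w : WW t, ∑ x ∈ range (nv (shape L)), dl n L f z (walk (step (shape L)) x (path w)) ≤
        ∑ x ∈ range (nv (shape L)), dl n L f z x := expect_le univ_nonempty fun w _ => by
      simpa using sum_walk hM (shape L) _ δ0 (nv (shape L)) 1 one_pos (by simp) (path w)
    linarith
  obtain ⟨VT, hT⟩ : ∃ VT, VT = ∑ j ∈ range s.1.length, 𝔼 k : OT l t,
    bad f (tTest n L j (s.1.getD j (0, [], [], [])).2.1 k) := ⟨_, rfl⟩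
  have T0 : 0 ≤ VT := hT ▸ sum_nonneg fun x _ => expect_nonneg fun _ _ => neq_nonneg _ _
  have a6 : ∑ j ∈ range s.1.length, neq (f (s.1.getD j (0, [], [], [])).2.1) (σ (3 * j) 0) ≤
      l ^ 3 * (VT + 36 * VE) := by
    have h3 := sum_le_sum (s := range s.1.length) fun j hj =>
      (mul_le_mul_of_nonneg_right (p1 (3 * j) (by have := mem_range.1 hj; omega))
        (neq_nonneg _ _)).trans (tie n L f z j (s.1.getD j (0, [], [], [])).2.1 (σ (3 * j)))
    rw [← mul_sum, sum_add_distrib, ← mul_sum, ← expect_sum_comm _ _ fun k j => dl n L f z _, ← hT,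
      one_div, inv_mul_le_iff₀ lp] at h3
    have : 𝔼 k : OT l t, ∑ j ∈ range s.1.length,
        dl n L f z (walk (step (shape L)) (3 * j) (wd k)) ≤
        ∑ x ∈ range (nv (shape L)), dl n L f z x := expect_le univ_nonempty fun k _ =>
      sum_walk hM (shape L) _ δ0 _ 3 (by norm_num) (fun j hj => by omega) (wd k)
    exact h3.trans (mul_le_mul_of_nonneg_left (by linarith) lp.le)
  have a7 : ∑ j ∈ range s.1.length, neq (σ (3 * j) 0) (τ (s.1.getD j (0, [], [], [])).2.1) ≤
      C * gv L σ := by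
    refine le_trans ?_ ((sum_le_sum_of_subset_of_nonneg (range_subset_range.2 l1)
      fun _ _ _ => neq_nonneg _ _).trans g2)
    refine le_of_eq (sum_congr rfl fun j hj => ?_)
    have hj' := mem_range.1 hj
    rw [hL, sys, List.getD_append _ _ _ _ (by rwa [List.length_map]),
      List.getD_eq_getElem _ _ hj', List.getD_eq_getElem _ _ (by rwa [List.length_map]),
      List.getElem_map]
  have v1 : viol (sys (amp t n s)) f = Fintype.card (OE l t × OT l t) * (96 * VT + VE) := by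
    rw [viol, sys, List.map_append, List.sum_append, List.map_map, z1, z2, hT, hE]
    simp only [Function.comp, rj]
    ring
  have v2 : dis (amp t n s).1 f (gw n w) = Fintype.card (OE l t × OT l t) * (96 *
      ∑ j ∈ range s.1.length, neq (f (s.1.getD j (0, [], [], [])).2.1)
        (gw n w (s.1.getD j (0, [], [], [])).2.1)) := by
    rw [dis, z1]
    simp only [tTest, Fintype.expect_const]
    ring
  rw [v1, v2, mul_left_comm (_ + κ / 2)]
  refine mul_le_mul_of_nonneg_left ?_ (Nat.cast_nonneg _)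
  have k1 : 0 ≤ 1200 / c := by positivity
  rcases le_total (t * gv L σ) (nv (shape L)) with h | h
  · rw [min_eq_left h] at a4
    rw [dis, sum_getD _ (0, [], [], [])] at hw
    have a8 := sum_le_sum (s := range s.1.length) fun j _ =>
      (neq_tri (f (s.1.getD j (0, [], [], [])).2.1) (σ (3 * j) 0) _).trans (add_le_add le_rfl
        (neq_tri _ (τ (s.1.getD j (0, [], [], [])).2.1) (gw n w (s.1.getD j (0, [], [], [])).2.1)))
    rw [sum_add_distrib, sum_add_distrib] at a8
    have gv0 : 0 ≤ gv L σ := sum_nonneg fun _ _ => sum_nonneg fun _ _ => by split_ifs <;> norm_num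
    have a9 := mul_le_mul_of_nonneg_right ht gv0
    exact fin1 lp.le κ0 k1 T0 E0 a8 a6 a7 hw g1 (by linarith)
  · rw [min_eq_right h] at a4
    have a8 := sum_le_card_nsmul (range s.1.length) _ 1 fun j _ =>
      neq_le (f (s.1.getD j (0, [], [], [])).2.1) (gw n w (s.1.getD j (0, [], [], [])).2.1)
    rw [card_range, nsmul_eq_mul, mul_one] at a8
    have a9 : (12 * s.1.length : ℝ) ≤ nv (shape L) := by exact_mod_cast (by omega)
    have a10 : 8 * (nv (shape L) : ℝ) ≤ 1200 / c * VE := by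
      rw [div_mul_eq_mul_div, le_div_iff₀ c0]; linarith
    have a11 : 0 ≤ (3456 * (l : ℝ) ^ 3 + 1 + κ / 2) * (96 * VT + VE) := by positivity
    have a13 := mul_nonneg k1 T0
    linarith

end Vale.Agent.P330.Pc
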