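import Vale.Agent.P330.PcTop
import Vale.Agent.P330.PcRs
import Vale.Agent.P330.PcBlr
import Vale.Agent.P330.PcGs
import Vale.Agent.P330.PcPow
import Vale.Agent.P330.PcRho
import Vale.Agent.P330.PcRc
import Vale.Agent.P330.PcPt
import Vale.Agent.P330.PcBase
import Vale.Agent.P330.PcCore
import Vale.Agent.P330.PcDen
import Vale.Agent.P330.PcFin

/-! Block B8: a linear proof of proximity to a linear code. -/

namespace Vale.Agent.P330

open Pc in
theorem pcppThm : PCPPThm :=
  pcpp_of (fun _ _ => s_core (s_rc s_gc s_rho) s_sz (s_rs s_blr s_gs s_pow s_rho s_sz) s_pt s_base)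
    (fun _ _ => s_den) fun _ _ => s_fin s_gs s_gc s_fc

end Vale.Agent.P330
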