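import Vale.Agent.P330.Ifc
import Vale.Agent.P325.PCPAmp
import Vale.Agent.P325.Pow

/-! Block B8, linear proofs of proximity: definitions and statements. -/

namespace Vale.Agent.P330.Pc

open Vale.Agent.Lib.PolyTime Finset Vale.Agent.P325 Vale.Agent.P325.PCP Vale.Agent.P325.Pow
open scoped Classical BigOperators

/-- Names of variables: coefficient lists of linear forms. -/
abbrev Nm (l : ℕ) : Type := List (ZMod l)

/-- The equation `f a + f b = f c`. -/
abbrev Eqn (l : ℕ) : Type := Nm l × Nm l × Nm l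

/-- Labels. -/
abbrev Lb (l : ℕ) : Type := Fin 3 → ZMod l

/-- Short words. -/
abbrev Wd (t : ℕ) : Type := {s : List Port // s.length < t}

noncomputable instance (t : ℕ) : Fintype (Wd t) :=
  @Fintype.ofFinite _ (List.finite_length_lt Port t).to_subtype

/-- Positions in a table, and the vectors encoded by tables. -/
abbrev Tb (l t : ℕ) : Type := Wd t × Fin 3 → ZMod l

/-- Walks of the powered graph. -/
abbrev WW (t : ℕ) : Type := Fin (2 * t) × (Fin (2 * t) → Port)

/-- Random strings of the inner tests. -/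
abbrev OE (l t : ℕ) : Type := WW t × Fin 3 × Tb l t × Tb l t × (Tb l t × Tb l t → ZMod l)

/-- Random strings of the comparisons. -/
abbrev OT (l t : ℕ) : Type := Fin t × (Fin t → Port) × Tb l t

/-- States: comparisons (with the number of the input) and other equations. -/
abbrev St (l : ℕ) : Type := List (ℕ × Eqn l) × List (Eqn l)

variable {l : ℕ} [Fact l.Prime]

noncomputable instance (t : ℕ) : DecidableEq (Wd t × Fin 3) := Classical.decEq _

noncomputable instance (t : ℕ) : Fintype (Tb l t) := Pi.instFintype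

noncomputable instance (t : ℕ) : DecidableEq (Tb l t × Tb l t) := Classical.decEq _

noncomputable instance (t : ℕ) : Fintype (Tb l t × Tb l t → ZMod l) := Pi.instFintype

noncomputable instance (t : ℕ) : Fintype (OE l t) := instFintypeProd _ _

noncomputable instance (t : ℕ) : Fintype (OT l t) := instFintypeProd _ _

/-- Indicator of a difference. -/
noncomputable def neq (a b : ZMod l) : ℝ := if a = b then 0 else 1

/-- Indicator of a violated equation. -/
noncomputable def bad (f : Nm l → ZMod l) (c : Eqn l) : ℝ := neq (f c.1 + f c.2.1) (f c.2.2)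

/-- Number of violated equations. -/
noncomputable def viol (L : List (Eqn l)) (f : Nm l → ZMod l) : ℝ := (L.map (bad f)).sum

/-- All equations hold. -/
def Holds (L : List (Eqn l)) (f : Nm l → ZMod l) : Prop := ∀ c ∈ L, f c.1 + f c.2.1 = f c.2.2

/-- Number of comparisons on which two assignments differ. -/
noncomputable def dis (T : List (ℕ × Eqn l)) (f g : Nm l → ZMod l) : ℝ :=
  (T.map fun c => neq (f c.2.1) (g c.2.1)).sum

/-- The equations of a state. -/
def sys (s : St l) : List (Eqn l) := s.1.map Prod.snd ++ s.2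

/-- The occurrence pattern of a system. -/
def shape (L : List (Eqn l)) : CNF3 :=
  L.map fun c => ((enc c.1, true), (enc c.2.1, true), (enc c.2.2, true))

/-- The names in an equation. -/
def cn (c : Eqn l) (b : Fin 3) : Nm l := if b = 0 then c.1 else if b = 1 then c.2.1 else c.2.2

/-- The names seen by a vertex. -/
def nm3 (L : List (Eqn l)) (x : ℕ) : Fin 3 → Nm l :=
  cn (L.getD (x % (3 * L.length) / 3) ([], [], []))

/-- The component owned by a vertex. -/
def m3 (x : ℕ) : Fin 3 := ⟨x % 3, Nat.mod_lt _ (by norm_num)⟩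

/-- The constraints of the graph. -/
noncomputable def lcon (L : List (Eqn l)) (x : ℕ) (p : Port) (s s' : Lb l) : Bool :=
  if p.1 = 0 then (if x < 3 * L.length then decide (s = s' ∧ s 0 + s 1 = s 2) else true)
  else if p.1 = 1 then decide (s (m3 x) = s' (m3 (step (shape L) p x)))
  else true

/-- Number of violated constraints of the graph. -/
noncomputable def gv (L : List (Eqn l)) (σ : ℕ → Lb l) : ℝ :=
  ∑ x ∈ range (nv (shape L)), ∑ p : Port,
    if lcon L x p (σ x) (σ (step (shape L) p x)) = true then 0 else 1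

/-- Linear combination of names. -/
def lc {ι : Type} [Fintype ι] (n : ℕ) (r : ι → ZMod l) (a : ι → Nm l) : Nm l :=
  (List.range n).map fun k => ∑ i, r i * (a i).getD k 0

/-- The value of a linear form. -/
def gw (n : ℕ) (w : ℕ → ZMod l) (a : Nm l) : ZMod l := ∑ k ∈ range n, a.getD k 0 * w k

variable {t : ℕ}

/-- The name of a position in the table of a vertex. -/
noncomputable def tn (n : ℕ) (L : List (Eqn l)) (x : ℕ) (r : Tb l t) : Nm l :=
  lc n r fun i => nm3 L (walk (step (shape L)) x i.1.1) i.2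

/-- A vector as a label of the powered graph. -/
def cur (z : Tb l t) : Wd t → Lb l := fun s b => z (s, b)

/-- The linear relations that follow from a constraint. -/
noncomputable def ann (R : (Wd t → Lb l) → (Wd t → Lb l) → Bool) : Finset (Tb l t × Tb l t) :=
  univ.filter fun p => ∀ a b : Tb l t, R (cur a) (cur b) = true → p.1 ⬝ᵥ a = p.2 ⬝ᵥ b

/-- A random linear relation. -/
noncomputable def rho (R : (Wd t → Lb l) → (Wd t → Lb l) → Bool)
    (ω : Tb l t × Tb l t → ZMod l) : Tb l t × Tb l t := ∑ p ∈ ann R, ω p • p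

/-- The constraint of the powered graph. -/
noncomputable def prel (L : List (Eqn l)) (x : ℕ) (w : WW t) :
    (Wd t → Lb l) → (Wd t → Lb l) → Bool :=
  rel inv w (consAlong (step (shape L)) (lcon L) x (path w))

/-- The three inner tests between the vertices `x` and `y`. -/
noncomputable def mkE (n : ℕ) (L : List (Eqn l)) (x y : ℕ) (p : Tb l t × Tb l t) (i : Fin 3)
    (r s : Tb l t) : Eqn l :=
  if i = 0 then (tn n L x r, tn n L x s, tn n L x (r + s))
  else if i = 1 then (tn n L x p.1, tn n L x r, tn n L x (r + p.1))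
  else (tn n L x p.1, tn n L y s, tn n L y (s + p.2))

/-- An inner test. -/
noncomputable def eTest (n : ℕ) (L : List (Eqn l)) (x : ℕ) (k : OE l t) : Eqn l :=
  mkE n L x (walk (step (shape L)) x (path k.1)) (rho (prel L x k.1) k.2.2.2.2) k.2.1 k.2.2.1
    k.2.2.2.1

/-- The word of a comparison. -/
def wd (k : OT l t) : List Port := (List.ofFn k.2.1).take k.1

/-- The position that holds the opinion about the start of the walk. -/
noncomputable def back (k : OT l t) : Tb l t :=
  Pi.single (⟨rev inv (wd k), by rw [length_rev, wd, List.length_take]; omega⟩, 0) 1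

/-- A comparison. -/
noncomputable def tTest (n : ℕ) (L : List (Eqn l)) (j : ℕ) (a : Nm l) (k : OT l t) : Eqn l :=
  (a, tn n L (walk (step (shape L)) (3 * j) (wd k)) k.2.2,
    tn n L (walk (step (shape L)) (3 * j) (wd k)) (k.2.2 + back k))

/-- One round. -/
noncomputable def amp (t n : ℕ) (s : St l) : St l :=
  ((List.range s.1.length).flatMap fun j => (univ : Finset (Fin 96 × OE l t × OT l t)).toList.map
      fun k => ((s.1.getD j (0, [], [], [])).1,
        tTest n (sys s) j (s.1.getD j (0, [], [], [])).2.1 k.2.2),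
    (List.range (nv (shape (sys s)))).flatMap fun x =>
      (univ : Finset (OE l t × OT l t)).toList.map fun k => eTest n (sys s) x k.1)

/-- Names of the first system. -/
def pre (n : ℕ) (a : Nm l) (b : ℕ) (c : ZMod l) : Nm l :=
  (List.range n).map fun k => if k < b then a.getD k 0 else if k = b then c else 0

/-- The first system. -/
noncomputable def base (n : ℕ) (G : List (Nm l)) : St l :=
  ((List.range G.length).flatMap fun i => (List.range (n * l + 1)).map fun _ =>
      (i, G.getD i [], pre n [] 0 0, G.getD i []),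
    G.flatMap fun a => (List.range n).flatMap fun b => (univ : Finset (ZMod l)).toList.map fun c =>
      (pre n a b c, pre n [] b 1, pre n a b (c + 1)))

/-- All names are short. -/
def Short (n : ℕ) (s : St l) : Prop :=
  ∀ c ∈ sys s, c.1.length ≤ n ∧ c.2.1.length ≤ n ∧ c.2.2.length ≤ n

/-- The comparisons read the inputs uniformly. -/
def Unif (G : List (Nm l)) (s : St l) : Prop := ∃ M : ℕ, ∀ F : ℕ → Nm l → ℝ,
  (s.1.map fun c => F c.1 c.2.1).sum = M * ∑ i ∈ range G.length, F i (G.getD i [])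

/-- Soundness with constant `κ`. -/
def Snd (n : ℕ) (κ : ℝ) (s : St l) : Prop :=
  ∀ f : Nm l → ZMod l, ∃ w, dis s.1 f (gw n w) ≤ κ * viol (sys s) f

/-- Vertices of the last graph. -/
abbrev Vx (s : St l) : Type := Fin (nv (shape (sys s)))

/-- A number as a vertex. -/
def vx (s : St l) (x : ℕ) : Vx s :=
  ⟨x % nv (shape (sys s)), Nat.mod_lt _ ((Nat.zero_le _).trans_lt (lt_nv _))⟩

/-- Tests of the last system. -/
abbrev Qs (s : St l) : Type := (Vx s × Port × Fin 4) ⊕ Fin s.1.length

/-- The component of the neighbour read by a test. -/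
def fb (L : List (Eqn l)) (x : ℕ) (p : Port) (k : Fin 4) : Fin 3 :=
  if p.1 = 0 then m3 k else m3 (step (shape L) p x)

/-- The coefficients of a test of the graph. -/
def fc (L : List (Eqn l)) (x : ℕ) (p : Port) (k i : Fin 4) : ZMod l :=
  if p.1 = 0 then (if x < 3 * L.length then (if k = 3 then
      (if i = 3 then 0 else if i = 2 then -1 else 1)
    else (if i = 3 then -1 else if i = k then 1 else 0)) else 0)
  else if p.1 = 1 then (if i = 3 then -1 else if (i : ℕ) = x % 3 then 1 else 0) else 0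

/-- The variables read by a test. -/
def fvar {X : Type} (s : St l) (lX : List X) (d : X) (q : Qs s) (i : Fin 4) :
    X ⊕ (Vx s × Fin 3) :=
  Sum.elim (fun z : Vx s × Port × Fin 4 => Sum.inr (if i = 3 then
      (vx s (step (shape (sys s)) z.2.1 z.1), fb (sys s) z.1 z.2.1 z.2.2) else (z.1, m3 i)))
    (fun j : Fin s.1.length => if i = 3 then Sum.inl (lX.getD (s.1.getD j (0, [], [], [])).1 d)
      else Sum.inr (vx s (3 * j), m3 i)) q

/-- The coefficients of a test. -/
def fco (s : St l) (q : Qs s) (i : Fin 4) : ZMod l :=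
  Sum.elim (fun z : Vx s × Port × Fin 4 => fc (sys s) z.1 z.2.1 z.2.2 i)
    (fun _ : Fin s.1.length => if i = 3 then -1 else if i = 0 then 1 else 0) q

/-- The proof map. -/
noncomputable def fprf {V : Type} (s : St l) (lV : List V) (y : Vx s × Fin 3) (v : V) : ZMod l :=
  (nm3 (sys s) y.1 y.2).getD (lV.idxOf v) 0

variable (l)

/-- The linearity test. -/
def S_blr : Prop := ∀ (ι : Type) [Fintype ι] [DecidableEq ι] (A : (ι → ZMod l) → ZMod l),
  ∃ z : ι → ZMod l, 𝔼 r, neq (A r) (r ⬝ᵥ z) ≤ 6 * 𝔼 r, 𝔼 s, neq (A r + A s) (A (r + s))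

/-- Soundness of the graph. -/
def S_gs : Prop := ∀ lam : ℝ, MargOK lam → 0 ≤ lam → lam < 1 → ∃ C : ℝ, 0 < C ∧
  ∀ (L : List (Eqn l)) (σ : ℕ → Lb l), ∃ τ : Nm l → ZMod l, viol L τ ≤ C * gv L σ ∧
    ∑ j ∈ range L.length, neq (σ (3 * j) 0) (τ (L.getD j ([], [], [])).1) ≤ C * gv L σ

/-- Completeness of the graph. -/
def S_gc : Prop := ∀ lam : ℝ, MargOK lam → ∀ (L : List (Eqn l)) (g : Nm l → ZMod l), L ≠ [] →
  Holds L g → ∀ x p, lcon L x p (fun b => g (nm3 L x b))
    (fun b => g (nm3 L (step (shape L) p x) b)) = true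

/-- Powering with the plurality labelling. -/
def S_pow : Prop := ∀ lam : ℝ, MargOK lam → 0 ≤ lam → lam < 1 → ∃ c : ℝ, 0 < c ∧ ∀ t : ℕ, 0 < t →
  ∀ (L : List (Eqn l)) (τ : ℕ → Wd t → Lb l), ∃ σ : ℕ → Lb l,
    (∀ v < nv (shape L), (1 : ℝ) / l ^ 3 ≤ 𝔼 k : OT l t,
      if τ (walk (step (shape L)) v (wd k)) ⟨rev inv (wd k), by
        rw [length_rev, wd, List.length_take]; omega⟩ = σ v then (1 : ℝ) else 0) ∧
    c * min (t * gv L σ) (nv (shape L)) ≤ ∑ x ∈ range (nv (shape L)), 𝔼 w : WW t,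
      if prel L x w (τ x) (τ (walk (step (shape L)) x (path w))) = true then (0 : ℝ) else 1

/-- Random linear relations. -/
def S_rho : Prop := ∀ (t : ℕ) (L : List (Eqn l)) (x : ℕ) (w : WW t) (a b : Tb l t),
  (prel L x w (cur a) (cur b) = true → ∀ ω,
    (rho (prel L x w) ω).1 ⬝ᵥ a = (rho (prel L x w) ω).2 ⬝ᵥ b) ∧
  (prel L x w (cur a) (cur b) ≠ true →
    1 / 2 ≤ 𝔼 ω, neq ((rho (prel L x w) ω).1 ⬝ᵥ a) ((rho (prel L x w) ω).2 ⬝ᵥ b))

/-- Completeness of a round. -/
def S_rc : Prop := ∀ (t n : ℕ) (s : St l) (w : ℕ → ZMod l), s.1 ≠ [] → Holds (sys s) (gw n w) →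
  Holds (sys (amp t n s)) (gw n w)

/-- Sizes and sums in a round. -/
def S_sz : Prop := ∀ (t n : ℕ) (s : St l),
  (∀ F : ℕ × Eqn l → ℝ, ((amp t n s).1.map F).sum = 96 * Fintype.card (OE l t × OT l t) *
    ∑ j ∈ range s.1.length, 𝔼 k : OT l t, F ((s.1.getD j (0, [], [], [])).1,
      tTest n (sys s) j (s.1.getD j (0, [], [], [])).2.1 k)) ∧
  (∀ F : Eqn l → ℝ, ((amp t n s).2.map F).sum = Fintype.card (OE l t × OT l t) *
    ∑ x ∈ range (nv (shape (sys s))), 𝔼 k : OE l t, F (eTest n (sys s) x k)) ∧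
  (amp t n s).1.length = 96 * Fintype.card (OE l t × OT l t) * s.1.length ∧
  (s.1 ≠ [] → s.2.length ≤ s.1.length → (amp t n s).2.length ≤ (amp t n s).1.length) ∧
  (Short n s → Short n (amp t n s)) ∧ (∀ G, Unif G s → Unif G (amp t n s)) ∧
  ∀ B, (∀ c ∈ s.1, c.1 ≤ B) → ∀ c ∈ (amp t n s).1, c.1 ≤ B

/-- Soundness of a round. -/
def S_rs : Prop := ∃ (t : ℕ) (K : ℝ), 0 < t ∧ 0 < K ∧ ∀ (n : ℕ) (s : St l) (κ : ℝ), s.1 ≠ [] →
  s.2.length ≤ s.1.length → 0 ≤ κ → Snd n κ s → Snd n (K + κ / 2) (amp t n s)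

/-- A round is computable. -/
def S_pt : Prop := ∀ (t : ℕ) (C : Type) [Enc C] (n : C → ℕ) (s : C → St l), PT n → PB n → PT s →
  PT fun c => amp t (n c) (s c)

/-- The first system. -/
def S_base : Prop :=
  (∀ (C : Type) [Enc C] (n : C → ℕ) (G : C → List (Nm l)), PT n → PB n → PT G →
    PT fun c => base (n c) (G c)) ∧
  ∀ (n : ℕ) (G : List (Nm l)), G ≠ [] → (∀ a ∈ G, a.length = n) →
    (base n G).1 ≠ [] ∧ (base n G).2.length ≤ (base n G).1.length ∧ Short n (base n G) ∧
    Unif G (base n G) ∧ (∀ c ∈ (base n G).1, c.1 ≤ G.length) ∧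
    (∀ w, Holds (sys (base n G)) (gw n w)) ∧ Snd n (base n G).1.length (base n G)

/-- The final system. -/
def S_core : Prop := ∃ K : ℝ, 0 < K ∧ ∀ (C : Type) [Enc C] (n : C → ℕ) (G : C → List (Nm l)),
  PT n → PB n → PT G → (∀ c, G c ≠ []) → (∀ c, ∀ a ∈ G c, a.length = n c) →
  ∃ s : C → St l, PT s ∧ ∀ c, (s c).1 ≠ [] ∧ (s c).2.length ≤ (s c).1.length ∧ Unif (G c) (s c) ∧
    (∀ w, Holds (sys (s c)) (gw (n c) w)) ∧ Snd (n c) K (s c)

/-- The tests of the graph. -/
def S_fc : Prop := ∀ (L : List (Eqn l)) (x : ℕ) (p : Port) (s s' : Lb l),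
  lcon L x p s s' = true ↔ ∀ k : Fin 4,
    ∑ i : Fin 4, fc L x p k i * (if i = 3 then s' (fb L x p k) else s (m3 i)) = 0

/-- Density of the last system. -/
def S_den : Prop := ∀ (X : Type) [Fintype X] (lX : List X) (d : X) (G : List (Nm l)) (s : St l),
  lX.Nodup → (∀ x, x ∈ lX) → G.length = lX.length → s.1 ≠ [] → Unif G s →
  ∀ (i : Fin 4) (u : X ⊕ (Vx s × Fin 3)), fr (Qs s) (fun q => fvar s lX d q i = u) ≤
    4 * Sum.elim (fun _ => (Fintype.card X : ℝ)⁻¹)
      (fun _ => (Fintype.card (Vx s × Fin 3) : ℝ)⁻¹) u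

/-- Completeness and soundness of the last system. -/
def S_fin : Prop := ∀ K : ℝ, 0 < K → ∃ K' : ℝ, 0 < K' ∧ ∀ (X V : Type) [Fintype X] [Fintype V]
  (lX : List X) (lV : List V) (d : X) (gen : X → V → ZMod l) (s : St l),
  lX.Nodup → (∀ x, x ∈ lX) → lV.Nodup → (∀ v, v ∈ lV) → s.1 ≠ [] → s.2.length ≤ s.1.length →
  Unif (lX.map fun x => lV.map (gen x)) s → (∀ w, Holds (sys s) (gw lV.length w)) →
  Snd lV.length K s →
  (∀ w q, ∑ i, fco s q i * Sum.elim (cw gen w) (cw (fprf s lV) w) (fvar s lX d q i) = 0) ∧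
  ∀ (x : X → ZMod l) (y : Vx s × Fin 3 → ZMod l), ∃ w, hd x (cw gen w) ≤
    K' * fr (Qs s) fun q => ∑ i, fco s q i * Sum.elim x y (fvar s lX d q i) ≠ 0

end Vale.Agent.P330.Pc
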