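import Vale.Agent.P330.PcDefs

/-! Block B8: the last system as computable families. -/

namespace Vale.Agent.P330.Pc

open Vale.Agent.Lib.PolyTime Finset Vale.Agent.P325 Vale.Agent.P325.PCP Vale.Agent.P325.Pow
open scoped Classical BigOperators

variable {l : ℕ} [Fact l.Prime]

namespace PcTop

variable {C : Type} [Enc C]

theorem pt_sys {s : C → St l} (hs : PT s) : PT fun c => sys (s c) :=
  PT.append (PT.map (f := fun _ (c : ℕ × Eqn l) => c.2) (by fun_prop) hs.fst) hs.snd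

theorem pt_shape {L : C → List (Eqn l)} (hL : PT L) : PT fun c => shape (L c) :=
  PT.map (f := fun _ (c : Eqn l) => ((enc c.1, true), (enc c.2.1, true), (enc c.2.2, true)))
    (by fun_prop) hL

theorem pt_nv {φ : C → CNF3} (h : PT φ) : PT fun c => nv (φ c) := (pt_gs h).mul (pt_gs h)

theorem pb_nv {φ : C → CNF3} (h : PT φ) : PB fun c => nv (φ c) :=
  (((pb_len h 12).add (PB.const 1)).pow 2).of_le fun c => by
    rw [nv, pow_two]
    have : gs (φ c) ≤ 12 * (φ c).length + 1 := Nat.succ_le_succ (Nat.sqrt_le_self _)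
    exact Nat.mul_le_mul this this

theorem pt_stepv {φ : C → CNF3} {p : C → Port} {x : C → ℕ} (h : PT φ) (hp : PT p) (hx : PT x) :
    PT fun c => step (φ c) (p c) (x c) :=
  pt_cases hp (fun b c => step (φ c) b (x c)) fun b => pt_step h hx b

theorem pt_m3 {x : C → ℕ} (hx : PT x) : PT fun c => m3 (x c) :=
  ((D.fin_iff (n := fun _ => 3) (x := fun c => m3 (x c))).2 (hx.mod (PT.const 3))).pt

theorem pt_nm3 {L : C → List (Eqn l)} {x : C → ℕ} {b : C → Fin 3} (hL : PT L) (hx : PT x)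
    (hb : PT b) : PT fun c => nm3 (L c) (x c) (b c) := by
  unfold nm3 cn
  fun_prop

theorem d_vx {s : C → St l} {x : C → ℕ} (hs : PT s) (hx : PT x) : D fun c => vx (s c) (x c) :=
  D.fin_iff.2 (hx.mod (pt_nv (pt_shape (pt_sys hs))))

theorem pt_fb {L : C → List (Eqn l)} {x : C → ℕ} {k : C → Port × Fin 4} (hL : PT L) (hx : PT x)
    (hk : PT k) : PT fun c => fb (L c) (x c) (k c).1 (k c).2 :=
  pt_cases hk (fun b c => fb (L c) (x c) b.1 b.2) fun b =>
    PT.ite (PT.const _) (PT.const _) (pt_m3 (pt_step (pt_shape hL) hx b.1))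

theorem pt_fc {L : C → List (Eqn l)} {x : C → ℕ} {k : C → Port × Fin 4} (hL : PT L) (hx : PT x)
    (hk : PT k) (i : Fin 4) : PT fun c => fc (L c) (x c) (k c).1 (k c).2 i :=
  pt_cases hk (fun b c => fc (L c) (x c) b.1 b.2 i) fun b => by
    unfold fc
    fun_prop

theorem d2_elim {X Y Z : C → Type} [∀ c, Enc (X c)] [∀ c, Enc (Y c)] [∀ c, Enc (Z c)]
    {f : ∀ c, X c → Z c} {g : ∀ c, Y c → Z c} (hf : D2 f) (hg : D2 g) :
    D2 fun c (z : X c ⊕ Y c) => Sum.elim (f c) (g c) z :=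
  D.sum_elim (C := Σ c, X c ⊕ Y c) (f := fun z => f z.1) (g := fun z => g z.1) D.sigma_snd
    (hf.app (pt_sigma_fst.comp pt_sigma_fst) D.sigma_snd)
    (hg.app (pt_sigma_fst.comp pt_sigma_fst) D.sigma_snd)

theorem d_fvar {X : C → Type} [∀ c, Enc (X c)] {s : C → St l} {lX : ∀ c, List (X c)}
    {d : ∀ c, X c} (hs : PT s) (hX : D lX) (hd : D d) (i : Fin 4) :
    D2 fun c (q : Qs (s c)) => fvar (s c) (lX c) (d c) q i := by
  refine d2_elim ?_ ?_
  · have h1 : PT fun z : Σ c, Vx (s c) × Port × Fin 4 => s z.1 := hs.comp pt_sigma_fst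
    have h2 : D (Y := fun z : Σ c, Vx (s c) × Port × Fin 4 => Vx (s z.1)) fun z => z.2.1 :=
      D.fst D.sigma_snd
    have h3 : PT fun z : Σ c, Vx (s c) × Port × Fin 4 => z.2.2 := (D.snd D.sigma_snd).pt
    have h4 := D.fin_iff.1 h2
    exact D.inr (D.ite (PT.const _) (D.pair (d_vx h1 (pt_stepv (pt_shape (pt_sys h1)) h3.fst h4))
      (D.of_pt (pt_fb (pt_sys h1) h4 h3))) (D.pair h2 (D.const _)))
  · have h1 : PT fun z : Σ c, Fin (s c).1.length => s z.1 := hs.comp pt_sigma_fst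
    have h2 : PT fun z : Σ c, Fin (s c).1.length => (z.2 : ℕ) := D.fin_iff.1 D.sigma_snd
    exact D.ite (PT.const _) (D.inl (D.getD (hX.comp pt_sigma_fst)
      (PT.lgetD h1.fst h2 (PT.const _)).fst (hd.comp pt_sigma_fst)))
      (D.inr (D.pair (d_vx h1 ((PT.const 3).mul h2)) (D.const _)))

theorem pt_fco {s : C → St l} (hs : PT s) (i : Fin 4) :
    PT fun z : Σ c, Qs (s c) => fco (s z.1) z.2 i :=
  D.pt (d2_elim (Z := fun _ => ZMod l)
    (f := fun c (z : Vx (s c) × Port × Fin 4) => fc (sys (s c)) z.1 z.2.1 z.2.2 i)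
    (g := fun c (_ : Fin (s c).1.length) => if i = 3 then -1 else if i = 0 then 1 else 0)
    (D.of_pt (pt_fc (pt_sys (hs.comp pt_sigma_fst))
      (D.fin_iff.1 (D.fst D.sigma_snd)) (D.snd D.sigma_snd).pt i)) (D.const _))

end PcTop

open PcTop

theorem pcpp_of (hcore : ∀ (l : ℕ) [Fact l.Prime], S_core l)
    (hden : ∀ (l : ℕ) [Fact l.Prime], S_den l) (hfin : ∀ (l : ℕ) [Fact l.Prime], S_fin l) :
    PCPPThm := by
  intro l _
  obtain ⟨K, K0, hK⟩ := hcore l
  obtain ⟨K', K1, hK'⟩ := hfin l K K0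
  refine ⟨1, K', 4, one_pos, K1, fun C _ X V gen hne hgen => ?_⟩
  obtain ⟨lX, dX, hX⟩ := X.pf
  obtain ⟨lV, dV, hV⟩ := V.pf
  obtain ⟨d, hd, -⟩ := X.pf.choose (p := fun _ _ => True) (PT.const True)
    fun c => ⟨(hne c).some, trivial⟩
  have hG : PT fun c => (lX c).map fun x => (lV c).map (gen c x) :=
    D.pt (D.map (Y := fun _ => Nm l) dX (D.map (C := Σ c, X.T c) (X := fun z => V.T z.1)
      (Y := fun _ => ZMod l) (f := fun z v => gen z.1 z.2 v) (dV.comp pt_sigma_fst)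
      (D.of_pt (hgen.comp (pt_sigma_mk (X := fun c => X.T c × V.T c)
        (pt_sigma_fst.comp pt_sigma_fst) (D.pair (D.sigma_snd.comp pt_sigma_fst) D.sigma_snd))))))
  obtain ⟨s, hs, h⟩ := hK C (fun c => (lV c).length) _ dV.length dV.pb_length hG
    (fun c e => List.ne_nil_of_mem ((hX c).2 (d c)) (List.map_eq_nil_iff.1 e)) fun c a ha => by
      obtain ⟨x, -, rfl⟩ := List.mem_map.1 ha
      exact List.length_map _
  have hφ := pt_shape (pt_sys hs)
  refine ⟨(Fam.ofFin _ (pt_nv hφ) (pb_nv hφ)).prod (Fam.const C (Fin 3)),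
    ((Fam.ofFin _ (pt_nv hφ) (pb_nv hφ)).prod (Fam.const C (Port × Fin 4))).sum
      (Fam.ofFin _ hs.fst.length hs.fst.pb_length), fun c => fprf (s c) (lV c),
    fun c => fvar (s c) (lX c) (d c), fun c => fco (s c), fun c => ⟨(vx (s c) 0, 0)⟩,
    fun c => ⟨.inl (vx (s c) 0, default)⟩, ?_, d_fvar hs dX hd, pt_fco hs, fun c => ?_⟩
  · exact PT.lgetD (pt_nm3 (pt_sys (hs.comp pt_sigma_fst))
      (D.fin_iff.1 (D.fst (D.fst D.sigma_snd))) (D.snd (D.fst D.sigma_snd)).pt)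
      (D.idxOf (dV.comp pt_sigma_fst) (D.snd D.sigma_snd)) (PT.const _)
  · obtain ⟨h1, h2, h3, h4, h5⟩ := h c
    obtain ⟨h6, h7⟩ := hK' _ _ (lX c) (lV c) (d c) (gen c) (s c) (hX c).1 (hX c).2 (hV c).1
      (hV c).2 h1 h2 h3 h4 h5
    refine ⟨fun i u => ?_, h6, fun x y _ => h7 x y⟩
    exact hden l _ (lX c) (d c) _ (s c) (hX c).1 (hX c).2 (List.length_map _) h1 h3 i u

end Vale.Agent.P330.Pc
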