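import Vale.Agent.P330.Ifc

/-! Closure properties of computable families of polynomials (block B9). -/

namespace Vale.Agent.P330

open Vale.Agent.Lib.PolyTime Finset
open scoped Classical BigOperators

section Tools
variable {B C : Type} [Enc B] [Enc C] {X Y : C → Type} [∀ c, Enc (X c)] [∀ c, Enc (Y c)]
  {β : Type} [Enc β]

/-- Application of a computable function on a dependent sum. -/
theorem pt_app {f : ∀ c, X c → β} (h : PT fun z : Σ c, X c => f z.1 z.2) {p : B → C} (hp : PT p)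
    {x : ∀ b, X (p b)} (hx : D x) : PT fun b => f (p b) (x b) :=
  PT.comp (g := fun z : Σ c, X c => f z.1 z.2) h (pt_sigma_mk hp hx)

/-- Application of a computable function of three arguments. -/
theorem pt_app2 {f : ∀ c, X c → Y c → β} (h : PT fun z : Σ c, X c × Y c => f z.1 z.2.1 z.2.2)
    {p : B → C} (hp : PT p) {x : ∀ b, X (p b)} {y : ∀ b, Y (p b)} (hx : D x) (hy : D y) :
    PT fun b => f (p b) (x b) (y b) :=
  PT.comp (g := fun z : Σ c, X c × Y c => f z.1 z.2.1 z.2.2) h
    (pt_sigma_mk (X := fun c => X c × Y c) hp (hx.pair hy))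

theorem D.s1 : D (Y := fun z : Σ c, X c × Y c => X z.1) fun z => z.2.1 :=
  D.fst (D.sigma_snd (X := fun c => X c × Y c))

theorem D.s2 : D (Y := fun z : Σ c, X c × Y c => Y z.1) fun z => z.2.2 :=
  D.snd (D.sigma_snd (X := fun c => X c × Y c))

end Tools

variable {C : Type} [Enc C] {l : ℕ} [NeZero l] {d d' : ℕ} {V J K : Fam C}
  {f g : ∀ c, J.T c → (V.T c → ZMod l) → ZMod l}

theorem Pol.congr (h : Pol d V J f) (e : ∀ c j w, g c j w = f c j w) : Pol d V J g := by
  obtain ⟨φ, h1, h2⟩ := h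
  exact ⟨φ, h1, fun c j w => (e c j w).trans (h2 c j w)⟩

theorem Pol.add (h : Pol d V J f) (h' : Pol d V J g) :
    Pol d V J fun c j w => f c j w + g c j w := by
  obtain ⟨φ, h1, h2⟩ := h
  obtain ⟨ψ, h3, h4⟩ := h'
  refine ⟨fun c j m => φ c j m + ψ c j m, pt_addZ h1 h3, fun c j w => ?_⟩
  simp only [h2, h4, add_mul, sum_add_distrib]

/-- Multiplication by a computable coefficient. -/
theorem Pol.cmul {a : ∀ c, J.T c → ZMod l} (ha : PT fun z : Σ c, J.T c => a z.1 z.2)
    (h : Pol d V J f) : Pol d V J fun c j w => a c j * f c j w := by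
  obtain ⟨φ, h1, h2⟩ := h
  refine ⟨fun c j m => a c j * φ c j m, pt_mulZ (pt_app ha pt_sigma_fst D.s1) h1, fun c j w => ?_⟩
  simp only [h2, mul_sum, mul_assoc]

theorem Pol.neg (h : Pol d V J f) : Pol d V J fun c j w => - f c j w :=
  (h.cmul (a := fun _ _ => -1) (PT.const _)).congr fun _ _ _ => by simp

theorem Pol.sub (h : Pol d V J f) (h' : Pol d V J g) :
    Pol d V J fun c j w => f c j w - g c j w :=
  (h.add h'.neg).congr fun _ _ _ => sub_eq_add_neg _ _

/-- Case distinction on a computable predicate. -/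
theorem Pol.ite {p : ∀ c, J.T c → Prop} [∀ c j, Decidable (p c j)]
    (hp : PT fun z : Σ c, J.T c => p z.1 z.2) (h : Pol d V J f) (h' : Pol d V J g) :
    Pol d V J fun c j w => if p c j then f c j w else g c j w :=
  ((h.cmul (a := fun c j => if p c j then 1 else 0) (PT.ite hp (PT.const _) (PT.const _))).add
    (h'.cmul (a := fun c j => if p c j then 0 else 1)
      (PT.ite hp (PT.const _) (PT.const _)))).congr fun c j w => by split_ifs <;> simp

/-- Change of the index family. -/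
theorem Pol.comp (h : Pol d V J f) {x : ∀ c, K.T c → J.T c} (hx : D2 x) :
    Pol d V K fun c k w => f c (x c k) w := by
  obtain ⟨φ, h1, h2⟩ := h
  exact ⟨fun c k m => φ c (x c k) m,
    pt_app2 h1 pt_sigma_fst (hx.app pt_sigma_fst D.s1) D.s2, fun c k w => h2 c _ w⟩

/-- Change of the base. -/
theorem Pol.comap {B : Type} [Enc B] (h : Pol d V J f) (p : B → C) (hp : PT p) :
    Pol d (V.comap p hp) (J.comap p hp) fun b => f (p b) := by
  obtain ⟨φ, h1, h2⟩ := h
  exact ⟨fun b => φ (p b), pt_app2 h1 (hp.comp pt_sigma_fst) D.s1 D.s2, fun b j w => h2 _ j w⟩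

/-- Sums over a family. -/
theorem Pol.sum {f : ∀ c, J.T c → K.T c → (V.T c → ZMod l) → ZMod l}
    (h : Pol d V (J.prod K) fun c z w => f c z.1 z.2 w) :
    Pol d V J fun c j w => ∑ k, f c j k w := by
  obtain ⟨φ, h1, h2⟩ := h
  refine ⟨fun c j m => ∑ k, φ c (j, k) m, ?_, fun c j w => ?_⟩
  · refine (K.pf.comap (B := Σ c, J.T c × (Fin d → Option (V.T c))) pt_sigma_fst).pt_sumZ
      (f := fun z k => φ z.1 (z.2.1, k) z.2.2) ?_
    exact pt_app2 (f := fun c (j : J.T c × K.T c) m => φ c j m) h1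
      (pt_sigma_fst.comp pt_sigma_fst)
      (D.pair (D.s1.comp pt_sigma_fst) D.sigma_snd) (D.s2.comp pt_sigma_fst)
  · have e : ∀ k, f c j k w = ∑ m, φ c (j, k) m * ∏ i, ev w (m i) := fun k => h2 c (j, k) w
    simp only [e, sum_mul]
    exact sum_comm

/-- Index families that are sums. -/
theorem Pol.sum_elim {g : ∀ c, K.T c → (V.T c → ZMod l) → ZMod l} (h : Pol d V J f)
    (h' : Pol d V K g) : Pol d V (J.sum K) fun c z => Sum.elim (f c) (g c) z := by
  obtain ⟨φ, h1, h2⟩ := h
  obtain ⟨ψ, h3, h4⟩ := h'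
  refine ⟨fun c z m => Sum.elim (fun j => φ c j m) (fun k => ψ c k m) z, ?_, fun c z w => ?_⟩
  · refine D.pt (D.sum_elim (Z := fun _ => ZMod l)
      (X := fun z : Σ c, (J.T c ⊕ K.T c) × (Fin d → Option (V.T c)) => J.T z.1)
      (Y := fun z => K.T z.1) (f := fun z j => φ z.1 j z.2.2) (g := fun z k => ψ z.1 k z.2.2)
      D.s1 (D.of_pt ?_) (D.of_pt ?_))
    · exact pt_app2 h1 (pt_sigma_fst.comp pt_sigma_fst) D.sigma_snd (D.s2.comp pt_sigma_fst)
    · exact pt_app2 h3 (pt_sigma_fst.comp pt_sigma_fst) D.sigma_snd (D.s2.comp pt_sigma_fst)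
  · rcases z with j | k
    · exact h2 c j w
    · exact h4 c k w

theorem Pol.const0 {a : ∀ c, J.T c → ZMod l} (ha : PT fun z : Σ c, J.T c => a z.1 z.2) :
    Pol 0 V J fun c j _ => a c j :=
  ⟨fun c j _ => a c j, pt_app ha pt_sigma_fst D.s1, fun c j w => by simp⟩

/-- Affine forms with computable coefficients. -/
theorem Pol.aff {a : ∀ c, J.T c → Option (V.T c) → ZMod l}
    (ha : PT fun z : Σ c, J.T c × Option (V.T c) => a z.1 z.2.1 z.2.2) :
    Pol 1 V J fun c j w => ∑ o, a c j o * ev w o := by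
  refine ⟨fun c j m => a c j (m 0), pt_app2 ha pt_sigma_fst D.s1 ?_, fun c j w => ?_⟩
  · exact D.fn_app (n := fun _ => 1) D.s2 (D.const (0 : Fin 1))
  · refine (Fintype.sum_equiv (Equiv.funUnique (Fin 1) _) _ _ fun m => ?_).symm
    simp

/-- A variable or the constant one. -/
theorem Pol.ev {x : ∀ c, J.T c → Option (V.T c)} (hx : D2 x) :
    Pol (l := l) 1 V J fun c j w => ev w (x c j) :=
  (Pol.aff (a := fun c j o => if o = x c j then 1 else 0)
    (PT.ite (D.eq D.s2 (hx.app pt_sigma_fst D.s1)) (PT.const _) (PT.const _))).congr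
    fun c j w => by simp

theorem Pol.var {x : ∀ c, J.T c → V.T c} (hx : D2 x) :
    Pol (l := l) 1 V J fun c j w => w (x c j) :=
  (Pol.ev (x := fun c j => some (x c j)) (D.some hx)).congr fun _ _ _ => rfl

theorem Pol.mul (h : Pol d V J f) (h' : Pol d' V J g) :
    Pol (d + d') V J fun c j w => f c j w * g c j w := by
  obtain ⟨φ, h1, h2⟩ := h
  obtain ⟨ψ, h3, h4⟩ := h'
  refine ⟨fun c j m => φ c j (fun i => m (Fin.castAdd d' i)) * ψ c j fun i => m (Fin.natAdd d i),
    pt_mulZ (pt_app2 h1 pt_sigma_fst D.s1 ?_) (pt_app2 h3 pt_sigma_fst D.s1 ?_), fun c j w => ?_⟩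
  · refine D.fn_mk (n := fun _ => d) (PT.const _) (PB.const _) ?_
    refine D.fn_app (n := fun _ => d + d') (D.s2.comp pt_sigma_fst) (D.fin_iff.2 ?_)
    exact D.fin_iff.1 (D.sigma_snd (X := fun _ => Fin d))
  · refine D.fn_mk (n := fun _ => d') (PT.const _) (PB.const _) ?_
    refine D.fn_app (n := fun _ => d + d') (D.s2.comp pt_sigma_fst) (D.fin_iff.2 ?_)
    exact PT.add (PT.const d) (D.fin_iff.1 (D.sigma_snd (X := fun _ => Fin d')))
  · beta_reduce
    rw [h2, h4, sum_mul_sum, ← Fintype.sum_prod_type']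
    refine Fintype.sum_equiv (Fin.appendEquiv d d') _ _ fun m => ?_
    simp only [Fin.appendEquiv_apply, Fin.append_left, Fin.append_right, Fin.prod_univ_add]
    ring

theorem Pol.one : Pol (l := l) d V J fun _ _ _ => 1 := by
  induction d with
  | zero => exact Pol.const0 (PT.const _)
  | succ d ih =>
    exact (ih.mul (Pol.ev (x := fun _ _ => none) D.none)).congr fun _ _ _ => by simp [P330.ev]

theorem Pol.mono (h : Pol d V J f) (hd : d ≤ d') : Pol d' V J f := by
  obtain ⟨k, rfl⟩ := Nat.exists_eq_add_of_le hd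
  exact (h.mul Pol.one).congr fun _ _ _ => by simp

theorem Pol.const {a : ∀ c, J.T c → ZMod l} (ha : PT fun z : Σ c, J.T c => a z.1 z.2) :
    Pol d V J fun c j _ => a c j :=
  (Pol.const0 ha).mono (Nat.zero_le d)

theorem Pol.zero : Pol (l := l) d V J fun _ _ _ => 0 := Pol.const (PT.const _)

/-- Linear combinations of polynomials with computable coefficients. -/
theorem Pol.comb {g : ∀ c, K.T c → (V.T c → ZMod l) → ZMod l} {a : ∀ c, J.T c → K.T c → ZMod l}
    (ha : PT fun z : Σ c, J.T c × K.T c => a z.1 z.2.1 z.2.2) (h : Pol d V K g) :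
    Pol d V J fun c j w => ∑ k, a c j k * g c k w :=
  Pol.sum (f := fun c j k w => a c j k * g c k w)
    ((h.comp (K := J.prod K) (x := fun _ z => z.2) D.s2).cmul
      (a := fun c (z : J.T c × K.T c) => a c z.1 z.2) ha)

/-- Linear forms with computable coefficients. -/
theorem Pol.lin {a : ∀ c, J.T c → V.T c → ZMod l}
    (ha : PT fun z : Σ c, J.T c × V.T c => a z.1 z.2.1 z.2.2) :
    Pol 1 V J fun c j w => ∑ v, a c j v * w v :=
  Pol.comb ha (Pol.var (J := V) (x := fun _ v => v) D.sigma_snd)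

end Vale.Agent.P330
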