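import Vale.Agent.P330.RErr

/-! Block B2: assembly. -/

namespace Vale.Agent.P330

open Vale.Agent.Lib.PolyTime Finset
open scoped Classical BigOperators

namespace RAsmx

/-- The node read by a gate of the copy `t`. -/
def rdn {T L A Wk B : Type} (nb : A → Wk → T → T) (o : B → L) (t : T) : L ⊕ A × Wk × B → T × L :=
  Sum.elim (fun l => (t, l)) fun e => (nb e.1 e.2.1 t, o e.2.2)

theorem elim_rdn {T L A Wk B : Type} (nb : A → Wk → T → T) (o : B → L) (t : T) (val : T × L → ℝ)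
    (u : L ⊕ A × Wk × B) : Sum.elim (fun l => val (t, l))
      (fun e : A × Wk × B => val (nb e.1 e.2.1 t, o e.2.2)) u = val (rdn nb o t u) := by
  rcases u with u | u <;> rfl

variable {C F A Wk B L : Type} [Enc C] [Enc F] [Fintype F] [Fintype A] [Enc L] [Fintype L]
  {T : Fam C} {fn : ∀ c, T.T c → (A → F) → F}

omit [Fintype L] in
theorem pt_l : PT fun z : Σ c, T.T c × L => z.2.2 :=
  D.pt (D.snd (X := fun z : Σ c, T.T c × L => T.T z.1) (Y := fun _ => L) D.sigma_snd)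

omit [Fintype L] [Enc F] [Fintype F] in
theorem pt_cnt {Z : Type} [Enc Z] {V : Fam C} {p : Z → C} (hp : PT p) {x : Z → List ℚ} (hx : PT x)
    {v : ∀ z, V.T (p z)} (hv : D v) {out : ∀ c, T.T c → V.T c} (ho : D2 out)
    {ix : ∀ c, T.T c × L → ℕ} (hix : PT fun z : Σ c, T.T c × L => ix z.1 z.2) [Fintype B]
    (o : B → L) (dec : (B → Bool) → F) (r : ℚ) (s : F) :
    PT fun z => (univ.filter fun t : T.T (p z) => out (p z) t = v z ∧
      dec (fun b => decide ((r : ℝ) < ((x z).getD (ix (p z) (t, o b)) 0 : ℚ))) = s).card := by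
  have p1 : PT fun z : Σ z, T.T (p z) => p z.1 := hp.comp pt_sigma_fst
  refine (PFam.pt_count (X := fun z => T.T (p z)) (T.pf.comap hp)
    (p := fun z t => out (p z) t = v z ∧
      dec (fun b => decide ((r : ℝ) < ((x z).getD (ix (p z) (t, o b)) 0 : ℚ))) = s)
    (PT.and ?_ ?_)).congr fun z => congrArg card (by ext; simp only [mem_filter])
  · exact D.eq (ho.app p1 D.sigma_snd) (hv.comp pt_sigma_fst)
  · refine P325.pt_finite_fun (fun (z : Σ z, T.T (p z)) b =>
      decide ((r : ℝ) < ((x z.1).getD (ix (p z.1) (z.2, o b)) 0 : ℚ))) (fun b => PT.decide ?_)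
      (fun β _ => dec β = s) fun _ => PT.const _
    have h : PT fun z : Σ z, T.T (p z) => ix (p z.1) (z.2, o b) :=
      hix.comp (pt_sigma_mk (X := fun c => T.T c × L) p1 (D.pair D.sigma_snd (D.const (o b))))
    exact (Q.pt_ltQ (PT.const r) (PT.lgetD (hx.comp pt_sigma_fst) h (PT.const 0))).congr
      fun z => propext Rat.cast_lt

theorem pt_max {Z : Type} [Enc Z] [Nonempty F] {cnt : Z → F → ℕ} (h : ∀ s, PT fun z => cnt z s) :
    ∃ rd : Z → F, PT rd ∧ ∀ z s, cnt z s ≤ cnt z (rd z) := by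
  obtain ⟨rd, hrd, hmax⟩ := (PFam.const (C := Z) F).choose (p := fun z s => ∀ s', cnt z s' ≤ cnt z s)
    (P325.pt_forall _ fun s' => PT.le ((h s').comp pt_sigma_fst)
      (P325.pt_cases (D.pt D.sigma_snd) (fun s (z : Σ _ : Z, F) => cnt z.1 s) fun s =>
        (h s).comp pt_sigma_fst)) fun z => Finite.exists_max (cnt z)
  exact ⟨rd, hrd.pt, hmax⟩

theorem pt_tpl {β : Type} [Enc β] (hf : ∀ s, PT fun z : Σ c, T.T c => fn z.1 z.2 s)
    (k : ((A → F) → F) → L → β) : PT fun z : Σ c, T.T c × L => k (fn z.1 z.2.1) z.2.2 :=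
  P325.pt_finite_fun (fun (z : Σ c, T.T c × L) s => fn z.1 z.2.1 s)
    (fun s => (hf s).comp (pt_sigma_mk pt_sigma_fst (D.fst D.sigma_snd))) (fun φ z => k φ z.2.2)
    fun φ => P325.pt_finite pt_l (k φ)

theorem d_tpl (hf : ∀ s, PT fun z : Σ c, T.T c => fn z.1 z.2 s) {nb : A → ∀ c, Wk → T.T c → T.T c}
    (hnb : ∀ i w, D2 fun c t => nb i c w t) (o : B → L) (a : ((A → F) → F) → L → L ⊕ A × Wk × B) :
    D2 fun c (n : T.T c × L) => rdn (fun i => nb i c) o n.1 (a (fn c n.1) n.2) := by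
  refine D.cases_fun (g := fun (z : Σ c, T.T c × L) s => fn z.1 z.2.1 s)
    (fun s => (hf s).comp (pt_sigma_mk pt_sigma_fst (D.fst D.sigma_snd)))
    (fun φ z => rdn (fun i => nb i z.1) o z.2.1 (a φ z.2.2)) fun φ => ?_
  refine D.cases (g := fun z : Σ c, T.T c × L => z.2.2) pt_l
    (fun l z => rdn (fun i => nb i z.1) o z.2.1 (a φ l)) fun l => ?_
  rcases a φ l with u | u
  · exact D.pair (D.fst D.sigma_snd) (D.const u)
  · exact D.pair ((hnb u.1 u.2.1).app pt_sigma_fst (D.fst D.sigma_snd)) (D.const _)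

end RAsmx

open RAsmx RErrx in
theorem real_of (hc : RComp) (hn : RNb) (hN : RNode) : RealThm := by
  intro C F _ _ _ _ O S ⟨A, _, G, κ, γ, hγ, hD, hS⟩
  let sl : ∀ c, G.T.T c → A → G.V.T c := fun c t i =>
    Sum.elim (fun _ => G.out c t) id (G.slot c t i)
  have hsl : ∀ c t i, G.slot c t i = .inr (sl c t i) := fun c t i => by
    rcases h : G.slot c t i with e | e
    · exact e.elim
    · simp only [sl, h, Sum.elim_inr, id]
  have dsl : ∀ i, D2 fun c t => sl c t i := fun i =>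
    D.sum_elim (G.d_slot i) (G.d_out.comp pt_sigma_fst) D.sigma_snd
  have dens : ∀ i c u, fr (G.T.T c) (fun t => sl c t i = u) ≤
      κ * fr (G.T.T c) fun t => G.out c t = u := fun i c u => by
    have := (hD c).1 i (.inr u)
    simp only [hsl, Sum.inr.injEq] at this
    exact this
  obtain ⟨Wk, _, _, h1⟩ := hn κ (γ / (4 * (Fintype.card A * Fintype.card F + 1))) (by positivity)
  choose nb dnb hnb using fun i => h1 C G.T G.V G.out (fun c t => sl c t i) G.d_out (dsl i) (dens i)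
  obtain ⟨B, J, L, _, _, _, _, _, dec, θ, τ, ε, hε, hε4, hτ⟩ := hN F A Wk (γ / 4) (by positivity)
  let : Enc L := Enc.fin L
  have : Nonempty L := ⟨τ.o (Classical.arbitrary B)⟩
  set δ := min (1 / 2) (γ / (4 * (Fintype.card L + 1))) with hδ
  have δ0 : 0 < δ := lt_min (by norm_num) (by positivity)
  obtain ⟨p, R, ix, hR, hix, h2⟩ := hc C (G.T.prod (Fam.const C L))
    (fun c n => τ.k (G.fn c n.1) n.2) (fun c n => τ.q (G.fn c n.1) n.2)
    (fun c n => rdn (fun i => nb i c) τ.o n.1 (τ.a (G.fn c n.1) n.2))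
    (fun c n => rdn (fun i => nb i c) τ.o n.1 (τ.b (G.fn c n.1) n.2))
    (fun c => ⟨((G.ne c).some, Classical.arbitrary L)⟩) (pt_tpl G.d_fn τ.k) (pt_tpl G.d_fn τ.q)
    (d_tpl G.d_fn dnb τ.o τ.a) (d_tpl G.d_fn dnb τ.o τ.b) (fun c n => τ.wf _ _) ε δ hε hε4 δ0.le
  let E : ∀ z : C × List ℚ, G.T.T z.1 → J → F → Prop := fun z t j s =>
    dec (fun b => decide ((θ j : ℝ) < (z.2.getD (ix z.1 (t, τ.o b)) 0 : ℚ))) = s
  let cnt : (Σ z : C × List ℚ, O.T z.1) → F → ℕ := fun z s =>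
    ∑ j, (univ.filter fun t => G.out z.1.1 t = G.res z.1.1 z.2 ∧ E z.1 t j s).card
  have p1 : PT fun z : Σ z : C × List ℚ, O.T z.1 => z.1.1 := PT.fst pt_sigma_fst
  have pcnt : ∀ s, PT fun z => cnt z s := fun s => P325.pt_finsum _ _ fun j _ =>
    pt_cnt p1 (PT.snd pt_sigma_fst) (G.d_res.app p1 D.sigma_snd) G.d_out hix τ.o dec (θ j) s
  obtain ⟨rd, hrd, hmax⟩ := pt_max pcnt
  refine ⟨ε, δ, p, R, fun z o => rd ⟨z, o⟩, hε, by linarith, δ0,
    (min_le_left _ _).trans_lt (by norm_num), hR, hrd, fun c => ⟨(h2 c).1, (h2 c).2.1, ?_⟩⟩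
  intro x hx
  obtain ⟨h01, hbad⟩ := (h2 c).2.2 x hx
  have := G.ne c
  let val : G.T.T c × L → ℝ := fun n => (x.getD (ix c n) 0 : ℚ)
  let P : G.T.T c → F → ℝ := fun t => pd dec θ fun b => val (t, τ.o b)
  have hP : IsDist P := pd_dist dec θ _
  have hpb := pbar_dist (G.out c) hP
  refine ⟨fun o => pbar (G.out c) P (G.res c o), hpb.comp _,
    hS c (fun e => e.elim) _ (fun e => e.elim) hpb ?_, fun o s => ?_⟩
  · let bad : G.T.T c × L → Prop := fun n => ¬ GateSat ε (τ.k (G.fn c n.1) n.2)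
      (τ.q (G.fn c n.1) n.2) (val n) (val (rdn (fun i => nb i c) τ.o n.1 (τ.a (G.fn c n.1) n.2)))
      (val (rdn (fun i => nb i c) τ.o n.1 (τ.b (G.fn c n.1) n.2)))
    have hb : fr (G.T.T c × L) bad ≤ δ := hbad
    have key := err_le (G.out c) (sl c) (G.fn c) hP (fun i => nb i c) (fun t => ∃ l, bad (t, l))
      (η1 := γ / 4) (by positivity) (fun t i => ?_) (fun t ht => ?_)
      (fun i s => hnb i c (fun t => P t s) fun t => ⟨hP.nonneg t s, hP.le_one t s⟩)
      ((fr_bad bad).trans (mul_le_mul_of_nonneg_left hb (Nat.cast_nonneg _)))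
    · unfold Gad.err
      simp only [hsl, Sum.elim_inr]
      refine key.trans ?_
      have a1 : (Fintype.card L : ℝ) * δ ≤ γ / 4 := by
        refine (mul_le_mul_of_nonneg_left (min_le_right _ _) (Nat.cast_nonneg _)).trans ?_
        rw [mul_div_assoc', div_le_div_iff₀ (by positivity) (by positivity)]
        nlinarith
      have a2 : (Fintype.card A : ℝ) * Fintype.card F *
          (γ / (4 * (Fintype.card A * Fintype.card F + 1))) ≤ γ / 4 := by
        rw [mul_div_assoc', div_le_div_iff₀ (by positivity) (by positivity)]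
        nlinarith
      linarith
    · by_contra hne
      have h0 : fr (G.T.T c) (fun t' => G.out c t' = sl c t i) = 0 :=
        (fr_congr fun t' => ⟨fun h => hne ⟨t', h⟩, False.elim⟩).trans fr_false
      exact fr_eq_zero ((dens i c (sl c t i)).trans_eq (by rw [h0, mul_zero])) t rfl
    · refine hτ (G.fn c t) (fun e => val (nb e.1 c e.2.1 t, τ.o e.2.2)) (fun l => val (t, l))
        (fun l => ⟨Rat.cast_nonneg.2 (h01 _).1, (Rat.cast_le.2 (h01 _).2).trans_eq Rat.cast_one⟩)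
        fun l => ?_
      rw [elim_rdn (fun i => nb i c), elim_rdn (fun i => nb i c)]
      exact not_not.1 fun h => ht ⟨l, h⟩
  · exact pbar_le (G.out c) (E (c, x)) (G.res c o) (hmax ⟨(c, x), o⟩ s)

end Vale.Agent.P330
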