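import Vale.Agent.P330.RDefs
import Vale.Agent.P330.Prob

/-! Block B2: compilation of a family of circuits. -/

namespace Vale.Agent.P330

open Vale.Agent.Lib.PolyTime Finset
open scoped Classical BigOperators

namespace RCompx

theorem len_cons (a : ℕ) (l : List ℕ) :
    (bitsOf (a :: l)).length = 2 * a.size + 1 + (bitsOf l).length := by
  have h : ∀ m : List Bool, (m.flatMap fun b => [true, b]).length = 2 * m.length := by
    intro m
    induction m with
    | nil => rfl
    | cons b m ih => rw [List.flatMap_cons, List.length_append, ih]; simp; ring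
  rw [bitsOf, List.flatMap_cons, List.length_append, List.length_append, h, Nat.size_eq_bits_len]
  rfl

theorem len_le (l : List ℕ) (s : ℕ) (h : ∀ a ∈ l, a.size ≤ s) :
    (bitsOf l).length ≤ (2 * s + 1) * l.length := by
  induction l with
  | nil => simp [bitsOf]
  | cons a l ih =>
    have h1 := h a List.mem_cons_self
    have h2 := ih fun b hb => h b (List.mem_cons_of_mem _ hb)
    rw [len_cons, List.length_cons, mul_add]
    omega

theorem le_len (l : List ℕ) : l.length ≤ (bitsOf l).length := by
  induction l with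
  | nil => simp
  | cons a l ih => rw [len_cons, List.length_cons]; omega

theorem len_natsX (x : List ℚ) : (natsX x).length = 2 * x.length := by
  induction x with
  | nil => rfl
  | cons a x ih => rw [natsX, List.flatMap_cons, List.length_append, ← natsX, ih]; simp; ring

theorem len_natsG (G : GCirc) : G.2.length ≤ (natsG G).length := by
  obtain ⟨n, l⟩ := G
  simp only [natsG, List.length_cons]
  induction l with
  | nil => simp
  | cons a l ih => rw [List.flatMap_cons, List.length_append, List.length_cons]; simp at ih ⊢; omega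

theorem rat_le {v M : ℕ} (hM : 0 < M) (h : v ≤ M) :
    ((v : ℚ) / M).num.toNat ≤ M ∧ ((v : ℚ) / M).den ≤ M := by
  have h1 : ((v : ℚ) / M).den ≤ M := by
    have h2 := Rat.den_dvd (v : ℤ) (M : ℤ)
    rw [Rat.divInt_eq_div, Int.cast_natCast, Int.cast_natCast, Int.natCast_dvd_natCast] at h2
    exact Nat.le_of_dvd hM h2
  have h3 : (v : ℚ) / M ≤ 1 := div_le_one_of_le₀ (by exact_mod_cast h) (Nat.cast_nonneg _)
  rw [← Rat.num_div_den ((v : ℚ) / M), div_le_one (by exact_mod_cast Rat.den_pos _)] at h3
  have h4 : ((v : ℚ) / M).num ≤ (((v : ℚ) / M).den : ℤ) := by exact_mod_cast h3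
  exact ⟨by omega, h1⟩

theorem getD_idx {N : Type} {l : List N} (f : N → ℚ) {n : N} (h : n ∈ l) :
    (l.map f).getD (l.idxOf n) 0 = f n := by
  have h1 := List.idxOf_lt_length_iff.2 h
  rw [List.getD_eq_getElem _ _ (by simpa using h1), List.getElem_map, List.getElem_idxOf]

theorem count_eq {N : Type} [Fintype N] {l : List N} (h : l.Nodup) (h' : ∀ n, n ∈ l)
    (p : N → Prop) : l.countP (fun n => decide (p n)) = (univ.filter p).card := by
  rw [List.countP_eq_length_filter, ← List.toFinset_card_of_nodup (h.filter _)]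
  congr 1
  ext n
  simp [h' n]

theorem length_eq {N : Type} [Fintype N] {l : List N} (h : l.Nodup) (h' : ∀ n, n ∈ l) :
    l.length = Fintype.card N := by
  rw [← List.toFinset_card_of_nodup h, ← card_univ]
  congr 1
  ext n
  simp [h' n]

theorem fr_le {N : Type} [Fintype N] [Nonempty N] {l : List N} (h : l.Nodup) (h' : ∀ n, n ∈ l)
    (p : N → Prop) {δ : ℝ} (hp : (1 - δ) * l.length ≤ (l.countP (fun n => decide (p n)) : ℕ)) :
    fr N (fun n => ¬ p n) ≤ δ := by
  rw [count_eq h h', length_eq h h', ← le_div_iff₀ (by exact_mod_cast Fintype.card_pos)] at hp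
  rw [fr_not, fr]
  linarith

end RCompx

open RCompx in
theorem rComp (h : RExist) : RComp := by
  intro C _ N k q a b hne hk hq ha hb hw ε δ hε hε' hδ
  obtain ⟨M, hM, hex⟩ := h ε hε hε'
  obtain ⟨l, hl, hl'⟩ := N.pf
  have hix : PT fun z : Σ c, N.T c => (l z.1).idxOf z.2 :=
    D.idxOf (hl.comp pt_sigma_fst) D.sigma_snd
  refine ⟨Polynomial.C (4 * M.size + 2) * Polynomial.X,
    fun c => ((l c).length, (l c).map fun n =>
      (k c n, (l c).idxOf n, (l c).idxOf (a c n), (l c).idxOf (b c n), q c n)),
    fun c n => (l c).idxOf n, ?_, hix, fun c => ⟨⟨?_, ?_, ?_⟩, ?_, ?_⟩⟩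
  · refine hl.length.mk (D.pt (D.map (Y := fun _ => GGate) hl (D.of_pt ?_)))
    exact hk.mk (hix.mk ((hix.comp (pt_sigma_mk pt_sigma_fst ha)).mk
      ((hix.comp (pt_sigma_mk pt_sigma_fst hb)).mk hq)))
  · obtain ⟨n⟩ := hne c
    simpa using List.ne_nil_of_mem ((hl' c).2 n)
  · rw [List.map_map]
    exact (hl' c).1.map_on fun x hx y _ e => (List.idxOf_inj hx).1 e
  · intro g hg
    obtain ⟨n, -, rfl⟩ := List.mem_map.1 hg
    have h1 := fun m => List.idxOf_lt_length_iff.2 ((hl' c).2 m)
    exact ⟨(hw c n).1, h1 _, h1 _, h1 _, (hw c n).2⟩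
  · obtain ⟨v, hv, hs⟩ := hex (N.T c) (k c) (q c) (a c) (b c) fun n => (hw c n).2
    refine ⟨(l c).map fun n => (v n : ℚ) / M, by simp, ?_, ?_, ?_⟩
    · intro r hr
      obtain ⟨n, -, rfl⟩ := List.mem_map.1 hr
      exact ⟨by positivity, div_le_one_of_le₀ (by exact_mod_cast hv n) (Nat.cast_nonneg _)⟩
    · refine (len_le _ M.size fun t ht => ?_).trans ?_
      · obtain ⟨r, hr, ht⟩ := List.mem_flatMap.1 ht
        obtain ⟨n, -, rfl⟩ := List.mem_map.1 hr
        have h1 := rat_le hM (hv n)
        rw [List.mem_cons, List.mem_singleton] at ht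
        rcases ht with rfl | rfl
        · exact Nat.size_le_size h1.1
        · exact Nat.size_le_size h1.2
      · rw [len_natsX, Polynomial.eval_mul, Polynomial.eval_C, Polynomial.eval_X, ← mul_assoc,
          show (2 * M.size + 1) * 2 = 4 * M.size + 2 by ring]
        refine Nat.mul_le_mul_left _ (le_trans ?_ ((len_natsG _).trans (le_len _)))
        simp
    · rw [List.countP_eq_length.2]
      · exact mul_le_of_le_one_left (Nat.cast_nonneg _) (by linarith)
      · intro g hg
        obtain ⟨n, -, rfl⟩ := List.mem_map.1 hg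
        have h1 := fun m => getD_idx (fun n => (v n : ℚ) / M) ((hl' c).2 m)
        simp only [Sat, h1, decide_eq_true_eq]
        push_cast
        exact hs n
  · rintro x ⟨-, h1, -, h2⟩
    refine ⟨fun i => ?_, ?_⟩
    · by_cases hi : i < x.length
      · rw [List.getD_eq_getElem _ _ hi]
        exact h1 _ (List.getElem_mem hi)
      · rw [List.getD_eq_default _ _ (not_lt.1 hi)]
        exact ⟨le_rfl, zero_le_one⟩
    · have := hne c
      rw [List.countP_map, List.length_map] at h2
      exact fr_le (hl' c).1 (hl' c).2 _ h2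

end Vale.Agent.P330
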