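import Vale.Agent.P330.Ifc

/-! Block B2 (realisation as generalized circuits): definitions and statements. -/

namespace Vale.Agent.P330

open Vale.Agent.Lib.PolyTime Finset
open scoped Classical BigOperators

/-- Every circuit has an approximate solution on a grid. -/
def RExist : Prop :=
  ∀ ε : ℝ, 0 < ε → ε ≤ 1 / 4 → ∃ M : ℕ, 0 < M ∧
    ∀ (N : Type) [Fintype N] (k : N → ℕ) (q : N → ℚ) (a b : N → N), (∀ n, 0 ≤ q n ∧ q n ≤ 1) →
      ∃ v : N → ℕ, (∀ n, v n ≤ M) ∧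
        ∀ n, GateSat ε (k n) (q n) ((v n : ℝ) / M) ((v (a n) : ℝ) / M) ((v (b n) : ℝ) / M)

/-- Compilation of a computable family of circuits with one gate for each node. -/
def RComp : Prop :=
  ∀ (C : Type) [Enc C] (N : Fam C) (k : ∀ c, N.T c → ℕ) (q : ∀ c, N.T c → ℚ)
    (a b : ∀ c, N.T c → N.T c), (∀ c, Nonempty (N.T c)) →
    PT (fun z : Σ c, N.T c => k z.1 z.2) → PT (fun z : Σ c, N.T c => q z.1 z.2) → D2 a → D2 b →
    (∀ c n, k c n ≤ 8 ∧ 0 ≤ q c n ∧ q c n ≤ 1) → ∀ ε δ : ℝ, 0 < ε → ε ≤ 1 / 4 → 0 ≤ δ →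
    ∃ (p : Polynomial ℕ) (R : C → GCirc) (ix : ∀ c, N.T c → ℕ), PT R ∧
      PT (fun z : Σ c, N.T c => ix z.1 z.2) ∧
      ∀ c, GCircOK (R c) ∧ (∃ x, Acceptable ε δ p (R c) x) ∧
        ∀ x, Acceptable ε δ p (R c) x → (∀ i, 0 ≤ x.getD i 0 ∧ x.getD i 0 ≤ 1) ∧
          fr (N.T c) (fun n => ¬ GateSat ε (k c n) (q c n) (x.getD (ix c n) 0 : ℚ)
            (x.getD (ix c (a c n)) 0 : ℚ) (x.getD (ix c (b c n)) 0 : ℚ)) ≤ δ

/-- A sampler of constant degree on sets of arbitrary size. -/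
def RSamp : Prop :=
  ∀ κ η : ℝ, 0 < η → ∃ (Wk : Type) (_ : Fintype Wk) (_ : Nonempty Wk) (s : Wk → ℕ → ℕ → ℕ),
    (∀ (w : Wk) (α : Type) [Enc α] (W r : α → ℕ), PT W → PB W → PT r →
      PT fun a => s w (W a) (r a)) ∧
    ∀ W : ℕ, 0 < W → (∀ w r, s w W r < W) ∧ ∀ (g : ℕ → ℝ) (n : ℕ), (∀ i, 0 ≤ g i ∧ g i ≤ 1) →
      (n : ℝ) ≤ κ * W →
      ∑ r ∈ range n, |𝔼 w, g (s w W r) - (∑ i ∈ range W, g i) / W| ≤ η * W

/-- Local averages that approximate the averages over the fibres of `out`. -/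
def RNb : Prop :=
  ∀ κ η : ℝ, 0 < η → ∃ (Wk : Type) (_ : Fintype Wk) (_ : Nonempty Wk),
    ∀ (C : Type) [Enc C] (T V : Fam C) (out sl : ∀ c, T.T c → V.T c), D2 out → D2 sl →
      (∀ c u, fr (T.T c) (fun t => sl c t = u) ≤ κ * fr (T.T c) fun t => out c t = u) →
      ∃ nb : ∀ c, Wk → T.T c → T.T c, (∀ w, D2 fun c t => nb c w t) ∧
        ∀ c (g : T.T c → ℝ), (∀ t, 0 ≤ g t ∧ g t ≤ 1) →
          ∑ t, |𝔼 w, g (nb c w t) - 𝔼 t' ∈ univ.filter (fun t' => out c t' = sl c t), g t'| ≤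
            η * Fintype.card (T.T c)

/-- The distribution stored in the numbers `y`: the law of the symbol read with a uniform
threshold. -/
noncomputable def pd {F B J : Type} [Fintype J] (dec : (B → Bool) → F) (θ : J → ℚ) (y : B → ℝ)
    (s : F) : ℝ :=
  fr J fun j => dec (fun b => decide ((θ j : ℝ) < y b)) = s

/-- Distributions are stored by their cumulative sums. -/
def RSym : Prop :=
  ∀ (F : Type) [Fintype F] [Nonempty F] (η : ℝ), 0 < η →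
    ∃ (B : Type) (_ : Fintype B) (_ : Nonempty B) (dec : (B → Bool) → F) (cum : B → F → Prop)
      (ρ : ℝ), 0 < ρ ∧
      ∀ η' : ℝ, 0 < η' → ∃ (J : Type) (_ : Fintype J) (_ : Nonempty J) (θ : J → ℚ) (ρ' : ℝ),
        0 < ρ' ∧ (∀ j, 0 ≤ θ j ∧ θ j ≤ 1) ∧
        (∀ y : B → ℝ, fr J (fun j => ∃ b, |(θ j : ℝ) - y b| ≤ ρ') ≤ η') ∧
        ∀ (Q : F → ℝ) (y : B → ℝ), (∀ s, 0 ≤ Q s) → ∑ s, Q s = 1 →
          (∀ b, |y b - ∑ s ∈ univ.filter (cum b), Q s| ≤ ρ) → ∑ s, |pd dec θ y s - Q s| ≤ η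

/-- Formulas built from gates. -/
inductive Ex (E : Type) : Type
  | inp (e : E) : Ex E
  | cst (q : ℚ) : Ex E
  | gate (k : ℕ) (q : ℚ) (a b : Ex E) : Ex E

/-- Well formed formulas. -/
def Ex.wf {E : Type} : Ex E → Prop
  | .inp _ => True
  | .cst q => 0 ≤ q ∧ q ≤ 1
  | .gate k q a b => k ≤ 8 ∧ 0 ≤ q ∧ q ≤ 1 ∧ a.wf ∧ b.wf

/-- All gates of a formula are satisfied; inputs are read by copy gates. -/
def Ex.ok {E : Type} (ε : ℝ) (ext : E → ℝ) (val : Ex E → ℝ) : Ex E → Prop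
  | .inp e => |val (.inp e) - ext e| ≤ ε
  | .cst q => |val (.cst q) - q| ≤ ε
  | .gate k q a b => GateSat ε k q (val (.gate k q a b)) (val a) (val b) ∧
      a.ok ε ext val ∧ b.ok ε ext val

/-- A formula for the average of Boolean functions of threshold bits. -/
def RExp : Prop :=
  ∀ (E I Ω : Type) [Fintype I] [Fintype Ω] [Nonempty Ω] (rd : Ω → I → E) (θ : Ω → I → ℚ)
    (g : (I → Bool) → Prop), (∀ ω i, 0 ≤ θ ω i ∧ θ ω i ≤ 1) →
    ∃ t : Ex E, t.wf ∧ ∀ (ε : ℝ) (ext : E → ℝ) (val : Ex E → ℝ), 0 < ε →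
      (∀ x, 0 ≤ val x ∧ val x ≤ 1) → t.ok ε ext val →
      |val t - fr Ω fun ω => g fun i => decide ((θ ω i : ℝ) < ext (rd ω i))| ≤
        fr Ω (fun ω => ∃ i, |(θ ω i : ℝ) - ext (rd ω i)| ≤ 3 * ε) + (2 * Fintype.card Ω + 2) * ε

/-- A template: a fixed circuit on the local nodes `L` that reads the external nodes `E`, depends
on a parameter in `Φ` and has the outputs `o`. -/
structure Tpl (E Φ B L : Type) where
  k : Φ → L → ℕ
  q : Φ → L → ℚ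
  a : Φ → L → L ⊕ E
  b : Φ → L → L ⊕ E
  o : B → L
  wf : ∀ φ l, k φ l ≤ 8 ∧ 0 ≤ q φ l ∧ q φ l ≤ 1

/-- All gates of a template are satisfied. -/
def Tpl.ok {E Φ B L : Type} (τ : Tpl E Φ B L) (ε : ℝ) (φ : Φ) (ext : E → ℝ) (val : L → ℝ) : Prop :=
  ∀ l, GateSat ε (τ.k φ l) (τ.q φ l) (val l) (Sum.elim val ext (τ.a φ l))
    (Sum.elim val ext (τ.b φ l))

/-- Formulas are packed into a template. -/
def RTpl : Prop :=
  ∀ (E Φ B : Type) [Fintype Φ] [Fintype B] (ex : Φ → B → Ex E), (∀ φ b, (ex φ b).wf) →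
    ∃ (L : Type) (_ : Fintype L) (τ : Tpl E Φ B L),
      ∀ (ε : ℝ) (φ : Φ) (ext : E → ℝ) (val : L → ℝ), (∀ l, 0 ≤ val l ∧ val l ≤ 1) →
        τ.ok ε φ ext val → ∃ val' : Ex E → ℝ, (∀ x, 0 ≤ val' x ∧ val' x ≤ 1) ∧
          ∀ b, (ex φ b).ok ε ext val' ∧ |val (τ.o b) - val' (ex φ b)| ≤ ε

/-- The macro gate of one term. -/
def RNode : Prop :=
  ∀ (F A Wk : Type) [Fintype F] [Nonempty F] [Fintype A] [Fintype Wk] [Nonempty Wk] (η : ℝ),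
    0 < η → ∃ (B J L : Type) (_ : Fintype B) (_ : Nonempty B) (_ : Fintype J) (_ : Nonempty J)
      (_ : Fintype L) (dec : (B → Bool) → F) (θ : J → ℚ) (τ : Tpl (A × Wk × B) ((A → F) → F) B L)
      (ε : ℝ), 0 < ε ∧ ε ≤ 1 / 4 ∧
      ∀ (φ : (A → F) → F) (ext : A × Wk × B → ℝ) (val : L → ℝ), (∀ l, 0 ≤ val l ∧ val l ≤ 1) →
        τ.ok ε φ ext val →
        ∑ s, |pd dec θ (fun b => val (τ.o b)) s -
          law (fun i s' => 𝔼 w, pd dec θ (fun b => ext (i, w, b)) s') φ s| ≤ η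

end Vale.Agent.P330
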