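import Vale.Agent.P330.RDefs
import Vale.Agent.P330.Prob

/-! Block B2: the error of the averaged assignment. -/

namespace Vale.Agent.P330

open Finset
open scoped Classical BigOperators

namespace RErrx

variable {F A T V Wk : Type} [Fintype F] [Fintype A] [Fintype T] [Fintype V] [Fintype Wk]

/-- The average over the copies of a node. -/
noncomputable def pbar (out : T → V) (P : T → F → ℝ) (v : V) (s : F) : ℝ :=
  if (univ.filter fun t => out t = v).Nonempty then 𝔼 t ∈ univ.filter fun t => out t = v, P t s
  else (Fintype.card F : ℝ)⁻¹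

omit [Fintype V] in
theorem pbar_dist [Nonempty F] (out : T → V) {P : T → F → ℝ} (hP : IsDist P) :
    IsDist (pbar out P) := fun v => by
  unfold pbar
  split_ifs with h
  · refine ⟨fun b => expect_nonneg fun t _ => hP.nonneg t b, ?_⟩
    rw [← expect_sum_comm]
    simp only [fun t => (hP t).2]
    exact expect_const h _
  · exact ⟨fun b => by positivity, by simp⟩

omit [Fintype V] in
theorem sum_pbar (out : T → V) (P : T → F → ℝ) (v : V) (s : F) :
    ∑ _t ∈ univ.filter fun t => out t = v, pbar out P v s =
      ∑ t ∈ univ.filter fun t => out t = v, P t s := by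
  unfold pbar
  split_ifs with h
  · rw [sum_const, nsmul_eq_mul, card_mul_expect]
  · rw [not_nonempty_iff_eq_empty.1 h, sum_empty, sum_empty]

theorem pd_dist {B J X : Type} [Fintype J] [Nonempty J] (dec : (B → Bool) → F) (θ : J → ℚ)
    (y : X → B → ℝ) : IsDist fun x => pd dec θ (y x) := fun x => by
  simp only [pd, fr_eq_expect]
  exact isDist_expect (fun j => isDist_pure fun x => dec fun b => decide ((θ j : ℝ) < y x b)) x

theorem err_le [Nonempty F] [Nonempty T] [Nonempty Wk] (out : T → V) (sl : T → A → V)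
    (fn : T → (A → F) → F) {P : T → F → ℝ} (hP : IsDist P) (nb : A → Wk → T → T) (bad : T → Prop)
    {η1 η2 β : ℝ} (h1 : 0 ≤ η1) (hsl : ∀ t i, ∃ t', out t' = sl t i)
    (hgood : ∀ t, ¬ bad t → ∑ s, |P t s - law (fun i s' => 𝔼 w, P (nb i w t) s') (fn t) s| ≤ η1)
    (hnb : ∀ i s, ∑ t, |𝔼 w, P (nb i w t) s - 𝔼 t' ∈ univ.filter (fun t' => out t' = sl t i),
      P t' s| ≤ η2 * Fintype.card T) (hbad : fr T bad ≤ β) :
    (∑ v, ∑ b, |∑ t ∈ univ.filter fun t => out t = v,
      (pbar out P v b - law (fun i => pbar out P (sl t i)) (fn t) b)|) / Fintype.card T ≤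
      η1 + 2 * β + Fintype.card A * Fintype.card F * η2 := by
  have hT : (0 : ℝ) < Fintype.card T := by exact_mod_cast Fintype.card_pos
  have hpb := pbar_dist out hP
  have e1 : ∑ v, ∑ b, |∑ t ∈ univ.filter fun t => out t = v,
      (pbar out P v b - law (fun i => pbar out P (sl t i)) (fn t) b)| ≤
      ∑ t, ∑ b, |P t b - law (fun i => pbar out P (sl t i)) (fn t) b| := by
    rw [← sum_fiberwise univ out]
    refine sum_le_sum fun v _ => ?_
    rw [sum_comm]
    refine sum_le_sum fun b _ => ?_
    rw [sum_sub_distrib, sum_pbar, ← sum_sub_distrib]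
    exact abs_sum_le_sum_abs _ _
  have e2 : ∀ t, ∑ b, |P t b - law (fun i => pbar out P (sl t i)) (fn t) b| ≤
      η1 + 2 * (if bad t then 1 else 0) +
        ∑ i, ∑ s, |𝔼 w, P (nb i w t) s - pbar out P (sl t i) s| := fun t => by
    have hq : IsDist fun i s' => 𝔼 w, P (nb i w t) s' :=
      isDist_expect fun w => hP.comp fun i => nb i w t
    have hq' : IsDist fun i => pbar out P (sl t i) := hpb.comp _
    have l := law_lip hq hq' (fn t)
    have n : 0 ≤ ∑ i, ∑ s, |𝔼 w, P (nb i w t) s - pbar out P (sl t i) s| := by positivity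
    split_ifs with h
    · have : ∑ b, |P t b - law (fun i => pbar out P (sl t i)) (fn t) b| ≤
          ∑ b, (P t b + law (fun i => pbar out P (sl t i)) (fn t) b) := sum_le_sum fun b _ =>
        abs_le.2 ⟨by linarith [hP.nonneg t b], by linarith [law_nonneg hq' (fn t) b]⟩
      rw [sum_add_distrib, (hP t).2, sum_law hq'] at this
      linarith
    · have : ∑ b, |P t b - law (fun i => pbar out P (sl t i)) (fn t) b| ≤
          ∑ b, (|P t b - law (fun i s' => 𝔼 w, P (nb i w t) s') (fn t) b| +
            |law (fun i s' => 𝔼 w, P (nb i w t) s') (fn t) b -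
              law (fun i => pbar out P (sl t i)) (fn t) b|) :=
        sum_le_sum fun b _ => abs_sub_le _ _ _
      rw [sum_add_distrib] at this
      linarith [hgood t h]
  have e3 : ∑ t, ∑ i, ∑ s, |𝔼 w, P (nb i w t) s - pbar out P (sl t i) s| ≤
      Fintype.card A * Fintype.card F * η2 * Fintype.card T := by
    rw [sum_comm]
    calc _ ≤ ∑ _i : A, ∑ _s : F, η2 * Fintype.card T := by
          refine sum_le_sum fun i _ => ?_
          rw [sum_comm]
          refine sum_le_sum fun s _ => le_trans (le_of_eq (sum_congr rfl fun t _ => ?_)) (hnb i s)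
          obtain ⟨t', ht'⟩ := hsl t i
          rw [pbar, if_pos ⟨t', by simpa using ht'⟩]
      _ = _ := by simp only [sum_const, card_univ, nsmul_eq_mul]; ring
  have e4 : ∑ t, (if bad t then (1 : ℝ) else 0) ≤ β * Fintype.card T := by
    rw [fr, div_le_iff₀ hT] at hbad
    rwa [sum_boole]
  rw [div_le_iff₀ hT]
  refine e1.trans ((sum_le_sum fun t _ => e2 t).trans ?_)
  rw [sum_add_distrib, sum_add_distrib, ← mul_sum, sum_const, card_univ, nsmul_eq_mul]
  linarith

theorem fr_bad {L : Type} [Fintype L] [Nonempty L] [Nonempty T] (E : T × L → Prop) :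
    fr T (fun t => ∃ l, E (t, l)) ≤ Fintype.card L * fr (T × L) E := by
  refine (fr_exists_le fun l t => E (t, l)).trans (le_of_eq ?_)
  rw [fr_prod', ← card_univ, card_mul_expect]

omit [Fintype V] in
theorem pbar_le {J : Type} [Fintype J] (out : T → V) (E : T → J → F → Prop) (v : V) {s s' : F}
    (h : ∑ j, (univ.filter fun t => out t = v ∧ E t j s').card ≤
      ∑ j, (univ.filter fun t => out t = v ∧ E t j s).card) :
    pbar out (fun t a => fr J fun j => E t j a) v s' ≤
      pbar out (fun t a => fr J fun j => E t j a) v s := by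
  have e : ∀ a, ∑ t ∈ univ.filter fun t => out t = v, fr J (fun j => E t j a) =
      (∑ j, (univ.filter fun t => out t = v ∧ E t j a).card : ℕ) / (Fintype.card J : ℝ) := fun a => by
    simp only [fr, ← sum_div, ← filter_filter, card_filter, Nat.cast_sum]
    rw [sum_comm]
  unfold pbar
  split_ifs
  · rw [expect_eq_sum_div_card, expect_eq_sum_div_card, e, e]
    gcongr
  · exact le_rfl

end RErrx

end Vale.Agent.P330
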