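import Vale.Agent.P330.RDefs
import Vale.Agent.P371.Brouwer

/-! Block B2: every generalized circuit has an approximate solution on a grid. -/

namespace Vale.Agent.P330

open Vale.Agent.Lib.PolyTime Finset
open scoped Classical BigOperators

namespace RExistx

/-- Clamping to the unit interval. -/
noncomputable def cl (x : ℝ) : ℝ := max 0 (min 1 x)

theorem cl_nonneg (x : ℝ) : 0 ≤ cl x := le_max_left _ _

theorem cl_le_one (x : ℝ) : cl x ≤ 1 := max_le zero_le_one (min_le_left _ _)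

theorem cl_one {x : ℝ} (h : 1 ≤ x) : cl x = 1 := by
  rw [cl, min_eq_left h, max_eq_right zero_le_one]

theorem cl_zero {x : ℝ} (h : x ≤ 0) : cl x = 0 :=
  max_eq_left ((min_le_right _ _).trans h)

@[fun_prop] theorem cl_cont : Continuous cl := by
  unfold cl
  fun_prop

/-- The continuous gate maps. -/
noncomputable def gm (ε : ℝ) (k : ℕ) (c a b : ℝ) : ℝ :=
  if k = 0 then c
  else if k = 1 then c * a
  else if k = 2 then a
  else if k = 3 then min (a + b) 1
  else if k = 4 then max (a - b) 0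
  else if k = 5 then cl (1 / 2 + (b - a) / ε)
  else if k = 6 then cl (2 - 3 * a)
  else if k = 7 then cl (3 * max a b - 1)
  else cl (3 * min a b - 1)

theorem gm_cont (ε : ℝ) (k : ℕ) (c : ℝ) : Continuous fun z : ℝ × ℝ => gm ε k c z.1 z.2 := by
  unfold gm
  split_ifs <;> fun_prop

theorem gm_mem (ε : ℝ) (k : ℕ) {c a b : ℝ} (hc : 0 ≤ c ∧ c ≤ 1) (ha : 0 ≤ a ∧ a ≤ 1)
    (hb : 0 ≤ b ∧ b ≤ 1) : 0 ≤ gm ε k c a b ∧ gm ε k c a b ≤ 1 := by
  unfold gm
  split_ifs
  · exact hc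
  · exact ⟨mul_nonneg hc.1 ha.1, mul_le_one₀ hc.2 ha.1 ha.2⟩
  · exact ha
  · exact ⟨le_min (add_nonneg ha.1 hb.1) zero_le_one, min_le_right _ _⟩
  · exact ⟨le_max_right _ _, max_le (by linarith [ha.2, hb.1]) zero_le_one⟩
  all_goals exact ⟨cl_nonneg _, cl_le_one _⟩

theorem gm_sat {ε : ℝ} (hε : 0 < ε) (hε' : ε ≤ 1 / 4) (k : ℕ) {c a b z' a' b' : ℝ}
    (hc : 0 ≤ c ∧ c ≤ 1) (hz : |z' - gm ε k c a b| ≤ ε / 4) (ha : |a' - a| ≤ ε / 4)
    (hb : |b' - b| ≤ ε / 4) : GateSat ε k c z' a' b' := by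
  unfold gm at hz
  unfold GateSat
  obtain ⟨ha1, ha2⟩ := abs_le.1 ha
  obtain ⟨hb1, hb2⟩ := abs_le.1 hb
  split_ifs at hz ⊢ <;> obtain ⟨hz1, hz2⟩ := abs_le.1 hz
  · exact abs_le.2 ⟨by linarith, by linarith⟩
  · have h1 : c * (a' - a) ≤ ε / 4 := by nlinarith [hc.1, hc.2]
    have h2 : -(ε / 4) ≤ c * (a' - a) := by nlinarith [hc.1, hc.2]
    exact abs_le.2 ⟨by linarith, by linarith⟩
  · exact abs_le.2 ⟨by linarith, by linarith⟩
  · rcases min_cases (a + b) 1 with h | h <;> rcases min_cases (a' + b') 1 with h' | h' <;>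
      rw [h.1] at hz1 hz2 <;> rw [h'.1] <;> exact abs_le.2 ⟨by linarith [h.2, h'.2], by
        linarith [h.2, h'.2]⟩
  · rcases max_cases (a - b) 0 with h | h <;> rcases max_cases (a' - b') 0 with h' | h' <;>
      rw [h.1] at hz1 hz2 <;> rw [h'.1] <;> exact abs_le.2 ⟨by linarith [h.2, h'.2], by
        linarith [h.2, h'.2]⟩
  · refine ⟨fun h => ?_, fun h => ?_⟩
    · have h1 : 1 / 2 ≤ (b - a) / ε := by rw [le_div_iff₀ hε]; linarith
      rw [cl_one (by linarith)] at hz1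
      linarith
    · have h1 : (b - a) / ε ≤ -(1 / 2) := by rw [div_le_iff₀ hε]; linarith
      rw [cl_zero (by linarith)] at hz2
      linarith
  · refine ⟨fun h => ?_, fun h => ?_⟩
    · rw [cl_one (by linarith)] at hz1
      linarith
    · rw [cl_zero (by linarith)] at hz2
      linarith
  · refine ⟨fun h => ?_, fun h => ?_⟩
    · have h1 : 2 / 3 ≤ max a b := by
        rcases h with h | h
        · exact le_max_of_le_left (by linarith)
        · exact le_max_of_le_right (by linarith)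
      rw [cl_one (by linarith)] at hz1
      linarith
    · have h1 : max a b ≤ 1 / 3 := max_le (by linarith [h.1]) (by linarith [h.2])
      rw [cl_zero (by linarith)] at hz2
      linarith
  · refine ⟨fun h => ?_, fun h => ?_⟩
    · have h1 : 2 / 3 ≤ min a b := le_min (by linarith [h.1]) (by linarith [h.2])
      rw [cl_one (by linarith)] at hz1
      linarith
    · have h1 : min a b ≤ 1 / 3 := by
        rcases h with h | h
        · exact min_le_of_left_le (by linarith)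
        · exact min_le_of_right_le (by linarith)
      rw [cl_zero (by linarith)] at hz2
      linarith

theorem round_near {M : ℕ} (hM : 0 < M) {x : ℝ} (hx : 0 ≤ x) :
    |(⌊(M : ℝ) * x⌋₊ : ℝ) / M - x| ≤ 1 / M := by
  have hM' : (0 : ℝ) < M := by exact_mod_cast hM
  have h1 := Nat.floor_le (mul_nonneg hM'.le hx)
  have h2 := Nat.lt_floor_add_one ((M : ℝ) * x)
  have e : (⌊(M : ℝ) * x⌋₊ : ℝ) / M - x = ((⌊(M : ℝ) * x⌋₊ : ℝ) - M * x) / M := by field_simp
  rw [e, abs_div, abs_of_pos hM']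
  gcongr
  exact abs_le.2 ⟨by linarith, by linarith⟩

end RExistx

open RExistx in
theorem rExist : RExist := by
  intro ε hε hε'
  refine ⟨⌈4 / ε⌉₊ + 1, Nat.succ_pos _, fun N _ k q a b hq => ?_⟩
  set M := ⌈4 / ε⌉₊ + 1 with hM
  have hM0 : 0 < M := Nat.succ_pos _
  have hM' : (0 : ℝ) < M := by exact_mod_cast hM0
  have hh : 1 / (M : ℝ) ≤ ε / 4 := by
    have h1 : 4 / ε ≤ (M : ℝ) := by
      rw [hM]
      push_cast
      linarith [Nat.le_ceil (4 / ε)]
    rw [div_le_iff₀ hε] at h1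
    rw [div_le_div_iff₀ hM' (by norm_num)]
    linarith
  have hq' : ∀ n, (0 : ℝ) ≤ q n ∧ (q n : ℝ) ≤ 1 := fun n =>
    ⟨by exact_mod_cast (hq n).1, by exact_mod_cast (hq n).2⟩
  obtain ⟨x, hx, hfx⟩ := Vale.Agent.P371.brouwer (E := N → ℝ) (K := Set.Icc 0 1) (convex_Icc _ _)
    isCompact_Icc ⟨0, le_rfl, zero_le_one⟩
    (f := fun x n => gm ε (k n) (q n) (x (a n)) (x (b n)))
    (continuous_pi fun n => (gm_cont ε (k n) (q n)).comp
      (f := fun x : N → ℝ => (x (a n), x (b n))) (by fun_prop)).continuousOn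
    (fun x hx => ⟨fun n => (gm_mem ε (k n) (hq' n) ⟨hx.1 _, hx.2 _⟩ ⟨hx.1 _, hx.2 _⟩).1,
      fun n => (gm_mem ε (k n) (hq' n) ⟨hx.1 _, hx.2 _⟩ ⟨hx.1 _, hx.2 _⟩).2⟩)
  have hr : ∀ n, |(⌊(M : ℝ) * x n⌋₊ : ℝ) / M - x n| ≤ ε / 4 := fun n =>
    (round_near hM0 (hx.1 n)).trans hh
  refine ⟨fun n => ⌊(M : ℝ) * x n⌋₊, fun n => ?_, fun n => gm_sat hε hε' (k n) (hq' n)
    (a := x (a n)) (b := x (b n)) ?_ (hr _) (hr _)⟩
  · refine Nat.floor_le_of_le ?_
    have h1 : x n ≤ 1 := hx.2 n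
    nlinarith
  · have h1 : gm ε (k n) (q n) (x (a n)) (x (b n)) = x n := congrFun hfx n
    rw [h1]
    exact hr n

end Vale.Agent.P330
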