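import Vale.Agent.P330.RDefs

/-! A formula for the average of Boolean functions of threshold bits. -/

namespace Vale.Agent.P330

open Vale.Agent.Lib.PolyTime Finset
open scoped Classical BigOperators

namespace RExpx

/-- The number `v` represents the truth value of `b`. -/
def Pure (ε v : ℝ) (b : Prop) : Prop := (b → 1 - ε ≤ v) ∧ (¬ b → v ≤ ε)

theorem Pure.congr {ε v : ℝ} {p q : Prop} (h : Pure ε v p) (e : p ↔ q) : Pure ε v q :=
  ⟨fun a => h.1 (e.2 a), fun a => h.2 fun b => a (e.1 b)⟩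

theorem g_not {ε c z a b : ℝ} {p : Prop} (h : GateSat ε 6 c z a b) (ha : Pure ε a p) :
    Pure ε z (¬ p) := by
  have h : (a ≤ ε → 1 - ε ≤ z) ∧ (1 - ε ≤ a → z ≤ ε) := h
  exact ⟨fun x => h.1 (ha.2 x), fun x => h.2 (ha.1 (not_not.1 x))⟩

theorem g_or {ε c z a b : ℝ} {p q : Prop} (h : GateSat ε 7 c z a b) (ha : Pure ε a p)
    (hb : Pure ε b q) : Pure ε z (p ∨ q) := by
  have h : (1 - ε ≤ a ∨ 1 - ε ≤ b → 1 - ε ≤ z) ∧ (a ≤ ε ∧ b ≤ ε → z ≤ ε) := h
  exact ⟨fun x => h.1 (x.imp ha.1 hb.1),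
    fun x => h.2 ⟨ha.2 fun y => x (Or.inl y), hb.2 fun y => x (Or.inr y)⟩⟩

theorem g_and {ε c z a b : ℝ} {p q : Prop} (h : GateSat ε 8 c z a b) (ha : Pure ε a p)
    (hb : Pure ε b q) : Pure ε z (p ∧ q) := by
  have h : (1 - ε ≤ a ∧ 1 - ε ≤ b → 1 - ε ≤ z) ∧ (a ≤ ε ∨ b ≤ ε → z ≤ ε) := h
  exact ⟨fun x => h.1 ⟨ha.1 x.1, hb.1 x.2⟩, fun x => h.2 ((not_and_or.1 x).imp ha.2 hb.2)⟩

theorem g_lt {ε c z a b θ e : ℝ} (h : GateSat ε 5 c z a b) (ha : |a - θ| ≤ ε) (hb : |b - e| ≤ ε)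
    (hd : 3 * ε < |θ - e|) : Pure ε z (θ < e) := by
  have h : (a < b - ε → 1 - ε ≤ z) ∧ (b + ε < a → z ≤ ε) := h
  obtain ⟨a1, a2⟩ := abs_le.1 ha
  obtain ⟨b1, b2⟩ := abs_le.1 hb
  refine ⟨fun x => h.1 ?_, fun x => h.2 ?_⟩
  · rw [abs_of_neg (sub_neg.2 x)] at hd
    linarith
  · rw [abs_of_nonneg (sub_nonneg.2 (not_lt.1 x))] at hd
    linarith

variable {E ι : Type}

/-- Conjunction over a list. -/
def allE (f : ι → Ex E) : List ι → Ex E
  | [] => .cst 1
  | i :: L => .gate 8 0 (f i) (allE f L)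

/-- Disjunction over a list. -/
def anyE (f : ι → Ex E) : List ι → Ex E
  | [] => .cst 0
  | i :: L => .gate 7 0 (f i) (anyE f L)

/-- Weighted sum over a list. -/
def acc (c : ℚ) (f : ι → Ex E) : List ι → Ex E
  | [] => .cst 0
  | i :: L => .gate 3 0 (acc c f L) (.gate 1 c (f i) (f i))

theorem allE_wf {f : ι → Ex E} (h : ∀ i, (f i).wf) : ∀ L, (allE f L).wf
  | [] => ⟨zero_le_one, le_rfl⟩
  | i :: L => ⟨le_rfl, le_rfl, zero_le_one, h i, allE_wf h L⟩

theorem anyE_wf {f : ι → Ex E} (h : ∀ i, (f i).wf) : ∀ L, (anyE f L).wf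
  | [] => ⟨le_rfl, zero_le_one⟩
  | i :: L => ⟨by norm_num, le_rfl, zero_le_one, h i, anyE_wf h L⟩

theorem acc_wf {c : ℚ} (c0 : 0 ≤ c) (c1 : c ≤ 1) {f : ι → Ex E} (h : ∀ i, (f i).wf) :
    ∀ L, (acc c f L).wf
  | [] => ⟨le_rfl, zero_le_one⟩
  | i :: L => ⟨by norm_num, le_rfl, zero_le_one, acc_wf c0 c1 h L,
      by norm_num, c0, c1, h i, h i⟩

variable {ε : ℝ} {ext : E → ℝ} {val : Ex E → ℝ}

theorem allE_pure {f : ι → Ex E} {p : ι → Prop}
    (h : ∀ i, (f i).ok ε ext val → Pure ε (val (f i)) (p i)) :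
    ∀ L, (allE f L).ok ε ext val → Pure ε (val (allE f L)) (∀ i ∈ L, p i)
  | [] => fun k => by
    have k : |val (.cst 1) - ((1 : ℚ) : ℝ)| ≤ ε := k
    have := (abs_le.1 k).1
    push_cast at this
    exact ⟨fun _ => by change 1 - ε ≤ val (.cst 1); linarith, fun x => (x (by simp)).elim⟩
  | i :: L => fun k => (g_and k.1 (h i k.2.1) (allE_pure h L k.2.2)).congr (by simp)

theorem anyE_pure {f : ι → Ex E} {p : ι → Prop}
    (h : ∀ i, (f i).ok ε ext val → Pure ε (val (f i)) (p i)) :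
    ∀ L, (anyE f L).ok ε ext val → Pure ε (val (anyE f L)) (∃ i ∈ L, p i)
  | [] => fun k => by
    have k : |val (.cst 0) - ((0 : ℚ) : ℝ)| ≤ ε := k
    have := (abs_le.1 k).2
    push_cast at this
    exact ⟨fun x => by simp at x, fun _ => by change val (.cst 0) ≤ ε; linarith⟩
  | i :: L => fun k => (g_or k.1 (h i k.2.1) (anyE_pure h L k.2.2)).congr (by simp)

theorem acc_val {c : ℚ} (c0 : (0 : ℝ) ≤ c) {f : ι → Ex E} (hv : ∀ x, 0 ≤ val x ∧ val x ≤ 1) :
    ∀ L : List ι, L.length * (c : ℝ) ≤ 1 → (acc c f L).ok ε ext val →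
      (∀ i ∈ L, (f i).ok ε ext val) ∧ (L.map fun i => c * val (f i)).sum ≤ L.length * (c : ℝ) ∧
        |val (acc c f L) - (L.map fun i => c * val (f i)).sum| ≤ (2 * L.length + 1) * ε
  | [] => fun _ k => by
    have k : |val (.cst 0) - ((0 : ℚ) : ℝ)| ≤ ε := k
    refine ⟨by simp, by simp, ?_⟩
    simpa [acc] using k
  | i :: L => fun hl k => by
    simp only [List.length_cons, List.map_cons, List.sum_cons, Nat.cast_add, Nat.cast_one]
      at hl ⊢
    obtain ⟨i1, i2, i3⟩ := acc_val c0 hv L (by linarith) k.2.1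
    have k1 : |val (acc c f (i :: L)) -
      min (val (acc c f L) + val (.gate 1 c (f i) (f i))) 1| ≤ ε := k.1
    have k2 : |val (.gate 1 c (f i) (f i)) - c * val (f i)| ≤ ε := k.2.2.1
    have k3 : c * val (f i) ≤ c := mul_le_of_le_one_right c0 (hv _).2
    refine ⟨List.forall_mem_cons.2 ⟨k.2.2.2.1, i1⟩, by linarith, ?_⟩
    rw [abs_le] at k1 k2 i3 ⊢
    rcases min_cases (val (acc c f L) + val (.gate 1 c (f i) (f i))) 1 with ⟨e, e'⟩ | ⟨e, e'⟩
    · rw [e] at k1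
      constructor <;> linarith [k1.1, k1.2, k2.1, k2.2, i3.1, i3.2]
    · rw [e] at k1
      have : 0 ≤ (2 * L.length + 1) * ε := by linarith [i3.1, i3.2]
      constructor <;> linarith [k1.1, k1.2, k2.1, k2.2, i3.1, i3.2]

theorem boolEx {I : Type} [Fintype I] (g : (I → Bool) → Prop) (x : I → Ex E)
    (hx : ∀ i, (x i).wf) : ∃ t : Ex E, t.wf ∧
      ∀ (ε : ℝ) (ext : E → ℝ) (val : Ex E → ℝ) (β : I → Bool),
        (∀ i, (x i).ok ε ext val → Pure ε (val (x i)) (β i = true)) → t.ok ε ext val →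
          Pure ε (val t) (g β) := by
  refine ⟨anyE (fun γ : I → Bool => allE (fun i => bif γ i then x i else .gate 6 0 (x i) (x i))
    univ.toList) (univ.filter g).toList, anyE_wf (fun γ => allE_wf (fun i => ?_) _) _,
    fun ε ext val β h k => ?_⟩
  · cases γ i
    · exact ⟨by norm_num, le_rfl, zero_le_one, hx i, hx i⟩
    · exact hx i
  · refine (anyE_pure (p := fun γ => ∀ i ∈ univ.toList, β i = γ i)
      (fun γ => allE_pure (fun i => ?_) _) _ k).congr ?_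
    · cases γ i
      · exact fun k => (g_not k.1 (h i k.2.1)).congr (by simp)
      · exact h i
    · simp only [mem_toList, mem_filter, mem_univ, true_and, forall_const]
      exact ⟨fun ⟨γ, a, b⟩ => (funext b : β = γ) ▸ a, fun a => ⟨β, a, fun _ => rfl⟩⟩

theorem fr_eq (Ω : Type) [Fintype Ω] (p : Ω → Prop) :
    fr Ω p = ∑ ω, (1 / Fintype.card Ω : ℝ) * if p ω then 1 else 0 := by
  rw [← mul_sum, sum_boole, fr]
  ring

end RExpx

open RExpx in
theorem rExp : RExp := by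
  intro E I Ω _ _ _ rd θ g hθ
  choose bit wf hb using fun ω => boolEx g
    (fun i => Ex.gate 5 0 (.cst (θ ω i)) (.inp (rd ω i)))
    fun i => ⟨by norm_num, le_rfl, zero_le_one, hθ ω i, trivial⟩
  have N1 : (1 : ℝ) ≤ Fintype.card Ω := by exact_mod_cast Fintype.card_pos
  have N1' : (1 : ℚ) ≤ Fintype.card Ω := by exact_mod_cast Fintype.card_pos
  have ec : ((1 / Fintype.card Ω : ℚ) : ℝ) = 1 / Fintype.card Ω := by push_cast; rfl
  have N0 : (0 : ℝ) < Fintype.card Ω := by linarith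
  refine ⟨acc (1 / Fintype.card Ω) bit univ.toList, acc_wf (by positivity)
    ((div_le_one (by linarith)).2 N1') wf _, fun ε ext val hε hv k => ?_⟩
  obtain ⟨a1, -, a3⟩ := acc_val (by rw [ec]; positivity) hv _
    (by rw [ec, length_toList, card_univ, mul_one_div_cancel N0.ne']) k
  rw [sum_map_toList, length_toList, card_univ, ec] at a3
  have key : ∀ ω, |val (bit ω) - if g fun i => decide ((θ ω i : ℝ) < ext (rd ω i)) then 1 else 0|
      ≤ (if ∃ i, |(θ ω i : ℝ) - ext (rd ω i)| ≤ 3 * ε then 1 else 0) + ε := fun ω => by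
    have v := hv (bit ω)
    by_cases bad : ∃ i, |(θ ω i : ℝ) - ext (rd ω i)| ≤ 3 * ε
    · rw [if_pos bad, abs_le]
      split_ifs <;> constructor <;> linarith [v.1, v.2]
    · have p := hb ω ε ext val (fun i => decide ((θ ω i : ℝ) < ext (rd ω i))) (fun i k =>
        (g_lt k.1 k.2.1 k.2.2 (not_le.1 fun c => bad ⟨i, c⟩)).congr (by simp))
        (a1 ω (by simp))
      rw [if_neg bad, abs_le]
      split_ifs with c
      · constructor <;> linarith [v.2, p.1 c]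
      · constructor <;> linarith [v.1, p.2 c]
  have a4 : |∑ ω, 1 / (Fintype.card Ω : ℝ) * val (bit ω) -
      fr Ω fun ω => g fun i => decide ((θ ω i : ℝ) < ext (rd ω i))| ≤
      fr Ω (fun ω => ∃ i, |(θ ω i : ℝ) - ext (rd ω i)| ≤ 3 * ε) + ε := by
    have e : ε = ∑ _ω : Ω, 1 / (Fintype.card Ω : ℝ) * ε := by
      rw [sum_const, card_univ, nsmul_eq_mul]
      field_simp
    rw [fr_eq, fr_eq, ← sum_sub_distrib]
    refine (abs_sum_le_sum_abs _ _).trans (le_trans ?_ (add_le_add le_rfl e.ge))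
    rw [← sum_add_distrib]
    refine sum_le_sum fun ω _ => ?_
    rw [← mul_sub, ← mul_add, abs_mul, abs_of_pos (by positivity)]
    refine mul_le_mul_of_nonneg_left ((key ω).trans ?_) (by positivity)
    split_ifs <;> exact le_rfl
  refine (abs_sub_le _ (∑ ω, 1 / (Fintype.card Ω : ℝ) * val (bit ω)) _).trans ?_
  linarith

end Vale.Agent.P330
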