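import Vale.Agent.P330.RDefs

/-! Block B2: local averages that approximate the averages over fibres. -/

namespace Vale.Agent.P330

open Vale.Agent.Lib.PolyTime Finset
open scoped Classical BigOperators

namespace RNbx

/-- The list of the points of a fibre. -/
noncomputable def fib {X U : Type} (l : List X) (f : X → U) (u : U) : List X :=
  l.filter fun x => decide (f x = u)

/-- The sampled neighbour. -/
noncomputable def nbf {X U : Type} (l : List X) (out sl : X → U) (s : ℕ → ℕ → ℕ) (t : X) : X :=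
  (fib l out (sl t)).getD (s (fib l out (sl t)).length ((fib l sl (sl t)).idxOf t)) t

theorem sum_idx {X : Type} (L : List X) (hL : L.Nodup) (A : Finset X) (hA : ∀ x, x ∈ A ↔ x ∈ L)
    (F : ℕ → ℝ) : ∑ t ∈ A, F (L.idxOf t) = ∑ r ∈ range L.length, F r := by
  refine sum_bij (fun t _ => L.idxOf t) ?_ ?_ ?_ ?_
  · intro t ht
    exact mem_range.2 (List.idxOf_lt_length_of_mem ((hA t).1 ht))
  · intro a ha b hb h
    exact (List.idxOf_inj ((hA a).1 ha)).1 h
  · intro r hr
    have hr' := mem_range.1 hr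
    exact ⟨L[r], (hA _).2 (List.getElem_mem hr'), hL.idxOf_getElem r hr'⟩
  · intro t _
    rfl

theorem card_eq {X : Type} (L : List X) (hL : L.Nodup) (A : Finset X) (hA : ∀ x, x ∈ A ↔ x ∈ L) :
    A.card = L.length := by
  rw [← List.toFinset_card_of_nodup hL]
  congr 1
  ext x
  rw [hA, List.mem_toFinset]

theorem fib_nodup {X U : Type} {l : List X} (hl : l.Nodup) (f : X → U) (u : U) :
    (fib l f u).Nodup := hl.filter _

theorem mem_fib {X U : Type} [Fintype X] {l : List X} (hm : ∀ x, x ∈ l) (f : X → U) (u : U) (x : X) :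
    x ∈ univ.filter (fun t => f t = u) ↔ x ∈ fib l f u := by
  simp [fib, hm]

theorem core {X U Wk : Type} [Fintype X] [Fintype U] [Fintype Wk] {l : List X} (hl : l.Nodup)
    (hm : ∀ x, x ∈ l) (out sl : X → U) (s : Wk → ℕ → ℕ → ℕ) {κ η : ℝ}
    (hs : ∀ W : ℕ, 0 < W → (∀ w r, s w W r < W) ∧ ∀ (g : ℕ → ℝ) (n : ℕ), (∀ i, 0 ≤ g i ∧ g i ≤ 1) →
      (n : ℝ) ≤ κ * W →
      ∑ r ∈ range n, |𝔼 w, g (s w W r) - (∑ i ∈ range W, g i) / W| ≤ η * W)
    (hd : ∀ u, fr X (fun t => sl t = u) ≤ κ * fr X fun t => out t = u)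
    (g : X → ℝ) (hg : ∀ t, 0 ≤ g t ∧ g t ≤ 1) :
    ∑ t, |𝔼 w, g (nbf l out sl (s w) t) - 𝔼 t' ∈ univ.filter (fun t' => out t' = sl t), g t'| ≤
      η * Fintype.card X := by
  rcases isEmpty_or_nonempty X with hX | hX
  · simp
  have hc : (0 : ℝ) < Fintype.card X := by exact_mod_cast Fintype.card_pos
  have hcard : (Fintype.card X : ℝ) = ∑ u, ((fib l out u).length : ℝ) := by
    rw [← card_univ, card_eq_sum_card_fiberwise (f := out) (t := univ) (by simp), Nat.cast_sum]
    refine sum_congr rfl fun u _ => ?_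
    rw [card_eq _ (fib_nodup hl out u) _ (mem_fib hm out u)]
  rw [← sum_fiberwise univ sl, hcard, mul_sum]
  refine sum_le_sum fun u _ => ?_
  have hn : ((fib l sl u).length : ℝ) ≤ κ * (fib l out u).length := by
    have h1 := hd u
    unfold fr at h1
    rw [card_eq _ (fib_nodup hl out u) _ (mem_fib hm out u),
      card_eq _ (fib_nodup hl sl u) _ (mem_fib hm sl u), ← mul_div_assoc] at h1
    exact (div_le_div_iff_of_pos_right hc).1 h1
  rcases Nat.eq_zero_or_pos (fib l out u).length with h0 | h0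
  · rw [h0] at hn ⊢
    have h2 : (fib l sl u).length = 0 := by
      have : ((fib l sl u).length : ℝ) ≤ 0 := by simpa using hn
      exact_mod_cast le_antisymm this (Nat.cast_nonneg _)
    rw [← card_eq _ (fib_nodup hl sl u) _ (mem_fib hm sl u), card_eq_zero] at h2
    rw [h2]
    simp
  obtain ⟨t0⟩ := hX
  obtain ⟨hlt, hsum⟩ := hs _ h0
  refine le_of_eq_of_le ?_ (hsum (fun i => g ((fib l out u).getD i t0)) _ (fun i => hg _) hn)
  rw [← sum_idx _ (fib_nodup hl sl u) _ (mem_fib hm sl u)]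
  refine sum_congr rfl fun t ht => ?_
  have htu : sl t = u := (mem_filter.1 ht).2
  have e1 : ∀ w, nbf l out sl (s w) t =
      (fib l out u).getD (s w (fib l out u).length ((fib l sl u).idxOf t)) t0 := by
    intro w
    unfold nbf
    rw [htu, List.getD_eq_getElem _ _ (hlt w _), List.getD_eq_getElem _ _ (hlt w _)]
  have e2 : 𝔼 t' ∈ univ.filter (fun t' => out t' = sl t), g t' =
      (∑ i ∈ range (fib l out u).length, g ((fib l out u).getD i t0)) / (fib l out u).length := by
    rw [htu, expect_eq_sum_div_card, card_eq _ (fib_nodup hl out u) _ (mem_fib hm out u),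
      ← sum_idx _ (fib_nodup hl out u) _ (mem_fib hm out u)]
    congr 1
    refine sum_congr rfl fun x hx => ?_
    have hx' := List.idxOf_lt_length_of_mem ((mem_fib hm out u x).1 hx)
    rw [List.getD_eq_getElem _ _ hx', List.getElem_idxOf hx']
  simp only [e1, e2]

theorem d_fib {C : Type} [Enc C] {X U : C → Type} [∀ c, Enc (X c)] [∀ c, Enc (U c)]
    {l : ∀ c, List (X c)} (hl : D l) {f sl : ∀ c, X c → U c} (hf : D2 f) (hsl : D2 sl) :
    D2 fun c t => fib (l c) (f c) (sl c t) := by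
  have h1 : D (Y := fun z : Σ c, X c => List (X z.1)) fun z => l z.1 := hl.comp pt_sigma_fst
  have h2 : D (Y := fun y : Σ z : (Σ c, X c), X z.1 => U y.1.1) fun y => f y.1.1 y.2 :=
    D2.app hf (p := fun y : Σ z : (Σ c, X c), X z.1 => y.1.1) (pt_sigma_fst.comp pt_sigma_fst)
      (D.sigma_snd (X := fun z : Σ c, X c => X z.1))
  have h3 : D (Y := fun y : Σ z : (Σ c, X c), X z.1 => U y.1.1) fun y => sl y.1.1 y.1.2 :=
    D.comp hsl (p := fun y : Σ z : (Σ c, X c), X z.1 => y.1) pt_sigma_fst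
  exact D.filter (X := fun z : Σ c, X c => X z.1) (p := fun z x => f z.1 x = sl z.1 z.2) h1
    (D.eq h2 h3)

end RNbx

open RNbx in
theorem rNb (h : RSamp) : RNb := by
  intro κ η hη
  obtain ⟨Wk, i1, i2, s, hpt, hs⟩ := h κ η hη
  refine ⟨Wk, i1, i2, fun C _ T V out sl hout hsl hd => ?_⟩
  obtain ⟨l, hl, hl'⟩ := T.pf
  refine ⟨fun c w t => nbf (l c) (out c) (sl c) (s w) t, fun w => ?_, fun c g hg =>
    core (hl' c).1 (hl' c).2 (out c) (sl c) s hs (hd c) g hg⟩
  have h1 := d_fib hl hout hsl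
  have h2 := d_fib hl hsl hsl
  exact D.getD h1 (hpt w _ _ _ h1.length h1.pb_length (h2.idxOf D.sigma_snd)) D.sigma_snd

end Vale.Agent.P330
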