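import Vale.Agent.P330.RDefs
import Vale.Agent.P330.Prob

/-! The macro gate of one term. -/

namespace Vale.Agent.P330

open Vale.Agent.Lib.PolyTime Finset
open scoped Classical BigOperators

namespace RNodex

variable {A F Z Ω : Type} [Fintype A] [Fintype F] [Fintype Z] [Fintype Ω]

theorem fiber (G : Ω → F) (P : F → Prop) :
    ∑ s ∈ univ.filter P, fr Ω (fun w => G w = s) = fr Ω fun w => P (G w) := by
  unfold fr
  rw [← sum_div, ← Nat.cast_sum]
  congr 2
  refine (sum_congr rfl fun _ _ => congrArg card (filter_congr_decidable _ _ _)).trans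
    ((sum_card_fiberwise_eq_card_filter univ (univ.filter P) G).trans (congrArg card ?_))
  ext w
  simp

theorem fr_pi (P : A → Z → Prop) : fr (A → Z) (fun w => ∀ i, P i (w i)) = ∏ i, fr Z (P i) := by
  unfold fr
  rw [prod_div_distrib, ← Nat.cast_prod, ← Nat.cast_prod, ← Fintype.card_piFinset,
    ← Fintype.card_pi]
  congr 3
  ext w
  simp

theorem mix (sym : A → Z → F) (φ : (A → F) → F) (s : F) :
    law (fun i s' => fr Z fun z => sym i z = s') φ s =
      fr (A → Z) fun w => φ (fun i => sym i (w i)) = s := by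
  rw [← fiber (fun (w : A → Z) i => sym i (w i)) fun u => φ u = s, sum_filter]
  refine sum_congr rfl fun u _ => ?_
  rw [← fr_pi]
  exact if_congr Iff.rfl (fr_congr fun w => funext_iff.symm) rfl

theorem fr_eval [Nonempty Z] (i : A) (P : Z → Prop) : fr (A → Z) (fun w => P (w i)) = fr Z P :=
  (fr_equiv (Equiv.funSplitAt i Z) fun z => P z.1).trans (fr_fst P)

end RNodex

open RNodex in
theorem rNode (h1 : RSym) (h2 : RExp) (h3 : RTpl) : RNode := by
  intro F A Wk _ _ _ _ _ η hη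
  obtain ⟨B, _, _, dec, cum, ρ, hρ, h4⟩ := h1 F η hη
  obtain ⟨J, _, _, θ, ρ', hρ', hθ, h5, h6⟩ := h4 (ρ / (2 * (Fintype.card A + 1))) (by positivity)
  choose ex hwf hex using fun (φ : (A → F) → F) (b : B) =>
    h2 (A × Wk × B) (A × B) (A → Wk × J) (fun w z => (z.1, (w z.1).1, z.2)) (fun w z => θ (w z.1).2)
      (fun β => cum b (φ fun i => dec fun b' => β (i, b'))) fun w z => hθ _
  obtain ⟨L, _, τ, h7⟩ := h3 _ _ _ ex hwf
  obtain ⟨N, hN⟩ : ∃ N, Fintype.card (A → Wk × J) = N := ⟨_, rfl⟩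
  obtain ⟨ε, e0, e1, e2, e3⟩ : ∃ ε : ℝ, 0 < ε ∧ ε ≤ 1 / 4 ∧ ε ≤ ρ' / 3 ∧ ε ≤ ρ / (2 * (2 * N + 3)) :=
    ⟨min (1 / 4) (min (ρ' / 3) (ρ / (2 * (2 * N + 3)))), by positivity, min_le_left _ _,
      (min_le_right _ _).trans (min_le_left _ _), (min_le_right _ _).trans (min_le_right _ _)⟩
  refine ⟨B, J, L, inferInstance, inferInstance, inferInstance, inferInstance, inferInstance,
    dec, θ, τ, ε, e0, e1, fun φ ext val hv hok => ?_⟩
  obtain ⟨val', hv', h8⟩ := h7 ε φ ext val hv hok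
  have e : ∀ s, law (fun i s' => 𝔼 w, pd dec θ (fun b => ext (i, w, b)) s') φ s =
      fr (A → Wk × J) fun w =>
        φ (fun i => dec fun b => decide ((θ (w i).2 : ℝ) < ext (i, (w i).1, b))) = s := fun s => by
    rw [← mix fun i (z : Wk × J) => dec fun b => decide ((θ z.2 : ℝ) < ext (i, z.1, b))]
    simp only [fr_prod, pd]
  simp only [e]
  refine h6 _ _ (fun s => fr_nonneg _) ?_ fun b => ?_
  · rw [← filter_true univ]
    exact (sum_congr (filter_congr_decidable _ _ _).symm fun _ _ => rfl).trans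
      ((fiber _ fun _ => True).trans fr_true)
  have h9 := hex φ b ε ext val' e0 hv' (h8 b).1
  have h10 : fr (A → Wk × J) (fun w => ∃ z : A × B,
      |(θ (w z.1).2 : ℝ) - ext (z.1, (w z.1).1, z.2)| ≤ 3 * ε) ≤
      Fintype.card A * (ρ / (2 * (Fintype.card A + 1))) := by
    refine (fr_mono fun w ⟨z, hz⟩ => ⟨z.1, z.2, hz.trans (by linarith)⟩).trans
      ((fr_exists_le fun i (w : A → Wk × J) =>
        ∃ b, |(θ (w i).2 : ℝ) - ext (i, (w i).1, b)| ≤ ρ').trans ?_)
    rw [← nsmul_eq_mul]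
    refine sum_le_card_nsmul _ _ _ fun i _ => ?_
    rw [fr_eval i fun z : Wk × J => ∃ b, |(θ z.2 : ℝ) - ext (i, z.1, b)| ≤ ρ', fr_prod]
    exact expect_le univ_nonempty fun w _ => h5 fun b => ext (i, w, b)
  have h11 : Fintype.card A * (ρ / (2 * (Fintype.card A + 1))) ≤ ρ / 2 := by
    rw [mul_div_assoc', div_le_div_iff₀ (by positivity) two_pos]
    nlinarith
  rw [le_div_iff₀ (by positivity)] at e3
  rw [hN] at h9
  rw [fiber]
  refine (abs_sub_le _ (val' (ex φ b)) _).trans ?_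
  linarith [(h8 b).2]

end Vale.Agent.P330
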