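import Vale.Agent.P330.RDefs
import Vale.Agent.P325.Marg

/-! A sampler of constant degree from expander walks. -/

namespace Vale.Agent.P330

open Vale.Agent.Lib.PolyTime Finset
open scoped Classical BigOperators

namespace RSampx

open P325

theorem pt_marg {α : Type} [Enc α] {m i : α → ℕ} (hm : PT m) (hi : PT i) (q : Fin 8) :
    PT fun a => marg (m a) q (i a) := by
  unfold marg
  fun_prop

theorem pt_walk {α : Type} [Enc α] {m : α → ℕ} (hm : PT m) (s : List (Fin 8)) :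
    ∀ {x : α → ℕ}, PT x → PT fun a => walk (marg (m a)) (x a) s := by
  induction s with
  | nil => exact id
  | cons p s ih => exact fun hx => ih (pt_marg hm hx p)

/-- The averaging operator. -/
noncomputable def Mop (m : ℕ) (f : ℕ → ℝ) (i : ℕ) : ℝ := (∑ p : Fin 8, f (marg m p i)) / 8

theorem sum_walk (m : ℕ) (f : ℕ → ℝ) (d : ℕ) : ∀ i,
    ∑ w : Fin d → Fin 8, f (walk (marg m) i (List.ofFn w)) = 8 ^ d * (Mop m)^[d] f i := by
  induction d with
  | zero => simp [walk]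
  | succ d ih =>
    intro i
    rw [← (Fin.consEquiv fun _ => Fin 8).sum_comp, Fintype.sum_prod_type,
      Function.iterate_succ_apply', Mop, pow_succ, mul_assoc, mul_div_cancel₀ _ (by norm_num),
      mul_sum]
    refine sum_congr rfl fun p _ => (sum_congr rfl fun w _ => ?_).trans (ih _)
    simp [Fin.consEquiv, walk]

theorem ex_walk (m : ℕ) (f : ℕ → ℝ) (d i : ℕ) :
    𝔼 w : Fin d → Fin 8, f (walk (marg m) i (List.ofFn w)) = (Mop m)^[d] f i := by
  rw [expect_eq_sum_div_card, sum_walk]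
  simp

theorem contr {lam : ℝ} {m N : ℕ} (h1 : ∀ p i, i < N → marg m p i < N)
    (h2 : ∀ p i, i < N → marg m (p + 4) (marg m p i) = i)
    (h3 : ∀ f : ℕ → ℝ, ∑ i ∈ range N, f i = 0 →
      ∑ i ∈ range N, Mop m f i ^ 2 ≤ lam ^ 2 * ∑ i ∈ range N, f i ^ 2)
    {f : ℕ → ℝ} (hf : ∑ i ∈ range N, f i = 0) (d : ℕ) :
    ∑ i ∈ range N, (Mop m)^[d] f i = 0 ∧
      ∑ i ∈ range N, (Mop m)^[d] f i ^ 2 ≤ (lam ^ d) ^ 2 * ∑ i ∈ range N, f i ^ 2 := by
  induction d with
  | zero => simpa using hf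
  | succ d ih =>
    rw [Function.iterate_succ_apply']
    refine ⟨?_, (h3 _ ih.1).trans ((mul_le_mul_of_nonneg_left ih.2 (sq_nonneg _)).trans_eq
      (by ring))⟩
    simp only [Mop]
    rw [← sum_div, sum_comm, sum_eq_zero fun p _ => ?_, zero_div]
    refine Eq.trans ?_ ih.1
    refine sum_nbij' (marg m p) (marg m (p + 4)) (fun i hi => mem_range.2 (h1 _ _ (mem_range.1 hi)))
      (fun i hi => mem_range.2 (h1 _ _ (mem_range.1 hi))) (fun i hi => h2 _ _ (mem_range.1 hi))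
      (fun i hi => ?_) fun _ _ => rfl
    have := h2 (p + 4) i (mem_range.1 hi)
    rwa [add_assoc, show (4 + 4 : Fin 8) = 0 from rfl, add_zero] at this

theorem sum_mod (g : ℕ → ℝ) (W a r : ℕ) (hr : r ≤ W) :
    ∑ z ∈ range (a * W + r), g (z % W) = a * ∑ z ∈ range W, g z + ∑ z ∈ range r, g z := by
  have k : ∀ a r, r ≤ W → ∑ z ∈ range r, g ((a * W + z) % W) = ∑ z ∈ range r, g z :=
    fun a r hr => sum_congr rfl fun z hz => by
      rw [Nat.mul_add_mod_of_lt ((mem_range.1 hz).trans_le hr)]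
  rw [sum_range_add, k a r hr]
  congr 1
  induction a with
  | zero => simp
  | succ a ih =>
    rw [Nat.succ_mul, sum_range_add, ih, k a W le_rfl]
    push_cast
    ring

theorem sum_bd {g : ℕ → ℝ} (hg : ∀ i, 0 ≤ g i ∧ g i ≤ 1) (n : ℕ) :
    0 ≤ ∑ z ∈ range n, g z ∧ ∑ z ∈ range n, g z ≤ n :=
  ⟨sum_nonneg fun i _ => (hg i).1, by simpa using sum_le_card_nsmul (range n) g 1 fun i _ => (hg i).2⟩

theorem mean {g : ℕ → ℝ} (hg : ∀ i, 0 ≤ g i ∧ g i ≤ 1) {W N : ℕ} (hW : 0 < W) (hN : 0 < N) :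
    |(∑ z ∈ range N, g (z % W)) / N - (∑ z ∈ range W, g z) / W| ≤ W / N := by
  have r1 := (Nat.mod_lt N hW).le
  have e := sum_mod g W (N / W) (N % W) r1
  have e2 : ((N / W : ℕ) : ℝ) * W + (N % W : ℕ) = N := by exact_mod_cast Nat.div_add_mod' N W
  rw [Nat.div_add_mod'] at e
  obtain ⟨a1, a2⟩ := sum_bd hg W
  obtain ⟨a3, a4⟩ := sum_bd hg (N % W)
  have W0 : (0 : ℝ) < W := by exact_mod_cast hW
  have N0 : (0 : ℝ) < N := by exact_mod_cast hN
  have r2 : ((N % W : ℕ) : ℝ) ≤ W := by exact_mod_cast r1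
  have r0 : (0 : ℝ) ≤ (N % W : ℕ) := by positivity
  rw [e, div_sub_div _ _ N0.ne' W0.ne', abs_div, abs_of_pos (mul_pos N0 W0),
    div_le_div_iff₀ (mul_pos N0 W0) N0, mul_left_comm, mul_comm (N : ℝ) (W * W)]
  refine mul_le_mul_of_nonneg_right ?_ N0.le
  rw [← e2, abs_le]
  constructor <;> nlinarith

end RSampx

open RSampx P325 in
theorem rSamp : RSamp := by
  intro κ η hη
  obtain ⟨lam, l0, l1, H⟩ := margThm
  obtain ⟨c, hc⟩ := exists_nat_ge (max 1 (max κ (2 * κ / η)))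
  obtain ⟨c1, c2, c3⟩ : (1 : ℝ) ≤ c ∧ κ ≤ c ∧ 2 * κ / η ≤ c := by simpa using hc
  obtain ⟨d, hd⟩ := exists_pow_lt_of_lt_one (show 0 < η / (8 * c) by positivity) l1
  refine ⟨Fin d → Fin 8, inferInstance, inferInstance,
    fun w W r => walk (marg (Nat.sqrt (c * W) + 1)) r (List.ofFn w) % W,
    fun w α _ W r h1 h2 h3 => ?_, fun W hW => ⟨fun _ _ => Nat.mod_lt _ hW, fun g n hg hn => ?_⟩⟩
  · have := pt_walk ((pt_sqrt (n := fun a => c * W a) (by fun_prop)
      ((PB.const c).mul h2)).add (PT.const 1)) (List.ofFn w) h3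
    fun_prop
  set m := Nat.sqrt (c * W) + 1 with hm
  have c0 : 0 < c := by exact_mod_cast one_pos.trans_le c1
  have m1 : c * W < m * m := Nat.lt_succ_sqrt _
  have m2 : m * m ≤ 4 * (c * W) := by
    have := Nat.sqrt_le (c * W)
    have := Nat.sqrt_pos.2 (Nat.mul_pos c0 hW)
    nlinarith
  obtain ⟨h1, h2, h3⟩ := H m (Nat.succ_pos _)
  generalize m * m = N at *
  have hN : 0 < N := by omega
  have N0 : (0 : ℝ) < N := by exact_mod_cast hN
  have W0 : (0 : ℝ) < W := by exact_mod_cast hW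
  have m1' : (c : ℝ) * W < N := by exact_mod_cast m1
  have m2' : (N : ℝ) ≤ 4 * (c * W) := by exact_mod_cast m2
  have a1 := mean hg hW hN
  obtain ⟨b1, b2⟩ := sum_bd (g := fun z => g (z % W)) (fun i => hg _) N
  set μ := (∑ z ∈ range N, g (z % W)) / N with hμ
  have μ0 : 0 ≤ μ := div_nonneg b1 N0.le
  have μ1 : μ ≤ 1 := (div_le_one N0).2 b2
  have a2 := (contr (f := fun z => g (z % W) - μ) h1 h2 h3 (by
    rw [sum_sub_distrib, sum_const, card_range, nsmul_eq_mul, hμ, mul_div_cancel₀ _ N0.ne',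
      sub_self]) d).2
  have a3 : ∑ z ∈ range N, (g (z % W) - μ) ^ 2 ≤ N := (sum_bd (fun z => ⟨sq_nonneg _, by
    have := hg (z % W)
    nlinarith⟩) N).2
  have a4 := sq_sum_le_card_mul_sum_sq (s := range N)
    (f := fun i => |(Mop m)^[d] (fun z => g (z % W) - μ) i|)
  simp only [sq_abs, card_range] at a4
  have a5 : ∑ i ∈ range N, |(Mop m)^[d] (fun z => g (z % W) - μ) i| ≤ N * lam ^ d := by
    refine abs_le_of_sq_le_sq' (a4.trans ?_) (by positivity) |>.2
    refine (mul_le_mul_of_nonneg_left (a2.trans (mul_le_mul_of_nonneg_left a3 (sq_nonneg _)))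
      N0.le).trans_eq (by ring)
  have n1 : n ≤ N := by
    have : (n : ℝ) ≤ N := by nlinarith
    exact_mod_cast this
  refine (sum_le_sum (g := fun i => |(Mop m)^[d] (fun z => g (z % W) - μ) i| + W / N)
    fun i _ => ?_).trans ?_
  · rw [← ex_walk, expect_sub_distrib, expect_const univ_nonempty]
    exact (abs_sub_le _ μ _).trans (add_le_add_right a1 _)
  · rw [sum_add_distrib, sum_const, card_range, nsmul_eq_mul]
    have a6 := (sum_le_sum_of_subset_of_nonneg (range_mono n1) fun _ _ _ => abs_nonneg _).trans a5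
    have a7 : (n : ℝ) * (W / N) ≤ η / 2 * W := by
      rw [div_le_iff₀ hη] at c3
      rw [← mul_div_assoc, div_le_iff₀ N0]
      have e1 := mul_le_mul_of_nonneg_left m1'.le hη.le
      have e2 := mul_le_mul_of_nonneg_right c3 W0.le
      have e3 : (n : ℝ) ≤ η / 2 * N := by linarith
      have e4 := mul_le_mul_of_nonneg_right e3 W0.le
      linarith
    have a8 : N * lam ^ d ≤ η / 2 * W := by
      rw [lt_div_iff₀ (by positivity)] at hd
      have := pow_nonneg l0 d
      nlinarith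
    linarith

end Vale.Agent.P330
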