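import Vale.Agent.P330.RDefs
import Vale.Agent.P330.Prob

/-! Block B2: distributions are stored by their cumulative sums. -/

namespace Vale.Agent.P330

open Vale.Agent.Lib.PolyTime Finset
open scoped Classical BigOperators

namespace RSymx

/-- The thresholds. -/
def th (N : ℕ) (j : Fin N) : ℚ := (2 * (j : ℕ) + 1) / (2 * N)

theorem th_cast (N : ℕ) (j : Fin N) : (th N j : ℝ) = (2 * (j : ℕ) + 1) / (2 * N) := by
  simp [th]

theorem fr_val (N m : ℕ) : fr (Fin N) (fun j => (j : ℕ) < m) = (min N m : ℕ) / (N : ℝ) := by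
  rw [fr, Fintype.card_fin, ← Fin.card_filter_val_lt]
  congr

theorem cnt_up {N : ℕ} (hN : 0 < N) {x : ℝ} (hx : 0 ≤ x) :
    fr (Fin N) (fun j => (th N j : ℝ) < x) ≤ x + 1 / N := by
  have h0 : (0 : ℝ) < N := by exact_mod_cast hN
  refine (fr_mono (E' := fun j : Fin N => (j : ℕ) < ⌈N * x⌉₊) fun j hj => ?_).trans ?_
  · rw [th_cast, div_lt_iff₀ (by positivity)] at hj
    exact Nat.lt_ceil.2 (by linarith)
  · rw [fr_val, div_le_iff₀ h0, add_mul, one_div_mul_cancel h0.ne', mul_comm]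
    exact (Nat.cast_le.2 (min_le_right _ _)).trans (Nat.ceil_lt_add_one (by positivity)).le

theorem cnt_lo {N : ℕ} (hN : 0 < N) {x : ℝ} (hx : x ≤ 1) :
    x - 1 / N ≤ fr (Fin N) (fun j => (th N j : ℝ) < x) := by
  have h0 : (0 : ℝ) < N := by exact_mod_cast hN
  refine le_trans ?_ (fr_mono (E := fun j : Fin N => (j : ℕ) < ⌊N * x⌋₊) fun j hj => ?_)
  · have h1 : ⌊N * x⌋₊ ≤ N := Nat.floor_le_of_le (mul_le_of_le_one_right h0.le hx)
    rw [fr_val, min_eq_right h1, le_div_iff₀ h0, sub_mul, one_div_mul_cancel h0.ne', mul_comm]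
    exact (Nat.sub_one_lt_floor _).le
  · have h1 := (Nat.le_floor_iff' (Nat.succ_ne_zero _)).1 (Nat.succ_le_of_lt hj)
    push_cast at h1
    rw [th_cast, div_lt_iff₀ (by positivity)]
    linarith

theorem near {N : ℕ} (hN : 0 < N) (y : ℝ) :
    fr (Fin N) (fun j => |(th N j : ℝ) - y| ≤ 1 / (4 * N)) ≤ 1 / N := by
  have h0 : (0 : ℝ) < N := by exact_mod_cast hN
  rw [fr, Fintype.card_fin]
  refine div_le_div_of_nonneg_right (Nat.cast_le_one.2 (card_le_one.2 fun a ha b hb => ?_)) h0.le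
  have key : ∀ j : Fin N, |(th N j : ℝ) - y| ≤ 1 / (4 * N) →
      |2 * ((j : ℕ) : ℝ) + 1 - 2 * N * y| ≤ 1 / 2 := fun j hj => by
    have e : 2 * ((j : ℕ) : ℝ) + 1 - 2 * N * y = 2 * N * ((th N j : ℝ) - y) := by
      rw [th_cast]; field_simp
    rw [e, abs_mul, abs_of_pos (by positivity : (0 : ℝ) < 2 * N)]
    exact (mul_le_mul_of_nonneg_left hj (by positivity)).trans (le_of_eq (by field_simp; norm_num))
  have h1 := abs_le.1 (key a (mem_filter.1 ha).2)
  have h2 := abs_le.1 (key b (mem_filter.1 hb).2)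
  have h3 : (a : ℕ) < (b : ℕ) + 1 := by exact_mod_cast (by linarith : ((a : ℕ) : ℝ) < (b : ℕ) + 1)
  have h4 : (b : ℕ) < (a : ℕ) + 1 := by exact_mod_cast (by linarith : ((b : ℕ) : ℝ) < (a : ℕ) + 1)
  exact Fin.ext (by omega)

/-- The first marked position. -/
noncomputable def fst1 (n : ℕ) (β : Fin (n + 1) → Bool) : Fin (n + 1) :=
  (univ.filter fun b => β b = true ∨ b = Fin.last n).min' ⟨Fin.last n, by simp⟩

theorem fst1_lt {n k : ℕ} (hk : k ≤ n) (β : Fin (n + 1) → Bool) :
    (fst1 n β : ℕ) < k ↔ ∃ b : Fin (n + 1), (b : ℕ) < k ∧ β b = true := by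
  constructor
  · intro h
    have k : fst1 n β ∈ univ.filter fun b => β b = true ∨ b = Fin.last n := min'_mem _ _
    refine ⟨_, h, (mem_filter.1 k).2.resolve_right fun e => ?_⟩
    rw [e, Fin.val_last] at h
    omega
  · rintro ⟨b, h, hb⟩
    exact lt_of_le_of_lt (min'_le _ b (mem_filter.2 ⟨mem_univ _, Or.inl hb⟩)) h

theorem fr_succ {X : Type} [Fintype X] (f : X → ℕ) (k : ℕ) :
    fr X (fun x => f x = k) = fr X (fun x => f x < k + 1) - fr X fun x => f x < k := by
  simp only [fr_eq_expect]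
  rw [← expect_sub_distrib]
  refine expect_congr rfl fun x _ => ?_
  split_ifs <;> first | omega | simp

theorem sum_succ {X : Type} [Fintype X] (f : X → ℕ) (hf : f.Injective) (Q : X → ℝ) (s : X) :
    Q s = (∑ x, if f x < f s + 1 then Q x else 0) - ∑ x, if f x < f s then Q x else 0 := by
  rw [← sum_sub_distrib, sum_eq_single s (fun x _ hx => ?_) (by simp)]
  · simp
  · have := hf.ne hx
    split_ifs <;> first | omega | simp

theorem main {F : Type} [Fintype F] {n N : ℕ} (hN : 0 < N) (f : F → ℕ) (hf : ∀ s, f s ≤ n)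
    {Q : F → ℝ} {y : Fin (n + 1) → ℝ} {ρ : ℝ} (hρ : 0 ≤ ρ) (h0 : ∀ s, 0 ≤ Q s)
    (h1 : ∑ s, Q s = 1)
    (hy : ∀ b : Fin (n + 1), |y b - ∑ s, if f s < b + 1 then Q s else 0| ≤ ρ) (k : ℕ) :
    |fr (Fin N) (fun j => (fst1 n fun b => decide ((th N j : ℝ) < y b) : ℕ) < k) -
      ∑ s, if f s < k then Q s else 0| ≤ ρ + 1 / N := by
  have hN' : (0 : ℝ) < 1 / N := by positivity
  have mono : ∀ a b, a ≤ b → (∑ s, if f s < a then Q s else 0) ≤ ∑ s, if f s < b then Q s else 0 :=
    fun a b hab => sum_le_sum fun s _ => by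
      have := h0 s
      split_ifs <;> first | omega | linarith
  have c0 : (0 : ℝ) ≤ ∑ s, if f s < k then Q s else 0 :=
    le_trans (by simp) (mono 0 k (Nat.zero_le k))
  have c1 : (∑ s, if f s < k then Q s else 0) ≤ 1 :=
    h1 ▸ sum_le_sum fun s _ => by
      have := h0 s
      split_ifs <;> linarith
  rcases Nat.lt_or_ge n k with hk | hk
  · have : Nonempty (Fin N) := ⟨⟨0, hN⟩⟩
    rw [fr_congr (E' := fun _ => True) fun j => iff_true_intro
      (lt_of_le_of_lt (Nat.le_of_lt_succ (Fin.isLt _)) hk), fr_true,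
      sum_congr rfl fun s _ => if_pos ((hf s).trans_lt hk), h1, sub_self, abs_zero]
    linarith
  · simp only [fst1_lt hk, decide_eq_true_eq]
    refine abs_le.2 ⟨?_, ?_⟩
    · rcases k with _ | k
      · simp only [Nat.not_lt_zero, if_false, sum_const_zero, sub_zero]
        exact le_trans (by linarith) (fr_nonneg _)
      · have k1 := cnt_lo hN (x := (∑ s, if f s < k + 1 then Q s else 0) - ρ) (by linarith)
        have k2 := (abs_le.1 (hy ⟨k, by omega⟩)).1
        have k3 := k1.trans (fr_mono (E' := fun j => ∃ b : Fin (n + 1), (b : ℕ) < k + 1 ∧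
          (th N j : ℝ) < y b) fun j hj => ⟨⟨k, by omega⟩, Nat.lt_succ_self k, by linarith⟩)
        linarith
    · have k1 := cnt_up hN (x := (∑ s, if f s < k then Q s else 0) + ρ) (by linarith)
      have k3 := (fr_mono (E := fun j => ∃ b : Fin (n + 1), (b : ℕ) < k ∧ (th N j : ℝ) < y b)
        fun j ⟨b, hb, hj⟩ => by
          have := (abs_le.1 (hy b)).2
          have := mono (b + 1) k hb
          linarith).trans k1
      linarith

end RSymx

open RSymx in
theorem rSym : RSym := by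
  intro F _ _ η hη
  obtain ⟨n, hn⟩ := Nat.exists_eq_succ_of_ne_zero (Fintype.card_pos (α := F)).ne'
  have e : F ≃ Fin (n + 1) := Fintype.equivFinOfCardEq hn
  refine ⟨Fin (n + 1), inferInstance, inferInstance, fun β => e.symm (fst1 n β),
    fun b s => (e s : ℕ) < b + 1, η / (4 * (n + 1)), by positivity, fun η' hη' => ?_⟩
  obtain ⟨N, hN⟩ := exists_nat_gt (max ((n + 1) / η') (4 * (n + 1) / η))
  have a1 := (le_max_left _ _).trans_lt hN
  have a2 := (le_max_right _ _).trans_lt hN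
  have N0 : (0 : ℝ) < N := lt_trans (by positivity) a1
  have N1 : 0 < N := by exact_mod_cast N0
  rw [div_lt_iff₀ hη'] at a1
  rw [div_lt_iff₀ hη] at a2
  refine ⟨Fin N, inferInstance, ⟨⟨0, N1⟩⟩, th N, 1 / (4 * N), by positivity, fun j => ⟨?_, ?_⟩,
    fun y => ?_, fun Q y h0 h1 hy => ?_⟩
  · unfold th; positivity
  · have h : ((j : ℕ) : ℚ) + 1 ≤ N := by exact_mod_cast j.2
    rw [th, div_le_one (by positivity)]
    linarith
  · refine (fr_exists_le _).trans ((sum_le_sum fun b _ => near N1 (y b)).trans ?_)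
    rw [sum_const, card_univ, Fintype.card_fin, nsmul_eq_mul, mul_one_div, div_le_iff₀ N0]
    push_cast
    linarith
  · have m := main N1 (fun s => (e s : ℕ)) (fun s => Nat.le_of_lt_succ (e s).2) (y := y)
      (ρ := η / (4 * (n + 1))) (by positivity) h0 h1 fun b => by
        simpa only [sum_filter] using hy b
    have a3 : 1 / (N : ℝ) ≤ η / (4 * (n + 1)) := by
      rw [div_le_div_iff₀ N0 (by positivity)]
      linarith
    refine (sum_le_sum (g := fun _ => η / (n + 1)) fun s _ => ?_).trans (le_of_eq ?_)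
    · rw [pd, fr_congr (E' := fun j => (fst1 n fun b => decide ((th N j : ℝ) < y b) : ℕ) = e s)
        fun j => by rw [Equiv.symm_apply_eq, Fin.ext_iff], fr_succ,
        sum_succ (fun s => (e s : ℕ)) (Fin.val_injective.comp e.injective) Q s]
      have m1 := abs_le.1 (m (e s + 1))
      have m2 := abs_le.1 (m (e s))
      have a4 : η / (n + 1) = 4 * (η / (4 * (n + 1))) := by field_simp
      rw [abs_le]
      constructor <;> linarith [m1.1, m1.2, m2.1, m2.2]
    · rw [sum_const, card_univ, hn, nsmul_eq_mul]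
      push_cast
      field_simp

end Vale.Agent.P330
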