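import Vale.Agent.P330.RDefs

/-! Formulas are packed into a template. -/

namespace Vale.Agent.P330

open Vale.Agent.Lib.PolyTime Finset
open scoped Classical BigOperators

namespace RTplx

variable {E : Type}

/-- All subformulas. -/
def sub : Ex E → List (Ex E)
  | .inp e => [.inp e]
  | .cst q => [.cst q]
  | .gate k q a b => .gate k q a b :: (sub a ++ sub b)

/-- The left child. -/
def lc : Ex E → Ex E
  | .gate _ _ a _ => a
  | x => x

/-- The right child. -/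
def rc : Ex E → Ex E
  | .gate _ _ _ b => b
  | x => x

/-- The kind of the top gate. -/
def kk : Ex E → ℕ
  | .inp _ => 2
  | .cst _ => 0
  | .gate k _ _ _ => k

/-- The parameter of the top gate. -/
def qq : Ex E → ℚ
  | .inp _ => 0
  | .cst q => q
  | .gate _ q _ _ => q

/-- The external node that is read. -/
def src : Ex E → Option E
  | .inp e => some e
  | _ => none

theorem self (t : Ex E) : t ∈ sub t := by
  cases t <;> simp [sub]

theorem clo (t : Ex E) (ht : t.wf) : ∀ x ∈ sub t, lc x ∈ sub t ∧ rc x ∈ sub t ∧ x.wf := by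
  induction t with
  | inp e => simp [sub, lc, rc, ht]
  | cst q => simp [sub, lc, rc, ht]
  | gate k q a b iha ihb =>
    intro x hx
    simp only [sub, List.mem_cons, List.mem_append] at hx ⊢
    rcases hx with rfl | hx | hx
    · exact ⟨.inr (.inl (self a)), .inr (.inr (self b)), ht⟩
    · obtain ⟨h1, h2, h3⟩ := iha ht.2.2.2.1 x hx
      exact ⟨.inr (.inl h1), .inr (.inl h2), h3⟩
    · obtain ⟨h1, h2, h3⟩ := ihb ht.2.2.2.2 x hx
      exact ⟨.inr (.inr h1), .inr (.inr h2), h3⟩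

theorem kq {x : Ex E} (h : x.wf) : kk x ≤ 8 ∧ 0 ≤ qq x ∧ qq x ≤ 1 := by
  cases x with
  | inp e => simp [kk, qq]
  | cst q => exact ⟨Nat.zero_le _, h⟩
  | gate k q a b => exact ⟨h.1, h.2.1, h.2.2.1⟩

end RTplx

open RTplx in
theorem rTpl : RTpl := by
  intro E Φ B _ _ ex hw
  obtain ⟨S, hS, h0, h1⟩ : ∃ S : Set (Ex E), S.Finite ∧ (∀ φ b, ex φ b ∈ S) ∧
      ∀ x ∈ S, lc x ∈ S ∧ rc x ∈ S ∧ x.wf := by
    refine ⟨⋃ φ, ⋃ b, {x | x ∈ sub (ex φ b)}, Set.finite_iUnion fun φ => Set.finite_iUnion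
      fun b => List.finite_toSet _, fun φ b => ?_, fun x hx => ?_⟩
    · exact Set.mem_iUnion₂.2 ⟨φ, b, self _⟩
    · obtain ⟨φ, b, h⟩ := Set.mem_iUnion₂.1 hx
      obtain ⟨a1, a2, a3⟩ := clo _ (hw φ b) x h
      exact ⟨Set.mem_iUnion₂.2 ⟨φ, b, a1⟩, Set.mem_iUnion₂.2 ⟨φ, b, a2⟩, a3⟩
  have := hS.fintype
  refine ⟨B ⊕ S, inferInstance, ⟨fun _ => Sum.elim (fun _ => 2) fun x => kk x.1,
    fun _ => Sum.elim (fun _ => 0) fun x => qq x.1,
    fun φ => Sum.elim (fun b => .inl (.inr ⟨ex φ b, h0 φ b⟩))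
      fun x => (src x.1).elim (.inl (.inr ⟨lc x.1, (h1 _ x.2).1⟩)) .inr,
    fun φ => Sum.elim (fun b => .inl (.inr ⟨ex φ b, h0 φ b⟩))
      fun x => .inl (.inr ⟨rc x.1, (h1 _ x.2).2.1⟩), .inl, fun φ l => ?_⟩,
    fun ε φ ext val hv ok => ⟨fun x => if h : x ∈ S then val (.inr ⟨x, h⟩) else 0, fun x => ?_,
      fun b => ⟨?_, ?_⟩⟩⟩
  · rcases l with b | x
    · simp
    · exact kq (h1 _ x.2).2.2
  · beta_reduce
    split_ifs
    · exact hv _
    · exact ⟨le_rfl, zero_le_one⟩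
  · suffices ∀ x ∈ S, Ex.ok ε ext (fun x => if h : x ∈ S then val (.inr ⟨x, h⟩) else 0) x from
      this _ (h0 φ b)
    intro x hx
    induction x with
    | inp e => simpa [Ex.ok, hx, GateSat, kk, src] using ok (.inr ⟨_, hx⟩)
    | cst q => simpa [Ex.ok, hx, GateSat, kk, qq] using ok (.inr ⟨_, hx⟩)
    | gate k q a b iha ihb =>
      have ha : a ∈ S := (h1 _ hx).1
      have hb : b ∈ S := (h1 _ hx).2.1
      refine ⟨?_, iha ha, ihb hb⟩
      simp only [dif_pos hx, dif_pos ha, dif_pos hb]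
      exact ok (.inr ⟨_, hx⟩)
  · simpa [GateSat, h0] using ok (.inl b)

end Vale.Agent.P330
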