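import Vale.Agent.P330.RAsm
import Vale.Agent.P330.RExist
import Vale.Agent.P330.RComp
import Vale.Agent.P330.RSamp
import Vale.Agent.P330.RNb
import Vale.Agent.P330.RSym
import Vale.Agent.P330.RExp
import Vale.Agent.P330.RTpl
import Vale.Agent.P330.RNode

/-! Block B2: closed gadgets are realised by generalized circuits. -/

namespace Vale.Agent.P330

theorem realThm : RealThm := real_of (rComp rExist) (rNb rSamp) (rNode rSym rExp rTpl)

end Vale.Agent.P330
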