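import Mathlib

/-! Definitions used in the statement of the PCP theorem for PPAD. -/

namespace Vale.Agent.P330

open scoped Classical

/-- A Boolean circuit: a list of gates `(kind, a, b)` (kind `0` is AND, `1` is OR, `2` is NOT of
`a`) and a list of output wires.  Wires `0, …, n-1` are the inputs, wire `n + i` is gate `i`. -/
abbrev BCirc : Type := List (ℕ × ℕ × ℕ) × List ℕ

/-- The value of a gate, given the values of the earlier wires. -/
def gateVal (w : List Bool) (g : ℕ × ℕ × ℕ) : Bool :=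
  if g.1 = 0 then w.getD g.2.1 false && w.getD g.2.2 false
  else if g.1 = 1 then w.getD g.2.1 false || w.getD g.2.2 false
  else !w.getD g.2.1 false

/-- The values of all wires on the input `x`. -/
def wires (C : BCirc) (x : List Bool) : List Bool :=
  C.1.foldl (fun w g => w ++ [gateVal w g]) x

/-- The output of a circuit on the input `x`. -/
def evalC (C : BCirc) (x : List Bool) : List Bool := C.2.map fun o => (wires C x).getD o false

/-- A well formed circuit with `n` inputs and `n` outputs. -/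
def CircOK (n : ℕ) (C : BCirc) : Prop :=
  C.2.length = n ∧ (∀ o ∈ C.2, o < n + C.1.length) ∧
    ∀ i : Fin C.1.length, (C.1.get i).1 ≤ 2 ∧ (C.1.get i).2.1 < n + i ∧ (C.1.get i).2.2 < n + i

/-- An End-of-Line instance `(n, S, P)`. -/
abbrev EoL : Type := ℕ × BCirc × BCirc

/-- The promises on an End-of-Line instance. -/
def EoLOK (I : EoL) : Prop :=
  1 ≤ I.1 ∧ CircOK I.1 I.2.1 ∧ CircOK I.1 I.2.2 ∧
    evalC I.2.2 (List.replicate I.1 false) = List.replicate I.1 false ∧
    evalC I.2.1 (List.replicate I.1 false) ≠ List.replicate I.1 false ∧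
    evalC I.2.2 (evalC I.2.1 (List.replicate I.1 false)) = List.replicate I.1 false

/-- Solutions of an End-of-Line instance. -/
def EoLSol (I : EoL) (v : List Bool) : Prop :=
  v.length = I.1 ∧ v ≠ List.replicate I.1 false ∧
    (evalC I.2.2 (evalC I.2.1 v) ≠ v ∨ evalC I.2.1 (evalC I.2.2 v) ≠ v)

/-- A gate of a generalized circuit: kind, output node, two input nodes, parameter. -/
abbrev GGate : Type := ℕ × ℕ × ℕ × ℕ × ℚ

/-- A generalized circuit: the number of nodes and the list of gates. -/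
abbrev GCirc : Type := ℕ × List GGate

/-- Well formed generalized circuits. -/
def GCircOK (G : GCirc) : Prop :=
  G.2 ≠ [] ∧ (G.2.map fun g => g.2.1).Nodup ∧
    ∀ g ∈ G.2, g.1 ≤ 8 ∧ g.2.1 < G.1 ∧ g.2.2.1 < G.1 ∧ g.2.2.2.1 < G.1 ∧
      0 ≤ g.2.2.2.2 ∧ g.2.2.2.2 ≤ 1

/-- The gate of kind `k` with parameter `c`, output value `z` and input values `a`, `b` is
`ε`-satisfied.  Kinds: constant, scale, copy, add, subtract, less, not, or, and. -/
def GateSat (ε : ℝ) (k : ℕ) (c z a b : ℝ) : Prop :=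
  if k = 0 then |z - c| ≤ ε
  else if k = 1 then |z - c * a| ≤ ε
  else if k = 2 then |z - a| ≤ ε
  else if k = 3 then |z - min (a + b) 1| ≤ ε
  else if k = 4 then |z - max (a - b) 0| ≤ ε
  else if k = 5 then (a < b - ε → 1 - ε ≤ z) ∧ (b + ε < a → z ≤ ε)
  else if k = 6 then (a ≤ ε → 1 - ε ≤ z) ∧ (1 - ε ≤ a → z ≤ ε)
  else if k = 7 then (1 - ε ≤ a ∨ 1 - ε ≤ b → 1 - ε ≤ z) ∧ (a ≤ ε ∧ b ≤ ε → z ≤ ε)
  else (1 - ε ≤ a ∧ 1 - ε ≤ b → 1 - ε ≤ z) ∧ (a ≤ ε ∨ b ≤ ε → z ≤ ε)

/-- The gate `g` is `ε`-satisfied by the assignment `x`. -/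
def Sat (ε : ℝ) (x : List ℚ) (g : GGate) : Prop :=
  GateSat ε g.1 (g.2.2.2.2 : ℚ) (x.getD g.2.1 0 : ℚ) (x.getD g.2.2.1 0 : ℚ) (x.getD g.2.2.2.1 0 : ℚ)

/-- Self-delimiting binary code of a list of naturals. -/
def bitsOf (l : List ℕ) : List Bool :=
  l.flatMap fun a => a.bits.flatMap (fun b => [true, b]) ++ [false]

/-- A circuit as a list of naturals. -/
def natsC (C : BCirc) : List ℕ :=
  C.1.length :: (C.1.flatMap fun g => [g.1, g.2.1, g.2.2]) ++ C.2.length :: C.2

/-- An End-of-Line instance as a list of naturals. -/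
def natsI (I : EoL) : List ℕ := I.1 :: natsC I.2.1 ++ natsC I.2.2

/-- A generalized circuit as a list of naturals. -/
def natsG (G : GCirc) : List ℕ :=
  G.1 :: G.2.flatMap fun g => [g.1, g.2.1, g.2.2.1, g.2.2.2.1, g.2.2.2.2.num.toNat, g.2.2.2.2.den]

/-- An assignment of nonnegative rationals as a list of naturals. -/
def natsX (x : List ℚ) : List ℕ := x.flatMap fun q => [q.num.toNat, q.den]

/-- Acceptable assignments of a generalized circuit. -/
def Acceptable (ε δ : ℝ) (p : Polynomial ℕ) (G : GCirc) (x : List ℚ) : Prop :=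
  x.length = G.1 ∧ (∀ q ∈ x, 0 ≤ q ∧ q ≤ 1) ∧
    (bitsOf (natsX x)).length ≤ p.eval (bitsOf (natsG G)).length ∧
    (1 - δ) * G.2.length ≤ (G.2.countP fun g => decide (Sat ε x g) : ℕ)

end Vale.Agent.P330
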