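import Vale.Agent.P330.TanRound

/-! Block B4: decoding in polynomial time. -/

namespace Vale.Agent.P330

open Vale.Agent.Lib.PolyTime Finset
open scoped Classical BigOperators

/-- Point masses. -/
noncomputable def tdec_pm {X F : Type} (w : X → F) (o : X) (b : F) : ℝ := if w o = b then 1 else 0

theorem tdec_dist {X F : Type} [Fintype F] (w : X → F) : IsDist (tdec_pm w) := fun o =>
  ⟨fun b => by unfold tdec_pm; split_ifs <;> norm_num, by simp [tdec_pm]⟩

theorem tdec_du {X F : Type} [Fintype F] [Fintype X] (w u : X → F) :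
    du (tdec_pm w) u = hd w u := by
  have e : ∀ x, 1 - tdec_pm w x (u x) = if w x ≠ u x then (1 : ℝ) else 0 := fun x => by
    by_cases h : w x = u x <;> simp [tdec_pm, h]
  simp only [du, e, hd, fr]
  rw [Fintype.expect_eq_sum_div_card, sum_boole]
  exact congrArg (fun s : Finset X => (s.card : ℝ) / Fintype.card X) (by ext; simp)

theorem tdec_law {X A F : Type} [Fintype F] [Fintype A] (w : X → F) (sl : A → X)
    (f : (A → F) → F) (b : F) :
    law (fun i => tdec_pm w (sl i)) f b = if f (fun i => w (sl i)) = b then 1 else 0 := by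
  rw [law, sum_eq_single fun i => w (sl i)]
  · simp [tdec_pm]
  · intro t _ ht
    obtain ⟨i, hi⟩ := Function.ne_iff.1 ht
    rw [prod_eq_zero (mem_univ i) (if_neg fun h => hi h.symm), ite_self]
  · simp

theorem tdec_round {F S G : Type} [Field F] [Fintype F] [Fintype S] [Fintype G] [Nonempty G]
    {C0 : Submodule F (S → F)} {nb : S → Equiv.Perm G} {δ0 lam : ℝ} (hT : TanGood δ0 lam S)
    (h0 : Dist0 C0 δ0) (hg : P325.Gap (fun s g => nb s g) lam) {w u : G × S → F}
    (hu : u ∈ tcode C0 nb) (h : hd w u ≤ δ0 ^ 2 / 32) :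
    hd (stR C0 δ0 nb (stL C0 δ0 w)) u ≤ hd w u / 8 := by
  have e1 : layL C0 δ0 (tdec_pm w) = tdec_pm (stL C0 δ0 w) := by
    funext o b
    exact tdec_law w (fun s => (o.1, s)) _ b
  have e2 : ∀ w, layR C0 δ0 nb (tdec_pm w) = tdec_pm (stR C0 δ0 nb w) := fun w => by
    funext o b
    exact tdec_law w (fun s => ((nb s)⁻¹ (nb o.2 o.1), s)) _ b
  have k := tan_round hT h0 hg (tdec_dist w) (tdec_dist (stL C0 δ0 w)) hu (by rwa [tdec_du])
  rw [e1, e2, tdec_du, tdec_du] at k
  simpa using k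

theorem tdec_iter {X F : Type} [Fintype X] (st : (X → F) → X → F) (u : X → F) {a : ℝ}
    (h : ∀ w, hd w u ≤ a → hd (st w) u ≤ hd w u / 8) {w : X → F} (hw : hd w u ≤ a) :
    st^[Fintype.card X] w = u := by
  have h0 : ∀ w, 0 ≤ hd w u := fun w => by unfold hd fr; positivity
  have h1 : hd w u ≤ 1 := div_le_one_of_le₀ (by exact_mod_cast card_filter_le _ _) (Nat.cast_nonneg _)
  have key : ∀ n : ℕ, hd (st^[n] w) u ≤ hd w u / 8 ^ n := by
    intro n
    induction n with
    | zero => simp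
    | succ n ih =>
      rw [Function.iterate_succ_apply', pow_succ, ← div_div]
      exact (h _ (ih.trans ((div_le_self (h0 w) (one_le_pow₀ (by norm_num))).trans hw))).trans
        (div_le_div_of_nonneg_right ih (by norm_num))
  funext x
  by_contra hx
  have c0 : (0 : ℝ) < Fintype.card X := by exact_mod_cast Fintype.card_pos_iff.2 ⟨x⟩
  have c1 : (Fintype.card X : ℝ) < 8 ^ Fintype.card X := by
    exact_mod_cast Nat.lt_pow_self (by norm_num)
  have c2 : 1 / (Fintype.card X : ℝ) ≤ hd (st^[Fintype.card X] w) u :=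
    div_le_div_of_nonneg_right (by
      exact_mod_cast card_pos.2 ⟨x, mem_filter.2 ⟨mem_univ x, hx⟩⟩) c0.le
  have c3 := c2.trans ((key _).trans (div_le_div_of_nonneg_right h1 (by positivity)))
  exact absurd (one_div_lt_one_div_of_lt c0 c1) c3.not_gt

theorem tdec_orc {C F S : Type} [Enc C] [Fintype F] [Enc F] [Fintype S] [Enc S] (G : Fam C)
    (φ : (S → F) → S → F) (a : S → S → ∀ c, G.T c → G.T c) (ha : ∀ s' s, D2 (a s' s))
    {B : Type} [Enc B] {p : B → C} {w : ∀ b, G.T (p b) × S → F} (hp : PT p)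
    (hw : PT fun z : Σ b, G.T (p b) × S => w z.1 z.2) :
    PT fun z : Σ b, G.T (p b) × S => φ (fun s => w z.1 (a z.2.2 s (p z.1) z.2.1, s)) z.2.2 := by
  have h2 : D (Y := fun z : Σ b, G.T (p b) × S => G.T (p z.1) × S) fun z => z.2 := D.sigma_snd
  refine D.pt (D.cases (X := fun _ => F) (g := fun z : Σ b, G.T (p b) × S => z.2.2) h2.snd.pt
    (fun s' z => φ (fun s => w z.1 (a s' s (p z.1) z.2.1, s)) s') fun s' => ?_)
  refine D.cases_fun (X := fun _ => F) (A := S)
    (g := fun (z : Σ b, G.T (p b) × S) s => w z.1 (a s' s (p z.1) z.2.1, s)) (fun s => ?_)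
    (fun t _ => φ t s') fun t => D.const _
  exact hw.comp (pt_sigma_mk (X := fun b => G.T (p b) × S) pt_sigma_fst
    (D.pair ((ha s' s).app (hp.comp pt_sigma_fst) h2.fst) (D.const s)))

theorem decThm : DecThm := by
  intro C F S _ _ _ _ _ _ C0 δ0 lam hT h0 Y B _ p w hp hw
  refine ⟨fun b => (fun w => stR C0 δ0 (Y.nb (p b)) (stL C0 δ0 w))^[Fintype.card (Y.Pos.T (p b))]
    (w b), ?_, fun b u hu h => ?_⟩
  · have hX := (Y.Pos.comap p hp).pf
    refine hX.iter_word (fun b w => stR C0 δ0 (Y.nb (p b)) (stL C0 δ0 w))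
      (fun B' _ q v hq hv => ?_) hw hX.pt_card hX.pb_card
    have h1 := tdec_orc Y.G (dec0 C0 δ0) (fun _ _ _ g => g) (fun _ _ => D.sigma_snd)
      (w := v) (hp.comp hq) hv
    exact tdec_orc Y.G (dec0 C0 δ0) (fun s' s c g => (Y.nb c s).symm (Y.nb c s' g))
      (fun s' s => (Y.G.pf.d_symm (e := fun c => Y.nb c s) (Y.d_nb s)).app pt_sigma_fst
        (Y.d_nb s')) (w := fun b => stL C0 δ0 (v b)) (hp.comp hq) h1
  · have := Y.ne (p b)
    exact tdec_iter _ u (fun w hw => tdec_round hT h0 (Y.gap _) hu hw) h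

end Vale.Agent.P330
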