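import Vale.Agent.P330.TanZem
import Vale.Agent.P330.TanDec

/-! Block B4: the theorems `sssThm`, `zemThm`, `decThm` on Tanner codes. -/
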