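import Vale.Agent.P330.TanMix

/-! Block B4: the analytic core of one decoding round. -/

namespace Vale.Agent.P330

open Finset
open scoped Classical BigOperators

theorem tcore_pt {δ A a n b μ r : ℝ} (hδ : 0 < δ) (hA : 0 ≤ A) (hn : 0 ≤ n) (hb : b ≤ δ / 16)
    (m0 : 0 ≤ μ) (m1 : μ ≤ a + n) (r1 : r ≤ 1) (r2 : μ ≤ δ / 4 → r ≤ A * μ) :
    r ≤ A * (a + n) + 64 / δ ^ 2 * (a - b) ^ 2 + 16 / δ * n := by
  have h1 : A * μ ≤ A * (a + n) := mul_le_mul_of_nonneg_left m1 hA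
  have h2 : 0 ≤ A * μ := mul_nonneg hA m0
  have h3 : 0 ≤ 64 / δ ^ 2 * (a - b) ^ 2 := by positivity
  have h4 : 0 ≤ 16 / δ * n := by positivity
  rcases le_or_gt μ (δ / 4) with h | h
  · linarith [r2 h]
  rcases le_total (δ / 16) n with k | k
  · have : 1 ≤ 16 / δ * n := by
      rw [div_mul_eq_mul_div, le_div_iff₀ hδ]
      linarith
    linarith
  · have : 1 ≤ 64 / δ ^ 2 * (a - b) ^ 2 := by
      rw [div_mul_eq_mul_div, le_div_iff₀ (by positivity)]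
      have := pow_le_pow_left₀ (by positivity : 0 ≤ δ / 8) (by linarith : δ / 8 ≤ a - b) 2
      linarith
    linarith

theorem tcore_re {S G : Type} [Fintype S] [Fintype G] (nb : S → Equiv.Perm G) (f : G → S → ℝ) :
    𝔼 h, 𝔼 s, f ((nb s)⁻¹ h) s = 𝔼 g, 𝔼 s, f g s := by
  rw [expect_comm, expect_comm (univ : Finset G)]
  exact expect_congr rfl fun s _ => Fintype.expect_equiv ((nb s)⁻¹) _ _ fun _ => rfl

theorem tcore_var {S G : Type} [Fintype S] [Nonempty S] [Fintype G] [Nonempty G]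
    {π : S → G → G} {lam : ℝ} (hg : P325.Gap π lam) {ε : G → ℝ} (e0 : ∀ g, 0 ≤ ε g)
    (e1 : ∀ g, ε g ≤ 1) :
    𝔼 h, ((𝔼 s, ε (π s h)) - 𝔼 g, ε g) ^ 2 ≤ lam ^ 2 * 𝔼 g, ε g := by
  obtain ⟨b, hb⟩ : ∃ b, b = 𝔼 g, ε g := ⟨_, rfl⟩
  have c0 : (0 : ℝ) < Fintype.card G := by exact_mod_cast Fintype.card_pos
  have h0 : ∑ g, ε g = Fintype.card G * b := by
    rw [hb, Fintype.expect_eq_sum_div_card]
    field_simp
  have h1 := hg (fun g => ε g - b) (by simp [sum_sub_distrib, h0])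
  have h2 : ∀ h, 𝔼 s, (ε (π s h) - b) = (𝔼 s, ε (π s h)) - b := fun h => by
    rw [expect_sub_distrib, expect_const univ_nonempty]
  have h3 : ∑ g, (ε g - b) ^ 2 ≤ Fintype.card G * b := by
    have k1 : ∑ g, (ε g - b) ^ 2 ≤ ∑ g, (ε g - 2 * b * ε g + b ^ 2) :=
      sum_le_sum fun g _ => by nlinarith [e0 g, e1 g]
    rw [sum_add_distrib, sum_sub_distrib, ← mul_sum, h0, sum_const, card_univ, nsmul_eq_mul] at k1
    nlinarith [mul_nonneg c0.le (sq_nonneg b)]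
  simp only [h2] at h1
  rw [← hb, Fintype.expect_eq_sum_div_card, div_le_iff₀ c0]
  have h4 := mul_le_mul_of_nonneg_left h3 (sq_nonneg lam)
  linarith

theorem tan_core {S G : Type} [Fintype S] [Fintype G] [Nonempty G] {nb : S → Equiv.Perm G}
    {δ0 lam : ℝ} (hT : TanGood δ0 lam S) (hg : P325.Gap (fun s g => nb s g) lam)
    {ε r μ : G → ℝ} {ν : G × S → ℝ} (e0 : ∀ g, 0 ≤ ε g) (e1 : ∀ g, ε g ≤ 1) (n0 : ∀ o, 0 ≤ ν o)
    (m0 : ∀ h, 0 ≤ μ h) (hμ : ∀ h, μ h ≤ 𝔼 s, (ε ((nb s)⁻¹ h) + ν ((nb s)⁻¹ h, s)))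
    (r1 : ∀ h, r h ≤ 1) (r2 : ∀ h, μ h ≤ δ0 / 4 → r h ≤ 16 * μ h / (δ0 ^ 2 * Fintype.card S))
    (he : 𝔼 g, ε g ≤ δ0 / 16) : 𝔼 h, r h ≤ δ0 / 16 * 𝔼 g, ε g + 32 / δ0 * 𝔼 o, ν o := by
  obtain ⟨d0, d1, -, d2, d3⟩ := hT
  have c0 : (0 : ℝ) < Fintype.card S := by
    by_contra h
    nlinarith [mul_nonneg (pow_pos d0 3).le (neg_nonneg.2 (not_lt.1 h))]
  have : Nonempty S := Fintype.card_pos_iff.1 (by exact_mod_cast c0)
  have a0 : 0 ≤ 16 / (δ0 ^ 2 * Fintype.card S) := by positivity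
  have a1 : 16 / (δ0 ^ 2 * Fintype.card S) ≤ δ0 / 32 := by
    rw [div_le_div_iff₀ (by positivity) (by norm_num)]
    nlinarith
  have a2 : 64 / δ0 ^ 2 * lam ^ 2 ≤ δ0 / 32 := by
    rw [div_mul_eq_mul_div, div_le_div_iff₀ (by positivity) (by norm_num)]
    nlinarith
  have a3 : δ0 / 32 ≤ 16 / δ0 := by
    rw [div_le_div_iff₀ (by norm_num) d0]
    nlinarith
  have b0 : 0 ≤ 𝔼 g, ε g := expect_nonneg fun g _ => e0 g
  have b1 : 0 ≤ 𝔼 o, ν o := expect_nonneg fun o _ => n0 o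
  have b2 : 𝔼 h, 𝔼 s, ε ((nb s)⁻¹ h) = 𝔼 g, ε g := by
    rw [tcore_re nb fun g _ => ε g]
    exact expect_congr rfl fun g _ => expect_const univ_nonempty _
  have b3 : 𝔼 h, 𝔼 s, ν ((nb s)⁻¹ h, s) = 𝔼 o, ν o := by
    rw [tcore_re nb fun g s => ν (g, s), ← univ_product_univ, expect_product]
  have b4 := tcore_var (tan_adj hg) e0 e1
  have b5 : 𝔼 h, r h ≤ 𝔼 h, (16 / (δ0 ^ 2 * Fintype.card S) *
      ((𝔼 s, ε ((nb s)⁻¹ h)) + 𝔼 s, ν ((nb s)⁻¹ h, s)) +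
      64 / δ0 ^ 2 * ((𝔼 s, ε ((nb s)⁻¹ h)) - 𝔼 g, ε g) ^ 2 +
      16 / δ0 * 𝔼 s, ν ((nb s)⁻¹ h, s)) :=
    expect_le_expect fun h _ => tcore_pt d0 a0 (expect_nonneg fun s _ => n0 _) he (m0 h)
      ((hμ h).trans_eq (expect_add_distrib _ _ _)) (r1 h) fun k =>
        (r2 h k).trans_eq (by ring)
  rw [expect_add_distrib, expect_add_distrib, ← mul_expect, ← mul_expect, ← mul_expect,
    expect_add_distrib, b2, b3] at b5
  have c1 := mul_le_mul_of_nonneg_right a1 (add_nonneg b0 b1)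
  have c2 := mul_le_mul_of_nonneg_left b4 (by positivity : 0 ≤ 64 / δ0 ^ 2)
  have c3 := mul_le_mul_of_nonneg_right a2 b0
  have c4 := mul_le_mul_of_nonneg_right a3 b1
  have c5 : 32 / δ0 = 16 / δ0 + 16 / δ0 := by ring
  rw [c5]
  nlinarith

end Vale.Agent.P330
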