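import Vale.Agent.P330.Ifc
import Vale.Agent.P330.Comb

/-! Block B4 (Tanner codes): definitions. -/

namespace Vale.Agent.P330

open Finset
open scoped Classical BigOperators

variable {F S G : Type} [Field F] [Fintype S]

/-- The decoder of the inner code. -/
noncomputable def dec0 (C0 : Submodule F (S → F)) (δ0 : ℝ) (t : S → F) : S → F :=
  if h : ∃ c ∈ C0, fr S (fun s => t s ≠ c s) < δ0 / 2 then h.choose else 0

/-- Decoding at the left vertices. -/
noncomputable def stL (C0 : Submodule F (S → F)) (δ0 : ℝ) (w : G × S → F) : G × S → F :=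
  fun o => dec0 C0 δ0 (fun s => w (o.1, s)) o.2

/-- Decoding at the right vertices. -/
noncomputable def stR (C0 : Submodule F (S → F)) (δ0 : ℝ) (nb : S → Equiv.Perm G)
    (w : G × S → F) : G × S → F :=
  fun o => dec0 C0 δ0 (fun s => w ((nb s)⁻¹ (nb o.2 o.1), s)) o.2

/-- The left layer on random words. -/
noncomputable def layL [Fintype F] (C0 : Submodule F (S → F)) (δ0 : ℝ) (x : G × S → F → ℝ) :
    G × S → F → ℝ :=
  fun o => law (fun s => x (o.1, s)) fun t => dec0 C0 δ0 t o.2

/-- The right layer on random words. -/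
noncomputable def layR [Fintype F] (C0 : Submodule F (S → F)) (δ0 : ℝ) (nb : S → Equiv.Perm G)
    (x : G × S → F → ℝ) : G × S → F → ℝ :=
  fun o => law (fun s => x ((nb s)⁻¹ (nb o.2 o.1), s)) fun t => dec0 C0 δ0 t o.2

end Vale.Agent.P330
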