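import Vale.Agent.P330.TanD

/-! Block B4: mixing, the adjoint gap and small-set soundness. -/

namespace Vale.Agent.P330

open Finset
open scoped Classical BigOperators

theorem tan_adj {S G : Type} [Fintype S] [Fintype G] {nb : S → Equiv.Perm G} {lam : ℝ}
    (hg : P325.Gap (fun s g => nb s g) lam) : P325.Gap (fun s g => (nb s)⁻¹ g) lam := by
  intro f hf
  set h : G → ℝ := fun x => 𝔼 s, f ((nb s)⁻¹ x) with hh
  have h0 : ∑ x, h x = 0 := by
    simp only [hh, ← expect_sum_comm]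
    refine expect_eq_zero fun s _ => ?_
    rw [← hf]
    exact Equiv.sum_comp (nb s)⁻¹ f
  have h1 : ∑ x, h x ^ 2 = ∑ y, f y * 𝔼 s, h (nb s y) := by
    have : ∀ x, h x ^ 2 = 𝔼 s, f ((nb s)⁻¹ x) * h x := fun x => by
      rw [← expect_mul, sq]
    simp only [this, mul_expect, ← expect_sum_comm]
    refine expect_congr rfl fun s _ => ?_
    rw [← Equiv.sum_comp (nb s)]
    simp
  have h2 := sum_mul_sq_le_sq_mul_sq univ f fun y => 𝔼 s, h (nb s y)
  have h3 := hg h h0
  have h4 : 0 ≤ ∑ x, f x ^ 2 := by positivity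
  have h5 : 0 ≤ ∑ x, h x ^ 2 := by positivity
  rw [← h1] at h2
  rcases h5.eq_or_lt with h5 | h5
  · show ∑ x, h x ^ 2 ≤ _
    rw [← h5]; positivity
  · refine le_of_mul_le_mul_left (a := ∑ x, h x ^ 2) ?_ h5
    have := mul_le_mul_of_nonneg_left h3 h4
    nlinarith

theorem tmix_fr {X : Type} [Fintype X] (E : X → Prop) :
    fr X E = 𝔼 x, if E x then (1 : ℝ) else 0 := by
  simp [fr, expect_eq_sum_div_card]

theorem tmix_fr' {X : Type} [Fintype X] (E : X → Prop) {_ : DecidablePred E} :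
    (𝔼 x, if E x then (1 : ℝ) else 0) = fr X E := by
  rw [tmix_fr]
  exact expect_congr rfl fun x _ => by congr

theorem tmix_fr0 {X : Type} [Fintype X] (E : X → Prop) : 0 ≤ fr X E := by
  unfold fr; positivity

theorem tmix_sw {S G : Type} [Fintype S] [Fintype G] (nb : S → Equiv.Perm G) (f : G × S → ℝ) :
    𝔼 o, f o = 𝔼 h, 𝔼 s, f ((nb s)⁻¹ h, s) := by
  rw [expect_comm, ← univ_product_univ, expect_product, expect_comm]
  exact expect_congr rfl fun s _ => (Fintype.expect_equiv (nb s)⁻¹ _ _ fun _ => rfl).symm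

theorem tan_mix {S G : Type} [Fintype S] [Fintype G] [Nonempty S] [Nonempty G]
    {nb : S → Equiv.Perm G} {lam : ℝ} (h0 : 0 ≤ lam) (hg : P325.Gap (fun s g => nb s g) lam)
    (A B : G → Prop) : fr (G × S) (fun o => A o.1 ∧ B (nb o.2 o.1)) ≤
      fr G A * fr G B + lam * √(fr G A * fr G B) := by
  have hn : (0 : ℝ) < Fintype.card G := by exact_mod_cast Fintype.card_pos
  set f : G → ℝ := fun x => (if B x then 1 else 0) - fr G B with hf
  have b0 := tmix_fr0 B
  have a0 := tmix_fr0 A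
  have f0 : 𝔼 x, f x = 0 := by
    simp only [hf, expect_sub_distrib, ← tmix_fr, Fintype.expect_const, sub_self]
  have f2 : 𝔼 x, f x ^ 2 ≤ fr G B := by
    have : ∀ x, f x ^ 2 = (1 - 2 * fr G B) * (if B x then 1 else 0) + fr G B ^ 2 := fun x => by
      simp only [hf]; split_ifs <;> ring
    simp only [this, expect_add_distrib, ← mul_expect, ← tmix_fr, Fintype.expect_const]
    nlinarith
  have g2 : 𝔼 x, (𝔼 s, f (nb s x)) ^ 2 ≤ lam ^ 2 * 𝔼 x, f x ^ 2 := by
    rw [Fintype.expect_eq_sum_div_card, Fintype.expect_eq_sum_div_card (f := fun x => f x ^ 2),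
      ← mul_div_assoc]
    rw [Fintype.expect_eq_sum_div_card, div_eq_zero_iff, or_iff_left hn.ne'] at f0
    exact div_le_div_of_nonneg_right (hg f f0) hn.le
  have e : fr (G × S) (fun o => A o.1 ∧ B (nb o.2 o.1)) =
      fr G A * fr G B + 𝔼 x, (if A x then 1 else 0) * 𝔼 s, f (nb s x) := by
    rw [tmix_fr, ← univ_product_univ, expect_product, tmix_fr A, expect_mul, ← expect_add_distrib]
    refine expect_congr rfl fun x _ => ?_
    simp only [hf, expect_sub_distrib, Fintype.expect_const]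
    by_cases h : A x <;> simp [h]
  have cs := expect_mul_sq_le_sq_mul_sq univ (fun x => if A x then (1 : ℝ) else 0)
    fun x => 𝔼 s, f (nb s x)
  have a2 : 𝔼 x, (if A x then (1 : ℝ) else 0) ^ 2 = fr G A := by
    rw [tmix_fr]
    exact expect_congr rfl fun x _ => by split_ifs <;> simp
  rw [e, add_le_add_iff_left]
  refine (abs_le_of_sq_le_sq' ?_ (by positivity)).2
  rw [mul_pow, Real.sq_sqrt (by positivity)]
  rw [a2] at cs
  have := mul_le_mul_of_nonneg_left (g2.trans (mul_le_mul_of_nonneg_left f2 (sq_nonneg lam))) a0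
  nlinarith

theorem tmix_view {F S G K : Type} [Field F] [Fintype S] [Fintype G] {C0 : Submodule F (S → F)}
    {δ0 : ℝ} (h0 : 0 ≤ δ0) (hd : Dist0 C0 δ0) (v : G → S → K → F) :
    δ0 * fr G (fun g => ∃ s, v g s ≠ 0) ≤ (𝔼 g, 𝔼 s, if v g s ≠ 0 then 1 else 0) +
      δ0 * fr G fun g => ∃ k, (fun s => v g s k) ∉ C0 := by
  rw [tmix_fr, tmix_fr, mul_expect, mul_expect, ← expect_add_distrib]
  refine expect_le_expect fun g _ => ?_
  have h1 : 0 ≤ 𝔼 s, if v g s ≠ 0 then (1 : ℝ) else 0 := expect_nonneg fun s _ => by positivity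
  by_cases h2 : ∃ s, v g s ≠ 0
  · by_cases h3 : ∃ k, (fun s => v g s k) ∉ C0
    · rw [if_pos h2, if_pos h3]; linarith
    · rw [if_pos h2, if_neg h3, mul_one, mul_zero, add_zero]
      obtain ⟨s, hs⟩ := h2
      obtain ⟨k, hk⟩ := Function.ne_iff.1 hs
      refine (hd _ (not_not.1 (not_exists.1 h3 k)) (Function.ne_iff.2 ⟨s, hk⟩)).trans ?_
      rw [tmix_fr]
      refine expect_le_expect fun s' _ => ?_
      by_cases h4 : v g s' = 0
      · simp [h4]
      · rw [if_pos h4]; split_ifs <;> norm_num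
  · rw [if_neg h2]
    have : 0 ≤ δ0 * if ∃ k, (fun s => v g s k) ∉ C0 then (1 : ℝ) else 0 := by positivity
    linarith

theorem tan_ne {S : Type} [Fintype S] {δ0 lam : ℝ} (hT : TanGood δ0 lam S) : Nonempty S := by
  rw [← Fintype.card_pos_iff]
  refine Nat.pos_of_ne_zero fun h => ?_
  have := hT.2.2.2.2
  rw [h] at this
  norm_num at this

theorem sssThm : SSSThm := by
  intro F S G K _ _ _ _ C0 nb δ0 lam β hT hd hg y hL hR hβ hw
  have := tan_ne hT
  obtain ⟨d0, d1, l0, l1, -⟩ := hT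
  have l2 : lam ≤ δ0 / 4 := by
    refine (abs_le_of_sq_le_sq' ?_ (by positivity)).2
    have : δ0 ^ 3 ≤ δ0 ^ 2 := pow_le_pow_of_le_one d0.le d1 (by norm_num)
    nlinarith
  have a1 := tmix_view d0.le hd fun g s => y (g, s)
  have b1 := tmix_view d0.le hd fun h s => y ((nb s)⁻¹ h, s)
  rw [← expect_product' (f := fun g s => if y (g, s) ≠ 0 then (1 : ℝ) else 0), univ_product_univ,
    tmix_fr' fun o : G × S => y (o.1, o.2) ≠ 0] at a1
  rw [← tmix_sw nb fun o => if y o ≠ 0 then (1 : ℝ) else 0, tmix_fr' fun o => y o ≠ 0] at b1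
  have m := tan_mix l0 hg (fun g => ∃ s, y (g, s) ≠ 0) fun h => ∃ s, y ((nb s)⁻¹ h, s) ≠ 0
  have m1 : fr (G × S) (fun o => y o ≠ 0) ≤ fr (G × S) fun o => (∃ s, y (o.1, s) ≠ 0) ∧
      ∃ s, y ((nb s)⁻¹ (nb o.2 o.1), s) ≠ 0 := by
    rw [tmix_fr, tmix_fr]
    refine expect_le_expect fun o _ => ?_
    by_cases h : y o ≠ 0
    · rw [if_pos h, if_pos ⟨⟨o.2, h⟩, o.2, by simpa using h⟩]
    · rw [if_neg h]; positivity
  have β0 := (tmix_fr0 _).trans hL
  have a0 := tmix_fr0 fun g => ∃ s, y (g, s) ≠ 0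
  have b0 := tmix_fr0 fun h => ∃ s, y ((nb s)⁻¹ h, s) ≠ 0
  have w0 := tmix_fr0 fun o => y o ≠ 0
  replace m := m1.trans m
  generalize fr G (fun g => ∃ s, y (g, s) ≠ 0) = a at *
  generalize fr G (fun h => ∃ s, y ((nb s)⁻¹ h, s) ≠ 0) = b at *
  generalize fr (G × S) (fun o => y o ≠ 0) = w at *
  obtain ⟨M, hM⟩ : ∃ M, δ0 * M = w + δ0 * β := ⟨(w + δ0 * β) / δ0, by field_simp⟩
  have a2 : a ≤ M := le_of_mul_le_mul_left (by nlinarith) d0
  have b2 : b ≤ M := le_of_mul_le_mul_left (by nlinarith) d0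
  have M1 : M ≤ δ0 / 4 := le_of_mul_le_mul_left (by nlinarith) d0
  have ab : a * b ≤ M * M := mul_le_mul a2 b2 b0 (a0.trans a2)
  have sq : √(a * b) ≤ M := by
    rw [← Real.sqrt_mul_self (a0.trans a2)]
    exact Real.sqrt_le_sqrt ab
  have := mul_le_mul l2 sq (Real.sqrt_nonneg _) (by positivity)
  have := mul_le_mul_of_nonneg_left M1 (a0.trans a2)
  nlinarith

end Vale.Agent.P330
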