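import Vale.Agent.P330.TanD

/-! Block B4: tail bounds and the inner decoder. -/

namespace Vale.Agent.P330

open Finset
open scoped Classical BigOperators

section tail
variable {F S : Type} [Fintype F] [Fintype S] {q : S → F → ℝ}

/-- Indicator of a wrong symbol. -/
noncomputable def ttail_X (a b : F) : ℝ := if b = a then 0 else 1

theorem ttail_prod (q g : S → F → ℝ) :
    ∑ t : S → F, (∏ i, q i (t i)) * ∏ i, g i (t i) = ∏ i, ∑ b, q i b * g i b := by
  rw [Fintype.prod_sum]
  exact sum_congr rfl fun t _ => prod_mul_distrib.symm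

theorem ttail_w (hq : IsDist q) (t : S → F) : 0 ≤ ∏ i, q i (t i) :=
  prod_nonneg fun i _ => (hq i).1 _

theorem ttail_tot (hq : IsDist q) : ∑ t : S → F, ∏ i, q i (t i) = 1 := by
  rw [← Fintype.prod_sum]
  exact prod_eq_one fun i _ => (hq i).2

theorem ttail_one (hq : IsDist q) (s : S) (u : F → ℝ) :
    ∑ t : S → F, (∏ i, q i (t i)) * u (t s) = ∑ b, q s b * u b := by
  have h := ttail_prod q fun i b => if i = s then u b else 1
  simp only [prod_ite_eq', mem_univ, if_true] at h
  rw [h, prod_eq_single s (fun i _ hi => by simp only [if_neg hi, mul_one, (hq i).2])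
    fun h => absurd (mem_univ s) h]
  simp only [if_true]

theorem ttail_two {s s' : S} (h : s ≠ s') (u v : F → ℝ) (h0 : ∑ b, q s b * u b = 0) :
    ∑ t : S → F, (∏ i, q i (t i)) * (u (t s) * v (t s')) = 0 := by
  have h1 := ttail_prod q fun i b => (if i = s then u b else 1) * if i = s' then v b else 1
  simp only [prod_mul_distrib, prod_ite_eq', mem_univ, if_true] at h1
  rw [h1]
  refine prod_eq_zero (mem_univ s) ?_
  simp only [if_true, if_neg h, mul_one, h0]

omit [Fintype S] in
theorem ttail_mean (hq : IsDist q) (s : S) (a : F) :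
    ∑ b, q s b * ttail_X a b = 1 - q s a := by
  have h : ∀ b, q s b * ttail_X a b = q s b - if b = a then q s b else 0 :=
    fun b => by by_cases hb : b = a <;> simp [ttail_X, hb]
  simp only [h, sum_sub_distrib, (hq s).2, sum_ite_eq', mem_univ, if_true]

omit [Fintype F] in
theorem ttail_fr (t c : S → F) :
    (fr S fun s => t s ≠ c s) = (∑ s, ttail_X (c s) (t s)) / Fintype.card S := by
  rw [fr, card_filter, Nat.cast_sum]
  congr 1
  exact sum_congr rfl fun s _ => by by_cases h : t s = c s <;> simp [ttail_X, h]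

theorem ttail_le (hq : IsDist q) {E : (S → F) → Prop} {f : (S → F) → ℝ} (h0 : ∀ t, 0 ≤ f t)
    (h1 : ∀ t, E t → 1 ≤ f t) : prob q E ≤ ∑ t : S → F, (∏ i, q i (t i)) * f t := by
  refine sum_le_sum fun t _ => ?_
  split_ifs with h
  · exact le_mul_of_one_le_right (ttail_w hq t) (h1 t h)
  · exact mul_nonneg (ttail_w hq t) (h0 t)

theorem ttail_var (hq : IsDist q) (c : S → F) :
    ∑ t : S → F, (∏ i, q i (t i)) *
      (∑ s, (ttail_X (c s) (t s) - (1 - q s (c s)))) ^ 2 ≤
      ∑ s, (1 - q s (c s)) := by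
  have h0 : ∀ s, ∑ b, q s b * (ttail_X (c s) b - (1 - q s (c s))) = 0 := by
    intro s
    simp only [mul_sub (q s _) (ttail_X _ _), sum_sub_distrib, ttail_mean hq, ← sum_mul, (hq s).2]
    ring
  simp only [sq, sum_mul_sum]
  simp only [mul_sum]
  rw [sum_comm]
  refine sum_le_sum fun s _ => ?_
  rw [sum_comm, sum_eq_single s (fun s' _ hs => ttail_two hs.symm
    (fun b => ttail_X (c s) b - (1 - q s (c s)))
    (fun b => ttail_X (c s') b - (1 - q s' (c s'))) (h0 s))
    fun h => absurd (mem_univ s) h,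
    ttail_one hq s fun b => (ttail_X (c s) b - (1 - q s (c s))) *
      (ttail_X (c s) b - (1 - q s (c s)))]
  have h1 : ∀ b, q s b * ((ttail_X (c s) b - (1 - q s (c s))) *
      (ttail_X (c s) b - (1 - q s (c s)))) =
      q s b * ttail_X (c s) b * (1 - 2 * (1 - q s (c s))) +
        q s b * (1 - q s (c s)) ^ 2 := fun b => by
    unfold ttail_X
    split_ifs <;> ring
  simp only [h1, sum_add_distrib, ← sum_mul, ttail_mean hq, (hq s).2]
  nlinarith [sq_nonneg (1 - q s (c s))]

theorem tan_prob_nonneg (hq : IsDist q) (E : (S → F) → Prop) : 0 ≤ prob q E := by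
  exact sum_nonneg fun t _ => by
    split_ifs
    exacts [ttail_w hq t, le_rfl]

theorem tan_prob_le_one (hq : IsDist q) (E : (S → F) → Prop) : prob q E ≤ 1 := by
  refine (ttail_le hq (f := fun _ => 1) (fun _ => zero_le_one) fun _ _ => le_rfl).trans ?_
  simp only [mul_one, ttail_tot hq, le_refl]

theorem tan_markov (hq : IsDist q) (c : S → F) {θ : ℝ} (hθ : 0 < θ) :
    prob q (fun t => θ ≤ fr S fun s => t s ≠ c s) ≤ du q c / θ := by
  refine (ttail_le hq (f := fun t => (fr S fun s => t s ≠ c s) / θ)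
    (fun t => div_nonneg (div_nonneg (Nat.cast_nonneg _) (Nat.cast_nonneg _)) hθ.le)
    fun t ht => (one_le_div hθ).2 ht).trans (le_of_eq ?_)
  simp only [ttail_fr, ← mul_div_assoc, ← sum_div, mul_sum]
  rw [sum_comm, du, Fintype.expect_eq_sum_div_card]
  congr 2
  exact sum_congr rfl fun s _ => (ttail_one hq s (ttail_X (c s))).trans
    (ttail_mean hq s (c s))

theorem tan_cheb (hq : IsDist q) (c : S → F) {θ : ℝ} (hθ : 0 < θ) (h : du q c ≤ θ / 2) :
    prob q (fun t => θ ≤ fr S fun s => t s ≠ c s) ≤ 4 * du q c / (θ ^ 2 * Fintype.card S) := by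
  have h2 : 0 < θ ^ 2 := pow_pos hθ 2
  refine (ttail_le hq (f := fun t => 4 * ((fr S fun s => t s ≠ c s) - du q c) ^ 2 / θ ^ 2)
    (fun t => div_nonneg (mul_nonneg zero_le_four (sq_nonneg _)) h2.le)
    fun t ht => (one_le_div h2).2 (by nlinarith)).trans ?_
  have h3 : ∀ t : S → F, (∏ i, q i (t i)) *
      (4 * ((fr S fun s => t s ≠ c s) - du q c) ^ 2 / θ ^ 2) = (∏ i, q i (t i)) *
      (∑ s, (ttail_X (c s) (t s) - (1 - q s (c s)))) ^ 2 *
        (4 / (θ ^ 2 * (Fintype.card S : ℝ) ^ 2)) := fun t => by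
    rw [ttail_fr, du, Fintype.expect_eq_sum_div_card, ← sub_div, ← sum_sub_distrib]
    ring
  simp only [h3, ← sum_mul]
  refine (mul_le_mul_of_nonneg_right (ttail_var hq c)
    (div_nonneg zero_le_four (mul_nonneg h2.le (sq_nonneg _)))).trans (le_of_eq ?_)
  rw [du, Fintype.expect_eq_sum_div_card]
  ring

end tail

variable {F S : Type} [Field F] [Fintype S] {C0 : Submodule F (S → F)} {δ0 : ℝ}

theorem dec0_eq (hd : Dist0 C0 δ0) {c t : S → F} (hc : c ∈ C0)
    (h : fr S (fun s => t s ≠ c s) < δ0 / 2) : dec0 C0 δ0 t = c := by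
  have hex : ∃ c ∈ C0, fr S (fun s => t s ≠ c s) < δ0 / 2 := ⟨c, hc, h⟩
  rw [dec0, dif_pos hex]
  obtain ⟨h1, h2⟩ := hex.choose_spec
  by_contra hne
  have h3 := hd _ (C0.sub_mem h1 hc) (sub_ne_zero.2 hne)
  have h4 : (fr S fun s => (hex.choose - c) s ≠ 0) ≤
      (fr S fun s => t s ≠ hex.choose s) + fr S fun s => t s ≠ c s := by
    rw [fr, fr, fr, ← add_div, ← Nat.cast_add]
    refine div_le_div_of_nonneg_right (Nat.cast_le.2 ((card_le_card fun s hs => ?_).trans
      (card_union_le _ _))) (Nat.cast_nonneg _)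
    simp only [mem_filter, mem_univ, true_and, mem_union, Pi.sub_apply] at hs ⊢
    by_contra hn
    rw [not_or, not_not, not_not] at hn
    exact hs (by rw [← hn.1, ← hn.2, sub_self])
  linarith

theorem tan_law [Fintype F] (hd : Dist0 C0 δ0) {q : S → F → ℝ} (hq : IsDist q) {c : S → F}
    (hc : c ∈ C0) (j : S) : 1 - law q (fun t => dec0 C0 δ0 t j) (c j) ≤
      prob q fun t => δ0 / 2 ≤ fr S fun s => t s ≠ c s := by
  rw [← ttail_tot hq, law, ← sum_sub_distrib]
  refine sum_le_sum fun t _ => ?_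
  have h0 := ttail_w hq t
  by_cases h : δ0 / 2 ≤ fr S fun s => t s ≠ c s
  · rw [if_pos h]
    split_ifs <;> linarith
  · rw [if_neg h, if_pos (by rw [dec0_eq hd hc (not_le.1 h)]), sub_self]

end Vale.Agent.P330
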