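import Vale.Agent.P330.TanCore
import Vale.Agent.P330.TanTail

/-! Block B4: one decoding round on random words. -/

namespace Vale.Agent.P330

open Finset
open scoped Classical BigOperators

theorem tround_prod {S G : Type} [Fintype S] [Fintype G] (f : G × S → ℝ) :
    𝔼 o, f o = 𝔼 g, 𝔼 s, f (g, s) := by
  rw [← univ_product_univ, expect_product]

theorem tan_round {F S G : Type} [Field F] [Fintype F] [Fintype S] [Fintype G] [Nonempty G]
    {C0 : Submodule F (S → F)} {nb : S → Equiv.Perm G} {δ0 lam : ℝ} (hT : TanGood δ0 lam S)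
    (hd : Dist0 C0 δ0) (hg : P325.Gap (fun s g => nb s g) lam) {x y : G × S → F → ℝ}
    (hx : IsDist x) (hy : IsDist y) {u : G × S → F} (hu : u ∈ tcode C0 nb)
    (h : du x u ≤ δ0 ^ 2 / 32) : du (layR C0 δ0 nb y) u ≤
      du x u / 8 + 32 / δ0 * 𝔼 o, ∑ b, |y o b - layL C0 δ0 x o b| := by
  have h0 := hT.1
  have h2 := half_pos h0
  have : Nonempty S := Fintype.card_pos_iff.1 (Nat.pos_of_ne_zero fun e => by
    have := hT.2.2.2.2
    rw [e, Nat.cast_zero, mul_zero] at this
    linarith)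
  have hx' : ∀ g, IsDist fun s => x (g, s) := fun g s => hx _
  have hy' : ∀ k, IsDist fun s => y ((nb s)⁻¹ k, s) := fun k s => hy _
  have e1 : 𝔼 g, prob (fun s => x (g, s)) (fun t => δ0 / 2 ≤ fr S fun s => t s ≠ u (g, s)) ≤
      du x u / (δ0 / 2) := by
    rw [du, tround_prod, expect_div]
    exact expect_le_expect fun g _ => tan_markov (hx' g) _ h2
  have key := tan_core hT hg
    (ε := fun g => prob (fun s => x (g, s)) fun t => δ0 / 2 ≤ fr S fun s => t s ≠ u (g, s))
    (r := fun k => prob (fun s => y ((nb s)⁻¹ k, s))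
      fun t => δ0 / 2 ≤ fr S fun s => t s ≠ u ((nb s)⁻¹ k, s))
    (μ := fun k => du (fun s => y ((nb s)⁻¹ k, s)) fun s => u ((nb s)⁻¹ k, s))
    (ν := fun o => ∑ b, |y o b - layL C0 δ0 x o b|)
    (fun g => tan_prob_nonneg (hx' g) _) (fun g => tan_prob_le_one (hx' g) _)
    (fun o => sum_nonneg fun b _ => abs_nonneg _)
    (fun k => expect_nonneg fun s _ => sub_nonneg.2
      ((single_le_sum (fun b _ => (hy _).1 b) (mem_univ _)).trans_eq (hy _).2))
    (fun k => expect_le_expect fun s _ => by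
      have a1 := tan_law hd (hx' ((nb s)⁻¹ k)) (hu.1 ((nb s)⁻¹ k)) s
      have a2 := single_le_sum (f := fun b => |y ((nb s)⁻¹ k, s) b - layL C0 δ0 x ((nb s)⁻¹ k, s) b|)
        (fun b _ => abs_nonneg _) (mem_univ (u ((nb s)⁻¹ k, s)))
      have a3 := neg_le_of_abs_le a2
      simp only [layL] at a2 a3 ⊢
      linarith)
    (fun k => tan_prob_le_one (hy' k) _)
    (fun k hk => (tan_cheb (hy' k) _ h2 (by linarith)).trans_eq (by ring))
    (e1.trans (by rw [div_le_iff₀ h2]; linarith))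
  have e2 : du (layR C0 δ0 nb y) u ≤ 𝔼 k, prob (fun s => y ((nb s)⁻¹ k, s))
      fun t => δ0 / 2 ≤ fr S fun s => t s ≠ u ((nb s)⁻¹ k, s) := by
    rw [du, tround_prod, expect_comm]
    refine expect_le univ_nonempty fun s _ => ?_
    refine (expect_le_expect fun g _ => ?_).trans_eq (Fintype.expect_equiv (nb s) _ _ fun _ => rfl)
    have a1 := tan_law hd (hy' (nb s g)) (hu.2 (nb s g)) s
    rwa [show (nb s)⁻¹ (nb s g) = g from (nb s).symm_apply_apply g] at a1
  have e3 := mul_le_mul_of_nonneg_left e1 (by positivity : 0 ≤ δ0 / 16)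
  rw [show δ0 / 16 * (du x u / (δ0 / 2)) = du x u / 8 by field_simp; ring] at e3
  linarith

end Vale.Agent.P330
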