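import Vale.Agent.P330.TanRound

/-! Block B4: error reduction by a gadget. -/

namespace Vale.Agent.P330

open Vale.Agent.Lib.PolyTime Finset
open scoped Classical BigOperators

theorem tzem_du0 {X F : Type} [Fintype X] [Fintype F] {x : X → F → ℝ} (hx : IsDist x) (u : X → F) :
    0 ≤ du x u :=
  expect_nonneg fun o _ => sub_nonneg.2
    ((single_le_sum (fun b _ => (hx o).1 b) (mem_univ (u o))).trans (hx o).2.le)

theorem tzem_du {X F : Type} [Fintype X] [Fintype F] (z y : X → F → ℝ) (u : X → F) :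
    du z u ≤ du y u + 𝔼 o, ∑ b, |z o b - y o b| := by
  rw [du, du, ← expect_add_distrib]
  refine expect_le_expect fun o _ => ?_
  have h1 := single_le_sum (f := fun b => |z o b - y o b|) (fun _ _ => abs_nonneg _)
    (mem_univ (u o))
  have h2 := neg_abs_le (z o (u o) - y o (u o))
  linarith

theorem tzem_fr {X S : Type} [Fintype X] [Fintype S] (E : X → Prop) (f : X → S)
    (h : ∀ a b, E a → E b → f a = f b → a = b) : fr X E ≤ Fintype.card S / Fintype.card X :=
  div_le_div_of_nonneg_right (Nat.cast_le.2 (card_le_card_of_injOn f (fun _ _ => mem_univ _)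
    fun a ha b hb => h a b (mem_filter.1 ha).2 (mem_filter.1 hb).2)) (Nat.cast_nonneg _)

theorem tzem_layer {C F S : Type} [Enc C] [Field F] [Fintype F] [Enc F] [Fintype S] [Enc S]
    [Nonempty S] (C0 : Submodule F (S → F)) (δ0 : ℝ) {lam : ℝ} (Y : TSys C S lam)
    (v : ∀ c, Y.G.T c × S → S → Y.G.T c) (dv : ∀ i, D2 fun c o => v c o i)
    (inj : ∀ c i s g g', v c (g, s) i = v c (g', s) i → g = g') {η : ℝ} (hη : 0 < η) :
    Impl F (.of Y.Pos) (.of Y.Pos) fun c x y => 𝔼 o, ∑ b,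
      |y o b - law (fun i => x (v c o i, i)) (fun t => dec0 C0 δ0 t o.2) b| ≤ η := by
  have ne : ∀ c, Nonempty (Y.G.T c × S) := fun c => have := Y.ne c; inferInstance
  refine (Impl.layer (I := .of Y.Pos) (O := .of Y.Pos) (Fam.const C Unit) (fun _ => ⟨()⟩) ne
    (fun c o _ i => (v c o i, i)) (fun c o _ t => dec0 C0 δ0 t o.2)
    (fun i => ((dv i).app pt_sigma_fst D.sigma_snd.fst).pair (D.const i))
    (fun s => P325.pt_finite (D.pt D.sigma_snd.fst.snd) (dec0 C0 δ0 s)) (Fintype.card S)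
    (fun c o => ?_) (fun c i u => ?_) hη).mono fun c x y _ _ h => ?_
  · exact (one_div _).symm.trans_le
      (div_le_div_of_nonneg_right (Nat.one_le_cast.2 Fintype.card_pos) (Nat.cast_nonneg _))
  · have e : Fintype.card ((Y.G.T c × S) × Unit) = Fintype.card (Y.G.T c × S) := by
      rw [Fintype.card_prod _ Unit, Fintype.card_unit, mul_one]
    refine (tzem_fr _ (fun z : (Y.G.T c × S) × Unit => z.1.2) ?_).trans (le_of_eq ?_)
    · rintro ⟨⟨g, s⟩, _⟩ ⟨⟨g', s'⟩, _⟩ h1 h2 (rfl : s = s')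
      rw [inj c i s g g' (congrArg Prod.fst (h1.trans h2.symm))]
    · rw [e]
      rfl
  · refine le_trans (le_of_eq ?_) h
    rw [Fintype.expect_eq_sum_div_card, div_eq_inv_mul, mul_sum]
    simp only [dd, univ_unique, expect_singleton]

theorem zemThm : ZemThm := by
  intro C F S _ _ _ _ _ _ C0 δ0 lam hT hd Y η hη
  have h0 := hT.1
  have hS : Nonempty S := Fintype.card_pos_iff.1 (Nat.pos_of_ne_zero fun h => by
    have := hT.2.2.2.2
    rw [h, Nat.cast_zero, mul_zero] at this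
    linarith)
  refine Impl.iter Y.Pos (fun c => have := Y.ne c; inferInstance) (fun c => tcode C0 (Y.nb c))
    (by positivity) (fun η hη => ?_) hη
  have d1 : ∀ s, D2 (X := fun c => Y.G.T c × S) fun c o => Y.nb c s o.1 := fun s =>
    (Y.d_nb s).app pt_sigma_fst D.sigma_snd.fst
  have d2 : D2 (X := fun c => Y.G.T c × S) fun c o => Y.nb c o.2 o.1 :=
    D.cases (X := fun z : Σ c, Y.G.T c × S => Y.G.T z.1) (D.pt D.sigma_snd.snd)
      (fun s z => Y.nb z.1 s z.2.1) d1
  refine ((tzem_layer C0 δ0 Y (fun _ o _ => o.1) (fun _ => D.sigma_snd.fst)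
    (fun _ _ _ _ _ h => h) (show 0 < δ0 * η / 64 by positivity)).trans
    (tzem_layer C0 δ0 Y (fun c o i => (Y.nb c i)⁻¹ (Y.nb c o.2 o.1))
      (fun i => (PFam.d_symm Y.G.pf (Y.d_nb i)).app pt_sigma_fst d2)
      (fun c i s _ _ h => (Y.nb c s).injective ((Y.nb c i)⁻¹.injective h)) (half_pos hη))).mono ?_
  rintro c x z hx - ⟨y, hy, h1, h2⟩ u hu h
  have := Y.ne c
  have h3 := tan_round hT hd (Y.gap c) hx hy hu h
  have h4 := tzem_du z (layR C0 δ0 (Y.nb c) y) u
  have h5 : 32 / δ0 * 𝔼 o, ∑ b, |y o b - layL C0 δ0 x o b| ≤ η / 2 :=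
    (mul_le_mul_of_nonneg_left h1 (by positivity)).trans (le_of_eq (by field_simp; norm_num))
  have h6 : 𝔼 o, ∑ b, |z o b - layR C0 δ0 (Y.nb c) y o b| ≤ η / 2 := h2
  have h7 := tzem_du0 hx u
  linarith

end Vale.Agent.P330
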