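import Vale.Agent.P330.TopA

/-! Assembly of the blocks. -/

namespace Vale.Agent.P330

open Vale.Agent.Lib.PolyTime Finset
open scoped Classical BigOperators

namespace Top

/-- The message of a codeword. -/
noncomputable def msg {X V F : Type} [Fintype V] [CommRing F] (gen : X → V → F) (u : X → F) :
    V → F := if h : ∃ w, cw gen w = u then h.choose else 0

theorem msg_cw {X V F : Type} [Fintype V] [CommRing F] {gen : X → V → F}
    (h : Function.Injective (cw gen)) (w : V → F) : msg gen (cw gen w) = w := by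
  have e : ∃ w', cw gen w' = cw gen w := ⟨w, rfl⟩
  rw [msg, dif_pos e]
  exact h e.choose_spec

theorem cw_zero {X V F : Type} [Fintype V] [CommRing F] (gen : X → V → F) : cw gen 0 = 0 := by
  funext x; simp [cw]

end Top

open _root_.Vale.Agent.P330.Top in
theorem coreThm (hC : CodeThm) (hP : PCPPThm) (hM : MachThm) (hH : HPVThm) (hR : RealThm) :
    CoreThm := by
  obtain ⟨l, _, δc, Δ, hl, δ0, Δ0, hC⟩ := hC
  obtain ⟨α, K, κ', α0, K0, hP⟩ := hP l
  obtain ⟨V, E, Sm, Pm, Rs, w0, sol, pS, pP, pR, dw0, dsol, dSol, hM⟩ := hM l hl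
  obtain ⟨X, gen, hX, dgen, hdist, hpoly, hdec⟩ := hC VI V
  obtain ⟨X', gen', hX', dgen', hdist', -, -⟩ := hC VI E
  obtain ⟨Pf, Q, prf, var, co, hPf, hQ, dprf, dvar, dco, hP⟩ := hP VI X V gen hX dgen
  obtain ⟨κ, κ0, hκ⟩ : ∃ κ : ℝ, 0 ≤ κ ∧ κ' ≤ κ := ⟨max κ' 0, le_max_right _ _, le_max_left _ _⟩
  obtain ⟨δ, d0, d1, d2⟩ : ∃ δ : ℝ, 0 < δ ∧ δ ≤ δc ∧ 8 * δ ≤ Δ :=
    ⟨min δc (Δ / 8), by positivity, min_le_left _ _, by linarith [min_le_right δc (Δ / 8)]⟩
  obtain ⟨v, v0, v1, v2, v3⟩ : ∃ v : ℝ, 0 < v ∧ 220 * v ≤ α ∧ (88 + 220 * K) * v ≤ δ ∧ 7 * v ≤ Δ := by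
    refine ⟨min (α / 220) (min (δ / (88 + 220 * K)) (Δ / 7)), by positivity, ?_, ?_, ?_⟩
    · linarith [min_le_left (α / 220) (min (δ / (88 + 220 * K)) (Δ / 7))]
    · rw [← le_div_iff₀' (by positivity)]
      exact (min_le_right _ _).trans (min_le_left _ _)
    · linarith [(min_le_right (α / 220) _).trans (min_le_right (δ / (88 + 220 * K)) (Δ / 7))]
  obtain ⟨η, η0, η1, η2⟩ : ∃ η : ℝ, 0 < η ∧ (16 * κ + 12) * η ≤ v ∧ 4 * η ≤ δ := by
    refine ⟨min (v / (16 * κ + 12)) (δ / 4), by positivity, ?_, ?_⟩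
    · rw [← le_div_iff₀' (by positivity)]
      exact min_le_left _ _
    · linarith [min_le_right (v / (16 * κ + 12)) (δ / 4)]
  have η3 : η ≤ v := by nlinarith
  have inj : ∀ c, Function.Injective (cw (gen c)) := fun c w w' h => by
    by_contra hc
    have := hdist c w w' hc
    rw [h, hd, fr_congr (E' := fun _ => False) (by simp), fr_false] at this
    linarith
  have gC := hpoly X _ hX (pol_comb (pol_var V) dgen) η η0
  have gS := hpoly X _ hX (pol_comb pS dgen) η η0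
  have gP := hpoly X _ hX (pol_comb pP dgen) η η0
  have gPf := hpoly Pf _ hPf (pol_comb (pol_var V) dprf) η η0
  have gR := hpoly X' _ hX' (pol_comb pR dgen') η η0
  have gT := (gPf.par gR).seq' (tester hX hQ hX' var co dvar dco κ0
    (fun c i u => ((hP c).1 i u).trans (mul_le_mul_of_nonneg_right hκ (((Reg.of X).sum (Reg.of Pf)).w0 c u))) η0)
  let L : ∀ c, Line (X.T c) (ZMod l) := fun c =>
    ⟨{u | ∃ w, (∀ e, Rs c e w = 0) ∧ u = cw (gen c) w},
      {u | EoLSol c.1 (sol c (msg (gen c) u))}, {u | EoLSol c.1 (sol c (msg (gen c) u))},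
      fun u => cw (gen c) fun i => Sm c i (msg (gen c) u),
      fun u => cw (gen c) fun i => Pm c i (msg (gen c) u)⟩
  have dsrc : PT fun z : Σ c, X.T c => cw (gen z.1) (w0 z.1) z.2 := by
    have p1 : PT fun z : Σ c, X.T c => z.1 := pt_sigma_fst
    have a1 : D fun z : Σ c, X.T c => z.2 := D.sigma_snd
    have p2 : PT fun z : Σ z : (Σ c, X.T c), V.T z.1 => z.1 := pt_sigma_fst
    have a3 : D fun z : Σ z : (Σ c, X.T c), V.T z.1 => z.2 := D.sigma_snd
    exact (V.pf.comap p1).pt_sumZ (pt_mulZ (dgen.comp (pt_sigma_mk (X := fun c => X.T c × V.T c)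
      (p1.comp p2) (D.pair (a1.comp p2) a3))) (dw0.comp (pt_sigma_mk (p1.comp p2) a3)))
  have main := hH VI (ZMod l) h01 (Reg.empty VI) X hX (fun c => cw (gen c) (w0 c)) dsrc
    (fun _ _ => True) (fun c _ => L c) η δ Δ (v / 2) v η0 η2 d2 (by linarith)
    (fun c _ _ _ => ⟨⟨w0 c, (hM c).1, rfl⟩, by
      rintro _ ⟨w, -, rfl⟩ _ ⟨w', -, rfl⟩ h
      exact hdist c w w' fun e => h (e ▸ rfl), by
      rintro _ ⟨w, hw, rfl⟩ h
      simp only [L, Set.mem_ofPred_eq, msg_cw (inj c)] at h ⊢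
      obtain ⟨h1, h2, h3⟩ := ((hM c).2.1 w hw).resolve_left h
      exact ⟨⟨_, h1, rfl⟩, fun e => h2 (inj c e), congrArg _ h3⟩, by
      rintro _ ⟨w, hw, rfl⟩ h0 h
      simp only [L, Set.mem_ofPred_eq, msg_cw (inj c)] at h ⊢
      obtain ⟨h1, h2⟩ := ((hM c).2.2 w hw fun e => h0 (e ▸ rfl)).resolve_left h
      exact ⟨⟨_, h1, rfl⟩, congrArg _ h2⟩⟩)
    ((Impl.inr (gC.par (gS.par (gP.par gT)))).mono fun c z y hz hy h _ => by
      obtain ⟨hc, hs, hp, m, hm, ⟨h1, h2⟩, t1, t2⟩ := h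
      refine ⟨?_, fun hT => ?_, ?_⟩
      · rintro _ ⟨w, -, rfl⟩ h
        simp only [L, msg_cw (inj c)]
        exact ⟨hc w (h.trans d1), fun _ => hs w (h.trans d1), fun _ _ => hp w (h.trans d1)⟩
      · obtain ⟨a1, u, π, a2, a3⟩ := t2 v η3 hT
        obtain ⟨w, hw⟩ := (hP c).2.2 u π (a3.trans v1)
        have a4 : du (fun i => z (.inr i)) (cw (gen c) w) ≤ δ := by
          have := du_le_hd (hz.comp Sum.inr) (cw (gen c) w) u
          have := mul_le_mul_of_nonneg_left a3 K0.le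
          change du (fun i => z (.inr i)) u ≤ _ at a2
          nlinarith
        refine ⟨_, ⟨w, fun e => ?_, rfl⟩, a4⟩
        by_contra hne
        have a5 := hdist' c (fun e => Rs c e w) 0 fun h => hne (congrFun h e)
        have a6 := hd_le_du (hm.comp Sum.inr) (cw (gen' c) fun e => Rs c e w) 0
        have a7 := h2 w (a4.trans d1)
        rw [cw_zero] at a5
        change du (fun i => m (.inr i)) 0 ≤ _ at a1
        change du (fun i => m (.inr i)) (cw (gen' c) fun e => Rs c e w) ≤ _ at a7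
        linarith
      · rintro _ ⟨w, hw, rfl⟩ h
        have a1 : du (fun i => z (.inr i)) (cw (gen c) w) ≤ δc := by linarith
        have a2 := h2 w a1
        have e : (fun j => cw (gen' c) (fun e => Rs c e w) j) = 0 := by
          rw [show (fun e => Rs c e w) = 0 from funext hw]
          exact cw_zero _
        rw [e] at a2
        have := t1 _ _ ((hP c).2.1 w) h (h1 w a1) a2
        linarith)
  obtain ⟨ε, δ', p, R, rd, e0, e1, e2, e3, dR, drd, hR⟩ := hR VI (ZMod l) ((Reg.of X).sum (Reg.of X))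
    (fun c y => (∃ w, EoLSol c.1 (sol c w) ∧ du (fun i => y (.inl i)) (cw (gen c) w) ≤ η) ∨
      ∃ w, EoLSol c.1 (sol c w) ∧ du (fun i => y (.inr i)) (cw (gen c) w) ≤ η)
    (main.mono fun c _ y _ _ h => by
      rcases h trivial with ⟨_, ⟨w, -, rfl⟩, h1, h2⟩ | ⟨_, ⟨w, -, rfl⟩, -, h1, h2⟩
      · simp only [L, Set.mem_ofPred_eq, msg_cw (inj c)] at h1
        exact .inl ⟨w, h1, h2⟩
      · simp only [L, Set.mem_ofPred_eq, msg_cw (inj c)] at h1
        exact .inr ⟨w, h1, h2⟩)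
  have pf : PT fun z : VI × List ℚ => z.1 := PT.fst PT.id
  have q1 : PT fun z : Σ z : VI × List ℚ, X.T z.1 => z.1 := pt_sigma_fst
  have q2 : D fun z : Σ z : VI × List ℚ, X.T z.1 => z.2 := D.sigma_snd
  obtain ⟨u1, du1, hu1⟩ := hdec (VI × List ℚ) Prod.fst (fun z i => rd z (.inl i)) pf
    (drd.comp (pt_sigma_mk (X := fun z : VI × List ℚ => X.T z.1 ⊕ X.T z.1) q1 (D.inl q2)))
  obtain ⟨u2, du2, hu2⟩ := hdec (VI × List ℚ) Prod.fst (fun z i => rd z (.inr i)) pf
    (drd.comp (pt_sigma_mk (X := fun z : VI × List ℚ => X.T z.1 ⊕ X.T z.1) q1 (D.inr q2)))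
  have s1 := dsol _ _ u1 pf du1
  have s2 := dsol _ _ u2 pf du2
  refine ⟨ε, δ', p, R, fun z => if EoLSol z.1.1 (sol z.1 (u1 z)) then sol z.1 (u1 z)
    else sol z.1 (u2 z), e0, e1, e2, e3, dR, PT.ite (dSol.comp (pf.mk s1)) s1 s2,
    fun c => ⟨(hR c).1, (hR c).2.1, fun x hx => ?_⟩⟩
  obtain ⟨y, hy, hS, hpl⟩ := (hR c).2.2 x hx
  dsimp only
  split_ifs with h
  · exact h
  rcases hS with ⟨w, h1, h2⟩ | ⟨w, h1, h2⟩
  · have a := Plur.hd_le (hy.comp Sum.inl) (u := fun i => rd (c, x) (.inl i))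
      (fun i => hpl (.inl i)) (cw (gen c) w)
    rw [hu1 (c, x) w (a.trans (by linarith))] at h
    exact absurd h1 h
  · have a := Plur.hd_le (hy.comp Sum.inr) (u := fun i => rd (c, x) (.inr i))
      (fun i => hpl (.inr i)) (cw (gen c) w)
    rw [hu2 (c, x) w (a.trans (by linarith))]
    exact h1

end Vale.Agent.P330
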