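import Vale.Agent.P330.Ifc
import Vale.Agent.P330.Comb
import Vale.Agent.P330.Prob

/-! The alarm of the top machine. -/

namespace Vale.Agent.P330.Top

open Vale.Agent.Lib.PolyTime Finset
open scoped Classical BigOperators

variable {C : Type} [Enc C] {l : ℕ} [Fact l.Prime]

theorem pol_comb {d : ℕ} {V J K : Fam C} {f : ∀ c, J.T c → (V.T c → ZMod l) → ZMod l}
    (h : Pol d V J f) {g : ∀ c, K.T c → J.T c → ZMod l}
    (hg : PT fun z : Σ c, K.T c × J.T c => g z.1 z.2.1 z.2.2) :
    Pol d V K fun c k w => cw (g c) (fun j => f c j w) k := by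
  obtain ⟨φ, hφ, e⟩ := h
  refine ⟨fun c k m => ∑ j, g c k j * φ c j m, ?_, fun c k w => ?_⟩
  · have p1 : PT fun z : Σ c, K.T c × (Fin d → Option (V.T c)) => z.1 := pt_sigma_fst
    have a1 : D fun z : Σ c, K.T c × (Fin d → Option (V.T c)) => z.2.1 := D.fst D.sigma_snd
    have a2 : D fun z : Σ c, K.T c × (Fin d → Option (V.T c)) => z.2.2 := D.snd D.sigma_snd
    have p2 : PT fun z : Σ z : (Σ c, K.T c × (Fin d → Option (V.T c))), J.T z.1 => z.1 :=
      pt_sigma_fst
    have a3 : D fun z : Σ z : (Σ c, K.T c × (Fin d → Option (V.T c))), J.T z.1 => z.2 :=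
      D.sigma_snd
    refine (J.pf.comap p1).pt_sumZ (pt_mulZ ?_ ?_)
    · exact hg.comp (pt_sigma_mk (X := fun c => K.T c × J.T c) (p1.comp p2)
        (D.pair (a1.comp p2) a3))
    · exact hφ.comp (pt_sigma_mk (X := fun c => J.T c × (Fin d → Option (V.T c)))
        (p1.comp p2) (D.pair a3 (a2.comp p2)))
  · simp only [cw, e, mul_sum, sum_mul, mul_assoc]
    exact sum_comm

theorem pol_var (V : Fam C) : Pol (l := l) 3 V V fun _ j w => w j := by
  refine ⟨fun c j m => if m 0 = some j ∧ m 1 = none ∧ m 2 = none then 1 else 0, ?_,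
    fun c j w => ?_⟩
  · have hm : D fun z : Σ c, V.T c × (Fin 3 → Option (V.T c)) => z.2.2 := D.snd D.sigma_snd
    have h : ∀ i : Fin 3, D fun z : Σ c, V.T c × (Fin 3 → Option (V.T c)) => z.2.2 i := fun i =>
      D.fn_app (n := fun _ => 3) hm (D.const i)
    exact PT.ite (((h 0).eq (D.some (D.fst D.sigma_snd))).and
      (((h 1).eq D.none).and ((h 2).eq D.none))) (PT.const _) (PT.const _)
  · rw [sum_eq_single ![some j, none, none]]
    · simp [Fin.prod_univ_three, ev]
    · intro m _ hm
      beta_reduce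
      rw [if_neg, zero_mul]
      rintro ⟨h0, h1, h2⟩
      refine hm (funext fun i => ?_)
      fin_cases i
      exacts [h0, h1, h2]
    · simp

theorem h01 : (0 : ZMod l) ≠ 1 := zero_ne_one

/-- Three uniform registers. -/
noncomputable abbrev I3 (X Pf X' : Fam C) : Reg C := (Reg.of X).sum ((Reg.of Pf).sum (Reg.of X'))

/-- The tester on the word, its proof and the residual. -/
theorem tester {X Pf Q X' : Fam C} (hX : ∀ c, Nonempty (X.T c)) (hQ : ∀ c, Nonempty (Q.T c))
    (hX' : ∀ c, Nonempty (X'.T c))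
    (var : ∀ c, Q.T c → Fin 4 → X.T c ⊕ Pf.T c) (co : ∀ c, Q.T c → Fin 4 → ZMod l)
    (dv : ∀ i, D2 fun c t => var c t i) (dc : ∀ i, PT fun z : Σ c, Q.T c => co z.1 z.2 i) {κ : ℝ}
    (hκ : 0 ≤ κ) (hd' : ∀ c i u, fr (Q.T c) (fun t => var c t i = u) ≤
      κ * ((Reg.of X).sum (Reg.of Pf)).w c u) {η : ℝ} (hη : 0 < η) :
    ImplR (ZMod l) (I3 X Pf X') fun c z T =>
      (∀ (u : X.T c → ZMod l) (π : Pf.T c → ZMod l),
        (∀ t, ∑ i, co c t i * Sum.elim u π (var c t i) = 0) →
        du (fun i => z (.inl i)) u ≤ 2 * η → du (fun i => z (.inr (.inl i))) π ≤ η →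
        du (fun i => z (.inr (.inr i))) 0 ≤ η → T ≤ (8 * κ + 6) * η) ∧
      ∀ v : ℝ, η ≤ v → T < v → du (fun i => z (.inr (.inr i))) 0 ≤ 5 * v ∧
        ∃ (u : X.T c → ZMod l) (π : Pf.T c → ZMod l), du (fun i => z (.inl i)) u ≤ 88 * v ∧
          fr (Q.T c) (fun t => ∑ i, co c t i * Sum.elim u π (var c t i) ≠ 0) ≤ 220 * v := by
  have t1 := ImplR.test (F := ZMod l) (I := I3 X Pf X') h01 (A := Fin 4) Q hQ
    (fun c t i => Sum.elim Sum.inl (fun y => Sum.inr (Sum.inl y)) (var c t i))
    (fun c t s => ∑ i, co c t i * s i = 0)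
    (fun i => D.sum_elim (dv i) (D.inl D.sigma_snd) (D.inr (D.inl D.sigma_snd)))
    (fun s => by
      simp only [Fin.sum_univ_four]
      exact PT.eq (pt_addZ (pt_addZ (pt_addZ (pt_mulZ (dc 0) (PT.const _))
        (pt_mulZ (dc 1) (PT.const _))) (pt_mulZ (dc 2) (PT.const _)))
        (pt_mulZ (dc 3) (PT.const _))) (PT.const _)) κ
    (fun c i u => by
      rcases u with u | u | u
      · refine le_trans (fr_mono fun t ht => ?_) (hd' c i (.inl u))
        revert ht
        rcases var c t i with y | y <;> simp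
      · refine le_trans (fr_mono fun t ht => ?_) (hd' c i (.inr u))
        revert ht
        rcases var c t i with y | y <;> simp
      · refine le_trans (fr_mono (E' := fun _ => False) fun t ht => ?_) ?_
        · revert ht
          rcases var c t i with y | y <;> simp
        · rw [fr_false]
          exact mul_nonneg hκ ((I3 X Pf X').w0 c _)) hη
  have t2 := ImplR.test (F := ZMod l) (I := I3 X Pf X') h01 (A := Unit) X hX
    (fun c t _ => Sum.inl t) (fun _ _ _ => True) (fun _ => D.inl D.sigma_snd)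
    (fun _ => PT.const _) 1
    (fun c i u => by
      rcases u with u | u
      · rw [one_mul]
        exact (fr_mono fun t ht => Sum.inl_injective ht).trans (fr_single u).le
      · refine le_trans (fr_mono (E' := fun _ => False) fun t ht => by simp at ht) ?_
        rw [fr_false, one_mul]
        exact (I3 X Pf X').w0 c _) hη
  have t3 := ImplR.rej (F := ZMod l) (I := I3 X Pf X') h01 (A := Unit) X' hX'
    (fun c t _ => Sum.inr (Sum.inr t)) (fun _ _ s => s () = 0)
    (fun _ => D.inr (D.inr D.sigma_snd)) (fun _ => PT.const _) 1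
    (fun c i u => by
      rw [one_mul]
      rcases u with u | u | u
      · refine le_trans (fr_mono (E' := fun _ => False) fun t ht => by simp at ht) ?_
        rw [fr_false]
        exact (I3 X Pf X').w0 c _
      · refine le_trans (fr_mono (E' := fun _ => False) fun t ht => by simp at ht) ?_
        rw [fr_false]
        exact (I3 X Pf X').w0 c _
      · exact (fr_mono fun t ht => Sum.inr_injective (Sum.inr_injective ht)).trans
          (fr_single u).le) hη
  refine (ImplR.avg h01 (ImplR.avg h01 t1 t2 hη) t3 hη).mono fun c z T hz _ _ h => ?_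
  obtain ⟨r12, r3, q1, q2, ⟨r1, r2, p1, p2, ⟨a1, b1⟩, ⟨a2, b2⟩, e12⟩, h3, eT⟩ := h
  have e3 : (𝔼 t : X'.T c, prob (fun _ : Unit => z (.inr (.inr t))) fun s => ¬ s () = 0) =
      du (fun i => z (.inr (.inr i))) 0 :=
    expect_congr rfl fun t _ => prob_slot_ne (q := fun _ : Unit => z (.inr (.inr t)))
      (fun _ => hz _) () 0
  rw [e3] at h3
  rw [abs_le] at h3 e12 eT
  refine ⟨fun u π hu d1 d2 d3 => ?_, fun v hv hT => ?_⟩
  · have e : dw ((I3 X Pf X').w c) z (Sum.elim u (Sum.elim π 0)) ≤ 4 * η := by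
      have e1 := dw_sum (fun _ : X.T c => (Fintype.card (X.T c) : ℝ)⁻¹)
        (Sum.elim (fun _ : Pf.T c => (Fintype.card (Pf.T c) : ℝ)⁻¹)
          fun _ : X'.T c => (Fintype.card (X'.T c) : ℝ)⁻¹) z (Sum.elim u (Sum.elim π 0))
      refine le_trans (le_of_eq e1) ?_
      rw [dw_sum, dw_unif, dw_unif, dw_unif]
      change du _ u + (du _ π + du _ 0) ≤ _
      linarith
    have c1 := a1 (Sum.elim u (Sum.elim π 0)) fun t => by
      refine Eq.trans (sum_congr rfl fun i _ => ?_) (hu t)
      beta_reduce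
      rcases var c t i with y | y <;> rfl
    have c2 := a2 (Sum.elim u (Sum.elim π 0)) fun _ => trivial
    simp only [Fintype.card_fin, Fintype.card_unit, Nat.cast_ofNat, Nat.cast_one] at c1 c2
    have := mul_le_mul_of_nonneg_left e hκ
    nlinarith
  · obtain ⟨w, hw⟩ := exists_plur z
    have c1 := (b1 w hw).1
    have c2 := (b2 w hw).2 ()
    simp only [Fintype.card_fin, Fintype.card_unit, Nat.cast_ofNat, Nat.cast_one] at c1 c2
    have d0 := du_nonneg (hz.comp fun i : X'.T c => .inr (.inr i)) 0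
    refine ⟨by linarith, fun i => w (.inl i), fun i => w (.inr (.inl i)), ?_, ?_⟩
    · exact le_trans c2 (by linarith)
    · refine le_trans (le_of_eq (fr_congr fun t => not_congr (Eq.congr_left
        (sum_congr rfl fun i _ => ?_)))) (c1.trans (by linarith))
      rcases var c t i with y | y <;> rfl

end Vale.Agent.P330.Top
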